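import Vale.Agent.P353.AN.D.Stmt
import Vale.Agent.P353.AN.C.Stmt
import Vale.Agent.P353.AN.B.Stmt

/-! # P353, all `N`, block D: LOCAL compactness at a standard position (statements)

Data: `S : Setup d F` (already rotated), `φ : Spl dh dm d`, `ψ : Spl ds dz dh`, `z₀ : Cfg dz`, `h : Std2 S φ ψ z₀`, `y₀ = cmb ψ 0 z₀`,
`Y = emb φ y₀ 0`. A point of the slice is `(y, w)`, `y = cmb ψ ys yz`, `ys = sp ψ y`, `yz = zp ψ y`. A prover delivers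
`theorem <name> … : XStmt …` in `Vale/Agent/P353/AN/D/<File>.lean`, importing this file and landed files of `Z`, `Z/U`, `AN`, with other
statements only as hypotheses. -/

open MeasureTheory Filter Topology Matrix
open scoped ContDiff

namespace Vale.Agent.P353.Z.AD

variable {d dh dm ds dz r : ℕ} {F : Type*} [NormedAddCommGroup F] [InnerProductSpace ℂ F]

/-- the `s` part of `y` -/
noncomputable def sp (ψ : Spl ds dz dh) (y : Cfg dh) : Cfg ds := WithLp.toLp 2 fun p => y (p.1, ψ (Sum.inl p.2))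

/-- the `z` part of `y` -/
noncomputable def zp (ψ : Spl ds dz dh) (y : Cfg dh) : Cfg dz := WithLp.toLp 2 fun p => y (p.1, ψ (Sum.inr p.2))

/-- supercharge of `s` on slice functions -/
noncomputable def Qss {S : Setup d F} {φ : Spl dh dm d} {ψ : Spl ds dz dh} {z₀ : Cfg dz} (h : Std2 S φ ψ z₀) (β : Fin 16)
    (v : Cfg dh → Wsp dm → F) (y : Cfg dh) (w : Wsp dm) : F :=
  h.ss.Q β (fun ys => v (cmb ψ ys (zp ψ y)) w) (sp ψ y)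

/-- boson density of the vacuum at the scalar point `yz`, normalised in `L²(dw)` -/
noncomputable def gn (S : Setup d F) (φ : Spl dh dm d) (ψ : Spl ds dz dh) (yz : Cfg dz) (w : Wsp dm) : ℝ :=
  gR (Dz S φ ψ yz) (omc S.κ (Dz S φ ψ yz)) 1 w / Real.sqrt (∫ w', gR (Dz S φ ψ yz) (omc S.κ (Dz S φ ψ yz)) 1 w' ^ 2)

/-- projection onto the fermionic vacuum space at the scalar point `yz` -/
noncomputable def Pz [FiniteDimensional ℂ F] (S : Setup d F) (φ : Spl dh dm d) (ψ : Spl ds dz dh) (yz : Cfg dz) : F →L[ℂ] F :=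
  (S.F0 φ (Dz S φ ψ yz) (omc S.κ (Dz S φ ψ yz))).starProjection

/-- vacuum coefficient `∫ g_{yz}(w) Π_{F0(yz)} v(ys,yz,w) dw` -/
noncomputable def sec [FiniteDimensional ℂ F] (S : Setup d F) (φ : Spl dh dm d) (ψ : Spl ds dz dh)
    (v : Cfg dh → Wsp dm → F) (yz : Cfg dz) (ys : Cfg ds) : F :=
  ∫ w, ((gn S φ ψ yz w : ℝ) : ℂ) • Pz S φ ψ yz (v (cmb ψ ys yz) w)

/-- **L0** coordinates. PROOF: permutation of coordinates (`AN/A/Coo.lean` is the model). -/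
def CmbStmt : Prop := ∀ (ds dz dh : ℕ) (ψ : Spl ds dz dh),
  (∀ ys yz, sp ψ (cmb ψ ys yz) = ys) ∧ (∀ ys yz, zp ψ (cmb ψ ys yz) = yz) ∧ (∀ y, cmb ψ (sp ψ y) (zp ψ y) = y) ∧
  (∀ ys yz, ‖cmb ψ ys yz‖ ^ 2 = ‖ys‖ ^ 2 + ‖yz‖ ^ 2) ∧
  (∀ ys yz ys' yz', cmb ψ ys yz - cmb ψ ys' yz' = cmb ψ (ys - ys') (yz - yz')) ∧
  (∀ (c : ℝ) ys yz, c • cmb ψ ys yz = cmb ψ (c • ys) (c • yz)) ∧
  MeasurePreserving (fun p : Cfg ds × Cfg dz => cmb ψ p.1 p.2) (volume.prod volume) volume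

/-- **L1** standard position with split centraliser. PROOF: `AN/A/Std.lean` (`StdStmt`) plus an orthonormal basis of `h` adapted to
`h = s ⊕ z`, `z = {v ∈ h : [v,h] = 0}`, `s = z^⊥ ∩ h` (`s` is an ideal of `h` because `f` is totally antisymmetric; its centre is central in
`h`, hence in `z ∩ s = 0`); `Y_i ∈ z` by `Cen`. -/
def Std2Stmt (S : Setup d F) : Prop := ∀ Y : Cfg d, S.V Y = 0 →
  ∃ (R : Matrix (Fin 9) (Fin 9) ℝ) (hR : R * R.transpose = 1)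
    (O : Matrix (Fin d) (Fin d) ℝ) (hO : O * O.transpose = 1) (dh dm ds dz : ℕ) (φ : Spl dh dm d) (ψ : Spl ds dz dh) (z₀ : Cfg dz),
    Std2 (S.rot R hR O hO) φ ψ z₀ ∧ rox R O Y = emb φ (cmb ψ 0 z₀) 0

/-- **L2** geometry near `Y`. PROOF. (a) `cz S Y = h` (`Std.cen`, `Std.inv`: `[v,Y_8] = 0` forces `v_m = 0`). (b) `V(emb y w) = 0` means all
`F_{ij} = 0`; the `m`-part of `F_{8j}` is `κD_8(y)w_j` (`w_8 = 0`), so `w = 0`; then `v ∈ cz` has `v_m = 0` (`[v,y_8] = 0`) and `v ∈ h` commutes with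
all `ys_i`; if `ys ≠ 0` this is a proper subspace of `h` (`less`). (c) `ro (exp (ad a))` preserves the bracket (`Z/U/GrpExp`), so it preserves
`V` and maps centralisers to centralisers; it is linear and isometric. -/
def GeoStmt (S : Setup d F) : Prop := ∀ (dh dm ds dz : ℕ) (φ : Spl dh dm d) (ψ : Spl ds dz dh) (z₀ : Cfg dz), Std2 S φ ψ z₀ →
  cd S (emb φ (cmb ψ 0 z₀) 0) = dh ∧
  (∀ y w, (S.Dy φ 8 y).det ≠ 0 → S.V (emb φ y w) = 0 → sp ψ y ≠ 0 → cd S (emb φ y w) < dh) ∧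
  ∀ (a : Fin d → ℝ) (x : Cfg d), S.V (ro (NormedSpace.exp (S.adm a)) x) = S.V x ∧
    cd S (ro (NormedSpace.exp (S.adm a)) x) = cd S x ∧ ‖ro (NormedSpace.exp (S.adm a)) x‖ = ‖x‖

/-- **L3** far part: if all points with smaller centraliser (and all non commuting points) are null, the mass of `res u_n` over
`{(y,w) ∈ Nb : |ys| ≥ ηR}` tends to zero. PROOF. The set `K = {tub a (y,w) : |a| ≤ ρ, |y-y₀| ≤ ε, |w| ≤ ε, |ys| ≥ η}` is compact, does not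
contain `0`, every point of it is non commuting or has `cd < dh` (L2), so it is covered by finitely many balls `ball Y_i ε_i` with
`mas (ball (R Y_i) (ε_iR)) → 0`. `TubeStmt S` with `f = 1_{tube over the region}‖u‖²` (norm constant along `exp(ad a)`, `gx983_norm`). -/
def FarStmt (S : Setup d F) : Prop := ∀ (dh dm ds dz : ℕ) (φ : Spl dh dm d) (ψ : Spl ds dz dh) (z₀ : Cfg dz), Std2 S φ ψ z₀ →
  ∃ ε₀ : ℝ, 0 < ε₀ ∧ ∀ ε : ℝ, 0 < ε → ε ≤ ε₀ → ∀ η : ℝ, 0 < η → ∀ (R : ℕ → ℝ) (u : ℕ → Cfg d → F), Sq S R u →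
    (∀ Y', S.V Y' ≠ 0 → Nul R u Y') → (∀ Y', Y' ≠ 0 → S.V Y' = 0 → cd S Y' < dh → Nul R u Y') →
    Tendsto (fun n => ∫ p in AN.Nb (cmb ψ 0 z₀) dm (R n) ε ∩ {p | η * R n ≤ ‖sp ψ p.1‖},
      ‖S.res φ (u n) p.1 p.2‖ ^ 2 ∂((volume : Measure (Cfg dh)).prod (volume : Measure (Wsp dm)))) atTop (𝓝 0)

def FarOfStmt (S : Setup d F) : Prop := GeoStmt S → AN.TubeStmt S → CmbStmt → FarStmt S

/-- **L4** splitting of the block diagonal energy: `∑_β‖Q^h_βv‖² = ∑_β‖Q^s_βv‖² + 8∑‖∂_zv‖²`. PROOF: `Q^h_β = Q^s_β + Q^z_β`, `Q^z_β = -i(γ^iθ^A)_β∂_i^A`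
(`A ∈ z`; no potential because `z` is central), both symmetric, `Q^sQ^z + Q^zQ^s = 0` (the `θ`'s anticommute, the coefficients of `Q^s` do not depend on
`yz`), and `∑_β‖Q^z_βv‖² = 8∑‖∂v‖²` (as in `Z/Energy`). -/
def SplitQStmt (S : Setup d F) : Prop := (∀ dh dm : ℕ, AN.CalcA dh dm F ∧ AN.CalcB dh dm F) → ∀ (dh dm ds dz : ℕ) (φ : Spl dh dm d) (ψ : Spl ds dz dh) (z₀ : Cfg dz)
    (h : Std2 S φ ψ z₀) (v : Cfg dh → Wsp dm → F), Tst2 v →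
  (∀ β, Tst2 (Qss h β v)) ∧
  ∑ β, ns2 (S.Qh φ β v) = (∑ β, ns2 (Qss h β v)) + 8 * ∑ i, ∑ A, ns2 (py i (ψ (Sum.inr A)) v)

/-- **L5** bilinears commuting with the `D_i` kill the fermionic vacuum. PROOF. `K = iPΩ⁻¹` (on `Fin 16 × Fin dm`) satisfies `Kᵀ = -K`, commutes with
`1⊗A`; for `v ∈ F0`: `θ_pv = (Kθ)_pv`. `AK` is symmetric, so `∑A_{BC}θ_{αB}θ_{αC}v = ∑(AK)_{pq}θ_pθ_qv = ½tr(AK)v`, and `tr(AK)` contains `tr γ^i = 0`. -/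
def VacSpinStmt (S : Setup d F) (φ : Spl dh dm d) : Prop :=
  ∀ (D : Fin 9 → Matrix (Fin dm) (Fin dm) ℝ) (Om : Matrix (Fin dm) (Fin dm) ℝ), Frz D → IsOm S.κ D Om →
  ∀ A : Matrix (Fin dm) (Fin dm) ℝ, Aᵀ = -A → (∀ i, A * D i = D i * A) → ∀ v ∈ S.F0 φ D Om,
    ∑ α, ∑ B, ∑ C, ((A B C : ℝ) : ℂ) • S.th α (φ (Sum.inr B)) (S.th α (φ (Sum.inr C)) v) = 0

/-- **L6** the scalar points. PROOF. (a) `Dz yz` is frozen when `det D_8 ≠ 0` (antisymmetric by `f_swap`; commuting by Jacobi and centrality of `z`);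
`omc` is then a root (`OmStmt`). (b) uniqueness: two `IsOm` matrices commute (each commutes with `∑D_i²`), symmetric positive with the same square.
(c) homogeneity. (d) smoothness: the root is a smooth function of a positive definite symmetric matrix; the projection onto the
joint kernel `F0` = kernel of the self-adjoint `NF ≥ 0` (`LamStmt`), of locally constant dimension (block X1: unitaries `U(yz)` onto `F0(yz)`). -/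
def ScalStmt (S : Setup d F) : Prop := ∀ _ : FiniteDimensional ℂ F, ∀ (dh dm ds dz : ℕ) (φ : Spl dh dm d) (ψ : Spl ds dz dh)
    (z₀ : Cfg dz), Std2 S φ ψ z₀ →
  (∀ yz, (S.Dy φ 8 (cmb ψ 0 yz)).det ≠ 0 → Frz (Dz S φ ψ yz) ∧ IsOm S.κ (Dz S φ ψ yz) (omc S.κ (Dz S φ ψ yz))) ∧
  (∀ yz, (S.Dy φ 8 (cmb ψ 0 yz)).det ≠ 0 → ∀ R : ℝ, 0 < R →
    omc S.κ (Dz S φ ψ (R • yz)) = R • omc S.κ (Dz S φ ψ yz) ∧ Pz S φ ψ (R • yz) = Pz S φ ψ yz) ∧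
  (∀ B C, ContDiffOn ℝ ∞ (fun yz => omc S.κ (Dz S φ ψ yz) B C) {yz | (S.Dy φ 8 (cmb ψ 0 yz)).det ≠ 0}) ∧
  ContDiffOn ℝ ∞ (fun yz => Pz S φ ψ yz) {yz | (S.Dy φ 8 (cmb ψ 0 yz)).det ≠ 0}

/-- **L7** the normalised boson vacuum near `z₀` at scale `R`. PROOF: `gn (R yz) w = R^{2dm} gn yz (√R w)` (`8 dm` variables), smoothness of
`(yz,w) ↦ qf`, `qf ≥ c|w|²` near `z₀`, differentiation under the integral. The bounds: `∫(∂_{yz}gn)² ≤ C/R²`, Gaussian tail. -/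
def GnStmt (S : Setup d F) : Prop := ∀ (dh dm ds dz : ℕ) (φ : Spl dh dm d) (ψ : Spl ds dz dh) (z₀ : Cfg dz), Std2 S φ ψ z₀ →
  ∃ ε₀ c C : ℝ, 0 < ε₀ ∧ 0 < c ∧ 0 < C ∧ (∀ y : Cfg dh, ‖y - cmb ψ 0 z₀‖ ≤ 4 * ε₀ → (S.Dy φ 8 y).det ≠ 0) ∧
    (ContDiffOn ℝ ∞ (fun p : Cfg dz × Wsp dm => gn S φ ψ p.1 p.2) {p | (S.Dy φ 8 (cmb ψ 0 p.1)).det ≠ 0}) ∧
    ∀ (R : ℝ) (yz : Cfg dz), 0 < R → ‖yz - R • z₀‖ ≤ ε₀ * R →
      (∫ w, gn S φ ψ yz w ^ 2 = 1) ∧ (∀ w, gn S φ ψ yz (-w) = gn S φ ψ yz w) ∧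
      (∀ w, 0 ≤ gn S φ ψ yz w ∧ gn S φ ψ yz w ≤ C * R ^ (2 * dm) * Real.exp (-(c * R * ‖w‖ ^ 2))) ∧
      (∀ i A w, |fderiv ℝ (fun z => gn S φ ψ z w) yz (EuclideanSpace.single (i, A) 1)| ≤
        C / R * (R ^ (2 * dm) * Real.exp (-(c * R * ‖w‖ ^ 2))))

def GnOfStmt (S : Setup d F) : Prop := ScalStmt S → QFStmt → FiniteDimensional ℂ F → GnStmt S

/-- **L8** unfrozen vacuum: fibrewise closeness to the vacuum at the scalar point `yz` when `|ys| ≤ ηR`.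
PROOF. For every `z₁` in the compact ball `‖z₁ - z₀‖ ≤ ε₁` apply `FibStmt S φ` with `D0 = Dz z₁`, `Om = omc` (part (2)): for `|D_i(y) - R D_i(z₁)| ≤ εR`:
`nsf(f - PR(z₁) f) ≤ (c₀R)⁻¹e1 + Cε²/c₀ nsf f`; `‖PR(z₁) f - VP(yz) f‖ ≤ κ(ε)‖f‖` for `|yz/R - z₁| ≤ ε` (continuity L6, L7, scaling to `R = 1`). For given `δ`
choose `ε(z₁)`, finitely many `z₁` cover the ball. `D(cmb ys yz) - D(cmb 0 yz) = O(|ys|)`. -/
def UFStmt (S : Setup d F) : Prop := ∀ _ : FiniteDimensional ℂ F, ∀ (dh dm ds dz : ℕ) (φ : Spl dh dm d) (ψ : Spl ds dz dh)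
    (z₀ : Cfg dz), Std2 S φ ψ z₀ → ∃ ε₁ : ℝ, 0 < ε₁ ∧ ∀ δ : ℝ, 0 < δ → ∃ η C : ℝ, 0 < η ∧ 0 < C ∧
    ∀ R : ℝ, 0 < R → ∀ yz, ‖yz - R • z₀‖ ≤ ε₁ * R → ∀ ys : Cfg ds, ‖ys‖ ≤ η * R → ∀ f : Wsp dm → F, FT f →
      nsf (fun w => f w - ((gn S φ ψ yz w : ℝ) : ℂ) • ∫ w', ((gn S φ ψ yz w' : ℝ) : ℂ) • Pz S φ ψ yz (f w')) ≤
        C / R * S.e1 φ (S.DY φ (cmb ψ ys yz)) f + δ * nsf f

def UFOfStmt (S : Setup d F) : Prop := (∀ (dh dm : ℕ) (φ : Spl dh dm d), FibStmt S φ) → ScalStmt S → GnStmt S → CmbStmt → UFStmt S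

/-- **L9** the vacuum coefficient `sec v yz : Cfg ds → F`, for slice test functions supported near `R y₀` and annihilated by `Gh`.
PROOF. (a) smooth with compact support (differentiation under the integral; `v` is smooth with compact support). `G^s_C(sec v yz) = 0`: project
`Gh C v = 0` (`C ∈ s`): the `w`-rotation is integrated by parts (`gn` is invariant: `ad C|_m` commutes with `Dz yz`, hence with `Ω`; `f_{CBB} = 0`), the `m`-part of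
`cS` is killed by `Pz` (L5 and self-adjointness), the rest is `G^s`. (b) `Q^s_β(sec v yz) = sec (Qss β v) yz` (`θ^s` commutes with `Pz`: `F0Stmt`), Cauchy–Schwarz
in `w`, `∫gn² = 1`. (c) Cauchy–Schwarz. (d) derivative in `yz`: `∂gn`, `∂Pz = O(1/R)` (L6, L7). -/
def SecStmt (S : Setup d F) : Prop := ∀ _ : FiniteDimensional ℂ F, ∀ (dh dm ds dz : ℕ) (φ : Spl dh dm d) (ψ : Spl ds dz dh)
    (z₀ : Cfg dz) (h : Std2 S φ ψ z₀), ∃ ε₀ C : ℝ, 0 < ε₀ ∧ 0 < C ∧ ∀ R : ℝ, 1 ≤ R → ∀ v : Cfg dh → Wsp dm → F, Tst2 v →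
    Sup2 (cmb ψ 0 z₀) ε₀ R v →
    (ContDiff ℝ ∞ (fun p : Cfg dz × Cfg ds => sec S φ ψ v p.1 p.2)) ∧ HasCompactSupport (fun p : Cfg dz × Cfg ds => sec S φ ψ v p.1 p.2) ∧
    ((∀ C y w, AN.Gh S φ C v y w = 0) → ∀ yz, GInv h.ss (sec S φ ψ v yz)) ∧
    (∀ yz, nsq (sec S φ ψ v yz) ≤ ∫ ys, nsf (v (cmb ψ ys yz))) ∧
    (∀ yz, En h.ss (sec S φ ψ v yz) ≤ ∑ β, ∫ ys, nsf (Qss h β v (cmb ψ ys yz))) ∧
    ∀ i A, (∫ yz, nsq (fun ys => pd i A (fun z => sec S φ ψ v z ys) yz)) ≤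
      C * (ns2 (py i (ψ (Sum.inr A)) v) + 1 / R ^ 2 * ns2 v)

def SecOfStmt (S : Setup d F) : Prop := (∀ (dh dm : ℕ) (φ : Spl dh dm d), F0Stmt S φ ∧ VacSpinStmt S φ) → ScalStmt S → GnStmt S →
  CmbStmt → SecStmt S

/-- **L10** cut-off of `res u` near `R y₀`. PROOF. `θ ∈ C^∞(ℝ)`, `θ = 1` on `(-∞,1/4]`, `θ = 0` on `[1,∞)`; `Θ(y,w) = θ(|zp y - Rz₀|²/(εR)²)θ(|sp y|²/(εR)²)θ(|w|²/(εR)²)`,
`v = Θ·res u`. `GhStmt` (A8): `res u` smooth where `det D_8 ≠ 0`, `Gh C (res u) = 0`; `Θ` is invariant under the rotations of `Gh` (`z₀` central, antisymmetry of `f`).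
`NormStmt` (A6) for the tube of radius `4ε`, contained in a shell; `CutStmt` (A10): `|Qs(Θ res u) - ΘQs(res u)| ≤ (C/R)|res u|`. -/
def CutLocStmt (S : Setup d F) : Prop := ∀ (dh dm ds dz : ℕ) (φ : Spl dh dm d) (ψ : Spl ds dz dh) (z₀ : Cfg dz),
    Std2 S φ ψ z₀ → emb φ (cmb ψ 0 z₀) 0 ≠ 0 →
  ∃ ε₀ s t : ℝ, 0 < ε₀ ∧ 0 < s ∧ s < t ∧ ∀ ε : ℝ, 0 < ε → ε ≤ ε₀ → ∃ C δ : ℝ, 0 < C ∧ 0 < δ ∧
    ∃ θ₁ : Cfg dz → ℝ, ContDiff ℝ ∞ θ₁ ∧ (∀ z, 0 ≤ θ₁ z ∧ θ₁ z ≤ 1) ∧ tsupport θ₁ ⊆ Metric.closedBall z₀ ε ∧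
    ∀ R : ℝ, 1 ≤ R → ∃ Θ : Cfg dh → Wsp dm → ℝ, (∀ y w, 0 ≤ Θ y w ∧ Θ y w ≤ 1) ∧
      (∀ y w, Θ y w ≠ 0 → ‖zp ψ y - R • z₀‖ ≤ ε * R ∧ ‖sp ψ y‖ ≤ ε * R ∧ ‖w‖ ≤ ε * R) ∧
      (∀ y w, ‖zp ψ y - R • z₀‖ ≤ ε / 2 * R → ‖sp ψ y‖ ≤ ε / 2 * R → ‖w‖ ≤ ε / 2 * R → Θ y w = 1) ∧
      (∀ y w, ‖sp ψ y‖ ≤ ε / 2 * R → ‖w‖ ≤ ε / 2 * R → Θ y w = θ₁ (R⁻¹ • zp ψ y)) ∧
      ∀ u, GInv S u → Tst2 (mul2 Θ (S.res φ u)) ∧ Sup2 (cmb ψ 0 z₀) (2 * ε) R (mul2 Θ (S.res φ u)) ∧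
        (∀ C y w, AN.Gh S φ C (mul2 Θ (S.res φ u)) y w = 0) ∧
        (∫ p in AN.Nb (cmb ψ 0 z₀) dm R (4 * ε), ‖S.res φ u p.1 p.2‖ ^ 2 ∂((volume : Measure (Cfg dh)).prod (volume : Measure (Wsp dm)))) ≤
          C * mas u (shl d (s * R) (t * R)) ∧
        (∑ β, ns2 (AN.Qs S φ β (mul2 Θ (S.res φ u)))) ≤
          C * (ena S u (shl d (s * R) (t * R)) + 1 / R ^ 2 * mas u (shl d (s * R) (t * R))) ∧
        mas u (Metric.ball (R • emb φ (cmb ψ 0 z₀) 0) (δ * R)) ≤ C * ns2 (mul2 Θ (S.res φ u))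

def CutLocOfStmt (S : Setup d F) : Prop := AN.NormStmt S → AN.GhStmt S → AN.CutStmt S → AN.BdStmt S → CmbStmt → CutLocStmt S

/-- **L11** zero mode coefficients tend to zero. `v n = Θ_n·res u_n` (L10), `α_n(yz) = ∫⟨o(ys), sec (v n) yz ys⟩dys` for a zero mode `o` of `s`.
PROOF. `h_n(z) = R^{9dz/2}α_n(Rz)` is smooth, supported in `closedBall z₀ ε`, bounded in `H¹` (L9, Cauchy–Schwarz: `∫|∂α_n|² ≤ C/R²`), so precompact in `L²`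
(`LRStmt`, `F = ℂ`); weak limit: for real `χ` with support in `ball z₀ (2ε)`: `∫χh_n = sfun S φ ψ (2ε) R (χθ₁) o (u_n) + o(1)`, the error comes from `|ys| ≥ εR/2` or
`|w| ≥ εR/2` and is bounded by `C(‖o 1_{|ys| ≥ εR/2}‖ + ‖gn 1_{|w| ≥ εR/2}‖)·(∫_{Nb}‖res u‖²)^{1/2} → 0`. `SPZ` at radius `2ε` gives weak limit `0`. -/
def RelStmt (S : Setup d F) : Prop := ∀ _ : FiniteDimensional ℂ F, ∀ (dh dm ds dz : ℕ) (φ : Spl dh dm d) (ψ : Spl ds dz dh)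
    (z₀ : Cfg dz) (h : Std2 S φ ψ z₀), ∃ ε₀ : ℝ, 0 < ε₀ ∧ ∀ ε : ℝ, 0 < ε → ε ≤ ε₀ →
    ∀ (R : ℕ → ℝ) (u : ℕ → Cfg d → F) (Θ : ℕ → Cfg dh → Wsp dm → ℝ) (θ₁ : Cfg dz → ℝ) (K : ℝ), Tendsto R atTop atTop → (∀ n, 1 ≤ R n) →
    (∀ n, GInv S (u n)) → (∀ n y w, 0 ≤ Θ n y w ∧ Θ n y w ≤ 1) → ContDiff ℝ ∞ θ₁ → tsupport θ₁ ⊆ Metric.closedBall z₀ ε →
    (∀ n y w, Θ n y w ≠ 0 → ‖zp ψ y - R n • z₀‖ ≤ ε * R n ∧ ‖sp ψ y‖ ≤ ε * R n ∧ ‖w‖ ≤ ε * R n) →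
    (∀ n y w, ‖sp ψ y‖ ≤ ε / 2 * R n → ‖w‖ ≤ ε / 2 * R n → Θ n y w = θ₁ ((R n)⁻¹ • zp ψ y)) →
    (∀ n, Tst2 (mul2 (Θ n) (S.res φ (u n)))) →
    (∀ n, (∫ p in AN.Nb (cmb ψ 0 z₀) dm (R n) (4 * ε), ‖S.res φ (u n) p.1 p.2‖ ^ 2
      ∂((volume : Measure (Cfg dh)).prod (volume : Measure (Wsp dm)))) ≤ K) →
    (∀ n i A, R n ^ 2 * ns2 (py i (ψ (Sum.inr A)) (mul2 (Θ n) (S.res φ (u n)))) ≤ K) →
    SPZ S φ ψ z₀ h (2 * ε) R u → ∀ o, ZM h.ss o →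
      Tendsto (fun n => ∫ yz, ‖∫ ys, inner ℂ (o ys) (sec S φ ψ (mul2 (Θ n) (S.res φ (u n))) yz ys)‖ ^ 2) atTop (𝓝 0)

def RelOfStmt (S : Setup d F) : Prop := SecStmt S → GnStmt S → ScalStmt S → CmbStmt → (∀ r, U.LRStmt r ℂ) → RelStmt S

/-- **L12** LOCAL THEOREM. PROOF (`v_n = Θ_nres u_n`, `K` a bound for masses and `R²`-energies in the shell `(sR,tR)`). C-Out with `m = 0` (`QS … 0 = Qs`):
`∑‖Qh v_n‖² + E1 v_n ≤ C/R²`. L4: `∑‖Qss v_n‖² + 8‖∂_zv_n‖² ≤ C/R²`. Let `a_n = sec v_n`, `o_j` the zero modes of `ICStmt (s)`. On `{|ys| ≤ ηR}`: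
`∫‖v_n‖² ≤ 2∫‖v_n - gn·a_n‖² + 2∫‖a_n‖²`; the first is `≤ 2(C_δ/R)·E1/16 + 2δ ns2 v_n` (L8); for the second, for every `yz` (`ICStmt` with `ρ = max(1,ηR)`):
`∫_{|ys| ≤ ηR}‖a_n - ∑⟨o_j,a_n⟩o_j‖² ≤ Cη²R²En(a_n(yz))`, integrated `≤ Cη²R²·C/R²` (L9); `∑_j∫|⟨o_j,a_n⟩|² → 0` (L11). On `{|ys| ≥ ηR}`: L3. So
`limsup ns2 v_n ≤ C(δ + η²)` for all small `η ≤ η(δ)`; hence `→ 0`, and L10 (last line). -/
def LocStmt (S : Setup d F) : Prop := ∀ _ : FiniteDimensional ℂ F, ∀ (dh dm ds dz : ℕ) (φ : Spl dh dm d) (ψ : Spl ds dz dh)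
    (z₀ : Cfg dz) (h : Std2 S φ ψ z₀), emb φ (cmb ψ 0 z₀) 0 ≠ 0 → ICStmt h.ss →
  ∃ ε₀ : ℝ, 0 < ε₀ ∧ ∀ ε : ℝ, 0 < ε → ε ≤ ε₀ → ∃ ε₁ : ℝ, 0 < ε₁ ∧ ∀ (R : ℕ → ℝ) (u : ℕ → Cfg d → F), Sq S R u →
    (∀ Y', S.V Y' ≠ 0 → Nul R u Y') → (∀ Y', Y' ≠ 0 → S.V Y' = 0 → cd S Y' < dh → Nul R u Y') →
    SPZ S φ ψ z₀ h ε R u → NulE R u (emb φ (cmb ψ 0 z₀) 0) ε₁

def LocOfStmt (S : Setup d F) : Prop := FarStmt S → SplitQStmt S → UFStmt S → SecStmt S → CutLocStmt S → RelStmt S → CmbStmt →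
  (∀ (dh dm : ℕ) (φ : Spl dh dm d), AN.OutStmt S φ) → AN.FrameStmt S → (∀ dh dm : ℕ, AN.CalcA dh dm F ∧ AN.CalcB dh dm F) →
  LocStmt S

/-- **LIO** (owner helper62; from E, GLUE, X1 and `LiouStmt`) no profiles for sequences with growth `≤ 2^{3|k|}` and vanishing energy in
every shell. -/
def LioStmt (S : Setup d F) : Prop := ∀ _ : FiniteDimensional ℂ F, ∀ (dh dm ds dz : ℕ) (φ : Spl dh dm d) (ψ : Spl ds dz dh)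
    (z₀ : Cfg dz) (h : Std2 S φ ψ z₀), emb φ (cmb ψ 0 z₀) 0 ≠ 0 → ICStmt h.ss →
  ∃ ε₀ : ℝ, 0 < ε₀ ∧ ∀ ε : ℝ, 0 < ε → ε ≤ ε₀ → ∀ (R : ℕ → ℝ) (u : ℕ → Cfg d → F), Sq S R u →
    (∃ C : ℝ, ∀ k : ℤ, ∀ᶠ n in atTop, mas (u n) (shl d ((2 : ℝ) ^ k * R n) ((2 : ℝ) ^ (k + 1) * R n)) ≤
      C * (2 : ℝ) ^ (3 * |k|)) →
    (∀ s t : ℝ, 0 < s → s < t → Tendsto (fun n => R n ^ 2 * ena S (u n) (shl d (s * R n) (t * R n))) atTop (𝓝 0)) →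
    ∃ l : ℕ → ℕ, StrictMono l ∧ SPZ S φ ψ z₀ h ε (fun n => R (l n)) (fun n => u (l n))

/-- **L13** transport by rotations: `u' = u ∘ rox Rᵀ Oᵀ`. PROOF: `RotStmt S` (`rox` is a measure preserving linear isometry). -/
def TrStmt (S : Setup d F) : Prop := ∀ (R : Matrix (Fin 9) (Fin 9) ℝ) (hR : R * R.transpose = 1)
    (O : Matrix (Fin d) (Fin d) ℝ) (hO : O * O.transpose = 1) (Rn : ℕ → ℝ) (u : ℕ → Cfg d → F),
  (Sq S Rn u → Sq (S.rot R hR O hO) Rn (fun n x => u n (rox R.transpose O.transpose x))) ∧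
  (∀ n (A : Set (Cfg d)), MeasurableSet A → (∀ x, rox R O x ∈ A ↔ x ∈ A) →
    mas (fun x => u n (rox R.transpose O.transpose x)) A = mas (u n) A ∧
    (Setup.Tst (u n) → ena (S.rot R hR O hO) (fun x => u n (rox R.transpose O.transpose x)) A = ena S (u n) A)) ∧
  (∀ Y ε, NulE Rn (fun n x => u n (rox R.transpose O.transpose x)) (rox R O Y) ε ↔ NulE Rn u Y ε) ∧
  (∀ Y, cd (S.rot R hR O hO) (rox R O Y) = cd S Y) ∧ (∀ Y, (S.rot R hR O hO).V (rox R O Y) = S.V Y) ∧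
  (∀ s t x, rox R O x ∈ shl d s t ↔ x ∈ shl d s t)

def TrOfStmt (S : Setup d F) : Prop := AN.RotStmt S → TrStmt S

/-- **L14** inner completeness for all centreless setups: strong induction on `d`. PROOF. For `Y ≠ 0`, `S.V Y = 0` choose the data of `Std2Stmt`;
`ds < d` (otherwise `dm = dz = 0` and `Y = 0`), `h.ss` is centreless (`h.less`), so `ICStmt h.ss`; `ε = min` of the radii of `LocStmt` and
`LioStmt` for `S.rot`; `PZ Y := SPZ … ε` of the rotated sequence; `LocHyp`, `LioHyp` by `TrStmt`; then `DyOfStmt` and `ICOfStmt`. -/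
def ICAllOfStmt (F : Type*) [NormedAddCommGroup F] [InnerProductSpace ℂ F] : Prop := FiniteDimensional ℂ F →
  (∀ (d : ℕ) (S : Setup d F), LocStmt S ∧ LioStmt S ∧ Std2Stmt S ∧ TrStmt S ∧ NonCommStmt S ∧ NulAllStmt S ∧ ShellStmt S ∧
    DyOfStmt S ∧ DecStmt S ∧ KWStmt S ∧ HInfStmt S ∧ ICOfStmt S) → DiscStmt → (∀ d, U.LRStmt d F) →
  ∀ (d : ℕ) (S : Setup d F), AN.Cless S → ICStmt S ∧ ∃ PZ, LocHyp S PZ ∧ LioHyp S PZ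

end Vale.Agent.P353.Z.AD
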