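import Vale.Agent.P353.AN.D.StmtL

/-! # P353, all `N`, block D, L0: the coordinates `cmb ψ` (`CmbStmt`) -/

open MeasureTheory Filter Topology
open scoped ContDiff

namespace Vale.Agent.P353.Z.AD

variable {dh ds dz : ℕ}

/-- index equivalence of `cmb` -/
def cmbEquiv (ψ : Spl ds dz dh) : (Fin 9 × Fin ds) ⊕ (Fin 9 × Fin dz) ≃ Fin 9 × Fin dh where
  toFun := Sum.elim (fun p => (p.1, ψ (Sum.inl p.2))) (fun p => (p.1, ψ (Sum.inr p.2)))
  invFun p := Sum.elim (fun A => Sum.inl (p.1, A)) (fun B => Sum.inr (p.1, B)) (ψ.symm p.2)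
  left_inv := by
    rintro (⟨i, A⟩ | ⟨i, B⟩) <;> simp
  right_inv := by
    rintro ⟨i, C⟩
    obtain ⟨s, rfl⟩ := ψ.surjective C
    rcases s with A | B <;> simp

theorem cmb_inl (ψ : Spl ds dz dh) (ys : Cfg ds) (yz : Cfg dz) (i : Fin 9) (A : Fin ds) :
    cmb ψ ys yz (i, ψ (Sum.inl A)) = ys (i, A) := by
  simp [cmb]

theorem cmb_inr (ψ : Spl ds dz dh) (ys : Cfg ds) (yz : Cfg dz) (i : Fin 9) (B : Fin dz) :
    cmb ψ ys yz (i, ψ (Sum.inr B)) = yz (i, B) := by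
  simp [cmb]

theorem cmb_ext (ψ : Spl ds dz dh) {y y' : Cfg dh} (hs : ∀ i A, y (i, ψ (Sum.inl A)) = y' (i, ψ (Sum.inl A)))
    (hz : ∀ i B, y (i, ψ (Sum.inr B)) = y' (i, ψ (Sum.inr B))) : y = y' := by
  ext ⟨i, C⟩
  obtain ⟨s, rfl⟩ := ψ.surjective C
  rcases s with A | B
  · exact hs i A
  · exact hz i B

theorem cmb_mp (ψ : Spl ds dz dh) :
    MeasurePreserving (fun p : Cfg ds × Cfg dz => cmb ψ p.1 p.2) (volume.prod volume) volume := by
  have n1 := PiLp.volume_preserving_ofLp (Fin 9 × Fin ds)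
  have n2 := PiLp.volume_preserving_ofLp (Fin 9 × Fin dz)
  have m3 := (volume_measurePreserving_sumPiEquivProdPi
    (fun _ : (Fin 9 × Fin ds) ⊕ (Fin 9 × Fin dz) => ℝ)).symm
  have m2 := volume_measurePreserving_piCongrLeft (fun _ : Fin 9 × Fin dh => ℝ) (cmbEquiv ψ)
  have m1 := PiLp.volume_preserving_toLp (Fin 9 × Fin dh)
  have key := m1.comp (m2.comp (m3.comp (n1.prod n2)))
  have hfun : (fun p : Cfg ds × Cfg dz => cmb ψ p.1 p.2) =
      (WithLp.toLp 2) ∘ (MeasurableEquiv.piCongrLeft (fun _ : Fin 9 × Fin dh => ℝ) (cmbEquiv ψ)) ∘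
      (MeasurableEquiv.sumPiEquivProdPi (fun _ : (Fin 9 × Fin ds) ⊕ (Fin 9 × Fin dz) => ℝ)).symm ∘
      (Prod.map WithLp.ofLp WithLp.ofLp) := by
    funext p
    ext q
    obtain ⟨s, rfl⟩ := (cmbEquiv ψ).surjective q
    rcases s with ⟨i, A⟩ | ⟨i, B⟩
    · refine (cmb_inl ψ p.1 p.2 i A).trans ?_
      have := Equiv.piCongrLeft_apply_apply (fun _ : Fin 9 × Fin dh => ℝ) (cmbEquiv ψ)
        ((MeasurableEquiv.sumPiEquivProdPi
          (fun _ : (Fin 9 × Fin ds) ⊕ (Fin 9 × Fin dz) => ℝ)).symm (p.1.ofLp, p.2.ofLp)) (Sum.inl (i, A))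
      exact this.symm
    · refine (cmb_inr ψ p.1 p.2 i B).trans ?_
      have := Equiv.piCongrLeft_apply_apply (fun _ : Fin 9 × Fin dh => ℝ) (cmbEquiv ψ)
        ((MeasurableEquiv.sumPiEquivProdPi
          (fun _ : (Fin 9 × Fin ds) ⊕ (Fin 9 × Fin dz) => ℝ)).symm (p.1.ofLp, p.2.ofLp)) (Sum.inr (i, B))
      exact this.symm
  rw [hfun]
  exact key

theorem cmbS : CmbStmt := by
  intro ds dz dh ψ
  refine ⟨fun ys yz => ?_, fun ys yz => ?_, fun y => ?_, fun ys yz => ?_, fun ys yz ys' yz' => ?_,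
    fun c ys yz => ?_, cmb_mp ψ⟩
  · ext ⟨i, A⟩
    exact cmb_inl ψ ys yz i A
  · ext ⟨i, A⟩
    exact cmb_inr ψ ys yz i A
  · exact cmb_ext ψ (fun i A => cmb_inl ψ _ _ i A) (fun i B => cmb_inr ψ _ _ i B)
  · rw [EuclideanSpace.norm_sq_eq, EuclideanSpace.norm_sq_eq, EuclideanSpace.norm_sq_eq,
      ← Equiv.sum_comp (cmbEquiv ψ), Fintype.sum_sum_type]
    congr 1
    · refine Finset.sum_congr rfl fun p _ => ?_
      exact congrArg (fun t : ℝ => ‖t‖ ^ 2) (cmb_inl ψ ys yz p.1 p.2)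
    · refine Finset.sum_congr rfl fun p _ => ?_
      exact congrArg (fun t : ℝ => ‖t‖ ^ 2) (cmb_inr ψ ys yz p.1 p.2)
  · refine cmb_ext ψ (fun i A => ?_) (fun i B => ?_)
    · rw [PiLp.sub_apply, cmb_inl, cmb_inl, cmb_inl, PiLp.sub_apply]
    · rw [PiLp.sub_apply, cmb_inr, cmb_inr, cmb_inr, PiLp.sub_apply]
  · refine cmb_ext ψ (fun i A => ?_) (fun i B => ?_)
    · rw [PiLp.smul_apply, cmb_inl, cmb_inl, PiLp.smul_apply]
    · rw [PiLp.smul_apply, cmb_inr, cmb_inr, PiLp.smul_apply]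

end Vale.Agent.P353.Z.AD
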