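import Vale.Agent.P353.AN.D.StmtL
import Vale.Agent.P353.AN.A.Norm
import Vale.Agent.P353.AN.A.Dec
import Vale.Agent.P353.AN.A.Cut
import Vale.Agent.P353.Z.U.Grp

/-! # P353, all `N`, block D, L10: cut-off of `res u` near `R y₀` -/

open MeasureTheory Filter Topology
open scoped ContDiff

namespace Vale.Agent.P353.Z.AD

variable {d dh dm ds dz : ℕ} {F : Type*} [NormedAddCommGroup F] [InnerProductSpace ℂ F]

/-- smooth step: `1` on `(-∞,1/4]`, `0` on `[1,∞)` -/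
noncomputable def cl930St (s : ℝ) : ℝ := Real.smoothTransition (4 / 3 * (1 - s))

lemma cl930St_contDiff : ContDiff ℝ ∞ cl930St :=
  Real.smoothTransition.contDiff.comp (contDiff_const.mul (contDiff_const.sub contDiff_id))

lemma cl930St_nonneg (s : ℝ) : 0 ≤ cl930St s := Real.smoothTransition.nonneg _

lemma cl930St_le_one (s : ℝ) : cl930St s ≤ 1 := Real.smoothTransition.le_one _

lemma cl930St_one {s : ℝ} (h : s ≤ 1 / 4) : cl930St s = 1 :=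
  Real.smoothTransition.one_of_one_le (by linarith)

lemma cl930St_zero {s : ℝ} (h : 1 ≤ s) : cl930St s = 0 :=
  Real.smoothTransition.zero_of_nonpos (by linarith)

/-- radial cut-off -/
noncomputable def cl930R {E : Type*} [NormedAddCommGroup E] (ε : ℝ) (x : E) : ℝ := cl930St (‖x‖ ^ 2 / ε ^ 2)

lemma cl930R_contDiff {E : Type*} [NormedAddCommGroup E] [InnerProductSpace ℝ E] (ε : ℝ) :
    ContDiff ℝ ∞ (cl930R ε : E → ℝ) :=
  cl930St_contDiff.comp ((contDiff_norm_sq ℝ).div_const _)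

lemma cl930R_nonneg {E : Type*} [NormedAddCommGroup E] (ε : ℝ) (x : E) : 0 ≤ cl930R ε x := cl930St_nonneg _

lemma cl930R_le_one {E : Type*} [NormedAddCommGroup E] (ε : ℝ) (x : E) : cl930R ε x ≤ 1 := cl930St_le_one _

lemma cl930R_one {E : Type*} [NormedAddCommGroup E] {ε : ℝ} (hε : 0 < ε) {x : E} (h : ‖x‖ ≤ ε / 2) :
    cl930R ε x = 1 := by
  refine cl930St_one ?_
  rw [div_le_iff₀ (by positivity)]
  have := norm_nonneg x
  nlinarith

lemma cl930R_ne {E : Type*} [NormedAddCommGroup E] {ε : ℝ} (hε : 0 < ε) {x : E} (h : cl930R ε x ≠ 0) :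
    ‖x‖ < ε := by
  by_contra hx
  refine h (cl930St_zero ?_)
  rw [le_div_iff₀ (by positivity)]
  have := norm_nonneg x
  nlinarith [not_lt.1 hx]

lemma cl930R_congr {E E' : Type*} [NormedAddCommGroup E] [NormedAddCommGroup E'] (ε : ℝ) {x : E} {y : E'}
    (h : ‖x‖ = ‖y‖) : cl930R ε x = cl930R ε y := by
  unfold cl930R
  rw [h]

/-- `sp` as a linear map -/
noncomputable def cl930sp (ψ : Spl ds dz dh) : Cfg dh →L[ℝ] Cfg ds :=
  LinearMap.toContinuousLinearMap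
    { toFun := fun y => sp ψ y
      map_add' := fun _ _ => rfl
      map_smul' := fun _ _ => rfl }

/-- `zp` as a linear map -/
noncomputable def cl930zp (ψ : Spl ds dz dh) : Cfg dh →L[ℝ] Cfg dz :=
  LinearMap.toContinuousLinearMap
    { toFun := fun y => zp ψ y
      map_add' := fun _ _ => rfl
      map_smul' := fun _ _ => rfl }

lemma cl930_sp_add (ψ : Spl ds dz dh) (a b : Cfg dh) : sp ψ (a + b) = sp ψ a + sp ψ b := rfl
lemma cl930_zp_add (ψ : Spl ds dz dh) (a b : Cfg dh) : zp ψ (a + b) = zp ψ a + zp ψ b := rfl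
lemma cl930_sp_sub (ψ : Spl ds dz dh) (a b : Cfg dh) : sp ψ (a - b) = sp ψ a - sp ψ b := rfl
lemma cl930_zp_sub (ψ : Spl ds dz dh) (a b : Cfg dh) : zp ψ (a - b) = zp ψ a - zp ψ b := rfl
lemma cl930_sp_smul (ψ : Spl ds dz dh) (c : ℝ) (a : Cfg dh) : sp ψ (c • a) = c • sp ψ a := rfl
lemma cl930_zp_smul (ψ : Spl ds dz dh) (c : ℝ) (a : Cfg dh) : zp ψ (c • a) = c • zp ψ a := rfl

/-- the cut-off at scale one -/
noncomputable def cl930Chi (ψ : Spl ds dz dh) (dm : ℕ) (z₀ : Cfg dz) (ε : ℝ) (p : Cfg dh × Wsp dm) : ℝ :=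
  cl930R ε (zp ψ p.1 - z₀) * cl930R ε (sp ψ p.1) * cl930R ε p.2

lemma cl930Chi_contDiff (ψ : Spl ds dz dh) (dm : ℕ) (z₀ : Cfg dz) (ε : ℝ) :
    ContDiff ℝ ∞ (cl930Chi ψ dm z₀ ε) := by
  have h1 : ContDiff ℝ ∞ fun p : Cfg dh × Wsp dm => cl930R ε (zp ψ p.1 - z₀) :=
    (cl930R_contDiff ε).comp (((cl930zp ψ).contDiff.comp contDiff_fst).sub contDiff_const)
  have h2 : ContDiff ℝ ∞ fun p : Cfg dh × Wsp dm => cl930R ε (sp ψ p.1) :=
    (cl930R_contDiff ε).comp ((cl930sp ψ).contDiff.comp contDiff_fst)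
  have h3 : ContDiff ℝ ∞ fun p : Cfg dh × Wsp dm => cl930R ε p.2 :=
    (cl930R_contDiff ε).comp contDiff_snd
  exact (h1.mul h2).mul h3

lemma cl930Chi_ne (ψ : Spl ds dz dh) (dm : ℕ) (z₀ : Cfg dz) {ε : ℝ} (hε : 0 < ε) {p : Cfg dh × Wsp dm}
    (h : cl930Chi ψ dm z₀ ε p ≠ 0) : ‖zp ψ p.1 - z₀‖ < ε ∧ ‖sp ψ p.1‖ < ε ∧ ‖p.2‖ < ε := by
  unfold cl930Chi at h
  exact ⟨cl930R_ne hε (left_ne_zero_of_mul (left_ne_zero_of_mul h)),
    cl930R_ne hε (right_ne_zero_of_mul (left_ne_zero_of_mul h)), cl930R_ne hε (right_ne_zero_of_mul h)⟩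

lemma cl930Chi_nonneg (ψ : Spl ds dz dh) (dm : ℕ) (z₀ : Cfg dz) (ε : ℝ) (p : Cfg dh × Wsp dm) :
    0 ≤ cl930Chi ψ dm z₀ ε p :=
  mul_nonneg (mul_nonneg (cl930R_nonneg _ _) (cl930R_nonneg _ _)) (cl930R_nonneg _ _)

lemma cl930Chi_le_one (ψ : Spl ds dz dh) (dm : ℕ) (z₀ : Cfg dz) (ε : ℝ) (p : Cfg dh × Wsp dm) :
    cl930Chi ψ dm z₀ ε p ≤ 1 :=
  mul_le_one₀ (mul_le_one₀ (cl930R_le_one _ _) (cl930R_nonneg _ _) (cl930R_le_one _ _))
    (cl930R_nonneg _ _) (cl930R_le_one _ _)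

/-- distance in the coordinates `(ys, yz)` -/
lemma cl930_dist (hC : CmbStmt) (ψ : Spl ds dz dh) (z₀ : Cfg dz) (R : ℝ) (y : Cfg dh) :
    ‖y - R • cmb ψ 0 z₀‖ ^ 2 = ‖sp ψ y‖ ^ 2 + ‖zp ψ y - R • z₀‖ ^ 2 := by
  obtain ⟨-, -, h3, h4, h5, h6, -⟩ := hC ds dz dh ψ
  have h : y - R • cmb ψ 0 z₀ = cmb ψ (sp ψ y) (zp ψ y - R • z₀) := by
    conv_lhs => rw [← h3 y]
    rw [h6, h5, smul_zero, sub_zero]
  rw [h, h4]

/-- support of the cut-off at scale one lies in a ball -/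
lemma cl930Chi_ball (hC : CmbStmt) (ψ : Spl ds dz dh) (dm : ℕ) (z₀ : Cfg dz) {ε : ℝ} (hε : 0 < ε)
    {p : Cfg dh × Wsp dm} (h : cl930Chi ψ dm z₀ ε p ≠ 0) :
    ‖p.1 - cmb ψ 0 z₀‖ < 2 * ε ∧ ‖p.2‖ < 2 * ε := by
  obtain ⟨h1, h2, h3⟩ := cl930Chi_ne ψ dm z₀ hε h
  have h4 := cl930_dist hC ψ z₀ 1 p.1
  rw [one_smul, one_smul] at h4
  refine ⟨?_, by linarith⟩
  refine lt_of_pow_lt_pow_left₀ 2 (by positivity) ?_
  rw [h4]
  have := norm_nonneg (zp ψ p.1 - z₀)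
  have := norm_nonneg (sp ψ p.1)
  nlinarith

lemma cl930Chi_cpt (hC : CmbStmt) (ψ : Spl ds dz dh) (dm : ℕ) (z₀ : Cfg dz) {ε : ℝ} (hε : 0 < ε) :
    HasCompactSupport (cl930Chi ψ dm z₀ ε) := by
  refine HasCompactSupport.intro ((isCompact_closedBall (cmb ψ 0 z₀) (2 * ε)).prod
    (isCompact_closedBall (0 : Wsp dm) (2 * ε))) fun p hp => ?_
  by_contra h
  refine hp ?_
  obtain ⟨h1, h2⟩ := cl930Chi_ball hC ψ dm z₀ hε h
  refine Set.mem_prod.2 ⟨?_, ?_⟩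
  · rw [Metric.mem_closedBall, dist_eq_norm]
    exact h1.le
  · rw [Metric.mem_closedBall, dist_eq_norm, sub_zero]
    exact h2.le

lemma cl930Chi_bd (hC : CmbStmt) (ψ : Spl ds dz dh) (dm : ℕ) (z₀ : Cfg dz) {ε : ℝ} (hε : 0 < ε) :
    ∃ K : ℝ, 0 ≤ K ∧ ∀ p, ‖fderiv ℝ (cl930Chi ψ dm z₀ ε) p‖ ≤ K := by
  have h1 : Continuous (fderiv ℝ (cl930Chi ψ dm z₀ ε)) :=
    (cl930Chi_contDiff ψ dm z₀ ε).continuous_fderiv (by simp)
  have h2 : HasCompactSupport (fderiv ℝ (cl930Chi ψ dm z₀ ε)) := (cl930Chi_cpt hC ψ dm z₀ hε).fderiv ℝ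
  obtain ⟨K, hK⟩ := h1.bounded_above_of_compact_support h2
  exact ⟨K, (norm_nonneg _).trans (hK 0), hK⟩

lemma cl930_nadd {E : Type*} [NormedAddCommGroup E] [InnerProductSpace ℝ E] {a b : E}
    (h : inner ℝ a b = 0) : ‖a + b‖ = ‖a - b‖ := by
  have h1 : ‖a + b‖ ^ 2 = ‖a - b‖ ^ 2 := by
    rw [norm_add_sq_real, norm_sub_sq_real, h]
    ring
  exact (sq_eq_sq₀ (norm_nonneg _) (norm_nonneg _)).1 h1

/-- derivative of the cut-off along directions that preserve the three norms -/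
lemma cl930Chi_dir (ψ : Spl ds dz dh) (dm : ℕ) (z₀ : Cfg dz) (ε : ℝ) (p q : Cfg dh × Wsp dm)
    (h1 : zp ψ q.1 = 0) (h2 : inner ℝ (sp ψ p.1) (sp ψ q.1) = 0) (h3 : inner ℝ p.2 q.2 = 0) :
    fderiv ℝ (cl930Chi ψ dm z₀ ε) p q = 0 := by
  have hev : ∀ t : ℝ, cl930Chi ψ dm z₀ ε (p + t • q) = cl930Chi ψ dm z₀ ε (p + (-t) • q) := by
    intro t
    unfold cl930Chi
    have e1 : zp ψ (p + t • q).1 = zp ψ (p + (-t) • q).1 := by
      rw [Prod.fst_add, Prod.fst_add, Prod.smul_fst, Prod.smul_fst, cl930_zp_add, cl930_zp_add,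
        cl930_zp_smul, cl930_zp_smul, h1, smul_zero, smul_zero]
    have e2 : ‖sp ψ (p + t • q).1‖ = ‖sp ψ (p + (-t) • q).1‖ := by
      rw [Prod.fst_add, Prod.fst_add, Prod.smul_fst, Prod.smul_fst, cl930_sp_add, cl930_sp_add,
        cl930_sp_smul, cl930_sp_smul, neg_smul, ← sub_eq_add_neg]
      refine cl930_nadd ?_
      rw [inner_smul_right, h2, mul_zero]
    have e3 : ‖(p + t • q).2‖ = ‖(p + (-t) • q).2‖ := by
      rw [Prod.snd_add, Prod.snd_add, Prod.smul_snd, Prod.smul_snd, neg_smul, ← sub_eq_add_neg]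
      refine cl930_nadd ?_
      rw [inner_smul_right, h3, mul_zero]
    rw [e1, cl930R_congr ε e2, cl930R_congr ε e3]
  have hd : HasFDerivAt (cl930Chi ψ dm z₀ ε) (fderiv ℝ (cl930Chi ψ dm z₀ ε) p) p :=
    (((cl930Chi_contDiff ψ dm z₀ ε).differentiable (by simp)) p).hasFDerivAt
  have hl : ∀ c : ℝ, HasDerivAt (fun t : ℝ => cl930Chi ψ dm z₀ ε (p + (c * t) • q))
      (c * fderiv ℝ (cl930Chi ψ dm z₀ ε) p q) 0 := by
    intro c
    have h4 : HasDerivAt (fun t : ℝ => p + (c * t) • q) (c • q) 0 := by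
      have h5 : HasDerivAt (fun t : ℝ => c * t) (c * 1) 0 := (hasDerivAt_id (0 : ℝ)).const_mul c
      have h6 := (h5.smul_const q).const_add p
      rw [mul_one] at h6
      exact h6
    have h7 : HasFDerivAt (cl930Chi ψ dm z₀ ε) (fderiv ℝ (cl930Chi ψ dm z₀ ε) p) (p + (c * 0) • q) := by
      rw [mul_zero, zero_smul, add_zero]
      exact hd
    have h8 := h7.comp_hasDerivAt (0 : ℝ) h4
    rw [map_smul, smul_eq_mul] at h8
    exact h8
  have e1 := hl 1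
  have e2 := hl (-1)
  have e3 : (fun t : ℝ => cl930Chi ψ dm z₀ ε (p + (1 * t) • q)) =
      fun t : ℝ => cl930Chi ψ dm z₀ ε (p + (-1 * t) • q) := by
    funext t
    rw [one_mul, neg_one_mul]
    exact hev t
  rw [e3] at e1
  have e4 := e1.unique e2
  linarith

/-- the cut-off at scale `R` -/
noncomputable def cl930Th (ψ : Spl ds dz dh) (dm : ℕ) (z₀ : Cfg dz) (ε R : ℝ) (p : Cfg dh × Wsp dm) : ℝ :=
  cl930Chi ψ dm z₀ ε (R⁻¹ • p)

lemma cl930Th_contDiff (ψ : Spl ds dz dh) (dm : ℕ) (z₀ : Cfg dz) (ε R : ℝ) :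
    ContDiff ℝ ∞ (cl930Th ψ dm z₀ ε R) :=
  (cl930Chi_contDiff ψ dm z₀ ε).comp (contDiff_const_smul R⁻¹)

lemma cl930Th_fderiv (ψ : Spl ds dz dh) (dm : ℕ) (z₀ : Cfg dz) (ε R : ℝ) (p : Cfg dh × Wsp dm) :
    fderiv ℝ (cl930Th ψ dm z₀ ε R) p = R⁻¹ • fderiv ℝ (cl930Chi ψ dm z₀ ε) (R⁻¹ • p) :=
  fderiv_comp_smul (f := cl930Chi ψ dm z₀ ε) R⁻¹

lemma cl930_inv {E : Type*} [NormedAddCommGroup E] [NormedSpace ℝ E] {R : ℝ} (hR : 0 < R) (x z : E) (ε : ℝ) :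
    (‖R⁻¹ • x - z‖ < ε ↔ ‖x - R • z‖ < ε * R) ∧ (‖R⁻¹ • x - z‖ ≤ ε ↔ ‖x - R • z‖ ≤ ε * R) := by
  have h : ‖R⁻¹ • x - z‖ = ‖x - R • z‖ / R := by
    have h1 : R⁻¹ • x - z = R⁻¹ • (x - R • z) := by
      rw [smul_sub, smul_smul, inv_mul_cancel₀ hR.ne', one_smul]
    rw [h1, norm_smul, Real.norm_eq_abs, abs_of_pos (inv_pos.2 hR)]
    field_simp
  rw [h, div_lt_iff₀ hR, div_le_iff₀ hR]
  exact ⟨Iff.rfl, Iff.rfl⟩

lemma cl930_inv0 {E : Type*} [NormedAddCommGroup E] [NormedSpace ℝ E] {R : ℝ} (hR : 0 < R) (x : E) (ε : ℝ) :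
    (‖R⁻¹ • x‖ < ε ↔ ‖x‖ < ε * R) ∧ (‖R⁻¹ • x‖ ≤ ε ↔ ‖x‖ ≤ ε * R) := by
  have h := cl930_inv hR x 0 ε
  rw [sub_zero, smul_zero, sub_zero] at h
  exact h

lemma cl930Th_ne (ψ : Spl ds dz dh) (dm : ℕ) (z₀ : Cfg dz) {ε R : ℝ} (hε : 0 < ε) (hR : 0 < R)
    {p : Cfg dh × Wsp dm} (h : cl930Th ψ dm z₀ ε R p ≠ 0) :
    ‖zp ψ p.1 - R • z₀‖ < ε * R ∧ ‖sp ψ p.1‖ < ε * R ∧ ‖p.2‖ < ε * R := by
  obtain ⟨h1, h2, h3⟩ := cl930Chi_ne ψ dm z₀ hε h
  rw [Prod.smul_fst] at h1 h2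
  rw [Prod.smul_snd] at h3
  rw [cl930_zp_smul] at h1
  rw [cl930_sp_smul] at h2
  exact ⟨(cl930_inv hR _ _ _).1.1 h1, (cl930_inv0 hR _ _).1.1 h2, (cl930_inv0 hR _ _).1.1 h3⟩

lemma cl930Th_nb (hC : CmbStmt) (ψ : Spl ds dz dh) (dm : ℕ) (z₀ : Cfg dz) {ε R : ℝ} (hε : 0 < ε) (hR : 0 < R)
    {p : Cfg dh × Wsp dm} (h : cl930Th ψ dm z₀ ε R p ≠ 0) :
    ‖p.1 - R • cmb ψ 0 z₀‖ < 2 * ε * R ∧ ‖p.2‖ < 2 * ε * R := by
  obtain ⟨h1, h2⟩ := cl930Chi_ball hC ψ dm z₀ hε h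
  rw [Prod.smul_fst] at h1
  rw [Prod.smul_snd] at h2
  exact ⟨(cl930_inv hR _ _ _).1.1 h1, (cl930_inv0 hR _ _).1.1 h2⟩

/-- Leibniz rule in the `y` directions -/
lemma cl930_py (χ : Cfg dh × Wsp dm → ℝ) (v : Cfg dh → Wsp dm → F) (y : Cfg dh) (w : Wsp dm)
    (hχ : DifferentiableAt ℝ χ (y, w)) (hv : DifferentiableAt ℝ (fun p : Cfg dh × Wsp dm => v p.1 p.2) (y, w))
    (i : Fin 9) (A : Fin dh) :
    py i A (mul2 (fun y w => χ (y, w)) v) y w = ((χ (y, w) : ℝ) : ℂ) • py i A v y w +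
        (((fderiv ℝ χ (y, w) (EuclideanSpace.single (i, A) 1, 0) : ℝ)) : ℂ) • v y w := by
  have hvy : DifferentiableAt ℝ (fun y' => v y' w) y :=
    DifferentiableAt.comp (g := fun p : Cfg dh × Wsp dm => v p.1 p.2) (f := fun y' : Cfg dh => (y', w)) y hv
      (differentiableAt_id.prodMk (differentiableAt_const w))
  have hχy : HasFDerivAt (fun y' => χ (y', w))
      ((fderiv ℝ χ (y, w)).comp (ContinuousLinearMap.inl ℝ (Cfg dh) (Wsp dm))) y := by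
    have h1 : HasFDerivAt (fun y' : Cfg dh => (y', w)) (ContinuousLinearMap.inl ℝ (Cfg dh) (Wsp dm)) y :=
      (hasFDerivAt_id y).prodMk (hasFDerivAt_const w y)
    exact hχ.hasFDerivAt.comp y h1
  have h1 : HasFDerivAt (fun y' => χ (y', w) • v y' w) _ y := hχy.smul hvy.hasFDerivAt
  have h2 : (fun y' => mul2 (fun y w => χ (y, w)) v y' w) = fun y' => χ (y', w) • v y' w := by
    funext y'
    exact Complex.coe_smul _ _
  unfold py pd
  simp only [h2]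
  rw [h1.fderiv]
  simp only [add_apply, smul_apply, ContinuousLinearMap.smulRight_apply,
    ContinuousLinearMap.comp_apply, ContinuousLinearMap.inl_apply, Complex.coe_smul]

/-- Leibniz rule in the `w` directions -/
lemma cl930_pw (χ : Cfg dh × Wsp dm → ℝ) (v : Cfg dh → Wsp dm → F) (y : Cfg dh) (w : Wsp dm)
    (hχ : DifferentiableAt ℝ χ (y, w)) (hv : DifferentiableAt ℝ (fun p : Cfg dh × Wsp dm => v p.1 p.2) (y, w))
    (j : Fin 8) (B : Fin dm) :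
    pw j B (mul2 (fun y w => χ (y, w)) v) y w = ((χ (y, w) : ℝ) : ℂ) • pw j B v y w +
        (((fderiv ℝ χ (y, w) (0, EuclideanSpace.single (j, B) 1) : ℝ)) : ℂ) • v y w := by
  have hvw : DifferentiableAt ℝ (v y) w :=
    DifferentiableAt.comp (g := fun p : Cfg dh × Wsp dm => v p.1 p.2) (f := fun w' : Wsp dm => (y, w')) w hv
      ((differentiableAt_const y).prodMk differentiableAt_id)
  have hχw : HasFDerivAt (fun w' => χ (y, w'))
      ((fderiv ℝ χ (y, w)).comp (ContinuousLinearMap.inr ℝ (Cfg dh) (Wsp dm))) w := by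
    have h1 : HasFDerivAt (fun w' : Wsp dm => (y, w')) (ContinuousLinearMap.inr ℝ (Cfg dh) (Wsp dm)) w :=
      (hasFDerivAt_const y w).prodMk (hasFDerivAt_id w)
    exact hχ.hasFDerivAt.comp w h1
  have h1 : HasFDerivAt (fun w' => χ (y, w') • v y w') _ w := hχw.smul hvw.hasFDerivAt
  have h2 : (fun w' => mul2 (fun y w => χ (y, w)) v y w') = fun w' => χ (y, w') • v y w' := by
    funext y'
    exact Complex.coe_smul _ _
  have h3 : (mul2 (fun y w => χ (y, w)) v y) = fun w' => χ (y, w') • v y w' := h2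
  unfold pw
  rw [h3, h1.fderiv]
  simp only [add_apply, smul_apply, ContinuousLinearMap.smulRight_apply,
    ContinuousLinearMap.comp_apply, ContinuousLinearMap.inr_apply, Complex.coe_smul]

/-- rotation direction of `Gh C`, `y` part -/
noncomputable def cl930xi (S : Setup d F) (φ : Spl dh dm d) (C : Fin dh) (y : Cfg dh) : Cfg dh :=
  WithLp.toLp 2 fun p => ∑ A, S.f (φ (Sum.inl C)) (φ (Sum.inl A)) (φ (Sum.inl p.2)) * y (p.1, A)

/-- rotation direction of `Gh C`, `w` part -/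
noncomputable def cl930om (S : Setup d F) (φ : Spl dh dm d) (C : Fin dh) (w : Wsp dm) : Wsp dm :=
  WithLp.toLp 2 fun p => ∑ A, S.f (φ (Sum.inl C)) (φ (Sum.inr A)) (φ (Sum.inr p.2)) * w (p.1, A)

lemma cl930_basis {ι : Type*} [Fintype ι] [DecidableEq ι] (x : EuclideanSpace ℝ ι) :
    x = ∑ p, x p • (EuclideanSpace.single p (1 : ℝ) : EuclideanSpace ℝ ι) := by
  ext q
  simp only [WithLp.ofLp_sum, WithLp.ofLp_smul, Finset.sum_apply, Pi.smul_apply,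
    PiLp.single_apply, smul_eq_mul, mul_ite, mul_one, mul_zero]
  rw [Finset.sum_ite_eq]
  simp

lemma cl930_lin (L : Cfg dh × Wsp dm →L[ℝ] ℝ) (ξ : Cfg dh) (om : Wsp dm) :
    L (ξ, om) = (∑ i, ∑ B, ξ (i, B) * L (EuclideanSpace.single (i, B) 1, 0)) +
      ∑ j, ∑ B, om (j, B) * L (0, EuclideanSpace.single (j, B) 1) := by
  have h0 : (ξ, om) = (ξ, (0 : Wsp dm)) + ((0 : Cfg dh), om) := by
    rw [Prod.mk_add_mk, add_zero, zero_add]
  have h1 : L (ξ, 0) = ∑ p : Fin 9 × Fin dh, ξ p * L (EuclideanSpace.single p 1, 0) := by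
    have e : L (ξ, 0) = (L.comp (ContinuousLinearMap.inl ℝ (Cfg dh) (Wsp dm))) ξ := rfl
    rw [e]
    conv_lhs => rw [cl930_basis ξ]
    rw [map_sum]
    refine Finset.sum_congr rfl fun p _ => ?_
    rw [map_smul, smul_eq_mul]
    rfl
  have h2 : L (0, om) = ∑ p : Fin 8 × Fin dm, om p * L (0, EuclideanSpace.single p 1) := by
    have e : L (0, om) = (L.comp (ContinuousLinearMap.inr ℝ (Cfg dh) (Wsp dm))) om := rfl
    rw [e]
    conv_lhs => rw [cl930_basis om]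
    rw [map_sum]
    refine Finset.sum_congr rfl fun p _ => ?_
    rw [map_smul, smul_eq_mul]
    rfl
  rw [h0, map_add, h1, h2, Fintype.sum_prod_type, Fintype.sum_prod_type]

/-- `Gh` of a product -/
lemma cl930_Gh (S : Setup d F) (φ : Spl dh dm d) (C : Fin dh) (χ : Cfg dh × Wsp dm → ℝ)
    (v : Cfg dh → Wsp dm → F) (y : Cfg dh) (w : Wsp dm)
    (hχ : DifferentiableAt ℝ χ (y, w)) (hv : DifferentiableAt ℝ (fun p : Cfg dh × Wsp dm => v p.1 p.2) (y, w)) :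
    AN.Gh S φ C (mul2 (fun y w => χ (y, w)) v) y w = ((χ (y, w) : ℝ) : ℂ) • AN.Gh S φ C v y w +
      (-Complex.I) • (((fderiv ℝ χ (y, w) (cl930xi S φ C y, cl930om S φ C w) : ℝ) : ℂ) • v y w) := by
  have e1 : (∑ i, ∑ A, ∑ B, ((S.f (φ (Sum.inl C)) (φ (Sum.inl A)) (φ (Sum.inl B)) * y (i, A) : ℝ) : ℂ) •
      py i B (mul2 (fun y w => χ (y, w)) v) y w) =
      ((χ (y, w) : ℝ) : ℂ) • (∑ i, ∑ A, ∑ B, ((S.f (φ (Sum.inl C)) (φ (Sum.inl A)) (φ (Sum.inl B)) * y (i, A) : ℝ) : ℂ) •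
        py i B v y w) +
      ((∑ i, ∑ B, cl930xi S φ C y (i, B) * fderiv ℝ χ (y, w) (EuclideanSpace.single (i, B) 1, 0) : ℝ) : ℂ) • v y w := by
    simp only [cl930_py χ v y w hχ hv, smul_add, Finset.sum_add_distrib]
    congr 1
    · simp only [Finset.smul_sum, smul_comm ((χ (y, w) : ℝ) : ℂ)]
    · rw [Complex.ofReal_sum, Finset.sum_smul]
      refine Finset.sum_congr rfl fun i _ => ?_
      rw [Finset.sum_comm, Complex.ofReal_sum, Finset.sum_smul]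
      refine Finset.sum_congr rfl fun B _ => ?_
      have h0 : cl930xi S φ C y (i, B) = ∑ A, S.f (φ (Sum.inl C)) (φ (Sum.inl A)) (φ (Sum.inl B)) * y (i, A) := rfl
      rw [h0, Finset.sum_mul, Complex.ofReal_sum, Finset.sum_smul]
      refine Finset.sum_congr rfl fun A _ => ?_
      rw [smul_smul, ← Complex.ofReal_mul]
  have e2 : (∑ j, ∑ A, ∑ B, ((S.f (φ (Sum.inl C)) (φ (Sum.inr A)) (φ (Sum.inr B)) * w (j, A) : ℝ) : ℂ) •
      pw j B (mul2 (fun y w => χ (y, w)) v) y w) =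
      ((χ (y, w) : ℝ) : ℂ) • (∑ j, ∑ A, ∑ B, ((S.f (φ (Sum.inl C)) (φ (Sum.inr A)) (φ (Sum.inr B)) * w (j, A) : ℝ) : ℂ) •
        pw j B v y w) +
      ((∑ j, ∑ B, cl930om S φ C w (j, B) * fderiv ℝ χ (y, w) (0, EuclideanSpace.single (j, B) 1) : ℝ) : ℂ) • v y w := by
    simp only [cl930_pw χ v y w hχ hv, smul_add, Finset.sum_add_distrib]
    congr 1
    · simp only [Finset.smul_sum, smul_comm ((χ (y, w) : ℝ) : ℂ)]
    · rw [Complex.ofReal_sum, Finset.sum_smul]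
      refine Finset.sum_congr rfl fun i _ => ?_
      rw [Finset.sum_comm, Complex.ofReal_sum, Finset.sum_smul]
      refine Finset.sum_congr rfl fun B _ => ?_
      have h0 : cl930om S φ C w (i, B) = ∑ A, S.f (φ (Sum.inl C)) (φ (Sum.inr A)) (φ (Sum.inr B)) * w (i, A) := rfl
      rw [h0, Finset.sum_mul, Complex.ofReal_sum, Finset.sum_smul]
      refine Finset.sum_congr rfl fun A _ => ?_
      rw [smul_smul, ← Complex.ofReal_mul]
  have e3 : mul2 (fun y w => χ (y, w)) v y w = ((χ (y, w) : ℝ) : ℂ) • v y w := rfl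
  unfold AN.Gh
  rw [e1, e2, e3, map_smul, cl930_lin (fderiv ℝ χ (y, w)), Complex.ofReal_add, add_smul]
  simp only [smul_add]
  rw [smul_comm (-Complex.I) ((χ (y, w) : ℝ) : ℂ), smul_comm (-Complex.I) ((χ (y, w) : ℝ) : ℂ)]
  abel

/-- the rotation direction has no central part -/
lemma cl930_zpxi {S : Setup d F} {φ : Spl dh dm d} {ψ : Spl ds dz dh} {z₀ : Cfg dz} (h : Std2 S φ ψ z₀)
    (C : Fin dh) (y : Cfg dh) : zp ψ (cl930xi S φ C y) = 0 := by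
  ext ⟨i, b⟩
  show ∑ A, S.f (φ (Sum.inl C)) (φ (Sum.inl A)) (φ (Sum.inl (ψ (Sum.inr b)))) * y (i, A) = 0
  refine Finset.sum_eq_zero fun A _ => ?_
  rw [S.f_cyc, S.f_cyc, h.cen, zero_mul]

/-- an antisymmetric form vanishes on the diagonal -/
lemma cl930_anti {n : ℕ} (f : Fin n → Fin n → ℝ) (hf : ∀ A B, f A B = - f B A) (x : Fin n → ℝ) :
    ∑ B, x B * ∑ A, f A B * x A = 0 := by
  have h1 : ∑ B, x B * ∑ A, f A B * x A = ∑ B, ∑ A, f A B * (x A * x B) := by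
    refine Finset.sum_congr rfl fun B _ => ?_
    rw [Finset.mul_sum]
    exact Finset.sum_congr rfl fun A _ => by ring
  have h2 : ∑ B, ∑ A, f A B * (x A * x B) = - ∑ B, ∑ A, f A B * (x A * x B) := by
    conv_lhs => rw [Finset.sum_comm]
    rw [← Finset.sum_neg_distrib]
    refine Finset.sum_congr rfl fun B _ => ?_
    rw [← Finset.sum_neg_distrib]
    refine Finset.sum_congr rfl fun A _ => ?_
    rw [hf B A]
    ring
  rw [h1]
  linarith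

/-- the rotation direction is orthogonal to `ys` -/
lemma cl930_spxi {S : Setup d F} {φ : Spl dh dm d} {ψ : Spl ds dz dh} {z₀ : Cfg dz} (h : Std2 S φ ψ z₀)
    (C : Fin dh) (y : Cfg dh) : inner ℝ (sp ψ y) (sp ψ (cl930xi S φ C y)) = 0 := by
  rw [PiLp.inner_apply, Fintype.sum_prod_type]
  refine Finset.sum_eq_zero fun i _ => ?_
  have h1 : ∀ b : Fin ds, inner ℝ (sp ψ y (i, b)) (sp ψ (cl930xi S φ C y) (i, b)) =
      y (i, ψ (Sum.inl b)) * ∑ a : Fin ds, S.f (φ (Sum.inl C)) (φ (Sum.inl (ψ (Sum.inl a))))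
        (φ (Sum.inl (ψ (Sum.inl b)))) * y (i, ψ (Sum.inl a)) := by
    intro b
    have h2 : sp ψ (cl930xi S φ C y) (i, b) =
        ∑ A, S.f (φ (Sum.inl C)) (φ (Sum.inl A)) (φ (Sum.inl (ψ (Sum.inl b)))) * y (i, A) := rfl
    have h3 : sp ψ y (i, b) = y (i, ψ (Sum.inl b)) := rfl
    rw [h2, h3, RCLike.inner_apply, conj_trivial, mul_comm, ← ψ.sum_comp, Fintype.sum_sum_type]
    congr 1
    have h4 : ∑ x : Fin dz, S.f (φ (Sum.inl C)) (φ (Sum.inl (ψ (Sum.inr x)))) (φ (Sum.inl (ψ (Sum.inl b)))) *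
        y (i, ψ (Sum.inr x)) = 0 := by
      refine Finset.sum_eq_zero fun a _ => ?_
      rw [S.f_cyc, h.cen, zero_mul]
    rw [h4, add_zero]
  simp only [h1]
  refine cl930_anti (fun a b => S.f (φ (Sum.inl C)) (φ (Sum.inl (ψ (Sum.inl a))))
        (φ (Sum.inl (ψ (Sum.inl b))))) (fun a b => S.f_swap' _ _ _) fun a => y (i, ψ (Sum.inl a))

/-- the rotation direction is orthogonal to `w` -/
lemma cl930_om (S : Setup d F) (φ : Spl dh dm d) (C : Fin dh) (w : Wsp dm) :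
    inner ℝ w (cl930om S φ C w) = 0 := by
  rw [PiLp.inner_apply, Fintype.sum_prod_type]
  refine Finset.sum_eq_zero fun i _ => ?_
  have h1 : ∀ b : Fin dm, inner ℝ (w (i, b)) (cl930om S φ C w (i, b)) =
      w (i, b) * ∑ a, S.f (φ (Sum.inl C)) (φ (Sum.inr a)) (φ (Sum.inr b)) * w (i, a) := by
    intro b
    have h2 : cl930om S φ C w (i, b) = ∑ a, S.f (φ (Sum.inl C)) (φ (Sum.inr a)) (φ (Sum.inr b)) * w (i, a) := rfl
    rw [h2, RCLike.inner_apply, conj_trivial, mul_comm]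
  simp only [h1]
  exact cl930_anti (fun a b => S.f (φ (Sum.inl C)) (φ (Sum.inr a)) (φ (Sum.inr b)))
    (fun a b => S.f_swap' _ _ _) fun a => w (i, a)

/-- the cut-off is invariant -/
lemma cl930Th_inv {S : Setup d F} {φ : Spl dh dm d} {ψ : Spl ds dz dh} {z₀ : Cfg dz} (h : Std2 S φ ψ z₀)
    (ε R : ℝ) (C : Fin dh) (y : Cfg dh) (w : Wsp dm) :
    fderiv ℝ (cl930Th ψ dm z₀ ε R) (y, w) (cl930xi S φ C y, cl930om S φ C w) = 0 := by
  rw [cl930Th_fderiv, smul_apply, cl930Chi_dir, smul_zero]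
  · exact cl930_zpxi h C y
  · show inner ℝ (sp ψ (R⁻¹ • y)) (sp ψ (cl930xi S φ C y)) = 0
    rw [cl930_sp_smul, inner_smul_left, cl930_spxi h, mul_zero]
  · show inner ℝ (R⁻¹ • w) (cl930om S φ C w) = 0
    rw [inner_smul_left, cl930_om, mul_zero]

/-- the product with the cut-off is a test function -/
lemma cl930_tst (hC : CmbStmt) {S : Setup d F} {φ : Spl dh dm d} (ψ : Spl ds dz dh) (z₀ : Cfg dz) {ε R : ℝ}
    (hε : 0 < ε) (hR : 0 < R)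
    (hdet : ∀ y : Cfg dh, ‖y - R • cmb ψ 0 z₀‖ ≤ 2 * ε * R → (S.Dy φ 8 y).det ≠ 0)
    {v : Cfg dh → Wsp dm → F} (hv : AN.Sm S φ v) :
    Tst2 (mul2 (fun y w => cl930Th ψ dm z₀ ε R (y, w)) v) := by
  have hcl : ∀ p : Cfg dh × Wsp dm, ¬ (‖p.1 - R • cmb ψ 0 z₀‖ ≤ 2 * ε * R ∧ ‖p.2‖ ≤ 2 * ε * R) →
      mul2 (fun y w => cl930Th ψ dm z₀ ε R (y, w)) v p.1 p.2 = 0 := by
    intro p hp
    have h1 : cl930Th ψ dm z₀ ε R (p.1, p.2) = 0 := by
      by_contra h2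
      have h3 := cl930Th_nb hC ψ dm z₀ hε hR h2
      exact hp ⟨h3.1.le, h3.2.le⟩
    show ((cl930Th ψ dm z₀ ε R (p.1, p.2) : ℝ) : ℂ) • v p.1 p.2 = 0
    rw [h1, Complex.ofReal_zero, zero_smul]
  refine ⟨?_, ?_⟩
  · rw [contDiff_iff_contDiffAt]
    intro p
    by_cases hp : ‖p.1 - R • cmb ψ 0 z₀‖ ≤ 2 * ε * R ∧ ‖p.2‖ ≤ 2 * ε * R
    · have h1 : ContDiffAt ℝ ∞ (fun p : Cfg dh × Wsp dm => v p.1 p.2) p :=
        hv.contDiffAt ((AN.cut_open S φ).mem_nhds (hdet p.1 hp.1))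
      have h2 : ContDiffAt ℝ ∞ (cl930Th ψ dm z₀ ε R) p := (cl930Th_contDiff ψ dm z₀ ε R).contDiffAt
      have h3 := h2.smul h1
      refine h3.congr_of_eventuallyEq (Eventually.of_forall fun q => ?_)
      exact Complex.coe_smul _ _
    · have hopen : IsOpen {q : Cfg dh × Wsp dm | ¬ (‖q.1 - R • cmb ψ 0 z₀‖ ≤ 2 * ε * R ∧ ‖q.2‖ ≤ 2 * ε * R)} := by
        have h1 : IsClosed {q : Cfg dh × Wsp dm | ‖q.1 - R • cmb ψ 0 z₀‖ ≤ 2 * ε * R ∧ ‖q.2‖ ≤ 2 * ε * R} :=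
          (isClosed_le ((continuous_fst.sub continuous_const).norm) continuous_const).inter
            (isClosed_le continuous_snd.norm continuous_const)
        exact h1.isOpen_compl
      refine (contDiffAt_const (c := (0 : F))).congr_of_eventuallyEq ?_
      filter_upwards [hopen.mem_nhds hp] with q hq
      exact hcl q hq
  · refine HasCompactSupport.intro ((isCompact_closedBall (R • cmb ψ 0 z₀) (2 * ε * R)).prod
      (isCompact_closedBall (0 : Wsp dm) (2 * ε * R))) fun p hp => hcl p fun h => hp ?_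
    refine Set.mem_prod.2 ⟨?_, ?_⟩
    · rw [Metric.mem_closedBall, dist_eq_norm]
      exact h.1
    · rw [Metric.mem_closedBall, dist_eq_norm, sub_zero]
      exact h.2

/-- norm of an embedded point -/
lemma cl930_emb_norm (φ : Spl dh dm d) (y : Cfg dh) (w : Wsp dm) : ‖emb φ y w‖ ^ 2 = ‖y‖ ^ 2 + ‖w‖ ^ 2 := by
  rw [EuclideanSpace.norm_sq_eq, EuclideanSpace.norm_sq_eq, EuclideanSpace.norm_sq_eq]
  rw [Fintype.sum_prod_type, Fintype.sum_prod_type, Fintype.sum_prod_type]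
  have h1 : ∀ i : Fin 9, ∑ A, ‖emb φ y w (i, A)‖ ^ 2 =
      (∑ A, ‖y (i, A)‖ ^ 2) + ∑ B, ‖Fin.lastCases (motive := fun _ => ℝ) 0 (fun j => w (j, B)) i‖ ^ 2 := by
    intro i
    rw [← φ.sum_comp, Fintype.sum_sum_type]
    congr 1
    · refine Finset.sum_congr rfl fun A _ => ?_
      simp [emb]
    · refine Finset.sum_congr rfl fun A _ => ?_
      simp [emb]
  simp only [h1]
  rw [Finset.sum_add_distrib]
  congr 1
  rw [Fin.sum_univ_castSucc]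
  simp only [Fin.lastCases_castSucc, Fin.lastCases_last, norm_zero, ne_eq, OfNat.ofNat_ne_zero,
    not_false_eq_true, zero_pow, Finset.sum_const_zero, add_zero]

/-- the tube lies in a shell -/
lemma cl930_tube (S : Setup d F) (φ : Spl dh dm d) (y₀ : Cfg dh) {R ε ρ : ℝ} (hR : 0 < R) (hε : 0 < ε)
    (hY : 16 * ε ≤ ‖emb φ y₀ 0‖) (h0 : 0 < ‖emb φ y₀ 0‖) :
    AN.Tube S φ y₀ R (4 * ε) ρ ⊆ shl d (‖emb φ y₀ 0‖ / 4 * R) (2 * ‖emb φ y₀ 0‖ * R) := by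
  rintro x ⟨a, -, p, hp, rfl⟩
  have h1 : ‖AN.tub S φ a p‖ = ‖emb φ p.1 p.2‖ := by
    unfold AN.tub
    have h2 := U.gx983_orth S (AN.exm φ a) 1
    rw [one_smul] at h2
    exact U.grp_norm h2 _
  have h3 : ‖emb φ p.1 p.2 - R • emb φ y₀ 0‖ ≤ 8 * ε * R := by
    have h4 : emb φ p.1 p.2 - R • emb φ y₀ 0 = emb φ (p.1 - R • y₀) p.2 := by
      have e : ∀ q : Cfg dh × Wsp dm, emb φ q.1 q.2 = AN.embL φ q := fun q => (AN.embL_apply φ q).symm
      have e1 := e (p.1, p.2)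
      have e2 := e (y₀, 0)
      have e3 := e (p.1 - R • y₀, p.2)
      simp only at e1 e2 e3
      rw [e1, e2, e3, ← map_smul, ← map_sub]
      congr 1
      rw [Prod.smul_mk, Prod.mk_sub_mk, smul_zero, sub_zero]
    rw [h4]
    refine (sq_le_sq₀ (norm_nonneg _) (by positivity)).1 ?_
    rw [cl930_emb_norm]
    have hp1 : ‖p.1 - R • y₀‖ < 4 * ε * R := hp.1
    have hp2 : ‖p.2‖ < 4 * ε * R := hp.2
    have := norm_nonneg (p.1 - R • y₀)
    have := norm_nonneg p.2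
    nlinarith
  have h5 : ‖R • emb φ y₀ 0‖ = R * ‖emb φ y₀ 0‖ := by
    rw [norm_smul, Real.norm_eq_abs, abs_of_pos hR]
  have h6 := norm_sub_norm_le (R • emb φ y₀ 0) (emb φ p.1 p.2)
  have h7 := norm_sub_norm_le (emb φ p.1 p.2) (R • emb φ y₀ 0)
  rw [norm_sub_rev] at h6
  rw [h5] at h6 h7
  have h8 : 8 * ε * R ≤ ‖emb φ y₀ 0‖ / 2 * R := mul_le_mul_of_nonneg_right (by linarith) hR.le
  have h9 : 0 < ‖emb φ y₀ 0‖ * R := mul_pos h0 hR
  refine ⟨?_, ?_⟩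
  · rw [h1]
    linarith
  · rw [h1]
    linarith

/-- a product of balls -/
lemma cl930_nb_meas (y₀ : Cfg dh) (dm : ℕ) (R ε : ℝ) : MeasurableSet (AN.Nb y₀ dm R ε) := by
  have e1 : IsOpen {p : Cfg dh × Wsp dm | ‖p.1 - R • y₀‖ < ε * R} :=
    isOpen_lt (continuous_fst.sub continuous_const).norm continuous_const
  have e2 : IsOpen {p : Cfg dh × Wsp dm | ‖p.2‖ < ε * R} :=
    isOpen_lt continuous_snd.norm continuous_const
  exact (e1.inter e2).measurableSet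

lemma cl930_res_cont (S : Setup d F) (φ : Spl dh dm d) {u : Cfg d → F} (hu : Continuous u) :
    Continuous fun p : Cfg dh × Wsp dm => S.res φ u p.1 p.2 := by
  unfold Setup.res
  have e2 : Continuous fun p : Cfg dh × Wsp dm => S.Jd φ p.1 := by
    unfold Setup.Jd
    exact ((AN.nrm_continuous_det S φ).comp continuous_fst).abs
  exact (Complex.continuous_ofReal.comp (Real.continuous_sqrt.comp e2)).smul (hu.comp (AN.nrm_continuous_emb φ))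

lemma cl930_int (S : Setup d F) (φ : Spl dh dm d) {u : Cfg d → F} (hu : Continuous u) (y₀ : Cfg dh) (R ε : ℝ) :
    IntegrableOn (fun p : Cfg dh × Wsp dm => ‖S.res φ u p.1 p.2‖ ^ 2) (AN.Nb y₀ dm R ε)
      ((volume : Measure (Cfg dh)).prod (volume : Measure (Wsp dm))) := by
  have h1 : IntegrableOn (fun p : Cfg dh × Wsp dm => ‖S.res φ u p.1 p.2‖ ^ 2)
      (Metric.closedBall (R • y₀) (ε * R) ×ˢ Metric.closedBall (0 : Wsp dm) (ε * R))
      ((volume : Measure (Cfg dh)).prod (volume : Measure (Wsp dm))) :=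
    ((cl930_res_cont S φ hu).norm.pow 2).continuousOn.integrableOn_compact
      ((isCompact_closedBall _ _).prod (isCompact_closedBall _ _))
  refine h1.mono_set fun p hp => ?_
  refine Set.mem_prod.2 ⟨?_, ?_⟩
  · rw [Metric.mem_closedBall, dist_eq_norm]
    exact hp.1.le
  · rw [Metric.mem_closedBall, dist_eq_norm, sub_zero]
    exact hp.2.le

lemma cl930_tst_int {u : Cfg d → F} (hu : Setup.Tst u) :
    Integrable (fun x => ‖u x‖ ^ 2) (volume : Measure (Cfg d)) := by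
  have h1 : Continuous fun x : Cfg d => ‖u x‖ ^ 2 := hu.1.continuous.norm.pow 2
  have h2 : HasCompactSupport fun x : Cfg d => ‖u x‖ ^ 2 := by
    refine HasCompactSupport.intro hu.2 fun x hx => ?_
    rw [image_eq_zero_of_notMem_tsupport hx, norm_zero]
    norm_num
  exact h1.integrable_of_hasCompactSupport h2

lemma cl930_mas_mono {u : Cfg d → F} (hu : Setup.Tst u) {A B : Set (Cfg d)} (h : A ⊆ B) :
    mas u A ≤ mas u B :=
  setIntegral_mono_set (cl930_tst_int hu).integrableOn (ae_of_all _ fun _ => sq_nonneg _)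
    (Eventually.of_forall h)

omit [InnerProductSpace ℂ F] in
lemma cl930_mas_nonneg (u : Cfg d → F) (A : Set (Cfg d)) : 0 ≤ mas u A :=
  integral_nonneg fun _ => sq_nonneg _

/-- all derivatives vanish where the function vanishes locally -/
lemma cl930_zero {V : Cfg dh → Wsp dm → F} {y : Cfg dh} {w : Wsp dm}
    (h : ∀ᶠ p in 𝓝 (y, w), V p.1 p.2 = 0) :
    (∀ i A, py i A V y w = 0) ∧ (∀ j B, pw j B V y w = 0) ∧ V y w = 0 := by
  refine ⟨fun i A => ?_, fun j B => ?_, h.self_of_nhds⟩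
  · have h1 : (fun y' => V y' w) =ᶠ[𝓝 y] fun _ => 0 := by
      have h2 : Tendsto (fun y' : Cfg dh => (y', w)) (𝓝 y) (𝓝 (y, w)) :=
        (Continuous.prodMk_left w).tendsto y
      exact h2.eventually h
    unfold py pd
    rw [h1.fderiv_eq]
    simp
  · have h1 : (V y) =ᶠ[𝓝 w] fun _ => 0 := by
      have h2 : Tendsto (fun w' : Wsp dm => (y, w')) (𝓝 w) (𝓝 (y, w)) :=
        (Continuous.prodMk_right y).tendsto w
      exact h2.eventually h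
    unfold pw
    rw [h1.fderiv_eq]
    simp

lemma cl930_Qs_zero (S : Setup d F) (φ : Spl dh dm d) (β : Fin 16) {V : Cfg dh → Wsp dm → F} {y : Cfg dh}
    {w : Wsp dm} (h : ∀ᶠ p in 𝓝 (y, w), V p.1 p.2 = 0) : AN.Qs S φ β V y w = 0 := by
  obtain ⟨h1, h2, h3⟩ := cl930_zero h
  rw [AN.cut_split, h3]
  simp only [h1, h2]
  have e1 := AN.cut_E_smul S φ β y w 0 (fun (_ : Fin 9) (_ : Fin dh) => (0 : F)) (fun (_ : Fin 8) (_ : Fin dm) => (0 : F))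
  have e2 := AN.cut_Z_smul S φ β y w 0 (0 : F)
  simp only [zero_smul] at e1 e2
  rw [e1, e2, add_zero]

lemma cl930_Gh_zero (S : Setup d F) (φ : Spl dh dm d) (C : Fin dh) {V : Cfg dh → Wsp dm → F} {y : Cfg dh}
    {w : Wsp dm} (h : ∀ᶠ p in 𝓝 (y, w), V p.1 p.2 = 0) : AN.Gh S φ C V y w = 0 := by
  obtain ⟨h1, h2, h3⟩ := cl930_zero h
  unfold AN.Gh
  rw [h3]
  simp only [h1, h2, smul_zero, Finset.sum_const_zero, map_zero, add_zero]

/-- the product vanishes near points outside the support -/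
lemma cl930_out (hC : CmbStmt) (ψ : Spl ds dz dh) (z₀ : Cfg dz) {ε R : ℝ} (hε : 0 < ε) (hR : 0 < R)
    (v : Cfg dh → Wsp dm → F) {y : Cfg dh} {w : Wsp dm}
    (hp : ¬ (‖y - R • cmb ψ 0 z₀‖ ≤ 2 * ε * R ∧ ‖w‖ ≤ 2 * ε * R)) :
    ∀ᶠ p in 𝓝 (y, w), mul2 (fun y w => cl930Th ψ dm z₀ ε R (y, w)) v p.1 p.2 = 0 := by
  have hopen : IsOpen {q : Cfg dh × Wsp dm | ¬ (‖q.1 - R • cmb ψ 0 z₀‖ ≤ 2 * ε * R ∧ ‖q.2‖ ≤ 2 * ε * R)} := by
    have h1 : IsClosed {q : Cfg dh × Wsp dm | ‖q.1 - R • cmb ψ 0 z₀‖ ≤ 2 * ε * R ∧ ‖q.2‖ ≤ 2 * ε * R} :=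
      (isClosed_le ((continuous_fst.sub continuous_const).norm) continuous_const).inter
        (isClosed_le continuous_snd.norm continuous_const)
    exact h1.isOpen_compl
  have hmem : (y, w) ∈ {q : Cfg dh × Wsp dm | ¬ (‖q.1 - R • cmb ψ 0 z₀‖ ≤ 2 * ε * R ∧ ‖q.2‖ ≤ 2 * ε * R)} := hp
  filter_upwards [hopen.mem_nhds hmem] with q hq
  have h1 : cl930Th ψ dm z₀ ε R (q.1, q.2) = 0 := by
    by_contra h2
    have h3 := cl930Th_nb hC ψ dm z₀ hε hR h2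
    exact hq ⟨h3.1.le, h3.2.le⟩
  show ((cl930Th ψ dm z₀ ε R (q.1, q.2) : ℝ) : ℂ) • v q.1 q.2 = 0
  rw [h1, Complex.ofReal_zero, zero_smul]

/-- **L10** -/
theorem cutLocOf (S : Setup d F) : CutLocOfStmt S := by
  intro hN hGh hCut _ hC dh dm ds dz φ ψ z₀ h hY
  obtain ⟨εN, ρN, hεN, hρN, hN'⟩ := hN dh dm φ (cmb ψ 0 z₀) h.std
  obtain ⟨εc, Cc, hεc, hCc, hCut'⟩ := hCut dh dm φ (cmb ψ 0 z₀) h.std
  obtain ⟨ε₁, hε₁, hdet⟩ := AN.nrm_det_ne S φ (cmb ψ 0 z₀) h.std.inv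
  have hM : 0 < ‖emb φ (cmb ψ 0 z₀) 0‖ := norm_pos_iff.2 hY
  refine ⟨min (min (εN / 4) (εc / 4)) (min (ε₁ / 4) (‖emb φ (cmb ψ 0 z₀) 0‖ / 16)),
    ‖emb φ (cmb ψ 0 z₀) 0‖ / 4, 2 * ‖emb φ (cmb ψ 0 z₀) 0‖, by positivity, by positivity, by linarith, ?_⟩
  intro ε hε hεle
  have b1 : 4 * ε ≤ εN := by
    have := hεle.trans ((min_le_left _ _).trans (min_le_left _ _))
    linarith
  have b2 : 4 * ε ≤ εc := by
    have := hεle.trans ((min_le_left _ _).trans (min_le_right _ _))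
    linarith
  have b3 : 4 * ε ≤ ε₁ := by
    have := hεle.trans ((min_le_right _ _).trans (min_le_left _ _))
    linarith
  have b4 : 16 * ε ≤ ‖emb φ (cmb ψ 0 z₀) 0‖ := by
    have := hεle.trans ((min_le_right _ _).trans (min_le_right _ _))
    linarith
  obtain ⟨c, _, hc, _, hR1⟩ := hN' (4 * ε) ρN (by positivity) b1 hρN le_rfl
  obtain ⟨c', δ, hc', hδ, hR2⟩ := hN' (ε / 2) ρN (by positivity) (by linarith) hρN le_rfl
  obtain ⟨K, hK0, hK⟩ := cl930Chi_bd hC ψ dm z₀ hε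
  refine ⟨c⁻¹ + 2 * c⁻¹ + 32 * (Cc * K) ^ 2 * c⁻¹ + c', δ, by positivity, hδ, fun z => cl930R ε (z - z₀), ?_,
    fun z => ⟨cl930R_nonneg _ _, cl930R_le_one _ _⟩, ?_, ?_⟩
  · exact (cl930R_contDiff ε).comp (contDiff_id.sub contDiff_const)
  · refine closure_minimal (fun z hz => ?_) Metric.isClosed_closedBall
    rw [Metric.mem_closedBall, dist_eq_norm]
    exact (cl930R_ne hε hz).le
  intro R hR1'
  have hR : 0 < R := by linarith
  refine ⟨fun y w => cl930Th ψ dm z₀ ε R (y, w),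
    fun y w => ⟨cl930Chi_nonneg _ _ _ _ _, cl930Chi_le_one _ _ _ _ _⟩, ?_, ?_, ?_, ?_⟩
  · intro y w hne
    obtain ⟨h1, h2, h3⟩ := cl930Th_ne ψ dm z₀ hε hR hne
    exact ⟨h1.le, h2.le, h3.le⟩
  · intro y w h1 h2 h3
    show cl930R ε (R⁻¹ • zp ψ y - z₀) * cl930R ε (R⁻¹ • sp ψ y) * cl930R ε (R⁻¹ • w) = 1
    rw [cl930R_one hε ((cl930_inv hR _ _ _).2.2 h1), cl930R_one hε ((cl930_inv0 hR _ _).2.2 h2),
      cl930R_one hε ((cl930_inv0 hR _ _).2.2 h3), mul_one, mul_one]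
  · intro y w h2 h3
    show cl930R ε (R⁻¹ • zp ψ y - z₀) * cl930R ε (R⁻¹ • sp ψ y) * cl930R ε (R⁻¹ • w) =
      cl930R ε (R⁻¹ • zp ψ y - z₀)
    rw [cl930R_one hε ((cl930_inv0 hR _ _).2.2 h2), cl930R_one hε ((cl930_inv0 hR _ _).2.2 h3), mul_one, mul_one]
  intro u hu
  have hsm : AN.Sm S φ (S.res φ u) := (hGh dh dm φ h.std.sub u hu.1.1).1
  have hgh0 := (hGh dh dm φ h.std.sub u hu.1.1).2 hu.2
  have hdet2 : ∀ y : Cfg dh, ‖y - R • cmb ψ 0 z₀‖ ≤ 2 * ε * R → (S.Dy φ 8 y).det ≠ 0 := by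
    intro y hy
    refine hdet R y hR (hy.trans_lt ?_)
    exact mul_lt_mul_of_pos_right (by linarith) hR
  have hdet4 : ∀ p ∈ AN.Nb (cmb ψ 0 z₀) dm R (4 * ε), (S.Dy φ 8 p.1).det ≠ 0 := by
    intro p hp
    exact hdet R p.1 hR (hp.1.trans_le (mul_le_mul_of_nonneg_right b3 hR.le))
  have htube := cl930_tube (ρ := ρN) S φ (cmb ψ 0 z₀) hR hε b4 hM
  obtain ⟨-, hmass⟩ := hR1 R hR
  obtain ⟨hm1, hm2⟩ := hmass u hu.1 hu.2
  obtain ⟨hball, hmass'⟩ := hR2 R hR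
  obtain ⟨hm3, -⟩ := hmass' u hu.1 hu.2
  have htst : Tst2 (mul2 (fun y w => cl930Th ψ dm z₀ ε R (y, w)) (S.res φ u)) :=
    cl930_tst hC ψ z₀ hε hR hdet2 hsm
  have hA : 0 ≤ mas u (shl d (‖emb φ (cmb ψ 0 z₀) 0‖ / 4 * R) (2 * ‖emb φ (cmb ψ 0 z₀) 0‖ * R)) :=
    cl930_mas_nonneg _ _
  have hA1 := cl930_mas_mono hu.1 htube
  have hm1' : (∫ p in AN.Nb (cmb ψ 0 z₀) dm R (4 * ε), ‖S.res φ u p.1 p.2‖ ^ 2
      ∂((volume : Measure (Cfg dh)).prod (volume : Measure (Wsp dm)))) =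
      c⁻¹ * mas u (AN.Tube S φ (cmb ψ 0 z₀) R (4 * ε) ρN) := by
    unfold mas
    rw [hm1, ← mul_assoc, inv_mul_cancel₀ hc.ne', one_mul]
  refine ⟨htst, ?_, ?_, ?_, ?_, ?_⟩
  · intro y w hne
    have h1 : cl930Th ψ dm z₀ ε R (y, w) ≠ 0 := by
      intro h0
      refine hne ?_
      show ((cl930Th ψ dm z₀ ε R (y, w) : ℝ) : ℂ) • S.res φ u y w = 0
      rw [h0, Complex.ofReal_zero, zero_smul]
    have h2 := cl930Th_nb hC ψ dm z₀ hε hR h1
    exact ⟨h2.1.le, h2.2.le⟩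
  · intro C y w
    by_cases hp : ‖y - R • cmb ψ 0 z₀‖ ≤ 2 * ε * R ∧ ‖w‖ ≤ 2 * ε * R
    · have hd := hdet2 y hp.1
      have hvd : DifferentiableAt ℝ (fun p : Cfg dh × Wsp dm => S.res φ u p.1 p.2) (y, w) :=
        ((hsm.contDiffAt ((AN.cut_open S φ).mem_nhds hd)).differentiableAt (by simp))
      have hχd : DifferentiableAt ℝ (cl930Th ψ dm z₀ ε R) (y, w) :=
        (cl930Th_contDiff ψ dm z₀ ε R).differentiable (by simp) _
      rw [cl930_Gh S φ C (cl930Th ψ dm z₀ ε R) (S.res φ u) y w hχd hvd, hgh0 C y w hd, cl930Th_inv h,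
        Complex.ofReal_zero, zero_smul, smul_zero, smul_zero, add_zero]
    · exact cl930_Gh_zero S φ C (cl930_out hC ψ z₀ hε hR (S.res φ u) hp)
  · rw [hm1']
    have h1 : c⁻¹ * mas u (AN.Tube S φ (cmb ψ 0 z₀) R (4 * ε) ρN) ≤
        c⁻¹ * mas u (shl d (‖emb φ (cmb ψ 0 z₀) 0‖ / 4 * R) (2 * ‖emb φ (cmb ψ 0 z₀) 0‖ * R)) :=
      mul_le_mul_of_nonneg_left hA1 (inv_pos.2 hc).le
    refine h1.trans (mul_le_mul_of_nonneg_right ?_ hA)
    have : 0 ≤ 2 * c⁻¹ + 32 * (Cc * K) ^ 2 * c⁻¹ + c' := by positivity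
    linarith
  · have key : ∀ β, ns2 (AN.Qs S φ β (mul2 (fun y w => cl930Th ψ dm z₀ ε R (y, w)) (S.res φ u))) ≤
        2 * c⁻¹ * (∫ x in shl d (‖emb φ (cmb ψ 0 z₀) 0‖ / 4 * R) (2 * ‖emb φ (cmb ψ 0 z₀) 0‖ * R), ‖S.Q β u x‖ ^ 2) +
          2 * (Cc * K) ^ 2 * c⁻¹ * (1 / R ^ 2 *
            mas u (shl d (‖emb φ (cmb ψ 0 z₀) 0‖ / 4 * R) (2 * ‖emb φ (cmb ψ 0 z₀) 0‖ * R))) := by
      intro β
      have hQt : Setup.Tst (S.Q β u) := Setup.Tst.Q S hu.1 β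
      have hQs : ∀ p ∈ AN.Nb (cmb ψ 0 z₀) dm R (4 * ε), AN.Qs S φ β (S.res φ u) p.1 p.2 = S.res φ (S.Q β u) p.1 p.2 := by
        intro p hp
        exact (AN.dec_stmt S dh dm φ h.std.sub u hu.1.1 hu.2 β p.1 p.2 (hdet4 p hp)).symm
      have hi1 : IntegrableOn (fun p : Cfg dh × Wsp dm => ‖AN.Qs S φ β (S.res φ u) p.1 p.2‖ ^ 2)
          (AN.Nb (cmb ψ 0 z₀) dm R (4 * ε)) ((volume : Measure (Cfg dh)).prod (volume : Measure (Wsp dm))) := by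
        refine (cl930_int S φ hQt.1.continuous (cmb ψ 0 z₀) R (4 * ε)).congr_fun (fun p hp => ?_)
          (cl930_nb_meas _ _ _ _)
        show ‖S.res φ (S.Q β u) p.1 p.2‖ ^ 2 = ‖AN.Qs S φ β (S.res φ u) p.1 p.2‖ ^ 2
        rw [hQs p hp]
      have hi2 := cl930_int S φ hu.1.1.continuous (cmb ψ 0 z₀) R (4 * ε)
      have e1 : ns2 (AN.Qs S φ β (mul2 (fun y w => cl930Th ψ dm z₀ ε R (y, w)) (S.res φ u))) =
          ∫ p in AN.Nb (cmb ψ 0 z₀) dm R (4 * ε),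
            ‖AN.Qs S φ β (mul2 (fun y w => cl930Th ψ dm z₀ ε R (y, w)) (S.res φ u)) p.1 p.2‖ ^ 2
            ∂((volume : Measure (Cfg dh)).prod (volume : Measure (Wsp dm))) := by
        unfold ns2
        symm
        refine setIntegral_eq_integral_of_forall_compl_eq_zero fun p hp => ?_
        rw [cl930_Qs_zero S φ β (cl930_out hC ψ z₀ hε hR (S.res φ u) (y := p.1) (w := p.2) ?_), norm_zero]
        · norm_num
        · intro hq
          refine hp ⟨hq.1.trans_lt (mul_lt_mul_of_pos_right (by linarith) hR),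
            hq.2.trans_lt (mul_lt_mul_of_pos_right (by linarith) hR)⟩
      have e2 : (∫ p in AN.Nb (cmb ψ 0 z₀) dm R (4 * ε),
            ‖AN.Qs S φ β (mul2 (fun y w => cl930Th ψ dm z₀ ε R (y, w)) (S.res φ u)) p.1 p.2‖ ^ 2
            ∂((volume : Measure (Cfg dh)).prod (volume : Measure (Wsp dm)))) ≤
          ∫ p in AN.Nb (cmb ψ 0 z₀) dm R (4 * ε), (2 * ‖AN.Qs S φ β (S.res φ u) p.1 p.2‖ ^ 2 +
            2 * (Cc * K / R) ^ 2 * ‖S.res φ u p.1 p.2‖ ^ 2)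
            ∂((volume : Measure (Cfg dh)).prod (volume : Measure (Wsp dm))) := by
        refine integral_mono_of_nonneg (ae_of_all _ fun _ => sq_nonneg _)
          ((hi1.const_mul 2).add (hi2.const_mul _)) ?_
        refine (ae_restrict_iff' (cl930_nb_meas _ _ _ _)).2 (ae_of_all _ fun p hp => ?_)
        show ‖AN.Qs S φ β (mul2 (fun y w => cl930Th ψ dm z₀ ε R (y, w)) (S.res φ u)) p.1 p.2‖ ^ 2 ≤
          2 * ‖AN.Qs S φ β (S.res φ u) p.1 p.2‖ ^ 2 + 2 * (Cc * K / R) ^ 2 * ‖S.res φ u p.1 p.2‖ ^ 2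
        have h1 := hCut' R p.1 p.2 hR (hp.1.trans_le (mul_le_mul_of_nonneg_right b2 hR.le))
          (hp.2.trans_le (mul_le_mul_of_nonneg_right b2 hR.le)) (cl930Th ψ dm z₀ ε R) (S.res φ u)
          (cl930Th_contDiff ψ dm z₀ ε R) hsm β
        have h2 : ‖fderiv ℝ (cl930Th ψ dm z₀ ε R) (p.1, p.2)‖ ≤ K / R := by
          rw [cl930Th_fderiv, norm_smul, Real.norm_eq_abs, abs_of_pos (inv_pos.2 hR), div_eq_inv_mul]
          exact mul_le_mul_of_nonneg_left (hK _) (inv_pos.2 hR).le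
        have h3 : ‖((cl930Th ψ dm z₀ ε R (p.1, p.2) : ℝ) : ℂ) • AN.Qs S φ β (S.res φ u) p.1 p.2‖ ≤
            ‖AN.Qs S φ β (S.res φ u) p.1 p.2‖ := by
          have h0 : 0 ≤ cl930Th ψ dm z₀ ε R (p.1, p.2) := cl930Chi_nonneg _ _ _ _ _
          rw [norm_smul, Complex.norm_real, Real.norm_eq_abs, abs_of_nonneg h0]
          exact mul_le_of_le_one_left (norm_nonneg _) (cl930Chi_le_one _ _ _ _ _)
        have h4 : ‖AN.Qs S φ β (mul2 (fun y w => cl930Th ψ dm z₀ ε R (y, w)) (S.res φ u)) p.1 p.2‖ ≤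
            ‖AN.Qs S φ β (S.res φ u) p.1 p.2‖ + Cc * K / R * ‖S.res φ u p.1 p.2‖ := by
          have h5 : ‖AN.Qs S φ β (mul2 (fun y w => cl930Th ψ dm z₀ ε R (y, w)) (S.res φ u)) p.1 p.2 -
              ((cl930Th ψ dm z₀ ε R (p.1, p.2) : ℝ) : ℂ) • AN.Qs S φ β (S.res φ u) p.1 p.2‖ ≤
              Cc * ‖fderiv ℝ (cl930Th ψ dm z₀ ε R) (p.1, p.2)‖ * ‖S.res φ u p.1 p.2‖ := h1
          have h6 : Cc * ‖fderiv ℝ (cl930Th ψ dm z₀ ε R) (p.1, p.2)‖ * ‖S.res φ u p.1 p.2‖ ≤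
              Cc * K / R * ‖S.res φ u p.1 p.2‖ := by
            refine mul_le_mul_of_nonneg_right ?_ (norm_nonneg _)
            rw [mul_div_assoc]
            exact mul_le_mul_of_nonneg_left h2 hCc.le
          have h7 := norm_le_norm_add_norm_sub' (AN.Qs S φ β (mul2 (fun y w => cl930Th ψ dm z₀ ε R (y, w)) (S.res φ u)) p.1 p.2)
            (((cl930Th ψ dm z₀ ε R (p.1, p.2) : ℝ) : ℂ) • AN.Qs S φ β (S.res φ u) p.1 p.2)
          linarith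
        have h8 := pow_le_pow_left₀ (norm_nonneg _) h4 2
        refine h8.trans ?_
        nlinarith [sq_nonneg (‖AN.Qs S φ β (S.res φ u) p.1 p.2‖ - Cc * K / R * ‖S.res φ u p.1 p.2‖)]
      have e3 : (∫ p in AN.Nb (cmb ψ 0 z₀) dm R (4 * ε), (2 * ‖AN.Qs S φ β (S.res φ u) p.1 p.2‖ ^ 2 +
            2 * (Cc * K / R) ^ 2 * ‖S.res φ u p.1 p.2‖ ^ 2)
            ∂((volume : Measure (Cfg dh)).prod (volume : Measure (Wsp dm)))) =
          2 * (c⁻¹ * mas (S.Q β u) (AN.Tube S φ (cmb ψ 0 z₀) R (4 * ε) ρN)) +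
          2 * (Cc * K / R) ^ 2 * (c⁻¹ * mas u (AN.Tube S φ (cmb ψ 0 z₀) R (4 * ε) ρN)) := by
        rw [integral_add (hi1.const_mul 2) (hi2.const_mul _), integral_const_mul, integral_const_mul, hm1']
        congr 2
        have h5 := hm2 β
        have h6 : mas (S.Q β u) (AN.Tube S φ (cmb ψ 0 z₀) R (4 * ε) ρN) =
            c * ∫ p in AN.Nb (cmb ψ 0 z₀) dm R (4 * ε), ‖AN.Qs S φ β (S.res φ u) p.1 p.2‖ ^ 2
            ∂((volume : Measure (Cfg dh)).prod (volume : Measure (Wsp dm))) := h5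
        rw [h6, ← mul_assoc, inv_mul_cancel₀ hc.ne', one_mul]
      have e4 := cl930_mas_mono hQt htube
      rw [e1]
      refine e2.trans ?_
      rw [e3]
      have f1 : c⁻¹ * mas (S.Q β u) (AN.Tube S φ (cmb ψ 0 z₀) R (4 * ε) ρN) ≤
          c⁻¹ * mas (S.Q β u) (shl d (‖emb φ (cmb ψ 0 z₀) 0‖ / 4 * R) (2 * ‖emb φ (cmb ψ 0 z₀) 0‖ * R)) :=
        mul_le_mul_of_nonneg_left e4 (inv_pos.2 hc).le
      have f2 : c⁻¹ * mas u (AN.Tube S φ (cmb ψ 0 z₀) R (4 * ε) ρN) ≤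
          c⁻¹ * mas u (shl d (‖emb φ (cmb ψ 0 z₀) 0‖ / 4 * R) (2 * ‖emb φ (cmb ψ 0 z₀) 0‖ * R)) :=
        mul_le_mul_of_nonneg_left hA1 (inv_pos.2 hc).le
      have f3 := mul_le_mul_of_nonneg_left f2 (show (0 : ℝ) ≤ 2 * (Cc * K / R) ^ 2 by positivity)
      have f4 : 2 * (Cc * K / R) ^ 2 * (c⁻¹ * mas u (shl d (‖emb φ (cmb ψ 0 z₀) 0‖ / 4 * R)
          (2 * ‖emb φ (cmb ψ 0 z₀) 0‖ * R))) = 2 * (Cc * K) ^ 2 * c⁻¹ * (1 / R ^ 2 *
            mas u (shl d (‖emb φ (cmb ψ 0 z₀) 0‖ / 4 * R) (2 * ‖emb φ (cmb ψ 0 z₀) 0‖ * R))) := by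
        rw [div_pow]
        ring
      rw [← f4]
      have f5 : mas (S.Q β u) (shl d (‖emb φ (cmb ψ 0 z₀) 0‖ / 4 * R) (2 * ‖emb φ (cmb ψ 0 z₀) 0‖ * R)) =
        ∫ x in shl d (‖emb φ (cmb ψ 0 z₀) 0‖ / 4 * R) (2 * ‖emb φ (cmb ψ 0 z₀) 0‖ * R), ‖S.Q β u x‖ ^ 2 := rfl
      rw [f5] at f1
      linarith
    have hsum := Finset.sum_le_sum fun (β : Fin 16) (_ : β ∈ Finset.univ) => key β
    rw [Finset.sum_add_distrib, ← Finset.mul_sum, Finset.sum_const, Finset.card_univ, Fintype.card_fin,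
      nsmul_eq_mul] at hsum
    have hE : 0 ≤ ena S u (shl d (‖emb φ (cmb ψ 0 z₀) 0‖ / 4 * R) (2 * ‖emb φ (cmb ψ 0 z₀) 0‖ * R)) :=
      Finset.sum_nonneg fun β _ => integral_nonneg fun _ => sq_nonneg _
    refine hsum.trans ?_
    have g0 : (∑ i, ∫ x in shl d (‖emb φ (cmb ψ 0 z₀) 0‖ / 4 * R) (2 * ‖emb φ (cmb ψ 0 z₀) 0‖ * R), ‖S.Q i u x‖ ^ 2) =
      ena S u (shl d (‖emb φ (cmb ψ 0 z₀) 0‖ / 4 * R) (2 * ‖emb φ (cmb ψ 0 z₀) 0‖ * R)) := rfl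
    rw [g0]
    have hB : 0 ≤ 1 / R ^ 2 * mas u (shl d (‖emb φ (cmb ψ 0 z₀) 0‖ / 4 * R) (2 * ‖emb φ (cmb ψ 0 z₀) 0‖ * R)) :=
      mul_nonneg (by positivity) hA
    have g1 : 0 ≤ (c⁻¹ + 32 * (Cc * K) ^ 2 * c⁻¹ + c') *
        ena S u (shl d (‖emb φ (cmb ψ 0 z₀) 0‖ / 4 * R) (2 * ‖emb φ (cmb ψ 0 z₀) 0‖ * R)) :=
      mul_nonneg (by positivity) hE
    have g2 : 0 ≤ (c⁻¹ + 2 * c⁻¹ + c') *
        (1 / R ^ 2 * mas u (shl d (‖emb φ (cmb ψ 0 z₀) 0‖ / 4 * R) (2 * ‖emb φ (cmb ψ 0 z₀) 0‖ * R))) :=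
      mul_nonneg (by positivity) hB
    push_cast
    nlinarith
  · have h1 : mas u (Metric.ball (R • emb φ (cmb ψ 0 z₀) 0) (δ * R)) ≤
        mas u (AN.Tube S φ (cmb ψ 0 z₀) R (ε / 2) ρN) := cl930_mas_mono hu.1 hball
    refine h1.trans ?_
    have h2 : mas u (AN.Tube S φ (cmb ψ 0 z₀) R (ε / 2) ρN) = c' * ∫ p in AN.Nb (cmb ψ 0 z₀) dm R (ε / 2),
        ‖S.res φ u p.1 p.2‖ ^ 2 ∂((volume : Measure (Cfg dh)).prod (volume : Measure (Wsp dm))) := hm3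
    have h3 : (∫ p in AN.Nb (cmb ψ 0 z₀) dm R (ε / 2),
        ‖S.res φ u p.1 p.2‖ ^ 2 ∂((volume : Measure (Cfg dh)).prod (volume : Measure (Wsp dm)))) =
        ∫ p in AN.Nb (cmb ψ 0 z₀) dm R (ε / 2),
        ‖mul2 (fun y w => cl930Th ψ dm z₀ ε R (y, w)) (S.res φ u) p.1 p.2‖ ^ 2
          ∂((volume : Measure (Cfg dh)).prod (volume : Measure (Wsp dm))) := by
      refine setIntegral_congr_fun (cl930_nb_meas _ _ _ _) fun p hp => ?_
      have hp1 : ‖p.1 - R • cmb ψ 0 z₀‖ < ε / 2 * R := hp.1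
      have hp2 : ‖p.2‖ < ε / 2 * R := hp.2
      have h4 := cl930_dist hC ψ z₀ R p.1
      have h5 : ‖sp ψ p.1‖ ≤ ε / 2 * R := by
        refine (sq_le_sq₀ (norm_nonneg _) (by positivity)).1 ?_
        have := sq_nonneg ‖zp ψ p.1 - R • z₀‖
        have := pow_le_pow_left₀ (norm_nonneg _) hp1.le 2
        linarith
      have h6 : ‖zp ψ p.1 - R • z₀‖ ≤ ε / 2 * R := by
        refine (sq_le_sq₀ (norm_nonneg _) (by positivity)).1 ?_
        have := sq_nonneg ‖sp ψ p.1‖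
        have := pow_le_pow_left₀ (norm_nonneg _) hp1.le 2
        linarith
      have h7 : cl930Th ψ dm z₀ ε R (p.1, p.2) = 1 := by
        show cl930R ε (R⁻¹ • zp ψ p.1 - z₀) * cl930R ε (R⁻¹ • sp ψ p.1) * cl930R ε (R⁻¹ • p.2) = 1
        rw [cl930R_one hε ((cl930_inv hR _ _ _).2.2 h6), cl930R_one hε ((cl930_inv0 hR _ _).2.2 h5),
          cl930R_one hε ((cl930_inv0 hR _ _).2.2 hp2.le), mul_one, mul_one]
      show ‖S.res φ u p.1 p.2‖ ^ 2 = ‖((cl930Th ψ dm z₀ ε R (p.1, p.2) : ℝ) : ℂ) • S.res φ u p.1 p.2‖ ^ 2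
      rw [h7, Complex.ofReal_one, one_smul]
    have h8 : (∫ p in AN.Nb (cmb ψ 0 z₀) dm R (ε / 2),
        ‖mul2 (fun y w => cl930Th ψ dm z₀ ε R (y, w)) (S.res φ u) p.1 p.2‖ ^ 2
          ∂((volume : Measure (Cfg dh)).prod (volume : Measure (Wsp dm)))) ≤
        ns2 (mul2 (fun y w => cl930Th ψ dm z₀ ε R (y, w)) (S.res φ u)) := by
      refine setIntegral_le_integral ?_ (ae_of_all _ fun _ => sq_nonneg _)
      have h9 : Continuous fun p : Cfg dh × Wsp dm =>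
          ‖mul2 (fun y w => cl930Th ψ dm z₀ ε R (y, w)) (S.res φ u) p.1 p.2‖ ^ 2 := htst.1.continuous.norm.pow 2
      refine h9.integrable_of_hasCompactSupport (HasCompactSupport.intro htst.2 fun x hx => ?_)
      have h10 : mul2 (fun y w => cl930Th ψ dm z₀ ε R (y, w)) (S.res φ u) x.1 x.2 = 0 :=
        image_eq_zero_of_notMem_tsupport
          (f := fun p : Cfg dh × Wsp dm => mul2 (fun y w => cl930Th ψ dm z₀ ε R (y, w)) (S.res φ u) p.1 p.2) hx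
      rw [h10, norm_zero]
      norm_num
    have h11 : 0 ≤ ns2 (mul2 (fun y w => cl930Th ψ dm z₀ ε R (y, w)) (S.res φ u)) :=
      integral_nonneg fun _ => sq_nonneg _
    rw [h2, h3]
    refine (mul_le_mul_of_nonneg_left h8 hc'.le).trans (mul_le_mul_of_nonneg_right ?_ h11)
    have : 0 ≤ c⁻¹ + 2 * c⁻¹ + 32 * (Cc * K) ^ 2 * c⁻¹ := by positivity
    linarith

end Vale.Agent.P353.Z.AD
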