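import Vale.Agent.P353.AN.D.Stmt

/-! # P353, all `N`, block D: the discrete lemma D5 -/

open Filter Topology

namespace Vale.Agent.P353.Z.AD

namespace DiscAux

theorem key (w f a b : ℤ → ℝ) (hf : ∀ j, 0 ≤ f j) (hw : ∀ j, 0 < w j) (ha : ∀ k, 0 ≤ a k)
    (hab : ∀ i k, a k * w i ≤ b k * w (i + k)) (hb0 : ∀ k, 0 ≤ b k) (hb : Summable b)
    (hs : Summable fun j => w j * f j) :
    (Summable fun j => w j * ∑' k, a k * f (j + k)) ∧
    ∑' j, w j * ∑' k, a k * f (j + k) ≤ (∑' k, b k) * ∑' j, w j * f j := by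
  have hG0 : Summable (fun x : ℤ × ℤ => b x.1 * (w x.2 * f x.2)) :=
    hb.mul_of_nonneg hs hb0 (fun j => mul_nonneg (hw j).le (hf j))
  let φ : ℤ × ℤ ≃ ℤ × ℤ := ⟨fun x => (x.2, x.1 + x.2), fun x => (x.2 - x.1, x.1),
    by intro x; simp, by intro x; simp⟩
  have hG : Summable (fun x : ℤ × ℤ => b x.2 * (w (x.1 + x.2) * f (x.1 + x.2))) :=
    φ.summable_iff.mpr hG0
  have hH0 : ∀ x : ℤ × ℤ, 0 ≤ w x.1 * (a x.2 * f (x.1 + x.2)) := fun x =>
    mul_nonneg (hw _).le (mul_nonneg (ha _) (hf _))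
  have hHG : ∀ x : ℤ × ℤ, w x.1 * (a x.2 * f (x.1 + x.2)) ≤ b x.2 * (w (x.1 + x.2) * f (x.1 + x.2)) := by
    intro x
    have := mul_le_mul_of_nonneg_right (hab x.1 x.2) (hf (x.1 + x.2))
    nlinarith [this]
  have hH : Summable (fun x : ℤ × ℤ => w x.1 * (a x.2 * f (x.1 + x.2))) :=
    Summable.of_nonneg_of_le hH0 hHG hG
  have e1 : ∀ j, w j * ∑' k, a k * f (j + k) = ∑' k, w j * (a k * f (j + k)) := fun j =>
    (tsum_mul_left).symm
  constructor
  · simp_rw [e1]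
    exact hH.prod
  · simp_rw [e1]
    rw [← hH.tsum_prod]
    refine (hH.tsum_le_tsum hHG hG).trans_eq ?_
    have e2 : ∑' x : ℤ × ℤ, b x.2 * (w (x.1 + x.2) * f (x.1 + x.2)) = ∑' x : ℤ × ℤ, b x.1 * (w x.2 * f x.2) :=
      φ.tsum_eq (fun x : ℤ × ℤ => b x.1 * (w x.2 * f x.2))
    rw [e2]
    exact (hb.tsum_mul_tsum hs hG0).symm

theorem hs3 : HasSum (fun k : ℤ => (2 : ℝ) ^ (-|k|)) 3 := by
  have e1 : (fun n : ℕ => (2 : ℝ) ^ (-|(n : ℤ)|)) = fun n : ℕ => (1 / 2 : ℝ) ^ n := by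
    funext n
    rw [Nat.abs_cast, zpow_neg, zpow_natCast, one_div, inv_pow]
  have h1 : HasSum (fun n : ℕ => (2 : ℝ) ^ (-|(n : ℤ)|)) 2 := by
    rw [e1]
    exact hasSum_geometric_two
  have e2 : (fun n : ℕ => (2 : ℝ) ^ (-|(-((n : ℤ) + 1))|)) = fun n : ℕ => (1 / 2 : ℝ) * (1 / 2 : ℝ) ^ n := by
    funext n
    have : |(-((n : ℤ) + 1))| = ((n + 1 : ℕ) : ℤ) := by
      rw [abs_neg, abs_of_nonneg (by positivity)]
      push_cast
      ring
    rw [this, zpow_neg, zpow_natCast, one_div, inv_pow, pow_succ, mul_inv, mul_comm]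
  have h2 : HasSum (fun n : ℕ => (2 : ℝ) ^ (-|(-((n : ℤ) + 1))|)) 1 := by
    rw [e2]
    have := hasSum_geometric_two.mul_left (1 / 2 : ℝ)
    norm_num at this ⊢
    exact this
  have h3 : (3 : ℝ) = 2 + 1 := by norm_num
  rw [h3]
  exact HasSum.of_nat_of_neg_add_one h1 h2

end DiscAux

open DiscAux in
theorem disc : DiscStmt := by
  intro M e w j₀ C hC hM he hw hww hsM hse hin
  have hab : ∀ i k : ℤ, (2 : ℝ) ^ (-(3 * |k|)) * w i ≤ (2 : ℝ) ^ (-|k|) * w (i + k) := by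
    intro i k
    have h := hww (i + k) (-k)
    rw [add_neg_cancel_right, abs_neg] at h
    calc (2 : ℝ) ^ (-(3 * |k|)) * w i ≤ (2 : ℝ) ^ (-(3 * |k|)) * ((2 : ℝ) ^ (2 * |k|) * w (i + k)) :=
          mul_le_mul_of_nonneg_left h (by positivity)
      _ = (2 : ℝ) ^ (-|k|) * w (i + k) := by
          rw [← mul_assoc, ← zpow_add₀ (by norm_num : (2 : ℝ) ≠ 0)]
          congr 2
          ring
  obtain ⟨s1, t1⟩ := key w M (fun k => if k = 0 then 0 else (2 : ℝ) ^ (-(3 * |k|)))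
    (fun k => if k = 0 then 0 else (2 : ℝ) ^ (-|k|)) hM hw
    (fun k => by split_ifs <;> positivity)
    (fun i k => by
      split_ifs
      · simp
      · exact hab i k)
    (fun k => by split_ifs <;> positivity)
    (hasSum_ite_sub_hasSum hs3 0).summable hsM
  obtain ⟨s2, t2⟩ := key w e (fun k => (2 : ℝ) ^ (-(3 * |k|)))
    (fun k => (2 : ℝ) ^ (-|k|)) he hw (fun k => by positivity) hab (fun k => by positivity) hs3.summable hse
  rw [(hasSum_ite_sub_hasSum hs3 0).tsum_eq] at t1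
  rw [hs3.tsum_eq] at t2
  have eM : ∀ j : ℤ, (∑' k : ℤ, if k = 0 then 0 else (2 : ℝ) ^ (-(3 * |k|)) * M (j + k)) =
      ∑' k : ℤ, (if k = 0 then 0 else (2 : ℝ) ^ (-(3 * |k|))) * M (j + k) := by
    intro j
    refine tsum_congr fun k => ?_
    split_ifs <;> simp
  simp_rw [eM] at hin
  have hA : Summable (fun j : ℤ => if j₀ ≤ j then w j * M j else 0) := by
    refine Summable.of_nonneg_of_le (fun j => ?_) (fun j => ?_) hsM
    · split_ifs
      · exact mul_nonneg (hw j).le (hM j)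
      · exact le_rfl
    · split_ifs
      · exact le_rfl
      · exact mul_nonneg (hw j).le (hM j)
  have hB : Summable (fun j : ℤ => if j₀ ≤ j then 0 else w j * M j) := by
    refine Summable.of_nonneg_of_le (fun j => ?_) (fun j => ?_) hsM
    · split_ifs
      · exact le_rfl
      · exact mul_nonneg (hw j).le (hM j)
    · split_ifs
      · exact mul_nonneg (hw j).le (hM j)
      · exact le_rfl
  have hAB : ∑' j, w j * M j = (∑' j : ℤ, if j₀ ≤ j then w j * M j else 0) + ∑' j : ℤ, if j₀ ≤ j then 0 else w j * M j := by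
    rw [← hA.tsum_add hB]
    refine tsum_congr fun j => ?_
    split_ifs <;> simp
  have hle : (∑' j : ℤ, if j₀ ≤ j then w j * M j else 0) ≤
      ∑' j, (1 / 4 * (w j * ∑' k : ℤ, (if k = 0 then 0 else (2 : ℝ) ^ (-(3 * |k|))) * M (j + k)) +
        C * (w j * ∑' k : ℤ, (2 : ℝ) ^ (-(3 * |k|)) * e (j + k))) := by
    refine hA.tsum_le_tsum (fun j => ?_) ((s1.mul_left _).add (s2.mul_left _))
    have p1 : 0 ≤ ∑' k : ℤ, (if k = 0 then 0 else (2 : ℝ) ^ (-(3 * |k|))) * M (j + k) :=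
      tsum_nonneg fun k => mul_nonneg (by split_ifs <;> positivity) (hM _)
    have p2 : 0 ≤ ∑' k : ℤ, (2 : ℝ) ^ (-(3 * |k|)) * e (j + k) :=
      tsum_nonneg fun k => mul_nonneg (by positivity) (he _)
    have hwj := (hw j).le
    split_ifs with h
    · have := mul_le_mul_of_nonneg_left (hin j h) hwj
      nlinarith [this]
    · positivity
  rw [(s1.mul_left _).tsum_add (s2.mul_left _), tsum_mul_left, tsum_mul_left] at hle
  have t3 := mul_le_mul_of_nonneg_left t2 hC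
  have e32 : (3 : ℝ) - 2 ^ (-|(0 : ℤ)|) = 2 := by norm_num
  rw [e32, hAB] at t1
  linarith

end Vale.Agent.P353.Z.AD
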