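import Vale.Agent.P353.AN.D.Stmt
import Vale.Agent.P353.Z.Ana

/-! # P353, all `N`, block D: the dyadic inequality (D4) -/

open MeasureTheory Filter Topology
open scoped ContDiff

namespace Vale.Agent.P353.Z.AD

variable {d : ℕ} {F : Type*} [NormedAddCommGroup F] [InnerProductSpace ℂ F]

/-! ### Scaling -/

private lemma dy_pd (c : ℝ) {u : Cfg d → F} (hu : Differentiable ℝ u) (i : Fin 9) (A : Fin d)
    (x : Cfg d) : pd i A (fun y => (c : ℂ) • u y) x = (c : ℂ) • pd i A u x := by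
  have := pd_rsmul (i := i) (A := A) (φ := fun _ => c) (u := u) (x := x)
    (differentiableAt_const c) (hu x)
  simpa using this

private lemma dy_Q (S : Setup d F) (c : ℝ) {u : Cfg d → F} (hu : Differentiable ℝ u) (β : Fin 16)
    (x : Cfg d) : S.Q β (fun y => (c : ℂ) • u y) x = (c : ℂ) • S.Q β u x := by
  simp only [Setup.Q, dy_pd c hu, map_smul, ← Finset.smul_sum]
  rw [smul_add, smul_comm]

private lemma dy_G (S : Setup d F) (c : ℝ) {u : Cfg d → F} (hu : Differentiable ℝ u) (C : Fin d)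
    (x : Cfg d) : S.G C (fun y => (c : ℂ) • u y) x = (c : ℂ) • S.G C u x := by
  simp only [Setup.G, dy_pd c hu, map_smul]
  simp only [smul_comm _ (c : ℂ), ← Finset.smul_sum]
  rw [smul_add]

private lemma dy_GInv {S : Setup d F} {u : Cfg d → F} (h : GInv S u) (c : ℝ) :
    GInv S (fun y => (c : ℂ) • u y) := by
  refine ⟨Setup.Tst.rsmul (φ := fun _ => c) contDiff_const h.1, fun C x => ?_⟩
  rw [dy_G S c (fun x => h.1.diff x) C x, h.2, smul_zero]

private lemma dy_mas (c : ℝ) (u : Cfg d → F) (A : Set (Cfg d)) :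
    mas (fun y => (c : ℂ) • u y) A = c ^ 2 * mas u A := by
  unfold mas
  rw [← integral_const_mul]
  congr 1
  funext x
  rw [norm_smul, Complex.norm_real, mul_pow, Real.norm_eq_abs, sq_abs]

private lemma dy_ena (S : Setup d F) (c : ℝ) {u : Cfg d → F} (hu : Differentiable ℝ u)
    (A : Set (Cfg d)) : ena S (fun y => (c : ℂ) • u y) A = c ^ 2 * ena S u A := by
  unfold ena
  rw [Finset.mul_sum]
  refine Finset.sum_congr rfl fun β _ => ?_
  rw [← integral_const_mul]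
  congr 1
  funext x
  rw [dy_Q S c hu, norm_smul, Complex.norm_real, mul_pow, Real.norm_eq_abs, sq_abs]

omit [InnerProductSpace ℂ F] in
private lemma dy_mas_nonneg (u : Cfg d → F) (A : Set (Cfg d)) : 0 ≤ mas u A :=
  integral_nonneg fun _ => by positivity

private lemma dy_ena_nonneg (S : Setup d F) (u : Cfg d → F) (A : Set (Cfg d)) : 0 ≤ ena S u A :=
  Finset.sum_nonneg fun _ _ => integral_nonneg fun _ => by positivity

private lemma dy_mas_le {u : Cfg d → F} (hu : Setup.Tst u) (A : Set (Cfg d)) :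
    mas u A ≤ ∫ x, ‖u x‖ ^ 2 :=
  setIntegral_le_integral hu.norm_sq_int (ae_of_all _ fun _ => by positivity)

private lemma dy_ena_le (S : Setup d F) {u : Cfg d → F} (hu : Setup.Tst u) (A : Set (Cfg d)) :
    ena S u A ≤ ∑ β, ∫ x, ‖S.Q β u x‖ ^ 2 :=
  Finset.sum_le_sum fun β _ =>
    setIntegral_le_integral (hu.Q S β).norm_sq_int (ae_of_all _ fun _ => by positivity)

/-! ### Weights -/

private lemma dy_sum0 : Summable fun k : ℤ => (2 : ℝ) ^ (-|k|) := by
  have h : Summable fun n : ℕ => ((1 : ℝ) / 2) ^ n := summable_geometric_two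
  have e : ∀ n : ℕ, (2 : ℝ) ^ (-(n : ℤ)) = (1 / 2) ^ n := fun n => by
    rw [zpow_neg, zpow_natCast, one_div, inv_pow]
  refine Summable.of_nat_of_neg ?_ ?_
  · refine h.congr fun n => ?_
    rw [Nat.abs_cast, e]
  · refine h.congr fun n => ?_
    rw [abs_neg, Nat.abs_cast, e]

private lemma dy_w1 (k : ℤ) : (2 : ℝ) ^ (-(3 * |k|)) ≤ (2 : ℝ) ^ (-|k|) :=
  zpow_le_zpow_right₀ (by norm_num) (by have := abs_nonneg k; linarith)

private lemma dy_four (k : ℤ) : (4 : ℝ) ^ k = (2 : ℝ) ^ (2 * k) := by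
  rw [zpow_mul]; norm_num

private lemma dy_w2 (k : ℤ) : (2 : ℝ) ^ (-(3 * |k|)) * (4 : ℝ) ^ k ≤ (2 : ℝ) ^ (-|k|) := by
  rw [dy_four, ← zpow_add₀ (by norm_num)]
  refine zpow_le_zpow_right₀ (by norm_num) ?_
  have := le_abs_self k
  linarith

private lemma dy_summ1 {m : ℤ → ℝ} {T : ℝ} (h0 : ∀ k, 0 ≤ m k) (hT : ∀ k, m k ≤ T) (j : ℤ) :
    Summable fun k : ℤ => if k = 0 then 0 else (2 : ℝ) ^ (-(3 * |k|)) * m (j + k) := by
  refine Summable.of_nonneg_of_le (fun k => ?_) (fun k => ?_) (dy_sum0.mul_right T)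
  · split_ifs
    · exact le_rfl
    · exact mul_nonneg (by positivity) (h0 _)
  · have h1 : 0 ≤ (2 : ℝ) ^ (-|k|) * T := mul_nonneg (by positivity) ((h0 0).trans (hT 0))
    split_ifs
    · exact h1
    · exact mul_le_mul (dy_w1 k) (hT _) (h0 _) (by positivity)

private lemma dy_summ2 {e : ℤ → ℝ} {T : ℝ} (h0 : ∀ k, 0 ≤ e k) (hT : ∀ k, e k ≤ T) (j : ℤ) :
    Summable fun k : ℤ => (2 : ℝ) ^ (-(3 * |k|)) * ((4 : ℝ) ^ (j + k) * e (j + k)) := by
  refine Summable.of_nonneg_of_le (fun k => ?_) (fun k => ?_)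
    (dy_sum0.mul_right ((4 : ℝ) ^ j * T))
  · exact mul_nonneg (by positivity) (mul_nonneg (by positivity) (h0 _))
  · have e1 : (2 : ℝ) ^ (-(3 * |k|)) * ((4 : ℝ) ^ (j + k) * e (j + k)) =
        ((2 : ℝ) ^ (-(3 * |k|)) * (4 : ℝ) ^ k) * ((4 : ℝ) ^ j * e (j + k)) := by
      rw [zpow_add₀ (by norm_num : (4 : ℝ) ≠ 0)]; ring
    rw [e1]
    exact mul_le_mul (dy_w2 k) (mul_le_mul_of_nonneg_left (hT _) (by positivity))
      (mul_nonneg (by positivity) (h0 _)) (by positivity)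

/-! ### Covering of shells by dyadic shells -/

private lemma dy_meas (s t : ℝ) : MeasurableSet (shl d s t) :=
  ((isOpen_lt continuous_const continuous_norm).inter
    (isOpen_lt continuous_norm continuous_const)).measurableSet

private lemma dy_cover {g : Cfg d → ℝ} (hg : Integrable g) (h0 : ∀ x, 0 ≤ g x) (j a b : ℤ)
    {s t : ℝ} (hs : (2 : ℝ) ^ a ≤ s) (ht : t ≤ (2 : ℝ) ^ (b + 1)) :
    ∫ x in shl d (s * (2 : ℝ) ^ j) (t * (2 : ℝ) ^ j), g x ≤
      ∑ k ∈ Finset.Icc a b, ∫ x in dsh d (j + k), g x := by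
  have hae : ∀ᵐ x ∂(volume : Measure (Cfg d)), ∀ m : ℤ, ‖x‖ ≠ (2 : ℝ) ^ m := by
    rw [ae_all_iff]
    intro m
    have h := Measure.addHaar_sphere_of_ne_zero (volume : Measure (Cfg d)) (0 : Cfg d)
      (r := (2 : ℝ) ^ m) (by positivity)
    rw [ae_iff]
    refine measure_mono_null ?_ h
    intro x hx
    simpa using hx
  rw [← integral_indicator (dy_meas _ _)]
  have hm : ∀ k : ℤ, MeasurableSet (dsh d (j + k)) := fun k => dy_meas _ _
  have e : ∑ k ∈ Finset.Icc a b, ∫ x in dsh d (j + k), g x =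
      ∫ x, ∑ k ∈ Finset.Icc a b, (dsh d (j + k)).indicator g x := by
    rw [integral_finsetSum _ fun k _ => hg.indicator (hm k)]
    exact Finset.sum_congr rfl fun k _ => (integral_indicator (hm k)).symm
  rw [e]
  refine integral_mono_ae (hg.indicator (dy_meas _ _))
    (integrable_finsetSum _ fun k _ => hg.indicator (hm k)) ?_
  filter_upwards [hae] with x hx
  have hnn : ∀ k ∈ Finset.Icc a b, 0 ≤ (dsh d (j + k)).indicator g x := fun k _ =>
    Set.indicator_nonneg (fun _ _ => h0 _) _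
  by_cases hxA : x ∈ shl d (s * (2 : ℝ) ^ j) (t * (2 : ℝ) ^ j)
  · rw [Set.indicator_of_mem hxA]
    obtain ⟨h1, h2⟩ := hxA
    have h1' : (2 : ℝ) ^ (a + j) < ‖x‖ := by
      rw [zpow_add₀ (by norm_num)]
      exact (mul_le_mul_of_nonneg_right hs (by positivity)).trans_lt h1
    have h2' : ‖x‖ < (2 : ℝ) ^ (b + 1 + j) := by
      rw [zpow_add₀ (by norm_num)]
      exact h2.trans_le (mul_le_mul_of_nonneg_right ht (by positivity))
    have hpos : 0 < ‖x‖ := lt_trans (by positivity) h1'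
    obtain ⟨m, hm1, hm2⟩ := exists_mem_Ico_zpow hpos (by norm_num : (1 : ℝ) < 2)
    have hma : a + j < m + 1 := by
      by_contra hcon
      push Not at hcon
      have := zpow_le_zpow_right₀ (by norm_num : (1 : ℝ) ≤ 2) hcon
      linarith
    have hmb : m < b + 1 + j := by
      by_contra hcon
      push Not at hcon
      have := zpow_le_zpow_right₀ (by norm_num : (1 : ℝ) ≤ 2) hcon
      linarith
    have hmem : m - j ∈ Finset.Icc a b := Finset.mem_Icc.2 ⟨by omega, by omega⟩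
    have hxk : x ∈ dsh d (j + (m - j)) := by
      have e1 : j + (m - j) = m := by ring
      rw [e1]
      exact ⟨lt_of_le_of_ne hm1 (hx m).symm, hm2⟩
    have h3 := Finset.single_le_sum hnn hmem
    rwa [Set.indicator_of_mem hxk] at h3
  · rw [Set.indicator_of_notMem hxA]
    exact Finset.sum_nonneg hnn

private lemma dy_mas_cover {u : Cfg d → F} (hu : Setup.Tst u) (j a b : ℤ)
    {s t : ℝ} (hs : (2 : ℝ) ^ a ≤ s) (ht : t ≤ (2 : ℝ) ^ (b + 1)) :
    mas u (shl d (s * (2 : ℝ) ^ j) (t * (2 : ℝ) ^ j)) ≤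
      ∑ k ∈ Finset.Icc a b, mas u (dsh d (j + k)) :=
  dy_cover hu.norm_sq_int (fun _ => by positivity) j a b hs ht

private lemma dy_ena_cover (S : Setup d F) {u : Cfg d → F} (hu : Setup.Tst u) (j a b : ℤ)
    {s t : ℝ} (hs : (2 : ℝ) ^ a ≤ s) (ht : t ≤ (2 : ℝ) ^ (b + 1)) :
    ena S u (shl d (s * (2 : ℝ) ^ j) (t * (2 : ℝ) ^ j)) ≤
      ∑ k ∈ Finset.Icc a b, ena S u (dsh d (j + k)) := by
  unfold ena
  rw [Finset.sum_comm]
  exact Finset.sum_le_sum fun β _ =>
    dy_cover (hu.Q S β).norm_sq_int (fun _ => by positivity) j a b hs ht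

private lemma dy_bounds (s t : ℝ) (hs : 0 < s) (ht : 0 < t) : ∃ a b : ℤ, (2 : ℝ) ^ a ≤ s ∧
    t ≤ (2 : ℝ) ^ (b + 1) := by
  obtain ⟨a, ha, _⟩ := exists_mem_Ico_zpow hs (by norm_num : (1 : ℝ) < 2)
  obtain ⟨b, _, hb⟩ := exists_mem_Ico_zpow ht (by norm_num : (1 : ℝ) < 2)
  exact ⟨a, b, ha, hb.le⟩

/-! ### The engine -/

/-- What the normalised counterexamples satisfy, and the contradiction. -/
private lemma dy_core (S : Setup d F) (hNC : NonCommStmt S) (hNA : NulAllStmt S) (hSh : ShellStmt S)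
    [FiniteDimensional ℂ F] (PZ : Cfg d → (ℕ → ℝ) → (ℕ → Cfg d → F) → Prop) (hLoc : LocHyp S PZ)
    (hLio : LioHyp S PZ) (v : ℕ → Cfg d → F) (hv : ∀ n, GInv S (v n)) (j : ℕ → ℤ)
    (hj : ∀ n : ℕ, (n : ℤ) ≤ j n) (B : ℝ)
    (hm : ∀ n k, mas (v n) (dsh d (j n + k)) ≤ B * (2 : ℝ) ^ (3 * |k|))
    (he : ∀ n k, (4 : ℝ) ^ (j n + k) * ena S (v n) (dsh d (j n + k)) ≤
      (2 : ℝ) ^ (3 * |k|) / ((n : ℝ) + 1))
    (h1 : ∀ n, mas (v n) (dsh d (j n)) = 1) : False := by
  set R : ℕ → ℝ := fun n => (2 : ℝ) ^ (j n) with hR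
  have hRpos : ∀ n, 0 < R n := fun n => by simp only [hR]; positivity
  have hR2 : ∀ n, R n ^ 2 = (4 : ℝ) ^ (j n) := fun n => by
    simp only [hR]
    rw [dy_four, ← zpow_natCast, ← zpow_mul]
    congr 1
    push_cast
    ring
  -- energy of a shell
  have hen : ∀ s t : ℝ, 0 < s → s < t → ∃ C : ℝ, 0 ≤ C ∧ ∀ n,
      R n ^ 2 * ena S (v n) (shl d (s * R n) (t * R n)) ≤ C * (1 / ((n : ℝ) + 1)) := by
    intro s t hs hst
    obtain ⟨a, b, ha, hb⟩ := dy_bounds s t hs (hs.trans hst)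
    refine ⟨∑ k ∈ Finset.Icc a b, (4 : ℝ) ^ (-k) * (2 : ℝ) ^ (3 * |k|),
      Finset.sum_nonneg fun _ _ => by positivity, fun n => ?_⟩
    have h2 := dy_ena_cover S (hv n).1 (j n) a b ha hb
    have h3 := mul_le_mul_of_nonneg_left h2 (sq_nonneg (R n))
    refine h3.trans ?_
    rw [Finset.mul_sum, Finset.sum_mul]
    refine Finset.sum_le_sum fun k _ => ?_
    have h4 := mul_le_mul_of_nonneg_left (he n k) (by positivity : (0 : ℝ) ≤ (4 : ℝ) ^ (-k))
    have e1 : (4 : ℝ) ^ (-k) * ((4 : ℝ) ^ (j n + k) * ena S (v n) (dsh d (j n + k))) =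
        R n ^ 2 * ena S (v n) (dsh d (j n + k)) := by
      rw [hR2, ← mul_assoc, ← zpow_add₀ (by norm_num : (4 : ℝ) ≠ 0)]
      congr 2
      ring
    rw [e1] at h4
    refine h4.trans (le_of_eq ?_)
    ring
  have hma : ∀ s t : ℝ, 0 < s → s < t → ∃ C : ℝ, ∀ n,
      mas (v n) (shl d (s * R n) (t * R n)) ≤ C := by
    intro s t hs hst
    obtain ⟨a, b, ha, hb⟩ := dy_bounds s t hs (hs.trans hst)
    refine ⟨∑ k ∈ Finset.Icc a b, B * (2 : ℝ) ^ (3 * |k|), fun n => ?_⟩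
    exact (dy_mas_cover (hv n).1 (j n) a b ha hb).trans (Finset.sum_le_sum fun k _ => hm n k)
  have hSq : Sq S R v := by
    refine ⟨hv, hRpos, ?_, ?_⟩
    · have h2 : Tendsto (fun n : ℕ => (2 : ℝ) ^ n) atTop atTop :=
        tendsto_pow_atTop_atTop_of_one_lt (by norm_num)
      refine tendsto_atTop_mono (fun n => ?_) h2
      simp only [hR]
      rw [← zpow_natCast]
      exact zpow_le_zpow_right₀ (by norm_num) (hj n)
    · intro s t hs hst
      obtain ⟨C1, hC1, h2⟩ := hen s t hs hst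
      obtain ⟨C2, h3⟩ := hma s t hs hst
      refine ⟨C2 + C1, fun n => add_le_add (h3 n) ((h2 n).trans ?_)⟩
      have h4 : 1 / ((n : ℝ) + 1) ≤ 1 := by
        rw [div_le_one (by positivity)]
        have : (0 : ℝ) ≤ n := Nat.cast_nonneg n
        linarith
      calc C1 * (1 / ((n : ℝ) + 1)) ≤ C1 * 1 := mul_le_mul_of_nonneg_left h4 hC1
        _ = C1 := mul_one _
  have hgr : ∀ k : ℤ, ∀ n,
      mas (v n) (shl d ((2 : ℝ) ^ k * R n) ((2 : ℝ) ^ (k + 1) * R n)) ≤ B * (2 : ℝ) ^ (3 * |k|) := by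
    intro k n
    have e1 : shl d ((2 : ℝ) ^ k * R n) ((2 : ℝ) ^ (k + 1) * R n) = dsh d (j n + k) := by
      unfold dsh
      simp only [hR]
      rw [← zpow_add₀ (by norm_num : (2 : ℝ) ≠ 0), ← zpow_add₀ (by norm_num : (2 : ℝ) ≠ 0)]
      congr 2 <;> ring
    rw [e1]
    exact hm n k
  have hvan : ∀ s t : ℝ, 0 < s → s < t →
      Tendsto (fun n => R n ^ 2 * ena S (v n) (shl d (s * R n) (t * R n))) atTop (𝓝 0) := by
    intro s t hs hst
    obtain ⟨C, _, h2⟩ := hen s t hs hst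
    refine squeeze_zero (fun n => mul_nonneg (sq_nonneg _) (dy_ena_nonneg S _ _)) h2 ?_
    have h3 := (tendsto_one_div_add_atTop_nhds_zero_nat (𝕜 := ℝ)).const_mul C
    simpa using h3
  have hnul : ∀ Y, Y ≠ 0 → Nul R v Y := by
    refine hNA hNC inferInstance PZ hLoc R v hSq fun Y hY hVY k hk => ?_
    refine hLio (fun n => R (k n)) (fun n => v (k n)) ?_ ⟨B, fun m => ?_⟩ ?_ Y hY hVY
    · exact ⟨fun n => hSq.inv (k n), fun n => hSq.pos (k n), hSq.lim.comp hk.tendsto_atTop,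
        fun s t hs hst => by
          obtain ⟨C, hC⟩ := hSq.bd s t hs hst
          exact ⟨C, fun n => hC (k n)⟩⟩
    · exact Eventually.of_forall fun n => hgr m (k n)
    · intro s t hs hst
      exact (hvan s t hs hst).comp hk.tendsto_atTop
  have hfin := hSh R v hSq hnul 1 2 one_pos (by norm_num)
  have e2 : (fun n => mas (v n) (shl d (1 * R n) (2 * R n))) = fun _ => (1 : ℝ) := by
    funext n
    have e3 : shl d (1 * R n) (2 * R n) = dsh d (j n) := by
      unfold dsh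
      simp only [hR]
      rw [zpow_add₀ (by norm_num : (2 : ℝ) ≠ 0), zpow_one, one_mul, mul_comm]
    rw [e3]
    exact h1 n
  rw [e2] at hfin
  exact one_ne_zero (tendsto_nhds_unique tendsto_const_nhds hfin)

/-- **D4** -/
theorem dyOf (S : Setup d F) : DyOfStmt S := by
  intro hNC hNA hSh hF PZ hLoc hLio θ hθ
  by_contra hcon
  push Not at hcon
  choose u hu j hj hlt using fun n : ℕ => hcon n ((n : ℝ) + 1) (by positivity)
  have ht1 : ∀ n, Summable fun k : ℤ => if k = 0 then 0 else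
      (2 : ℝ) ^ (-(3 * |k|)) * mas (u n) (dsh d (j n + k)) := fun n =>
    dy_summ1 (m := fun k => mas (u n) (dsh d k)) (fun _ => dy_mas_nonneg _ _)
      (fun _ => dy_mas_le (hu n).1 _) (j n)
  have ht2 : ∀ n, Summable fun k : ℤ =>
      (2 : ℝ) ^ (-(3 * |k|)) * ((4 : ℝ) ^ (j n + k) * ena S (u n) (dsh d (j n + k))) := fun n =>
    dy_summ2 (e := fun k => ena S (u n) (dsh d k)) (fun _ => dy_ena_nonneg _ _ _)
      (fun _ => dy_ena_le S (hu n).1 _) (j n)
  have hn1 : ∀ n, 0 ≤ ∑' k : ℤ, (if k = 0 then 0 else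
      (2 : ℝ) ^ (-(3 * |k|)) * mas (u n) (dsh d (j n + k))) := fun n => by
    refine tsum_nonneg fun k => ?_
    split_ifs
    · exact le_rfl
    · exact mul_nonneg (by positivity) (dy_mas_nonneg _ _)
  have hn2 : ∀ n, 0 ≤ ∑' k : ℤ,
      (2 : ℝ) ^ (-(3 * |k|)) * ((4 : ℝ) ^ (j n + k) * ena S (u n) (dsh d (j n + k))) := fun n =>
    tsum_nonneg fun k => mul_nonneg (by positivity) (mul_nonneg (by positivity)
      (dy_ena_nonneg _ _ _))
  have hM : ∀ n, 0 < mas (u n) (dsh d (j n)) := fun n => by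
    have h1 := mul_nonneg hθ.le (hn1 n)
    have h2 := mul_nonneg (by positivity : (0 : ℝ) ≤ (n : ℝ) + 1) (hn2 n)
    have := hlt n
    linarith
  set c : ℕ → ℝ := fun n => (√(mas (u n) (dsh d (j n))))⁻¹ with hc
  have hc2 : ∀ n, c n ^ 2 = (mas (u n) (dsh d (j n)))⁻¹ := fun n => by
    simp only [hc]
    rw [inv_pow, Real.sq_sqrt (hM n).le]
  refine dy_core S hNC hNA hSh PZ hLoc hLio (fun n y => ((c n : ℝ) : ℂ) • u n y)
    (fun n => dy_GInv (hu n) (c n)) j hj (1 + θ⁻¹) ?_ ?_ ?_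
  · intro n k
    rw [dy_mas, hc2]
    by_cases hk : k = 0
    · subst hk
      rw [add_zero, inv_mul_cancel₀ (hM n).ne']
      simp only [abs_zero, mul_zero, zpow_zero, mul_one]
      have := inv_pos.2 hθ
      linarith
    · have h1 := (ht1 n).le_tsum k (fun i _ => by
        split_ifs
        · exact le_rfl
        · exact mul_nonneg (by positivity) (dy_mas_nonneg _ _))
      rw [if_neg hk] at h1
      have h2 := mul_le_mul_of_nonneg_left h1 hθ.le
      have h3 := mul_nonneg (by positivity : (0 : ℝ) ≤ (n : ℝ) + 1) (hn2 n)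
      have h4 : θ * ((2 : ℝ) ^ (-(3 * |k|)) * mas (u n) (dsh d (j n + k))) ≤
          mas (u n) (dsh d (j n)) := by
        have := hlt n
        linarith
      have h5 : mas (u n) (dsh d (j n + k)) ≤
          θ⁻¹ * (2 : ℝ) ^ (3 * |k|) * mas (u n) (dsh d (j n)) := by
        have h6 := mul_le_mul_of_nonneg_left h4
          (by positivity : (0 : ℝ) ≤ θ⁻¹ * (2 : ℝ) ^ (3 * |k|))
        have e1 : θ⁻¹ * (2 : ℝ) ^ (3 * |k|) *
            (θ * ((2 : ℝ) ^ (-(3 * |k|)) * mas (u n) (dsh d (j n + k)))) =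
            mas (u n) (dsh d (j n + k)) := by
          rw [zpow_neg]
          have : (2 : ℝ) ^ (3 * |k|) ≠ 0 := by positivity
          field_simp
        rwa [e1] at h6
      rw [inv_mul_le_iff₀ (hM n)]
      refine h5.trans ?_
      have h7 : 0 ≤ (2 : ℝ) ^ (3 * |k|) * mas (u n) (dsh d (j n)) :=
        mul_nonneg (by positivity) (hM n).le
      nlinarith
  · intro n k
    rw [dy_ena S (c n) (fun x => (hu n).1.diff x), hc2]
    have h1 := (ht2 n).le_tsum k (fun i _ => mul_nonneg (by positivity)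
      (mul_nonneg (by positivity) (dy_ena_nonneg _ _ _)))
    have h2 := mul_le_mul_of_nonneg_left h1 (by positivity : (0 : ℝ) ≤ (n : ℝ) + 1)
    have h3 := mul_nonneg hθ.le (hn1 n)
    have h4 : ((n : ℝ) + 1) * ((2 : ℝ) ^ (-(3 * |k|)) *
        ((4 : ℝ) ^ (j n + k) * ena S (u n) (dsh d (j n + k)))) ≤ mas (u n) (dsh d (j n)) := by
      have := hlt n
      linarith
    have h6 := mul_le_mul_of_nonneg_left h4
      (by positivity : (0 : ℝ) ≤ (2 : ℝ) ^ (3 * |k|) / ((n : ℝ) + 1))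
    have e1 : (2 : ℝ) ^ (3 * |k|) / ((n : ℝ) + 1) * (((n : ℝ) + 1) * ((2 : ℝ) ^ (-(3 * |k|)) *
        ((4 : ℝ) ^ (j n + k) * ena S (u n) (dsh d (j n + k))))) =
        (4 : ℝ) ^ (j n + k) * ena S (u n) (dsh d (j n + k)) := by
      rw [zpow_neg]
      have : (2 : ℝ) ^ (3 * |k|) ≠ 0 := by positivity
      have h' : (n : ℝ) + 1 ≠ 0 := by positivity
      field_simp
    rw [e1] at h6
    calc (4 : ℝ) ^ (j n + k) * ((mas (u n) (dsh d (j n)))⁻¹ * ena S (u n) (dsh d (j n + k)))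
        = (mas (u n) (dsh d (j n)))⁻¹ * ((4 : ℝ) ^ (j n + k) * ena S (u n) (dsh d (j n + k))) := by
          ring
      _ ≤ (mas (u n) (dsh d (j n)))⁻¹ *
          ((2 : ℝ) ^ (3 * |k|) / ((n : ℝ) + 1) * mas (u n) (dsh d (j n))) :=
          mul_le_mul_of_nonneg_left h6 (inv_nonneg.2 (hM n).le)
      _ = (2 : ℝ) ^ (3 * |k|) / ((n : ℝ) + 1) := by
          have := (hM n).ne'
          field_simp
  · intro n
    rw [dy_mas, hc2, inv_mul_cancel₀ (hM n).ne']

end Vale.Agent.P353.Z.AD
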