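import Vale.Agent.P353.AN.D.StmtL
import Vale.Agent.P353.AN.A.Norm
import Vale.Agent.P353.AN.A.TubeF
import Vale.Agent.P353.AN.A.Inj
import Vale.Agent.P353.AN.A.Dexp

/-! # P353, all `N`, block D: the far part of the slice (L3) -/

open MeasureTheory Filter Topology Matrix
open scoped ContDiff

namespace Vale.Agent.P353.Z.AD

variable {d dh dm ds dz : ℕ} {F : Type*} [NormedAddCommGroup F] [InnerProductSpace ℂ F]

theorem far_cont_exm (φ : Spl dh dm d) : Continuous (AN.exm φ) := by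
  unfold AN.exm
  refine continuous_pi fun A => ?_
  rcases φ.symm A with a | b
  · simp only [Sum.elim_inl]
    exact continuous_const
  · simp only [Sum.elim_inr]
    fun_prop

theorem far_cont_tub (S : Setup d F) (φ : Spl dh dm d) :
    Continuous fun q : EuclideanSpace ℝ (Fin dm) × (Cfg dh × Wsp dm) => AN.tub S φ q.1 q.2 := by
  have h1 := (AN.dexp_stmt S).2.1.continuous
  exact h1.comp (((far_cont_exm φ).comp continuous_fst).prodMk
    ((AN.tbf_continuous_emb φ).comp continuous_snd))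

theorem far_cont_sp (ψ : Spl ds dz dh) : Continuous (sp ψ) := by
  unfold sp
  exact (PiLp.continuous_toLp 2 _).comp (continuous_pi fun p => by fun_prop)

theorem far_sp_smul (ψ : Spl ds dz dh) (c : ℝ) (y : Cfg dh) : sp ψ (c • y) = c • sp ψ y := by
  ext p
  rfl

theorem far_emb_ne (φ : Spl dh dm d) (ψ : Spl ds dz dh) (y : Cfg dh) (w : Wsp dm) (h : sp ψ y ≠ 0) :
    emb φ y w ≠ 0 := by
  intro h0
  apply h
  ext p
  have h1 : (emb φ y w) (p.1, φ (Sum.inl (ψ (Sum.inl p.2)))) = y (p.1, ψ (Sum.inl p.2)) := by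
    simp [emb]
  rw [h0] at h1
  show y (p.1, ψ (Sum.inl p.2)) = 0
  rw [← h1]
  rfl

omit [InnerProductSpace ℂ F] in
/-- finite cover of a compact set of null points -/
theorem far_cover {R : ℕ → ℝ} {u : ℕ → Cfg d → F} {K : Set (Cfg d)} (hK : IsCompact K)
    (hN : ∀ x ∈ K, Nul R u x) : ∃ (t : Finset (Cfg d)) (e : Cfg d → ℝ),
      (∀ x ∈ t, NulE R u x (e x)) ∧ K ⊆ ⋃ x ∈ t, Metric.ball x (e x) := by
  classical
  choose! e he1 he2 using hN
  obtain ⟨t, ht1, ht2⟩ := hK.elim_nhds_subcover (fun x => Metric.ball x (e x))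
    (fun x hx => Metric.ball_mem_nhds x (he1 x hx))
  exact ⟨t, e, fun x hx => he2 x (ht1 x hx), ht2⟩

theorem far_mas_eq {u : Cfg d → F} (hu : Setup.Tst u) (A : Set (Cfg d)) :
    mas u A = (∫⁻ x in A, ENNReal.ofReal (‖u x‖ ^ 2)).toReal := by
  unfold mas
  rw [integral_eq_lintegral_of_nonneg_ae (Eventually.of_forall fun x => sq_nonneg _)
      (hu.1.continuous.norm.pow 2).aestronglyMeasurable]

theorem far_fin {u : Cfg d → F} (hu : Setup.Tst u) (A : Set (Cfg d)) :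
    ∫⁻ x in A, ENNReal.ofReal (‖u x‖ ^ 2) ≠ ⊤ := by
  have hc : Continuous fun x => ‖u x‖ ^ 2 := hu.1.continuous.norm.pow 2
  have hs : HasCompactSupport fun x => ‖u x‖ ^ 2 := by
    have h1 : HasCompactSupport fun x => ‖u x‖ := hu.2.norm
    simpa [Function.comp_def] using h1.comp_left (g := fun t : ℝ => t ^ 2) (by norm_num)
  have hi : Integrable (fun x => ‖u x‖ ^ 2) := hc.integrable_of_hasCompactSupport hs
  have h1 := (hi.restrict (s := A)).lintegral_lt_top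
  exact h1.ne

/-- the estimate at one scale -/
theorem far_est (S : Setup d F) (φ : Spl dh dm d) (ψ : Spl ds dz dh) (y₀ : Cfg dh)
    {R ε ρ η c : ℝ} (hR : 0 < R) (hρ : 0 < ρ) (hc : 0 < c)
    (hinj : ∀ a a' p p', ‖a‖ < ρ → ‖a'‖ < ρ → p ∈ AN.Nb y₀ dm R ε → p' ∈ AN.Nb y₀ dm R ε →
        AN.tub S φ a p = AN.tub S φ a' p' → a = a' ∧ p = p')
    (hint : ∀ f : Cfg d → ENNReal, Measurable f →
      (∀ a p, ‖a‖ < ρ → p ∈ AN.Nb y₀ dm R ε → f (AN.tub S φ a p) = f (emb φ p.1 p.2)) →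
        ∫⁻ x in AN.Tube S φ y₀ R ε ρ, f x =
          ENNReal.ofReal c * ∫⁻ p in AN.Nb y₀ dm R ε, f (emb φ p.1 p.2) *
            ENNReal.ofReal (S.Jd φ p.1) ∂(volume.prod volume))
    {u : Cfg d → F} (hu : Setup.Tst u) (hG : ∀ C x, S.G C u x = 0)
    (t : Finset (Cfg d)) (e : Cfg d → ℝ)
    (hcov : ∀ (a : EuclideanSpace ℝ (Fin dm)) (p : Cfg dh × Wsp dm), ‖a‖ < ρ → p ∈ AN.Nb y₀ dm 1 ε →
      η ≤ ‖sp ψ p.1‖ → AN.tub S φ a p ∈ ⋃ x ∈ t, Metric.ball x (e x)) :
    c * ∫ p in AN.Nb y₀ dm R ε ∩ {p | η * R ≤ ‖sp ψ p.1‖},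
      ‖S.res φ u p.1 p.2‖ ^ 2 ∂((volume : Measure (Cfg dh)).prod (volume : Measure (Wsp dm))) ≤
      ∑ x ∈ t, mas u (Metric.ball (R • x) (e x * R)) := by
  classical
  have hcu : Continuous u := hu.1.continuous
  have hmu : Measurable fun x => ENNReal.ofReal (‖u x‖ ^ 2) :=
    (ENNReal.continuous_ofReal.comp (hcu.norm.pow 2)).measurable
  set far : Set (Cfg dh × Wsp dm) := {p | η * R ≤ ‖sp ψ p.1‖} with hfar
  have hfm : MeasurableSet far :=
    (isClosed_le continuous_const ((far_cont_sp ψ).comp continuous_fst).norm).measurableSet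
  have hNm : MeasurableSet (AN.Nb y₀ dm R ε) := by
    have e1 : IsOpen {p : Cfg dh × Wsp dm | ‖p.1 - R • y₀‖ < ε * R} :=
      isOpen_lt (continuous_fst.sub continuous_const).norm continuous_const
    have e2 : IsOpen {p : Cfg dh × Wsp dm | ‖p.2‖ < ε * R} :=
      isOpen_lt continuous_snd.norm continuous_const
    exact (e1.inter e2).measurableSet
  set B : Set (EuclideanSpace ℝ (Fin dm) × (Cfg dh × Wsp dm)) :=
    Metric.ball 0 ρ ×ˢ (AN.Nb y₀ dm R ε ∩ far) with hB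
  have hBm : MeasurableSet B := measurableSet_ball.prod (hNm.inter hfm)
  set T : Set (Cfg d) := (fun q : EuclideanSpace ℝ (Fin dm) × (Cfg dh × Wsp dm) =>
    AN.tub S φ q.1 q.2) '' B with hT
  have hTm : MeasurableSet T := by
    refine hBm.image_of_continuousOn_injOn (far_cont_tub S φ).continuousOn ?_
    rintro ⟨a, p⟩ ⟨ha, hp⟩ ⟨a', p'⟩ ⟨ha', hp'⟩ h
    obtain ⟨h1, h2⟩ := hinj a a' p p' (by simpa using ha) (by simpa using ha') hp.1 hp'.1 h
    rw [h1, h2]
  have hTmem : ∀ a p, ‖a‖ < ρ → p ∈ AN.Nb y₀ dm R ε → (AN.tub S φ a p ∈ T ↔ p ∈ far) := by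
    intro a p ha hp
    constructor
    · rintro ⟨⟨a', p'⟩, ⟨ha', hp'⟩, h⟩
      obtain ⟨-, h2⟩ := hinj a' a p' p (by simpa using ha') ha hp'.1 hp h
      rw [← h2]
      exact hp'.2
    · intro h
      exact ⟨(a, p), ⟨by simpa using ha, hp, h⟩, rfl⟩
  set f : Cfg d → ENNReal := T.indicator fun x => ENNReal.ofReal (‖u x‖ ^ 2) with hf
  have hfmeas : Measurable f := hmu.indicator hTm
  have hemb : ∀ p, p ∈ AN.Nb y₀ dm R ε → (emb φ p.1 p.2 ∈ T ↔ p ∈ far) := by
    intro p hp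
    rw [← AN.ij_tub_zero S φ p]
    exact hTmem 0 p (by simpa using hρ) hp
  have h1 := hint f hfmeas (by
    intro a p ha hp
    have h := U.gx983_norm S hu hG (AN.exm φ a) 1 (emb φ p.1 p.2)
    rw [one_smul] at h
    by_cases hpf : p ∈ far
    · rw [hf, Set.indicator_of_mem ((hTmem a p ha hp).2 hpf),
        Set.indicator_of_mem ((hemb p hp).2 hpf)]
      show ENNReal.ofReal (‖u (ro (NormedSpace.exp (S.adm (AN.exm φ a))) (emb φ p.1 p.2))‖ ^ 2) = _
      rw [h]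
    · rw [hf, Set.indicator_of_notMem fun hh => hpf ((hTmem a p ha hp).1 hh),
        Set.indicator_of_notMem fun hh => hpf ((hemb p hp).1 hh)])
  -- right-hand side
  have h2 : ∫⁻ p in AN.Nb y₀ dm R ε, f (emb φ p.1 p.2) *
      ENNReal.ofReal (S.Jd φ p.1) ∂((volume : Measure (Cfg dh)).prod (volume : Measure (Wsp dm))) =
      ∫⁻ p in AN.Nb y₀ dm R ε ∩ far, ENNReal.ofReal (‖S.res φ u p.1 p.2‖ ^ 2)
        ∂((volume : Measure (Cfg dh)).prod (volume : Measure (Wsp dm))) := by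
    rw [Set.inter_comm, ← setLIntegral_indicator hfm]
    refine setLIntegral_congr_fun hNm fun p hp => ?_
    by_cases hpf : p ∈ far
    · simp only [hf]
      rw [Set.indicator_of_mem ((hemb p hp).2 hpf), Set.indicator_of_mem hpf, AN.nrm_res_sq,
        ENNReal.ofReal_mul (sq_nonneg _)]
    · simp only [hf]
      rw [Set.indicator_of_notMem fun hh => hpf ((hemb p hp).1 hh), Set.indicator_of_notMem hpf,
        zero_mul]
  -- left-hand side
  have h3 : ∫⁻ x in AN.Tube S φ y₀ R ε ρ, f x ≤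
      ∑ x ∈ t, ∫⁻ z in Metric.ball (R • x) (e x * R), ENNReal.ofReal (‖u z‖ ^ 2) := by
    refine (setLIntegral_le_lintegral _ _).trans ?_
    have h4 : ∀ z, f z ≤ ∑ x ∈ t, (Metric.ball (R • x) (e x * R)).indicator
        (fun z => ENNReal.ofReal (‖u z‖ ^ 2)) z := by
      intro z
      by_cases hz : z ∈ T
      · obtain ⟨⟨a, p⟩, ⟨ha, hp⟩, hq⟩ := hz
        have ha' : ‖a‖ < ρ := by simpa using ha
        have hp1 : R⁻¹ • p ∈ AN.Nb y₀ dm 1 ε := by
          rw [← AN.tbf_nb hR, smul_inv_smul₀ hR.ne']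
          exact hp.1
        have hp2 : η ≤ ‖sp ψ (R⁻¹ • p).1‖ := by
          rw [Prod.smul_fst, far_sp_smul, norm_smul, Real.norm_of_nonneg (inv_pos.2 hR).le]
          have h5 : η * R ≤ ‖sp ψ p.1‖ := hp.2
          rw [inv_mul_eq_div, le_div_iff₀ hR]
          exact h5
        have h6 := hcov a (R⁻¹ • p) ha' hp1 hp2
        obtain ⟨x, hx, hxb⟩ := Set.mem_iUnion₂.1 h6
        have h7 : z ∈ Metric.ball (R • x) (e x * R) := by
          have h8 : z = R • AN.tub S φ a (R⁻¹ • p) := by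
            rw [← AN.tbf_tub_smul, smul_inv_smul₀ hR.ne']
            exact hq.symm
          rw [h8, Metric.mem_ball, dist_smul₀, Real.norm_of_nonneg hR.le, mul_comm (e x)]
          exact mul_lt_mul_of_pos_left hxb hR
        calc f z ≤ ENNReal.ofReal (‖u z‖ ^ 2) := Set.indicator_le_self _ _ _
          _ = (Metric.ball (R • x) (e x * R)).indicator
              (fun z => ENNReal.ofReal (‖u z‖ ^ 2)) z := by rw [Set.indicator_of_mem h7]
          _ ≤ _ := Finset.single_le_sum (f := fun x => (Metric.ball (R • x) (e x * R)).indicator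
              (fun z => ENNReal.ofReal (‖u z‖ ^ 2)) z) (fun _ _ => zero_le) hx
      · rw [hf, Set.indicator_of_notMem hz]
        exact zero_le
    refine (lintegral_mono h4).trans ?_
    rw [lintegral_finsetSum t fun x _ => hmu.indicator measurableSet_ball]
    refine Finset.sum_le_sum fun x _ => ?_
    rw [lintegral_indicator measurableSet_ball]
  rw [h1, h2] at h3
  have hsum : ∑ x ∈ t, ∫⁻ z in Metric.ball (R • x) (e x * R), ENNReal.ofReal (‖u z‖ ^ 2) ≠ ⊤ :=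
    (ENNReal.sum_lt_top.2 fun x _ => (far_fin hu _).lt_top).ne
  have h5 := ENNReal.toReal_mono hsum h3
  rw [ENNReal.toReal_mul, ENNReal.toReal_ofReal hc.le,
    ENNReal.toReal_sum fun x _ => far_fin hu _] at h5
  have hce : Continuous fun p : Cfg dh × Wsp dm => ‖S.res φ u p.1 p.2‖ ^ 2 := by
    simp only [AN.nrm_res_sq]
    exact ((hcu.comp (AN.tbf_continuous_emb φ)).norm.pow 2).mul
      ((AN.tbf_continuous_Jd S φ).comp continuous_fst)
  rw [integral_eq_lintegral_of_nonneg_ae (Eventually.of_forall fun p => sq_nonneg _)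
    hce.aestronglyMeasurable]
  refine h5.trans (le_of_eq ?_)
  exact Finset.sum_congr rfl fun x _ => (far_mas_eq hu _).symm

/-- **L3** -/
theorem farOf (S : Setup d F) : FarOfStmt S := by
  intro hGeo hTube _ dh dm ds dz φ ψ z₀ hstd
  obtain ⟨-, hless, hexp⟩ := hGeo dh dm ds dz φ ψ z₀ hstd
  obtain ⟨ε₁, ρ, hε₁, hρ, hT⟩ := hTube dh dm φ (cmb ψ 0 z₀) hstd.std
  obtain ⟨ε₂, hε₂, hdet⟩ := AN.nrm_det_ne S φ (cmb ψ 0 z₀) hstd.std.inv
  refine ⟨min ε₁ (ε₂ / 2), lt_min hε₁ (half_pos hε₂), ?_⟩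
  intro ε hε hεle η hη R u hSq hV hcd
  obtain ⟨c, δ, hc, -, hR⟩ := hT ε ρ hε (hεle.trans (min_le_left _ _)) hρ le_rfl
  -- the compact set
  set C : Set (EuclideanSpace ℝ (Fin dm) × (Cfg dh × Wsp dm)) :=
    Metric.closedBall 0 ρ ×ˢ ((Metric.closedBall (cmb ψ 0 z₀) ε ∩ {y | η ≤ ‖sp ψ y‖}) ×ˢ
      Metric.closedBall 0 ε) with hC
  have hCc : IsCompact C := by
    refine (isCompact_closedBall _ _).prod (IsCompact.prod ?_ (isCompact_closedBall _ _))
    exact (isCompact_closedBall _ _).inter_right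
      (isClosed_le continuous_const (far_cont_sp ψ).norm)
  have hK := hCc.image (far_cont_tub S φ)
  have hNul : ∀ x ∈ (fun q : EuclideanSpace ℝ (Fin dm) × (Cfg dh × Wsp dm) =>
      AN.tub S φ q.1 q.2) '' C, Nul R u x := by
    rintro x ⟨⟨a, y, w⟩, ⟨-, ⟨hy1, hy2⟩, -⟩, rfl⟩
    have hsp : sp ψ y ≠ 0 := by
      intro h0
      have h1 : η ≤ ‖sp ψ y‖ := hy2
      rw [h0, norm_zero] at h1
      linarith
    obtain ⟨e1, e2, e3⟩ := hexp (AN.exm φ a) (emb φ y w)
    have hne : AN.tub S φ a (y, w) ≠ 0 := by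
      intro h0
      have h1 : ‖ro (NormedSpace.exp (S.adm (AN.exm φ a))) (emb φ y w)‖ = 0 := by
        show ‖AN.tub S φ a (y, w)‖ = 0
        rw [h0, norm_zero]
      rw [e3] at h1
      exact far_emb_ne φ ψ y w hsp (norm_eq_zero.1 h1)
    by_cases hVx : S.V (AN.tub S φ a (y, w)) = 0
    · refine hcd _ hne hVx ?_
      have h1 : S.V (emb φ y w) = 0 := by
        rw [← e1]
        exact hVx
      have h2 : (S.Dy φ 8 y).det ≠ 0 := by
        refine hdet 1 y one_pos ?_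
        have h3 : dist y (cmb ψ 0 z₀) ≤ ε := hy1
        rw [dist_eq_norm] at h3
        rw [one_smul, mul_one]
        have h4 : ε ≤ ε₂ / 2 := hεle.trans (min_le_right _ _)
        linarith
      have h3 := hless y w h2 h1 hsp
      show cd S (ro (NormedSpace.exp (S.adm (AN.exm φ a))) (emb φ y w)) < dh
      rw [e2]
      exact h3
    · exact hV _ hVx
  obtain ⟨t, e, ht, hcov⟩ := far_cover hK hNul
  have hcov' : ∀ (a : EuclideanSpace ℝ (Fin dm)) (p : Cfg dh × Wsp dm), ‖a‖ < ρ →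
      p ∈ AN.Nb (cmb ψ 0 z₀) dm 1 ε → η ≤ ‖sp ψ p.1‖ →
      AN.tub S φ a p ∈ ⋃ x ∈ t, Metric.ball x (e x) := by
    intro a p ha hp hs
    refine hcov ⟨(a, p), ⟨?_, ⟨?_, hs⟩, ?_⟩, rfl⟩
    · simpa using ha.le
    · have h1 : ‖p.1 - (1 : ℝ) • cmb ψ 0 z₀‖ < ε * 1 := hp.1
      rw [one_smul, mul_one] at h1
      show dist p.1 (cmb ψ 0 z₀) ≤ ε
      rw [dist_eq_norm]
      exact h1.le
    · have h1 : ‖p.2‖ < ε * 1 := hp.2
      rw [mul_one] at h1
      simpa using h1.le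
  have hlim : Tendsto (fun n => c⁻¹ * ∑ x ∈ t, mas (u n) (Metric.ball (R n • x) (e x * R n))) atTop
      (𝓝 0) := by
    have h1 : Tendsto (fun n => ∑ x ∈ t, mas (u n) (Metric.ball (R n • x) (e x * R n))) atTop
        (𝓝 (∑ x ∈ t, (0 : ℝ))) := tendsto_finsetSum t fun x hx => ht x hx
    have h2 := h1.const_mul c⁻¹
    simpa using h2
  refine squeeze_zero (fun n => integral_nonneg fun p => sq_nonneg _) (fun n => ?_) hlim
  obtain ⟨-, -, hinj, hint⟩ := hR (R n) (hSq.pos n)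
  have h1 := far_est S φ ψ (cmb ψ 0 z₀) (hSq.pos n) hρ hc hinj hint (hSq.inv n).1 (hSq.inv n).2 t e
    hcov'
  rw [inv_mul_eq_div, le_div_iff₀ hc, mul_comm]
  exact h1

end Vale.Agent.P353.Z.AD
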