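import Vale.Agent.P353.AN.D.StmtL
import Vale.Agent.P353.AN.A.Dec
import Vale.Agent.P353.Z.U.Grp
import Vale.Agent.P353.Z.U.GrpExp

/-! # P353, all `N`, block D, L2: geometry near a standard position (helper221) -/

open MeasureTheory Filter Topology Matrix
open scoped ContDiff

namespace Vale.Agent.P353.Z.AD

variable {d dh dm ds dz r : ℕ} {F : Type*} [NormedAddCommGroup F] [InnerProductSpace ℂ F]

/-! ## (c) invariance under the colour group -/

lemma geo_br (S : Setup d F) {O : Matrix (Fin d) (Fin d) ℝ} (h : O.transpose * O = 1)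
    (hf : ∀ A B C, ∑ A', ∑ B', ∑ C', O A' A * O B' B * O C' C * S.f A' B' C' = S.f A B C)
    (v y : Fin d → ℝ) (C : Fin d) :
    ∑ A, ∑ B, S.f A B C * (∑ a, O A a * v a) * (∑ b, O B b * y b) =
      ∑ D, O C D * ∑ a, ∑ b, S.f a b D * v a * y b := by
  have h1 : ∀ A B, S.f A B C * (∑ a, O A a * v a) * (∑ b, O B b * y b) =
      ∑ a, ∑ b, (O A a * O B b * S.f C A B) * (v a * y b) := by
    intro A B
    rw [mul_assoc, Finset.sum_mul_sum, Finset.mul_sum]
    refine Finset.sum_congr rfl fun a _ => ?_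
    rw [Finset.mul_sum]
    refine Finset.sum_congr rfl fun b _ => ?_
    rw [S.f_cyc A B C, S.f_cyc B C A]
    ring
  simp only [h1]
  have h2 : ∑ A, ∑ B, ∑ a, ∑ b, (O A a * O B b * S.f C A B) * (v a * y b) =
      ∑ a, ∑ b, (∑ A, ∑ B, O A a * O B b * S.f C A B) * (v a * y b) := by
    have e1 : ∀ A, ∑ B, ∑ a, ∑ b, (O A a * O B b * S.f C A B) * (v a * y b) =
        ∑ a, ∑ b, ∑ B, (O A a * O B b * S.f C A B) * (v a * y b) := by
      intro A
      rw [Finset.sum_comm]
      exact Finset.sum_congr rfl fun B _ => Finset.sum_comm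
    simp only [e1]
    rw [Finset.sum_comm]
    refine Finset.sum_congr rfl fun a _ => ?_
    rw [Finset.sum_comm]
    refine Finset.sum_congr rfl fun b _ => ?_
    simp only [Finset.sum_mul]
  rw [h2]
  simp only [U.grp_f S h hf, Finset.mul_sum, Finset.sum_mul]
  rw [Finset.sum_congr rfl fun a _ => Finset.sum_comm]
  rw [Finset.sum_comm]
  refine Finset.sum_congr rfl fun D _ => Finset.sum_congr rfl fun a _ =>
    Finset.sum_congr rfl fun b _ => ?_
  rw [S.f_cyc a b D, S.f_cyc b D a]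
  ring

lemma geo_cz (S : Setup d F) {O : Matrix (Fin d) (Fin d) ℝ} (hO : O ∈ S.grp) {x : Cfg d}
    {v : Fin d → ℝ} (hv : v ∈ cz S x) : O *ᵥ v ∈ cz S (ro O x) := by
  intro i C
  have h1 := geo_br S hO.1 hO.2.1 v (fun B => x (i, B)) C
  have h2 : ∀ D, ∑ a, ∑ b, S.f a b D * v a * x (i, b) = 0 := fun D => hv i D
  simp only [h2, mul_zero, Finset.sum_const_zero] at h1
  exact h1

lemma geo_cd (S : Setup d F) {O : Matrix (Fin d) (Fin d) ℝ} (hO : O ∈ S.grp) (x : Cfg d) :
    cd S (ro O x) = cd S x := by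
  have h' : O * O.transpose = 1 := mul_eq_one_comm.1 hO.1
  let e : (Fin d → ℝ) ≃ₗ[ℝ] (Fin d → ℝ) := Matrix.toLin'OfInv hO.1 h'
  have he : ∀ v, e v = O *ᵥ v := fun v => Matrix.toLin'_apply O v
  have h1 : cz S (ro O x) = (cz S x).map (e : (Fin d → ℝ) →ₗ[ℝ] (Fin d → ℝ)) := by
    ext v
    rw [Submodule.mem_map]
    constructor
    · intro hv
      have hT := U.grp_transpose S hO
      have h2 := geo_cz S hT hv
      have h3 : ro O.transpose (ro O x) = x := by
        rw [← U.grp_ro_mul, hO.1, U.grp_ro_one]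
      rw [h3] at h2
      refine ⟨_, h2, ?_⟩
      change e (O.transpose *ᵥ v) = v
      rw [he, Matrix.mulVec_mulVec, h', Matrix.one_mulVec]
    · rintro ⟨u, hu, rfl⟩
      change e u ∈ _
      rw [he]
      exact geo_cz S hO hu
  unfold cd
  rw [h1]
  exact LinearEquiv.finrank_map_eq e _

theorem geo_c (S : Setup d F) (a : Fin d → ℝ) (x : Cfg d) :
    S.V (ro (NormedSpace.exp (S.adm a)) x) = S.V x ∧
    cd S (ro (NormedSpace.exp (S.adm a)) x) = cd S x ∧ ‖ro (NormedSpace.exp (S.adm a)) x‖ = ‖x‖ := by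
  have h : NormedSpace.exp (S.adm a) ∈ S.grp := by
    have := U.exp_mem S a 1
    rwa [one_smul] at this
  exact ⟨U.grp_V S h.1 h.2.1 x, geo_cd S h x, U.grp_norm h.1 x⟩

/-! ## (a), (b) centralisers -/

/-- the inclusion `h → ℝ^d` -/
noncomputable def geoI (φ : Spl dh dm d) : (Fin dh → ℝ) →ₗ[ℝ] (Fin d → ℝ) where
  toFun v A := Sum.elim v (fun _ => 0) (φ.symm A)
  map_add' u v := by
    funext A
    rcases h : φ.symm A with a | b <;> simp [h]
  map_smul' c v := by
    funext A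
    rcases h : φ.symm A with a | b <;> simp [h]

lemma geoI_inl (φ : Spl dh dm d) (v : Fin dh → ℝ) (A : Fin dh) : geoI φ v (φ (Sum.inl A)) = v A := by
  simp [geoI]

lemma geoI_inr (φ : Spl dh dm d) (v : Fin dh → ℝ) (A : Fin dm) : geoI φ v (φ (Sum.inr A)) = 0 := by
  simp [geoI]

lemma geoI_inj (φ : Spl dh dm d) : Function.Injective (geoI φ) := by
  intro u v h
  funext A
  rw [← geoI_inl φ u A, ← geoI_inl φ v A, h]

lemma geoI_range (φ : Spl dh dm d) : Module.finrank ℝ (LinearMap.range (geoI φ)) = dh := by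
  rw [LinearMap.finrank_range_of_inj (geoI_inj φ), Module.finrank_fin_fun]

lemma geoI_mem {φ : Spl dh dm d} {v : Fin d → ℝ} (h : ∀ B, v (φ (Sum.inr B)) = 0) :
    v ∈ LinearMap.range (geoI φ) := by
  refine ⟨fun A => v (φ (Sum.inl A)), ?_⟩
  funext A
  obtain ⟨a, rfl⟩ := φ.surjective A
  rcases a with a | b
  · rw [geoI_inl]
  · rw [geoI_inr, h]

/-- the centraliser of `emb y 0` is contained in `h` if `D_8 y` is invertible -/
lemma geo_le (S : Setup d F) {φ : Spl dh dm d} (hs : S.IsSub φ) {y : Cfg dh} (hy : (S.Dy φ 8 y).det ≠ 0) :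
    cz S (emb φ y 0) ≤ LinearMap.range (geoI φ) := by
  intro v hv
  have hw : ∀ i B, wt (0 : Wsp dm) i B = 0 := by
    intro i B
    refine Fin.lastCases ?_ (fun j => ?_) i
    · exact AN.dec_wt_last 0 B
    · rw [AN.dec_wt_cast]; rfl
  have h1 : ∀ c, ((fun B => v (φ (Sum.inr B))) ᵥ* S.Dy φ 8 y) c = 0 := by
    intro c
    have h2 := hv 8 (φ (Sum.inr c))
    rw [AN.dec_sum φ] at h2
    simp only [AN.dec_sum φ (fun C => S.f _ C _ * _ * _), AN.dec_emb_inl, AN.dec_emb_inr, hw, mul_zero,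
      Finset.sum_const_zero, add_zero, hs _ _ _, zero_mul, zero_add] at h2
    rw [← h2]
    simp only [Matrix.vecMul, dotProduct, Setup.Dy, Setup.Dm, Matrix.of_apply, Finset.mul_sum]
    refine Finset.sum_congr rfl fun B _ => Finset.sum_congr rfl fun A _ => ?_
    ring
  have h2 : (fun B => v (φ (Sum.inr B))) = 0 := by
    refine Matrix.eq_zero_of_vecMul_eq_zero hy ?_
    funext c
    exact h1 c
  exact geoI_mem fun B => congrFun h2 B

lemma geo_a (S : Setup d F) {φ : Spl dh dm d} {y : Cfg dh} (h : AN.Std S φ y) : cd S (emb φ y 0) = dh := by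
  have h1 : cz S (emb φ y 0) = LinearMap.range (geoI φ) := by
    refine le_antisymm (geo_le S h.sub h.inv) ?_
    rintro _ ⟨v, rfl⟩ i C
    have hw : ∀ i B, wt (0 : Wsp dm) i B = 0 := by
      intro i B
      refine Fin.lastCases ?_ (fun j => ?_) i
      · exact AN.dec_wt_last 0 B
      · rw [AN.dec_wt_cast]; rfl
    rw [AN.dec_sum φ]
    simp only [AN.dec_sum φ (fun B => S.f _ B _ * _ * _), AN.dec_emb_inl, AN.dec_emb_inr, hw, geoI_inl,
      geoI_inr, mul_zero, zero_mul, Finset.sum_const_zero, add_zero]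
    obtain ⟨c, rfl⟩ := φ.surjective C
    rcases c with c | c
    · refine Finset.sum_eq_zero fun A _ => ?_
      have h2 := h.cen i c A
      have h3 : ∀ B, S.f (φ (Sum.inl A)) (φ (Sum.inl B)) (φ (Sum.inl c)) * v A * y (i, B) =
          v A * (S.f (φ (Sum.inl B)) (φ (Sum.inl c)) (φ (Sum.inl A)) * y (i, B)) := by
        intro B
        rw [S.f_cyc (φ (Sum.inl A))]
        ring
      simp only [h3, ← Finset.mul_sum, h2, mul_zero]
    · refine Finset.sum_eq_zero fun A _ => Finset.sum_eq_zero fun B _ => ?_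
      rw [h.sub, zero_mul, zero_mul]
  unfold cd
  rw [h1, geoI_range]

/-- vanishing potential -/
lemma geo_FF (S : Setup d F) {x : Cfg d} (h : S.V x = 0) (A : Fin d) (i j : Fin 9) : S.FF A i j x = 0 := by
  unfold Setup.V at h
  have h1 : ∑ A, ∑ i, ∑ j, S.FF A i j x ^ 2 = 0 := by linarith
  have h2 := (Finset.sum_eq_zero_iff_of_nonneg fun A _ => Finset.sum_nonneg fun i _ =>
    Finset.sum_nonneg fun j _ => sq_nonneg (S.FF A i j x)).1 h1 A (Finset.mem_univ A)
  have h3 := (Finset.sum_eq_zero_iff_of_nonneg fun i _ =>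
    Finset.sum_nonneg fun j _ => sq_nonneg (S.FF A i j x)).1 h2 i (Finset.mem_univ i)
  have h4 := (Finset.sum_eq_zero_iff_of_nonneg fun j _ => sq_nonneg (S.FF A i j x)).1 h3 j
    (Finset.mem_univ j)
  exact pow_eq_zero_iff (two_ne_zero) |>.1 h4

lemma geo_w (S : Setup d F) {φ : Spl dh dm d} (hs : S.IsSub φ) {y : Cfg dh} {w : Wsp dm}
    (hy : (S.Dy φ 8 y).det ≠ 0) (h : S.V (emb φ y w) = 0) : w = 0 := by
  have h1 : ∀ j : Fin 8, (fun C => wt w j.castSucc C) = 0 := by
    intro j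
    refine Matrix.eq_zero_of_mulVec_eq_zero hy ?_
    funext A
    have h2 := geo_FF S h (φ (Sum.inr A)) 8 j.castSucc
    rw [AN.dec_FF_inr S hs] at h2
    simp only [Setup.FL, AN.dec_wt_last, mul_zero, zero_mul, Finset.sum_const_zero, sub_zero,
      add_zero] at h2
    exact (mul_eq_zero.1 h2).resolve_left S.κ_pos.ne'
  ext ⟨j, B⟩
  have := congrFun (h1 j) B
  rw [AN.dec_wt_cast] at this
  exact this

lemma geo_b (S : Setup d F) {φ : Spl dh dm d} {ψ : Spl ds dz dh} {z₀ : Cfg dz} (h : Std2 S φ ψ z₀)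
    {y : Cfg dh} {w : Wsp dm} (hy : (S.Dy φ 8 y).det ≠ 0) (hV : S.V (emb φ y w) = 0)
    (hs : sp ψ y ≠ 0) : cd S (emb φ y w) < dh := by
  have hw : w = 0 := geo_w S h.std.sub hy hV
  subst hw
  have h1 := geo_le S h.std.sub hy
  have h2 : cz S (emb φ y 0) ≠ LinearMap.range (geoI φ) := by
    intro heq
    apply hs
    ext ⟨i, A⟩
    have h3 : (fun A => sp ψ y (i, A)) = 0 := by
      refine h.less _ fun B C => ?_
      have h4 : geoI φ (Pi.single (ψ (Sum.inl B)) 1) ∈ cz S (emb φ y 0) := by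
        rw [heq]
        exact ⟨_, rfl⟩
      have h5 := h4 i (φ (Sum.inl (ψ (Sum.inl C))))
      have hw : ∀ i B, wt (0 : Wsp dm) i B = 0 := by
        intro i B
        refine Fin.lastCases ?_ (fun j => ?_) i
        · exact AN.dec_wt_last 0 B
        · rw [AN.dec_wt_cast]; rfl
      rw [AN.dec_sum φ] at h5
      simp only [AN.dec_sum φ (fun B => S.f _ B _ * _ * _), AN.dec_emb_inl, AN.dec_emb_inr, hw,
        geoI_inl, geoI_inr, mul_zero, zero_mul, Finset.sum_const_zero, add_zero] at h5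
      rw [Finset.sum_eq_single (ψ (Sum.inl B))] at h5
      · simp only [Pi.single_eq_same, mul_one] at h5
        rw [AN.dec_sum ψ] at h5
        have h6 : ∀ E, S.f (φ (Sum.inl (ψ (Sum.inl B)))) (φ (Sum.inl (ψ (Sum.inr E))))
            (φ (Sum.inl (ψ (Sum.inl C)))) = 0 := by
          intro E
          rw [S.f_cyc]
          exact h.cen _ _ _
        simp only [h6, zero_mul, Finset.sum_const_zero, add_zero] at h5
        have h7 : ∀ E, S.f (φ (Sum.inl (ψ (Sum.inl E)))) (φ (Sum.inl (ψ (Sum.inl B))))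
            (φ (Sum.inl (ψ (Sum.inl C)))) * sp ψ y (i, E) =
            -(S.f (φ (Sum.inl (ψ (Sum.inl B)))) (φ (Sum.inl (ψ (Sum.inl E))))
            (φ (Sum.inl (ψ (Sum.inl C)))) * y (i, ψ (Sum.inl E))) := by
          intro E
          rw [S.f_swap]
          simp [sp]
        simp only [h7, Finset.sum_neg_distrib, h5, neg_zero]
      · intro b _ hb
        simp only [Pi.single_eq_of_ne hb, mul_zero, zero_mul, Finset.sum_const_zero]
      · intro hn
        exact absurd (Finset.mem_univ _) hn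
    exact congrFun h3 A
  have h3 : cz S (emb φ y 0) < LinearMap.range (geoI φ) := lt_of_le_of_ne h1 h2
  have h4 := Submodule.finrank_lt_finrank_of_lt h3
  rw [geoI_range] at h4
  exact h4

/-- **L2** geometry near `Y` -/
theorem geo_all (S : Setup d F) : GeoStmt S := by
  intro dh dm ds dz φ ψ z₀ h
  exact ⟨geo_a S h.std, fun y w hy hV hs => geo_b S h hy hV hs, fun a x => geo_c S a x⟩

end Vale.Agent.P353.Z.AD
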