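import Vale.Agent.P353.AN.D.GnC

/-! # P353, all `N`, block D, L7: the normalised boson vacuum near a standard position -/

open MeasureTheory Filter Topology Matrix
open scoped ContDiff

namespace Vale.Agent.P353.Z.AD

set_option linter.unusedSectionVars false

variable {d dh dm ds dz : ℕ} {F : Type*} [NormedAddCommGroup F] [InnerProductSpace ℂ F]

namespace GnE

lemma cmb_apply (ψ : Spl ds dz dh) (yz : Cfg dz) (i : Fin 9) (A : Fin dh) :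
    cmb ψ 0 yz (i, A) = Sum.elim (fun _ => (0 : ℝ)) (fun B => yz (i, B)) (ψ.symm A) := rfl

lemma cmb_smul (ψ : Spl ds dz dh) (R : ℝ) (yz : Cfg dz) : cmb ψ 0 (R • yz) = R • cmb ψ 0 yz := by
  ext ⟨i, A⟩
  rw [PiLp.smul_apply, cmb_apply, cmb_apply]
  rcases ψ.symm A with a | b
  · simp
  · simp

lemma cmb_sub (ψ : Spl ds dz dh) (a b : Cfg dz) : cmb ψ 0 a - cmb ψ 0 b = cmb ψ 0 (a - b) := by
  ext ⟨i, A⟩
  rw [PiLp.sub_apply, cmb_apply, cmb_apply, cmb_apply]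
  rcases ψ.symm A with a | b
  · simp
  · simp

lemma cmb_norm (ψ : Spl ds dz dh) (yz : Cfg dz) : ‖cmb ψ 0 yz‖ = ‖yz‖ := by
  have h : ‖cmb ψ 0 yz‖ ^ 2 = ‖yz‖ ^ 2 := by
    rw [EuclideanSpace.real_norm_sq_eq, EuclideanSpace.real_norm_sq_eq, Fintype.sum_prod_type, Fintype.sum_prod_type]
    refine Finset.sum_congr rfl fun i _ => ?_
    rw [← ψ.sum_comp, Fintype.sum_sum_type]
    simp [cmb_apply]
  exact (sq_eq_sq₀ (norm_nonneg _) (norm_nonneg _)).1 h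

lemma Dy_smul (S : Setup d F) (φ : Spl dh dm d) (i : Fin 9) (R : ℝ) (y : Cfg dh) :
    S.Dy φ i (R • y) = R • S.Dy φ i y := by
  ext B C
  simp only [Setup.Dy, Setup.Dm, Matrix.of_apply, Matrix.smul_apply, PiLp.smul_apply, smul_eq_mul, Finset.mul_sum]
  refine Finset.sum_congr rfl fun A _ => ?_
  ring

lemma Dz_smul (S : Setup d F) (φ : Spl dh dm d) (ψ : Spl ds dz dh) (R : ℝ) (yz : Cfg dz) :
    Dz S φ ψ (R • yz) = fun i => R • Dz S φ ψ yz i := by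
  funext i
  unfold Dz
  rw [cmb_smul, Dy_smul]

lemma Ud_smul (S : Setup d F) (φ : Spl dh dm d) (ψ : Spl ds dz dh) {R : ℝ} (hR : 0 < R) {yz : Cfg dz} :
    R • yz ∈ GnC.Ud S φ ψ ↔ yz ∈ GnC.Ud S φ ψ := by
  change (S.Dy φ 8 (cmb ψ 0 (R • yz))).det ≠ 0 ↔ (S.Dy φ 8 (cmb ψ 0 yz)).det ≠ 0
  rw [cmb_smul, Dy_smul, Matrix.det_smul, mul_ne_zero_iff]
  exact ⟨fun h => h.2, fun h => ⟨by positivity, h⟩⟩

lemma mat_inv_smul {R : ℝ} (hR : R ≠ 0) (M : Matrix (Fin dm) (Fin dm) ℝ) : (R • M)⁻¹ = R⁻¹ • M⁻¹ := by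
  by_cases h : IsUnit M.det
  · exact Matrix.inv_smul' M (Units.mk0 R hR) h
  · rw [Matrix.nonsing_inv_apply_not_isUnit _ h, smul_zero]
    refine Matrix.nonsing_inv_apply_not_isUnit _ ?_
    rw [Matrix.det_smul]
    intro h1
    exact h (isUnit_of_mul_isUnit_right h1)

lemma tI_smul {D : Fin 9 → Matrix (Fin dm) (Fin dm) ℝ} {R : ℝ} (hR : R ≠ 0) :
    tI (fun i => R • D i) = tI D := by
  funext i
  unfold tI
  rw [mat_inv_smul hR, smul_mul_smul_comm, inv_mul_cancel₀ hR, one_smul]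

lemma VV_smulD {D : Fin 9 → Matrix (Fin dm) (Fin dm) ℝ} {R : ℝ} (hR : R ≠ 0) (w : Wsp dm) (i : Fin 9) :
    VV (fun i => R • D i) w i = VV D w i := by
  unfold VV sV t2
  rw [tI_smul hR]

lemma qf_smul {D : Fin 9 → Matrix (Fin dm) (Fin dm) ℝ} (Om : Matrix (Fin dm) (Fin dm) ℝ) {R : ℝ} (hR : 0 < R)
    (w : Wsp dm) : qf (fun i => R • D i) (R • Om) w = qf D Om (Real.sqrt R • w) := by
  unfold qf
  simp only [VV_smulD hR.ne', GnC.VV_smul, Matrix.mulVec_smul, Matrix.smul_mulVec, smul_dotProduct, dotProduct_smul,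
    smul_eq_mul]
  refine Finset.sum_congr rfl fun i _ => ?_
  rw [← mul_assoc, Real.mul_self_sqrt hR.le]

lemma w_int {R : ℝ} (hR : 0 < R) (u : Wsp dm → ℝ) :
    ∫ w, u (Real.sqrt R • w) = (Real.sqrt R ^ (8 * dm))⁻¹ * ∫ w, u w := by
  have h := Measure.integral_comp_smul (volume : Measure (Wsp dm)) u (Real.sqrt R)
  have hf : Module.finrank ℝ (Wsp dm) = 8 * dm := by simp
  rw [hf] at h
  rw [h, abs_of_nonneg, smul_eq_mul]
  have := Real.sqrt_nonneg R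
  positivity

lemma sqrt_pow8 {R : ℝ} (hR : 0 < R) : Real.sqrt ((Real.sqrt R ^ (8 * dm))⁻¹) = (R ^ (2 * dm))⁻¹ := by
  rw [Real.sqrt_inv]
  congr 1
  have h : Real.sqrt R ^ (8 * dm) = (R ^ (2 * dm)) ^ 2 := by
    rw [show 8 * dm = 2 * (2 * dm * 2) by ring, pow_mul, Real.sq_sqrt hR.le, ← pow_mul]
  rw [h, Real.sqrt_sq (by positivity)]

/-- homogeneity of the normalised vacuum -/
lemma gn_scale (S : Setup d F) (φ : Spl dh dm d) (ψ : Spl ds dz dh) (yz : Cfg dz) {R : ℝ} (hR : 0 < R)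
    (hom : omc S.κ (Dz S φ ψ (R • yz)) = R • omc S.κ (Dz S φ ψ yz)) (w : Wsp dm) :
    gn S φ ψ (R • yz) w = R ^ (2 * dm) * gn S φ ψ yz (Real.sqrt R • w) := by
  have hg : ∀ w', gR (Dz S φ ψ (R • yz)) (omc S.κ (Dz S φ ψ (R • yz))) 1 w' =
      gR (Dz S φ ψ yz) (omc S.κ (Dz S φ ψ yz)) 1 (Real.sqrt R • w') := by
    intro w'
    unfold gR
    rw [hom, Dz_smul, qf_smul _ hR]
  unfold gn
  simp only [hg]
  rw [w_int hR (fun w' => gR (Dz S φ ψ yz) (omc S.κ (Dz S φ ψ yz)) 1 w' ^ 2), Real.sqrt_mul (by positivity),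
    sqrt_pow8 hR]
  have hp : (R ^ (2 * dm) : ℝ) ≠ 0 := by positivity
  field_simp

lemma fd_scale {E : Type*} [NormedAddCommGroup E] [NormedSpace ℝ E] (g g' : E → ℝ) (k r : ℝ) (y v : E)
    (h : g =ᶠ[𝓝 y] fun z => k * g' (r • z)) (hd : DifferentiableAt ℝ g' (r • y)) :
    fderiv ℝ g y v = k * (r * fderiv ℝ g' (r • y) v) := by
  have h1 : HasFDerivAt (fun z : E => r • z) (r • ContinuousLinearMap.id ℝ E) y :=
    (ContinuousLinearMap.hasFDerivAt (r • ContinuousLinearMap.id ℝ E))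
  have h2 : HasFDerivAt (fun z : E => g' (r • z)) ((fderiv ℝ g' (r • y)).comp (r • ContinuousLinearMap.id ℝ E)) y :=
    HasFDerivAt.comp y hd.hasFDerivAt h1
  have h3 := (h2.const_mul k).congr_of_eventuallyEq h
  rw [h3.fderiv]
  simp

lemma scaled_bd {E : Type*} [NormedAddCommGroup E] [NormedSpace ℝ E] (g : E → Wsp dm → ℝ) {U K : Set E}
    (hU : IsOpen U) (hKU : K ⊆ U) {c C : ℝ}
    (hbd : ∀ z ∈ K, ∀ w, (0 ≤ g z w ∧ g z w ≤ C * Real.exp (-(c * ‖w‖ ^ 2))) ∧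
      ∀ v, |fderiv ℝ (fun z => g z w) z v| ≤ C * ‖v‖ * Real.exp (-(c * ‖w‖ ^ 2)))
    (hdiff : ∀ z ∈ U, ∀ w, DifferentiableAt ℝ (fun z => g z w) z) {R : ℝ} (hR : 0 < R)
    (hsc : ∀ z ∈ U, ∀ w, g z w = R ^ (2 * dm) * g (R⁻¹ • z) (Real.sqrt R • w)) {y : E} (hyU : y ∈ U)
    (hyK : R⁻¹ • y ∈ K) :
    (∀ w, 0 ≤ g y w ∧ g y w ≤ C * R ^ (2 * dm) * Real.exp (-(c * R * ‖w‖ ^ 2))) ∧
      ∀ w v, |fderiv ℝ (fun z => g z w) y v| ≤ C / R * (R ^ (2 * dm) * Real.exp (-(c * R * ‖w‖ ^ 2))) * ‖v‖ := by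
  have hnw : ∀ w : Wsp dm, c * ‖Real.sqrt R • w‖ ^ 2 = c * R * ‖w‖ ^ 2 := by
    intro w
    rw [norm_smul, mul_pow, Real.norm_eq_abs, sq_abs, Real.sq_sqrt hR.le]
    ring
  refine ⟨fun w => ⟨?_, ?_⟩, fun w v => ?_⟩
  · rw [hsc y hyU w]
    exact mul_nonneg (by positivity) (hbd _ hyK _).1.1
  · rw [hsc y hyU w, mul_comm C, mul_assoc, ← hnw w]
    exact mul_le_mul_of_nonneg_left (hbd _ hyK _).1.2 (by positivity)
  · have hev : (fun z => g z w) =ᶠ[𝓝 y] fun z => R ^ (2 * dm) * g (R⁻¹ • z) (Real.sqrt R • w) := by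
      filter_upwards [hU.mem_nhds hyU] with z hz'
      exact hsc z hz' w
    rw [fd_scale _ (fun z => g z (Real.sqrt R • w)) _ _ y v hev (hdiff _ (hKU hyK) _)]
    have h8 := (hbd _ hyK (Real.sqrt R • w)).2 v
    rw [hnw] at h8
    rw [abs_mul, abs_mul, abs_of_pos (by positivity : (0 : ℝ) < R ^ (2 * dm)), abs_of_pos (inv_pos.2 hR)]
    calc R ^ (2 * dm) * (R⁻¹ * |fderiv ℝ (fun z => g z (Real.sqrt R • w)) (R⁻¹ • y) v|)
        ≤ R ^ (2 * dm) * (R⁻¹ * (C * ‖v‖ * Real.exp (-(c * R * ‖w‖ ^ 2)))) := by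
          refine mul_le_mul_of_nonneg_left (mul_le_mul_of_nonneg_left h8 (by positivity)) (by positivity)
      _ = C / R * (R ^ (2 * dm) * Real.exp (-(c * R * ‖w‖ ^ 2))) * ‖v‖ := by
          rw [div_eq_mul_inv]
          ring

lemma slice_diff {E W : Type*} [NormedAddCommGroup E] [NormedSpace ℝ E] [NormedAddCommGroup W] [NormedSpace ℝ W]
    (g : E → W → ℝ) {U : Set E} (hU : IsOpen U)
    (h : ContDiffOn ℝ ∞ (fun p : E × W => g p.1 p.2) {p | p.1 ∈ U}) {z : E} (hz : z ∈ U) (w : W) :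
    DifferentiableAt ℝ (fun z => g z w) z := by
  have h5 : ContDiffOn ℝ ∞ (fun z => g z w) U :=
    h.comp (f := fun z => (z, w)) (contDiff_id.prodMk contDiff_const).contDiffOn fun z hz' => hz'
  exact (h5.contDiffAt (hU.mem_nhds hz)).differentiableAt (by simp)

lemma radius {S : Setup d F} {φ : Spl dh dm d} {ψ : Spl ds dz dh} {z₀ : Cfg dz} (h : Std2 S φ ψ z₀) :
    ∃ e : ℝ, 0 < e ∧ (∀ y : Cfg dh, ‖y - cmb ψ 0 z₀‖ ≤ 4 * e → (S.Dy φ 8 y).det ≠ 0) ∧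
      Metric.closedBall z₀ e ⊆ GnC.Ud S φ ψ := by
  have hdetc : Continuous fun y : Cfg dh => (S.Dy φ 8 y).det := by
    have hc : ContDiffOn ℝ ∞ (fun y : Cfg dh => (S.Dy φ 8 y).det) Set.univ := by
      refine GnB.det_cd fun p q => ContDiff.contDiffOn ?_
      unfold Setup.Dy Setup.Dm
      simp only [Matrix.of_apply]
      exact ContDiff.sum fun A _ => contDiff_const.mul (EuclideanSpace.proj (𝕜 := ℝ) (((8 : Fin 9), A) : Fin 9 × Fin dh)).contDiff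
    exact continuousOn_univ.1 hc.continuousOn
  obtain ⟨e, he, hball⟩ := Metric.isOpen_iff.1 (isOpen_ne_fun hdetc continuous_const) (cmb ψ 0 z₀) h.std.inv
  have hdet : ∀ y : Cfg dh, ‖y - cmb ψ 0 z₀‖ ≤ 4 * (e / 8) → (S.Dy φ 8 y).det ≠ 0 := by
    intro y hy
    refine hball ?_
    rw [Metric.mem_ball, dist_eq_norm]
    linarith
  refine ⟨e / 8, by positivity, hdet, fun z hz => ?_⟩
  refine hdet _ ?_
  rw [cmb_sub, cmb_norm, ← dist_eq_norm]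
  have := Metric.mem_closedBall.1 hz
  linarith

end GnE

/-- **L7** -/
theorem gnOf (S : Setup d F) : GnOfStmt S := by
  intro hS _ hfin dh dm ds dz φ ψ z₀ h
  obtain ⟨h1, h2, -, -⟩ := hS hfin dh dm ds dz φ ψ z₀ h
  have hA := GnC.mA_cd hS h
  have hs : ∀ z ∈ GnC.Ud S φ ψ, (GnC.mA S φ ψ z)ᵀ = GnC.mA S φ ψ z := fun z hz => GnC.mA_symm hS h hz
  have hp : ∀ z ∈ GnC.Ud S φ ψ, ∀ v : Fin 8 × Fin dm → ℝ, v ≠ 0 → 0 < v ⬝ᵥ (GnC.mA S φ ψ z *ᵥ v) :=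
    fun z hz v hv => GnC.mA_pos hS h hz v hv
  have hUo := GnC.Ud_open S φ ψ
  obtain ⟨e, he, hdet, hKU⟩ := GnE.radius h
  obtain ⟨c, C, hc, hC, hbd⟩ := GnB.ga_bd hA hs hp hUo (isCompact_closedBall z₀ e) hKU
  have hgn : gn S φ ψ = GnB.ga (GnC.mA S φ ψ) := by
    funext yz w
    exact GnC.gn_eq S φ ψ yz w
  have hcd : ContDiffOn ℝ ∞ (fun p : Cfg dz × Wsp dm => gn S φ ψ p.1 p.2) {p | p.1 ∈ GnC.Ud S φ ψ} := by
    rw [hgn]
    exact GnB.ga_cd hA hs hp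
  refine ⟨e, c, C, he, hc, hC, hdet, hcd, fun R yz hR hyz => ?_⟩
  have hz : R⁻¹ • yz ∈ Metric.closedBall z₀ e := by
    rw [Metric.mem_closedBall, dist_eq_norm]
    have h3 : R⁻¹ • yz - z₀ = R⁻¹ • (yz - R • z₀) := by
      rw [smul_sub, smul_smul, inv_mul_cancel₀ hR.ne', one_smul]
    rw [h3, norm_smul, norm_inv, Real.norm_eq_abs, abs_of_pos hR, inv_mul_le_iff₀ hR]
    linarith
  have hyU : yz ∈ GnC.Ud S φ ψ := by
    have := (GnE.Ud_smul S φ ψ hR).2 (hKU hz)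
    rwa [smul_smul, mul_inv_cancel₀ hR.ne', one_smul] at this
  have hsc : ∀ z ∈ GnC.Ud S φ ψ, ∀ w, gn S φ ψ z w = R ^ (2 * dm) * gn S φ ψ (R⁻¹ • z) (Real.sqrt R • w) := by
    intro z hz w
    have hz' : R⁻¹ • z ∈ GnC.Ud S φ ψ := (GnE.Ud_smul S φ ψ (inv_pos.2 hR)).2 hz
    have h4 := GnE.gn_scale S φ ψ (R⁻¹ • z) hR (h2 _ hz' R hR).1 w
    rwa [smul_smul, mul_inv_cancel₀ hR.ne', one_smul] at h4
  have hdf : ∀ z ∈ GnC.Ud S φ ψ, ∀ w, DifferentiableAt ℝ (fun z => gn S φ ψ z w) z := by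
    intro z hz w
    exact GnE.slice_diff (gn S φ ψ) hUo hcd hz w
  rw [← hgn] at hbd
  obtain ⟨h6, h7⟩ := GnE.scaled_bd (gn S φ ψ) hUo hKU hbd hdf hR hsc hyU hz
  refine ⟨?_, ?_, h6, fun i A w => ?_⟩
  · rw [hgn]
    exact GnB.ga_norm hs hp hyU
  · intro w
    rw [hgn]
    exact GnB.ga_even _ _ _
  · have h8 := h7 w (EuclideanSpace.single (i, A) 1)
    rwa [EuclideanSpace.norm_single, norm_one, mul_one] at h8

end Vale.Agent.P353.Z.AD
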