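import Vale.Agent.P353.AN.D.Stmt

/-! # P353, all `N`, block D: D6 Hardy inequality at infinity -/

open MeasureTheory Filter Topology
open scoped ContDiff

namespace Vale.Agent.P353.Z.AD

variable {d : ℕ} {F : Type*} [NormedAddCommGroup F] [InnerProductSpace ℂ F]

namespace HInf

lemma isOpen_shl (s t : ℝ) : IsOpen (shl d s t) := by
  have h1 : IsOpen {x : Cfg d | s < ‖x‖} := isOpen_lt continuous_const continuous_norm
  have h2 : IsOpen {x : Cfg d | ‖x‖ < t} := isOpen_lt continuous_norm continuous_const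
  exact h1.inter h2

lemma meas_dsh (j : ℤ) : MeasurableSet (dsh d j) := (isOpen_shl _ _).measurableSet

lemma disj_dsh : Pairwise (Function.onFun Disjoint fun j : ℤ => dsh d j) := by
  have key : ∀ i j : ℤ, i < j → Disjoint (dsh d i) (dsh d j) := by
    intro i j hij
    rw [Set.disjoint_left]
    rintro x ⟨_, h1⟩ ⟨h2, _⟩
    have h3 : (2 : ℝ) ^ (i + 1) ≤ (2 : ℝ) ^ j := zpow_le_zpow_right₀ (by norm_num) (by omega)
    linarith
  intro i j hij
  rcases lt_or_gt_of_ne hij with h | h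
  · exact key i j h
  · exact (key j i h).symm

lemma tst_int {G : Type*} [NormedAddCommGroup G] [InnerProductSpace ℂ G] {u : Cfg d → G}
    (hu : Setup.Tst u) : Integrable (fun x => ‖u x‖ ^ 2) (volume : Measure (Cfg d)) := by
  have h1 : Continuous fun x => ‖u x‖ ^ 2 := by
    have := hu.1.continuous
    fun_prop
  apply h1.integrable_of_hasCompactSupport
  exact hu.2.comp_left (g := fun y : G => ‖y‖ ^ 2) (by simp)

/-- The union of the shells with `P`. -/
def US (d : ℕ) (P : ℤ → Prop) : Set (Cfg d) := ⋃ j : ℤ, {x | P j ∧ x ∈ dsh d j}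

/-- Sums of shell integrals. -/
lemma hasSum_dsh {f : Cfg d → ℝ} (hf : Integrable f (volume : Measure (Cfg d))) (P : ℤ → Prop)
    [DecidablePred P] :
    HasSum (fun j : ℤ => if P j then ∫ x in dsh d j, f x else 0) (∫ x in US d P, f x) := by
  have h0 : ∀ j : ℤ, {x | P j ∧ x ∈ dsh d j} = if P j then dsh d j else ∅ := by
    intro j
    split_ifs with h <;> simp [h]
  have h1 : ∀ j : ℤ, MeasurableSet {x | P j ∧ x ∈ dsh d j} := by
    intro j
    rw [h0]
    split_ifs
    · exact meas_dsh j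
    · exact MeasurableSet.empty
  have h2 : Pairwise (Function.onFun Disjoint fun j : ℤ => {x | P j ∧ x ∈ dsh d j}) := by
    intro i j hij
    have h3 := disj_dsh (d := d) hij
    exact h3.mono (fun x hx => hx.2) (fun x hx => hx.2)
  have h4 := hasSum_integral_iUnion h1 h2 (f := f) hf.integrableOn
  have h5 : (fun j : ℤ => if P j then ∫ x in dsh d j, f x else 0) =
      fun j : ℤ => ∫ x in {x | P j ∧ x ∈ dsh d j}, f x := by
    funext j
    rw [h0]
    split_ifs with h
    · rfl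
    · simp
  rw [h5]
  exact h4

lemma summable_dsh {f : Cfg d → ℝ} (hf : Integrable f (volume : Measure (Cfg d))) :
    Summable fun j : ℤ => ∫ x in dsh d j, f x := by
  have := (hasSum_dsh hf fun _ => True).summable
  simpa using this

lemma tsum_dsh_le {f : Cfg d → ℝ} (hf : Integrable f (volume : Measure (Cfg d)))
    (h0 : ∀ x, 0 ≤ f x) : ∑' j : ℤ, ∫ x in dsh d j, f x ≤ ∫ x, f x := by
  have h1 := (hasSum_dsh hf fun _ => True).tsum_eq
  simp only [if_true] at h1
  rw [h1]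
  exact setIntegral_le_integral hf (Eventually.of_forall h0)

/-- The weights. -/
noncomputable def dwt (j : ℤ) : ℝ := (2 : ℝ) ^ (-(2 * max j 0))

lemma dwt_pos (j : ℤ) : 0 < dwt j := by unfold dwt; positivity

lemma dwt_le_one (j : ℤ) : dwt j ≤ 1 := by
  unfold dwt
  apply zpow_le_one_of_nonpos₀ (by norm_num)
  have := le_max_right j 0
  omega

lemma dwt_mul (i k : ℤ) : dwt (i + k) ≤ (2 : ℝ) ^ (2 * |k|) * dwt i := by
  unfold dwt
  rw [← zpow_add₀ (by norm_num : (2 : ℝ) ≠ 0)]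
  apply zpow_le_zpow_right₀ (by norm_num)
  have h1 := le_abs_self k
  have h2 := neg_abs_le k
  rcases le_total (i + k) 0 with h3 | h3 <;> rcases le_total i 0 with h4 | h4
  · rw [max_eq_right h3, max_eq_right h4]; have := abs_nonneg k; omega
  · rw [max_eq_right h3, max_eq_left h4]; omega
  · rw [max_eq_left h3, max_eq_right h4]; omega
  · rw [max_eq_left h3, max_eq_left h4]; omega

lemma dwt_four (j : ℤ) : dwt j * (4 : ℝ) ^ j ≤ 1 := by
  have h4 : (4 : ℝ) ^ j = (2 : ℝ) ^ (2 * j) := by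
    rw [zpow_mul]
    norm_num
  unfold dwt
  rw [h4, ← zpow_add₀ (by norm_num : (2 : ℝ) ≠ 0)]
  apply zpow_le_one_of_nonpos₀ (by norm_num)
  have := le_max_left j 0
  omega

lemma inv_le_dwt {j : ℤ} {x : Cfg d} (hx : x ∈ dsh d j) : 1 / (1 + ‖x‖ ^ 2) ≤ dwt j := by
  have hn : 0 < 1 + ‖x‖ ^ 2 := by positivity
  rw [div_le_iff₀ hn]
  unfold dwt
  have h2 : (0 : ℝ) < (2 : ℝ) ^ (2 * max j 0) := by positivity
  rw [zpow_neg, ← div_eq_inv_mul, le_div_iff₀ h2, one_mul]
  rcases le_total j 0 with h | h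
  · rw [max_eq_right h]
    have := sq_nonneg ‖x‖
    simp
  · rw [max_eq_left h]
    have h3 : (2 : ℝ) ^ j < ‖x‖ := hx.1
    have h4 : (2 : ℝ) ^ (2 * j) = ((2 : ℝ) ^ j) ^ 2 := by
      rw [mul_comm, zpow_mul]
      norm_cast
    rw [h4]
    have h5 : (0 : ℝ) < (2 : ℝ) ^ j := by positivity
    nlinarith

/-- Outside of a ball the shells cover up to a null set. -/
lemma ae_cover (j₀ : ℤ) : ∀ᵐ x ∂(volume : Measure (Cfg d)), x ∉ Metric.ball (0 : Cfg d) ((2 : ℝ) ^ j₀) →
    x ∈ US d fun j => j₀ ≤ j := by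
  have h1 : ∀ n : ℤ, ∀ᵐ x ∂(volume : Measure (Cfg d)), ‖x‖ ≠ (2 : ℝ) ^ n := by
    intro n
    have h2 : (volume : Measure (Cfg d)) (Metric.sphere 0 ((2 : ℝ) ^ n)) = 0 :=
      Measure.addHaar_sphere_of_ne_zero _ _ (by positivity)
    rw [ae_iff]
    convert h2 using 2
    ext x
    simp
  rw [← ae_all_iff] at h1
  filter_upwards [h1] with x hx hxb
  rw [Metric.mem_ball, dist_zero_right, not_lt] at hxb
  have hpos : 0 < ‖x‖ := lt_of_lt_of_le (by positivity) hxb
  obtain ⟨n, hn1, hn2⟩ := exists_mem_Ico_zpow hpos (by norm_num : (1 : ℝ) < 2)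
  refine Set.mem_iUnion.2 ⟨n, ?_, lt_of_le_of_ne hn1 (Ne.symm (hx n)), hn2⟩
  by_contra hcon
  have h3 : (2 : ℝ) ^ (n + 1) ≤ (2 : ℝ) ^ j₀ := zpow_le_zpow_right₀ (by norm_num) (by omega)
  linarith

end HInf

open HInf in
/-- D6 -/
theorem hInf (S : Setup d F) : HInfStmt S := by
  classical
  intro hDy hDisc
  obtain ⟨j₀, C₀, hC₀, hdy⟩ := hDy (1 / 4) (by norm_num)
  refine ⟨(2 : ℝ) ^ (j₀ : ℤ), 2 + 6 * C₀, by positivity, by positivity, ?_⟩
  intro u hu
  have hui := tst_int hu.1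
  have hQi : ∀ β, Integrable (fun x => ‖S.Q β u x‖ ^ 2) (volume : Measure (Cfg d)) := fun β =>
    tst_int (Setup.Tst.Q S hu.1 β)
  set M : ℤ → ℝ := fun j => mas u (dsh d j) with hM
  set E : ℤ → ℝ := fun j => ena S u (dsh d j) with hE
  have hM0 : ∀ j, 0 ≤ M j := fun j => integral_nonneg fun x => by positivity
  have hE0 : ∀ j, 0 ≤ E j := fun j => Finset.sum_nonneg fun β _ =>
    integral_nonneg fun x => by positivity
  have hMs : Summable M := summable_dsh hui
  have hEs : Summable E := by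
    have : E = fun j => ∑ β, ∫ x in dsh d j, ‖S.Q β u x‖ ^ 2 := rfl
    rw [this]
    exact summable_sum fun β _ => summable_dsh (hQi β)
  have hEle : ∑' j, E j ≤ En S u := by
    have : ∑' j, E j = ∑ β, ∑' j, ∫ x in dsh d j, ‖S.Q β u x‖ ^ 2 :=
      Summable.tsum_finsetSum fun β _ => summable_dsh (hQi β)
    rw [this]
    unfold En nsq
    exact Finset.sum_le_sum fun β _ => tsum_dsh_le (hQi β) fun x => by positivity
  have hwM : Summable fun j => dwt j * M j :=
    Summable.of_nonneg_of_le (fun j => mul_nonneg (dwt_pos j).le (hM0 j))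
      (fun j => mul_le_of_le_one_left (hM0 j) (dwt_le_one j)) hMs
  have hwe_le : ∀ j, dwt j * ((4 : ℝ) ^ j * E j) ≤ E j := by
    intro j
    rw [← mul_assoc]
    exact mul_le_of_le_one_left (hE0 j) (dwt_four j)
  have hwe : Summable fun j => dwt j * ((4 : ℝ) ^ j * E j) :=
    Summable.of_nonneg_of_le (fun j => mul_nonneg (dwt_pos j).le
      (mul_nonneg (by positivity) (hE0 j))) hwe_le hEs
  have key := hDisc M (fun j => (4 : ℝ) ^ j * E j) dwt j₀ C₀ hC₀ hM0
    (fun j => mul_nonneg (by positivity) (hE0 j)) dwt_pos dwt_mul hwM hwe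
    (fun j hj => hdy u hu j hj)
  set ρ : ℝ := (2 : ℝ) ^ (j₀ : ℤ) with hρ
  -- inner part
  have hB : (∑' j : ℤ, if (j₀ : ℤ) ≤ j then 0 else dwt j * M j) ≤ mas u (Metric.ball 0 ρ) := by
    have h1 := hasSum_dsh hui fun j => ¬ ((j₀ : ℤ) ≤ j)
    have h2 : (∑' j : ℤ, if (j₀ : ℤ) ≤ j then 0 else dwt j * M j) ≤
        ∑' j : ℤ, if ¬ ((j₀ : ℤ) ≤ j) then ∫ x in dsh d j, ‖u x‖ ^ 2 else 0 := by
      refine Summable.tsum_le_tsum ?_ ?_ h1.summable
      · intro j
        by_cases hj : (j₀ : ℤ) ≤ j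
        · simp [hj]
        · simp only [hj, if_false, not_false_eq_true, if_true]
          exact mul_le_of_le_one_left (hM0 j) (dwt_le_one j)
      · refine Summable.of_nonneg_of_le ?_ ?_ hwM
        · intro j
          split_ifs
          · exact le_rfl
          · exact mul_nonneg (dwt_pos j).le (hM0 j)
        · intro j
          split_ifs
          · exact mul_nonneg (dwt_pos j).le (hM0 j)
          · exact le_rfl
    refine h2.trans ?_
    rw [h1.tsum_eq]
    unfold mas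
    refine setIntegral_mono_set hui.integrableOn (Eventually.of_forall fun x => by positivity) ?_
    refine (HasSubset.Subset.eventuallyLE ?_)
    intro x hx
    obtain ⟨j, hj, hxj⟩ := Set.mem_iUnion.1 hx
    rw [Metric.mem_ball, dist_zero_right]
    refine lt_of_lt_of_le hxj.2 ?_
    exact zpow_le_zpow_right₀ (by norm_num) (by omega)
  -- outer part
  have hgc : Continuous fun x : Cfg d => ‖u x‖ ^ 2 / (1 + ‖x‖ ^ 2) := by
    have := hu.1.1.continuous
    refine Continuous.div (by fun_prop) (by fun_prop) ?_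
    intro x
    positivity
  have hgle : ∀ x : Cfg d, ‖u x‖ ^ 2 / (1 + ‖x‖ ^ 2) ≤ ‖u x‖ ^ 2 := by
    intro x
    apply div_le_self (by positivity)
    have := sq_nonneg ‖x‖
    linarith
  have hg0 : ∀ x : Cfg d, 0 ≤ ‖u x‖ ^ 2 / (1 + ‖x‖ ^ 2) := fun x => by positivity
  have hgi : Integrable (fun x : Cfg d => ‖u x‖ ^ 2 / (1 + ‖x‖ ^ 2)) volume := by
    refine hui.mono' hgc.aestronglyMeasurable (Eventually.of_forall fun x => ?_)
    rw [Real.norm_of_nonneg (hg0 x)]
    exact hgle x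
  have hOut : ∫ x in (Metric.ball (0 : Cfg d) ρ)ᶜ, ‖u x‖ ^ 2 / (1 + ‖x‖ ^ 2) ≤
      ∑' j : ℤ, if (j₀ : ℤ) ≤ j then dwt j * M j else 0 := by
    have h1 := hasSum_dsh hgi fun j => (j₀ : ℤ) ≤ j
    have h2 : ∫ x in (Metric.ball (0 : Cfg d) ρ)ᶜ, ‖u x‖ ^ 2 / (1 + ‖x‖ ^ 2) ≤
        ∫ x in US d fun j => (j₀ : ℤ) ≤ j, ‖u x‖ ^ 2 / (1 + ‖x‖ ^ 2) := by
      refine setIntegral_mono_set hgi.integrableOn (Eventually.of_forall fun x => hg0 x) ?_
      filter_upwards [ae_cover (d := d) (j₀ : ℤ)] with x hx hxb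
      exact hx hxb
    refine h2.trans ?_
    rw [← h1.tsum_eq]
    refine Summable.tsum_le_tsum ?_ h1.summable ?_
    · intro j
      split_ifs
      · have h3 : ∫ x in dsh d j, ‖u x‖ ^ 2 / (1 + ‖x‖ ^ 2) ≤ ∫ x in dsh d j, dwt j * ‖u x‖ ^ 2 := by
          refine setIntegral_mono_on hgi.integrableOn (hui.const_mul _).integrableOn (meas_dsh j) ?_
          intro x hx
          rw [div_eq_mul_one_div, mul_comm]
          exact mul_le_mul_of_nonneg_right (inv_le_dwt hx) (by positivity)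
        refine h3.trans ?_
        rw [integral_const_mul]
        exact le_rfl
      · exact le_rfl
    · refine Summable.of_nonneg_of_le ?_ ?_ hwM
      · intro j
        split_ifs
        · exact mul_nonneg (dwt_pos j).le (hM0 j)
        · exact le_rfl
      · intro j
        split_ifs
        · exact le_rfl
        · exact mul_nonneg (dwt_pos j).le (hM0 j)
  have hIn : ∫ x in Metric.ball (0 : Cfg d) ρ, ‖u x‖ ^ 2 / (1 + ‖x‖ ^ 2) ≤
      mas u (Metric.ball 0 ρ) :=
    setIntegral_mono hgi.integrableOn hui.integrableOn hgle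
  have hsum : ∑' j, dwt j * ((4 : ℝ) ^ j * E j) ≤ En S u :=
    (Summable.tsum_le_tsum hwe_le hwe hEs).trans hEle
  have hsplit : wn u = (∫ x in Metric.ball (0 : Cfg d) ρ, ‖u x‖ ^ 2 / (1 + ‖x‖ ^ 2)) +
      ∫ x in (Metric.ball (0 : Cfg d) ρ)ᶜ, ‖u x‖ ^ 2 / (1 + ‖x‖ ^ 2) :=
    (integral_add_compl Metric.isOpen_ball.measurableSet hgi).symm
  have hm0 : 0 ≤ mas u (Metric.ball 0 ρ) := integral_nonneg fun x => by positivity
  have hEn0 : 0 ≤ En S u := Finset.sum_nonneg fun β _ => integral_nonneg fun x => by positivity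
  rw [hsplit]
  have h6 : 6 * C₀ * ∑' j, dwt j * ((4 : ℝ) ^ j * E j) ≤ 6 * C₀ * En S u :=
    mul_le_mul_of_nonneg_left hsum (by positivity)
  nlinarith [mul_nonneg hC₀ hm0, mul_nonneg hC₀ hEn0]

end Vale.Agent.P353.Z.AD
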