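import Vale.Agent.P353.AN.D.Stmt
import Vale.Agent.P353.Z.Loc

/-! # P353, all `N`, block D, D9: inner completeness (helper455) -/

open MeasureTheory Filter Topology
open scoped ContDiff

namespace Vale.Agent.P353.Z.AD

namespace IC

variable {d : ℕ} {F : Type*} [NormedAddCommGroup F] [InnerProductSpace ℂ F]

/-! ### linearity -/

lemma Q_add (S : Setup d F) (β : Fin 16) {u v : Cfg d → F} (hu : Setup.Tst u) (hv : Setup.Tst v)
    (x : Cfg d) : S.Q β (fun y => u y + v y) x = S.Q β u x + S.Q β v x := by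
  have h1 : ∀ i A, pd i A (fun y => u y + v y) x = pd i A u x + pd i A v x := fun i A =>
    pd_add (hu.diff x) (hv.diff x)
  simp only [Setup.Q, h1, map_add, smul_add, Finset.sum_add_distrib]
  abel

lemma Q_csmul (S : Setup d F) (β : Fin 16) (c : ℂ) {u : Cfg d → F} (hu : Setup.Tst u)
    (x : Cfg d) : S.Q β (fun y => c • u y) x = c • S.Q β u x := by
  have h1 : ∀ i A, pd i A (fun y => c • u y) x = c • pd i A u x := by
    intro i A
    rw [pd_csmul (differentiableAt_const _) (hu.diff x)]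
    simp
  simp only [Setup.Q, h1, map_smul, smul_add, Finset.smul_sum, smul_smul,
    mul_comm c]

lemma G_add (S : Setup d F) (C : Fin d) {u v : Cfg d → F} (hu : Setup.Tst u) (hv : Setup.Tst v)
    (x : Cfg d) : S.G C (fun y => u y + v y) x = S.G C u x + S.G C v x := by
  have h1 : ∀ i A, pd i A (fun y => u y + v y) x = pd i A u x + pd i A v x := fun i A =>
    pd_add (hu.diff x) (hv.diff x)
  simp only [Setup.G, h1, map_add, smul_add, Finset.sum_add_distrib]
  abel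

lemma G_csmul (S : Setup d F) (C : Fin d) (c : ℂ) {u : Cfg d → F} (hu : Setup.Tst u)
    (x : Cfg d) : S.G C (fun y => c • u y) x = c • S.G C u x := by
  have h1 : ∀ i A, pd i A (fun y => c • u y) x = c • pd i A u x := by
    intro i A
    rw [pd_csmul (differentiableAt_const _) (hu.diff x)]
    simp
  simp only [Setup.G, h1, map_smul, smul_add, Finset.smul_sum, smul_smul]
  congr 1
  refine Finset.sum_congr rfl fun i _ => Finset.sum_congr rfl fun A _ =>
    Finset.sum_congr rfl fun B _ => ?_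
  congr 1
  ring

lemma Tst_csmul (c : ℂ) {u : Cfg d → F} (hu : Setup.Tst u) : Setup.Tst (fun x => c • u x) := by
  refine ⟨contDiff_const.smul hu.1, hu.2.mono ?_⟩
  intro x hx
  simp only [Function.mem_support] at hx ⊢
  intro h0
  exact hx (by rw [h0, smul_zero])

lemma GInv_add {S : Setup d F} {u v : Cfg d → F} (hu : GInv S u) (hv : GInv S v) :
    GInv S (fun x => u x + v x) :=
  ⟨hu.1.add hv.1, fun C x => by rw [G_add S C hu.1 hv.1, hu.2, hv.2, add_zero]⟩

lemma GInv_csmul {S : Setup d F} (c : ℂ) {u : Cfg d → F} (hu : GInv S u) :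
    GInv S (fun x => c • u x) :=
  ⟨Tst_csmul c hu.1, fun C x => by rw [G_csmul S C c hu.1, hu.2, smul_zero]⟩

lemma GInv_zero (S : Setup d F) : GInv S (fun _ => (0 : F)) := by
  refine ⟨⟨contDiff_const, HasCompactSupport.zero⟩, fun C x => ?_⟩
  have h := G_csmul S C 0 (u := fun _ => (0 : F)) ⟨contDiff_const, HasCompactSupport.zero⟩ x
  simpa using h

lemma GInv_sum {S : Setup d F} {ι : Type*} (s : Finset ι) (a : ι → ℂ) {u : ι → Cfg d → F}
    (hu : ∀ k, GInv S (u k)) : GInv S (fun x => ∑ k ∈ s, a k • u k x) := by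
  classical
  induction s using Finset.induction_on with
  | empty => simpa using GInv_zero S
  | insert b s hb ih =>
    simp only [Finset.sum_insert hb]
    exact GInv_add (GInv_csmul (a b) (hu b)) ih

lemma GInv_sub {S : Setup d F} {u v : Cfg d → F} (hu : GInv S u) (hv : GInv S v) :
    GInv S (fun x => u x - v x) := by
  have h := GInv_add hu (GInv_csmul (-1) hv)
  simpa [sub_eq_add_neg] using h

/-! ### energy -/

lemma En_nonneg (S : Setup d F) (u : Cfg d → F) : 0 ≤ En S u :=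
  Finset.sum_nonneg fun _ _ => nsq_nonneg _

lemma En_add_le (S : Setup d F) {u v : Cfg d → F} (hu : Setup.Tst u) (hv : Setup.Tst v) :
    En S (fun x => u x + v x) ≤ 2 * En S u + 2 * En S v := by
  unfold En
  rw [Finset.mul_sum, Finset.mul_sum, ← Finset.sum_add_distrib]
  refine Finset.sum_le_sum fun β _ => ?_
  have h : S.Q β (fun x => u x + v x) = fun x => S.Q β u x + S.Q β v x :=
    funext fun x => Q_add S β hu hv x
  rw [h]
  exact nsq_add_le (hu.Q S β).memLp (hv.Q S β).memLp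

lemma nsq_csmul (c : ℂ) (u : Cfg d → F) : nsq (fun x => c • u x) = ‖c‖ ^ 2 * nsq u := by
  rw [nsq, nsq, ← integral_const_mul]
  congr 1
  funext x
  rw [norm_smul, mul_pow]

lemma En_csmul (S : Setup d F) (c : ℂ) {u : Cfg d → F} (hu : Setup.Tst u) :
    En S (fun x => c • u x) = ‖c‖ ^ 2 * En S u := by
  unfold En
  rw [Finset.mul_sum]
  refine Finset.sum_congr rfl fun β _ => ?_
  have h : S.Q β (fun x => c • u x) = fun x => c • S.Q β u x :=
    funext fun x => Q_csmul S β c hu x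
  rw [h, nsq_csmul]

lemma En_sub_le (S : Setup d F) {u v : Cfg d → F} (hu : Setup.Tst u) (hv : Setup.Tst v) :
    En S (fun x => u x - v x) ≤ 2 * En S u + 2 * En S v := by
  have h := En_add_le S hu (Tst_csmul (-1) hv)
  rw [En_csmul S (-1) hv] at h
  simpa [sub_eq_add_neg] using h

/-! ### weighted norm -/

/-- weighted integrability -/
def WI (u : Cfg d → F) : Prop :=
  Integrable (fun x => ‖u x‖ ^ 2 / (1 + ‖x‖ ^ 2)) (volume : Measure (Cfg d))

omit [InnerProductSpace ℂ F] in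
lemma wn_nonneg (u : Cfg d → F) : 0 ≤ wn u := integral_nonneg fun _ => by positivity

lemma continuous_wt : Continuous (fun x : Cfg d => (1 + ‖x‖ ^ 2)⁻¹) := by
  refine Continuous.inv₀ (by fun_prop) fun x => ?_
  positivity

omit [InnerProductSpace ℂ F] in
lemma wt_meas {u : Cfg d → F} (hu : AEStronglyMeasurable u (volume : Measure (Cfg d))) :
    AEStronglyMeasurable (fun x => ‖u x‖ ^ 2 / (1 + ‖x‖ ^ 2)) (volume : Measure (Cfg d)) := by
  simp only [div_eq_mul_inv]
  exact (hu.norm.pow 2).mul continuous_wt.aestronglyMeasurable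

omit [InnerProductSpace ℂ F] in
lemma wt_le (v : F) (x : Cfg d) : ‖v‖ ^ 2 / (1 + ‖x‖ ^ 2) ≤ ‖v‖ ^ 2 :=
  div_le_self (by positivity) (by nlinarith [sq_nonneg ‖x‖])

omit [InnerProductSpace ℂ F] in
lemma WI_of_memLp {u : Cfg d → F} (hu : MemLp u 2 (volume : Measure (Cfg d))) : WI u := by
  refine (memLp_norm_sq_int hu).mono' (wt_meas hu.1) (Eventually.of_forall fun x => ?_)
  rw [Real.norm_of_nonneg (by positivity)]
  exact wt_le _ _

omit [InnerProductSpace ℂ F] in
lemma wn_le_nsq {u : Cfg d → F} (hu : MemLp u 2 (volume : Measure (Cfg d))) : wn u ≤ nsq u :=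
  integral_mono_of_nonneg (Eventually.of_forall fun x => by positivity) (memLp_norm_sq_int hu)
    (Eventually.of_forall fun x => wt_le _ _)

omit [InnerProductSpace ℂ F] in
lemma wt_sub_le (v w : F) (x : Cfg d) : ‖v - w‖ ^ 2 / (1 + ‖x‖ ^ 2) ≤
    2 * (‖v‖ ^ 2 / (1 + ‖x‖ ^ 2)) + 2 * (‖w‖ ^ 2 / (1 + ‖x‖ ^ 2)) := by
  have h1 := norm_sub_le v w
  have h2 := norm_nonneg (v - w)
  have h3 : ‖v - w‖ ^ 2 ≤ 2 * ‖v‖ ^ 2 + 2 * ‖w‖ ^ 2 := by
    nlinarith [sq_nonneg (‖v‖ - ‖w‖)]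
  have h4 : (0 : ℝ) < 1 + ‖x‖ ^ 2 := by positivity
  rw [← mul_div_assoc, ← mul_div_assoc, ← add_div]
  exact div_le_div_of_nonneg_right h3 h4.le

omit [InnerProductSpace ℂ F] in
lemma WI.sub {u v : Cfg d → F} (hu : WI u) (hv : WI v)
    (mu : AEStronglyMeasurable u (volume : Measure (Cfg d)))
    (mv : AEStronglyMeasurable v (volume : Measure (Cfg d))) : WI (fun x => u x - v x) := by
  refine ((hu.const_mul 2).add (hv.const_mul 2)).mono' (wt_meas (mu.sub mv))
    (Eventually.of_forall fun x => ?_)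
  rw [Real.norm_of_nonneg (by positivity)]
  exact wt_sub_le _ _ _

omit [InnerProductSpace ℂ F] in
lemma wn_sub_le {u v : Cfg d → F} (hu : WI u) (hv : WI v) :
    wn (fun x => u x - v x) ≤ 2 * wn u + 2 * wn v := by
  have h : 2 * wn u + 2 * wn v = ∫ x, (2 * (‖u x‖ ^ 2 / (1 + ‖x‖ ^ 2)) +
      2 * (‖v x‖ ^ 2 / (1 + ‖x‖ ^ 2))) := by
    rw [integral_add (hu.const_mul 2) (hv.const_mul 2), integral_const_mul, integral_const_mul]
    rfl
  rw [h]
  exact integral_mono_of_nonneg (Eventually.of_forall fun x => by positivity)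
    ((hu.const_mul 2).add (hv.const_mul 2)) (Eventually.of_forall fun x => wt_sub_le _ _ _)

lemma wn_csmul (c : ℂ) (u : Cfg d → F) : wn (fun x => c • u x) = ‖c‖ ^ 2 * wn u := by
  rw [wn, wn, ← integral_const_mul]
  congr 1
  funext x
  rw [norm_smul, mul_pow, mul_div_assoc]

omit [InnerProductSpace ℂ F] in
lemma mas_nonneg (u : Cfg d → F) (A : Set (Cfg d)) : 0 ≤ mas u A :=
  integral_nonneg fun _ => by positivity

omit [InnerProductSpace ℂ F] in
lemma mas_le_wn {u : Cfg d → F} (hu : WI u) (s : ℝ) :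
    mas u (Metric.ball 0 s) ≤ (1 + s ^ 2) * wn u := by
  have h1 : mas u (Metric.ball 0 s) ≤ ∫ x in Metric.ball (0 : Cfg d) s,
      (1 + s ^ 2) * (‖u x‖ ^ 2 / (1 + ‖x‖ ^ 2)) := by
    refine integral_mono_of_nonneg (Eventually.of_forall fun x => by positivity)
      (hu.const_mul _).integrableOn ?_
    filter_upwards [ae_restrict_mem Metric.isOpen_ball.measurableSet] with x hx
    rw [Metric.mem_ball, dist_zero_right] at hx
    have h4 : (0 : ℝ) < 1 + ‖x‖ ^ 2 := by positivity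
    have h5 : ‖x‖ ^ 2 ≤ s ^ 2 := by
      have := norm_nonneg x
      nlinarith
    rw [← mul_div_assoc, le_div_iff₀ h4]
    have h6 : 0 ≤ ‖u x‖ ^ 2 := by positivity
    nlinarith
  refine h1.trans ?_
  rw [integral_const_mul]
  refine mul_le_mul_of_nonneg_left ?_ (by positivity)
  exact setIntegral_le_integral hu (Eventually.of_forall fun x => by positivity)

omit [InnerProductSpace ℂ F] in
lemma mas_mono {u : Cfg d → F} (hu : MemLp u 2 (volume : Measure (Cfg d))) {s t : ℝ} (h : s ≤ t) :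
    mas u (Metric.ball 0 s) ≤ mas u (Metric.ball 0 t) :=
  setIntegral_mono_set (memLp_norm_sq_int hu).integrableOn
    (Eventually.of_forall fun x => by positivity) (Metric.ball_subset_ball h).eventuallyLE

/-! ### local energy bound -/

lemma gradOp_bd (S : Setup d F) {K₀ s : ℝ} (hs : 0 < s) (hK₀ : 0 ≤ K₀) {χ : Cfg d → ℝ}
    (hχ : IsCut K₀ s χ) (β : Fin 16) : ∃ CG : ℝ, 0 ≤ CG ∧ ∀ x : Cfg d, ‖S.gradOp χ β x‖ ≤ CG ∧
      (3 * s ≤ ‖x‖ → S.gradOp χ β x = 0) := by
  obtain ⟨hχ1, hχ2, hχ3, hχ4, hχ5, hχ6, hχ7, hχ8⟩ := hχ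
  have hp : ∀ (i : Fin 9) (A : Fin d) (x : Cfg d), |pdr i A χ x| ≤ K₀ / s := by
    intro i A x
    by_cases hx : ‖x‖ < s
    · rw [hχ8 i A x hx, abs_zero]
      positivity
    · have h1 : s ≤ ‖x‖ := not_lt.mp hx
      have h2 := hχ7 i A x
      rw [le_div_iff₀ hs]
      exact (mul_le_mul_of_nonneg_left h1 (abs_nonneg _)).trans h2
  refine ⟨∑ i, ∑ A, (K₀ / s) * ‖S.vec (S.g i) A β‖, by positivity, fun x => ⟨?_, fun hx => ?_⟩⟩
  · unfold Setup.gradOp
    rw [norm_smul, norm_neg, Complex.norm_I, one_mul]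
    refine (norm_sum_le _ _).trans (Finset.sum_le_sum fun i _ => ?_)
    refine (norm_sum_le _ _).trans (Finset.sum_le_sum fun A _ => ?_)
    rw [norm_smul, Complex.norm_real, Real.norm_eq_abs]
    exact mul_le_mul_of_nonneg_right (hp i A x) (norm_nonneg _)
  · have h0 : ∀ (i : Fin 9) (A : Fin d), pdr i A χ x = 0 := by
      intro i A
      have h1 : χ =ᶠ[𝓝 x] fun _ => 0 := by
        have h2 : {y : Cfg d | 2 * s < ‖y‖} ∈ 𝓝 x :=
          (isOpen_lt continuous_const continuous_norm).mem_nhds (by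
            change 2 * s < ‖x‖
            linarith)
        filter_upwards [h2] with y hy
        exact hχ6 y (le_of_lt hy)
      rw [pdr, h1.fderiv_eq]
      simp
    simp [Setup.gradOp, h0]

lemma loc_en (S : Setup d F) {s : ℝ} (hs : 0 < s) : ∃ K : ℝ, 0 ≤ K ∧
    ∀ u : Cfg d → F, Setup.Tst u →
    ∑ i, ∑ A, (∫ x in Metric.ball (0 : Cfg d) s, ‖pd i A u x‖ ^ 2) ≤
      K * (mas u (Metric.ball 0 (3 * s)) + En S u) := by
  obtain ⟨K₀, hK₀, hcut⟩ := exists_cut (d := d)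
  obtain ⟨χ, hχ⟩ := hcut s hs
  choose CG hCG hCG2 using fun β => gradOp_bd S hs hK₀ hχ β
  obtain ⟨hχ1, hχ2, hχ3, hχ4, hχ5, hχ6, hχ7, hχ8⟩ := hχ
  obtain ⟨CF', hCF'⟩ := (isCompact_closedBall (0 : Cfg d) (3 * s)).exists_bound_of_continuousOn
    (contDiff_Fx S).continuous.continuousOn
  set CF : ℝ := max CF' 0 with hCFd
  have hCF0 : 0 ≤ CF := le_max_right _ _
  have hCF : ∀ x : Cfg d, ‖x‖ ≤ 3 * s → ‖S.Fx x‖ ≤ CF := fun x hx =>
    (hCF' x (by rwa [Metric.mem_closedBall, dist_zero_right])).trans (le_max_left _ _)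
  refine ⟨1 / 4 + 1 / 4 * ∑ β, CG β ^ 2 + 2 * CF, by positivity, fun u hu => ?_⟩
  set M : ℝ := mas u (Metric.ball 0 (3 * s)) with hMd
  have hM0 : 0 ≤ M := mas_nonneg _ _
  have hE0 : 0 ≤ En S u := En_nonneg _ _
  set v : Cfg d → F := fun x => ((χ x : ℝ) : ℂ) • u x with hvd
  have hv : Setup.Tst v := hu.rsmul hχ1
  have hind : Integrable ((Metric.ball (0 : Cfg d) (3 * s)).indicator fun x => ‖u x‖ ^ 2) :=
    hu.norm_sq_int.indicator Metric.isOpen_ball.measurableSet
  have hMi : ∫ x, (Metric.ball (0 : Cfg d) (3 * s)).indicator (fun x => ‖u x‖ ^ 2) x = M :=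
    integral_indicator Metric.isOpen_ball.measurableSet
  have hout : ∀ x : Cfg d, x ∉ Metric.ball (0 : Cfg d) (3 * s) → v x = 0 := by
    intro x hx
    rw [Metric.mem_ball, dist_zero_right, not_lt] at hx
    simp only [hvd]
    rw [hχ6 x (by linarith)]
    simp
  have hvle : ∀ x, ‖v x‖ ^ 2 ≤ (Metric.ball (0 : Cfg d) (3 * s)).indicator (fun x => ‖u x‖ ^ 2) x := by
    intro x
    by_cases hx : x ∈ Metric.ball (0 : Cfg d) (3 * s)
    · rw [Set.indicator_of_mem hx]
      simp only [hvd, norm_smul, Complex.norm_real, Real.norm_of_nonneg (hχ3 x), mul_pow]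
      have h1 : χ x ^ 2 ≤ 1 := pow_le_one₀ (hχ3 x) (hχ4 x)
      have h2 : 0 ≤ ‖u x‖ ^ 2 := by positivity
      nlinarith
    · rw [Set.indicator_of_notMem hx, hout x hx]
      simp
  -- energy of the cutoff
  have hQ : ∀ β, ∫ x, ‖S.Q β v x‖ ^ 2 ≤ 2 * nsq (S.Q β u) + 2 * CG β ^ 2 * M := by
    intro β
    rw [← hMi, nsq, ← integral_const_mul, ← integral_const_mul, ← integral_add
      ((hu.Q S β).norm_sq_int.const_mul _) (hind.const_mul _)]
    refine integral_mono_of_nonneg (Eventually.of_forall fun x => by positivity)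
      (((hu.Q S β).norm_sq_int.const_mul _).add (hind.const_mul _))
      (Eventually.of_forall fun x => ?_)
    have h1 := S.Q_cut χ β u x (hχ1.differentiable (by simp) x) (hu.diff x)
    have h2 : ‖((χ x : ℝ) : ℂ) • S.Q β u x‖ ≤ ‖S.Q β u x‖ := by
      rw [norm_smul, Complex.norm_real, Real.norm_of_nonneg (hχ3 x)]
      exact mul_le_of_le_one_left (norm_nonneg _) (hχ4 x)
    have h3 : ‖S.gradOp χ β x (u x)‖ ^ 2 ≤
        CG β ^ 2 * (Metric.ball (0 : Cfg d) (3 * s)).indicator (fun x => ‖u x‖ ^ 2) x := by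
      by_cases hx : x ∈ Metric.ball (0 : Cfg d) (3 * s)
      · rw [Set.indicator_of_mem hx, ← mul_pow]
        refine pow_le_pow_left₀ (norm_nonneg _) (((S.gradOp χ β x).le_opNorm _).trans ?_) 2
        exact mul_le_mul_of_nonneg_right ((hCG2 β x).1) (norm_nonneg _)
      · rw [Set.indicator_of_notMem hx]
        rw [Metric.mem_ball, dist_zero_right, not_lt] at hx
        rw [(hCG2 β x).2 hx]
        simp
    have h4 : S.Q β v x = ((χ x : ℝ) : ℂ) • S.Q β u x + S.gradOp χ β x (u x) := h1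
    simp only
    rw [h4]
    have h5 := norm_add_le (((χ x : ℝ) : ℂ) • S.Q β u x) (S.gradOp χ β x (u x))
    have h6 := norm_nonneg (((χ x : ℝ) : ℂ) • S.Q β u x)
    have h7 := norm_nonneg (S.gradOp χ β x (u x))
    have h8 := norm_nonneg (((χ x : ℝ) : ℂ) • S.Q β u x + S.gradOp χ β x (u x))
    nlinarith [sq_nonneg (‖((χ x : ℝ) : ℂ) • S.Q β u x‖ - ‖S.gradOp χ β x (u x)‖)]
  have hef := energy_formula S v hv
  have hV : 0 ≤ ∫ x, S.V x * ‖v x‖ ^ 2 := by
    refine integral_nonneg fun x => mul_nonneg ?_ (by positivity)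
    unfold Setup.V
    positivity
  have hFv : Setup.Tst (fun x => S.Fx x (v x)) := hv.clm (contDiff_Fx S)
  have hF : -(CF * M) ≤ ∫ x, (inner ℂ (v x) (S.Fx x (v x))).re := by
    have h1 : ‖∫ x, (inner ℂ (v x) (S.Fx x (v x))).re‖ ≤
        ∫ x, CF * (Metric.ball (0 : Cfg d) (3 * s)).indicator (fun x => ‖u x‖ ^ 2) x := by
      refine norm_integral_le_of_norm_le (hind.const_mul _) (Eventually.of_forall fun x => ?_)
      have h2 : ‖(inner ℂ (v x) (S.Fx x (v x))).re‖ ≤ ‖v x‖ * ‖S.Fx x (v x)‖ := by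
        rw [Real.norm_eq_abs]
        exact (Complex.abs_re_le_norm _).trans (norm_inner_le_norm _ _)
      refine h2.trans ?_
      by_cases hx : x ∈ Metric.ball (0 : Cfg d) (3 * s)
      · have h3 : ‖S.Fx x (v x)‖ ≤ CF * ‖v x‖ := by
          refine ((S.Fx x).le_opNorm _).trans (mul_le_mul_of_nonneg_right ?_ (norm_nonneg _))
          rw [Metric.mem_ball, dist_zero_right] at hx
          exact hCF x hx.le
        have h4 := hvle x
        calc ‖v x‖ * ‖S.Fx x (v x)‖ ≤ ‖v x‖ * (CF * ‖v x‖) :=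
              mul_le_mul_of_nonneg_left h3 (norm_nonneg _)
          _ = CF * ‖v x‖ ^ 2 := by ring
          _ ≤ _ := mul_le_mul_of_nonneg_left h4 hCF0
      · rw [hout x hx]
        simp only [norm_zero, zero_mul]
        exact mul_nonneg hCF0 (Set.indicator_nonneg (fun _ _ => by positivity) _)
    rw [integral_const_mul, hMi, Real.norm_eq_abs] at h1
    exact neg_le_of_abs_le h1
  have hpd : ∑ i, ∑ A, (∫ x in Metric.ball (0 : Cfg d) s, ‖pd i A u x‖ ^ 2) ≤
      ∑ i, ∑ A, ∫ x, ‖pd i A v x‖ ^ 2 := by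
    refine Finset.sum_le_sum fun i _ => Finset.sum_le_sum fun A _ => ?_
    have h1 : ∫ x in Metric.ball (0 : Cfg d) s, ‖pd i A u x‖ ^ 2 =
        ∫ x in Metric.ball (0 : Cfg d) s, ‖pd i A v x‖ ^ 2 := by
      refine setIntegral_congr_fun Metric.isOpen_ball.measurableSet fun x hx => ?_
      have h2 : v =ᶠ[𝓝 x] u := by
        filter_upwards [Metric.isOpen_ball.mem_nhds hx] with y hy
        rw [Metric.mem_ball, dist_zero_right] at hy
        simp only [hvd]
        rw [hχ5 y hy.le]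
        simp
      have h3 : pd i A v x = pd i A u x := by
        unfold pd
        rw [h2.fderiv_eq]
      simp only [h3]
    rw [h1]
    exact setIntegral_le_integral (hv.pd i A).norm_sq_int
      (Eventually.of_forall fun x => by positivity)
  have hQs : ∑ β, ∫ x, ‖S.Q β v x‖ ^ 2 ≤ 2 * En S u + 2 * (∑ β, CG β ^ 2) * M := by
    refine (Finset.sum_le_sum fun β _ => hQ β).trans (le_of_eq ?_)
    rw [Finset.sum_add_distrib, En, Finset.mul_sum, Finset.mul_sum, Finset.sum_mul]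
  have hG0 : 0 ≤ ∑ β, CG β ^ 2 := by positivity
  nlinarith [mul_nonneg hG0 hM0, mul_nonneg hCF0 hM0, mul_nonneg hG0 hE0, mul_nonneg hCF0 hE0]

/-! ### the component orthogonal to the zero modes -/

/-- component orthogonal to the `o j` -/
noncomputable def rr {n : ℕ} (o : Fin n → Cfg d → F) (u : Cfg d → F) (x : Cfg d) : F :=
  u x - ∑ j, (∫ z, inner ℂ (o j z) (u z)) • o j x

lemma rr_memLp {n : ℕ} {o : Fin n → Cfg d → F} (ho : ∀ j, MemLp (o j) 2 (volume : Measure (Cfg d)))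
    {u : Cfg d → F} (hu : MemLp u 2 (volume : Measure (Cfg d))) :
    MemLp (rr o u) 2 (volume : Measure (Cfg d)) :=
  hu.sub (memLp_finsetSum _ fun j _ => (ho j).const_smul _)

lemma rr_csmul {n : ℕ} (o : Fin n → Cfg d → F) (c : ℂ) (u : Cfg d → F) :
    rr o (fun x => c • u x) = fun x => c • rr o u x := by
  funext x
  simp only [rr, inner_smul_right, integral_const_mul, smul_sub, Finset.smul_sum, smul_smul]

lemma inner_rr {n : ℕ} {o : Fin n → Cfg d → F} (ho : ∀ j, MemLp (o j) 2 (volume : Measure (Cfg d)))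
    (hO : ∀ j k, ∫ x, inner ℂ (o j x) (o k x) = if j = k then 1 else 0)
    {u : Cfg d → F} (hu : MemLp u 2 (volume : Measure (Cfg d))) (j : Fin n) :
    ∫ x, inner ℂ (o j x) (rr o u x) = 0 := by
  simp only [rr, inner_sub_right, inner_sum, inner_smul_right]
  rw [integral_sub (integrable_inner_memLp (ho j) hu)
    (integrable_finsetSum _ fun k _ => (integrable_inner_memLp (ho j) (ho k)).const_mul _),
    integral_finsetSum _ fun k _ => (integrable_inner_memLp (ho j) (ho k)).const_mul _]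
  simp only [integral_const_mul, hO]
  simp

lemma Q_sum (S : Setup d F) (β : Fin 16) {ι : Type*} (s : Finset ι) (a : ι → ℂ)
    {u : ι → Cfg d → F} (hu : ∀ k, GInv S (u k)) (x : Cfg d) :
    S.Q β (fun y => ∑ k ∈ s, a k • u k y) x = ∑ k ∈ s, a k • S.Q β (u k) x := by
  classical
  induction s using Finset.induction_on with
  | empty =>
    have h := Q_csmul S β 0 (u := fun _ => (0 : F)) ⟨contDiff_const, HasCompactSupport.zero⟩ x
    simpa using h
  | insert b s hb ih =>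
    simp only [Finset.sum_insert hb]
    rw [← ih, ← Q_csmul S β _ (hu b).1, ← Q_add S β (Tst_csmul _ (hu b).1) (GInv_sum s a hu).1]

lemma En_sum_le (S : Setup d F) {n : ℕ} (a : Fin n → ℂ) {w : Fin n → Cfg d → F}
    (hw : ∀ k, GInv S (w k)) :
    En S (fun x => ∑ k, a k • w k x) ≤ n * ∑ k, ‖a k‖ ^ 2 * En S (w k) := by
  have h1 : ∀ β, nsq (S.Q β (fun x => ∑ k, a k • w k x)) ≤
      n * ∑ k, ‖a k‖ ^ 2 * nsq (S.Q β (w k)) := by
    intro β
    have h2 : S.Q β (fun x => ∑ k, a k • w k x) = fun x => ∑ k, a k • S.Q β (w k) x :=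
      funext fun x => Q_sum S β _ a hw x
    rw [h2]
    have h3 := nsq_sum_le Finset.univ (fun k x => a k • S.Q β (w k) x)
      fun k _ => ((hw k).1.Q S β).memLp.const_smul (a k)
    simpa only [Finset.card_univ, Fintype.card_fin, nsq_csmul] using h3
  unfold En
  refine (Finset.sum_le_sum fun β _ => h1 β).trans (le_of_eq ?_)
  rw [← Finset.mul_sum, Finset.sum_comm]
  simp only [Finset.mul_sum]

lemma approx {S : Setup d F} {n : ℕ} {o : Fin n → Cfg d → F} (ho : ∀ j, ZM S (o j))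
    {u : Cfg d → F} (hu : GInv S u) {ε : ℝ} (hε : 0 < ε) :
    ∃ v, GInv S v ∧ nsq (fun x => v x - rr o u x) ≤ ε ∧ En S v ≤ 2 * En S u + ε := by
  choose w hw1 hw2 hw3 using ho
  set a : Fin n → ℂ := fun j => ∫ z, inner ℂ (o j z) (u z) with ha
  have h1 : Tendsto (fun k => (n : ℝ) * ∑ j, ‖a j‖ ^ 2 * nsq (fun x => w j k x - o j x)) atTop
      (𝓝 0) := by
    have h2 : Tendsto (fun k => (n : ℝ) * ∑ j, ‖a j‖ ^ 2 * nsq (fun x => w j k x - o j x)) atTop
        (𝓝 ((n : ℝ) * ∑ j, ‖a j‖ ^ 2 * 0)) :=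
      (tendsto_finsetSum _ fun j _ => ((hw2 j).lim).const_mul _).const_mul _
    simpa using h2
  have h2 : Tendsto (fun k => 2 * ((n : ℝ) * ∑ j, ‖a j‖ ^ 2 * En S (w j k))) atTop (𝓝 0) := by
    have h2 : Tendsto (fun k => 2 * ((n : ℝ) * ∑ j, ‖a j‖ ^ 2 * En S (w j k))) atTop
        (𝓝 (2 * ((n : ℝ) * ∑ j, ‖a j‖ ^ 2 * 0))) :=
      ((tendsto_finsetSum _ fun j _ => (hw3 j).const_mul _).const_mul _).const_mul _
    simpa using h2
  obtain ⟨k, hk1, hk2⟩ := ((h1.eventually_le_const hε).and (h2.eventually_le_const hε)).exists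
  refine ⟨fun x => u x - ∑ j, a j • w j k x, GInv_sub hu (GInv_sum _ _ fun j => hw1 j k), ?_, ?_⟩
  · have h3 : nsq (fun x => u x - ∑ j, a j • w j k x - rr o u x) =
        nsq (fun x => ∑ j, a j • (w j k x - o j x)) := by
      unfold nsq
      congr 1
      funext x
      have h4 : u x - ∑ j, a j • w j k x - rr o u x = -∑ j, a j • (w j k x - o j x) := by
        simp only [rr, ← ha, smul_sub, Finset.sum_sub_distrib]
        abel
      beta_reduce
      rw [h4, norm_neg]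
    rw [h3]
    have h5 := nsq_sum_le Finset.univ (fun j x => a j • (w j k x - o j x))
      fun j _ => (((hw2 j).mem k).sub (hw2 j).mem').const_smul (a j)
    simp only [Finset.card_univ, Fintype.card_fin, nsq_csmul] at h5
    exact h5.trans hk1
  · have h3 := En_sub_le S hu.1 (GInv_sum Finset.univ a fun j => hw1 j k).1
    have h4 := En_sum_le S a (w := fun j => w j k) fun j => hw1 j k
    linarith

/-! ### limits -/

omit [InnerProductSpace ℂ F] in
/-- bounds on balls give global bounds -/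
lemma ball_bound {g : Cfg d → ℝ} (hg : ∀ x, 0 ≤ g x)
    (hi : ∀ s : ℝ, 0 < s → IntegrableOn g (Metric.ball 0 s)) {B : ℝ}
    (hB : ∀ s : ℝ, 0 < s → ∫ x in Metric.ball (0 : Cfg d) s, g x ≤ B) :
    Integrable g ∧ ∫ x, g x ≤ B := by
  have hr : Tendsto (fun n : ℕ => (n : ℝ) + 1) atTop atTop :=
    tendsto_atTop_add_const_right _ _ tendsto_natCast_atTop_atTop
  have hφ : AECover (volume : Measure (Cfg d)) atTop
      (fun n : ℕ => Metric.ball (0 : Cfg d) ((n : ℝ) + 1)) := aecover_ball hr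
  have h1 : Integrable g := hφ.integrable_of_integral_bounded_of_nonneg_ae B
    (fun n => hi _ (by positivity)) (Eventually.of_forall hg)
    (Eventually.of_forall fun n => hB _ (by positivity))
  refine ⟨h1, ?_⟩
  exact le_of_tendsto' (hφ.integral_tendsto_of_countably_generated h1)
    fun n => hB _ (by positivity)

lemma am_gm (v w : F) (x : Cfg d) {ε : ℝ} (hε : 0 < ε) : ‖(inner ℂ v w : ℂ)‖ ≤
    ε / 2 * ((1 + ‖x‖ ^ 2) * ‖v‖ ^ 2) + 1 / (2 * ε) * (‖w‖ ^ 2 / (1 + ‖x‖ ^ 2)) := by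
  have h1 := norm_inner_le_norm (𝕜 := ℂ) v w
  refine h1.trans ?_
  have ht : 0 < 1 + ‖x‖ ^ 2 := by positivity
  set t := 1 + ‖x‖ ^ 2 with htd
  have h2 : ε / 2 * (t * ‖v‖ ^ 2) + 1 / (2 * ε) * (‖w‖ ^ 2 / t) - ‖v‖ * ‖w‖ =
      (ε * t * ‖v‖ - ‖w‖) ^ 2 / (2 * ε * t) := by
    field_simp
    ring
  have h3 : 0 ≤ (ε * t * ‖v‖ - ‖w‖) ^ 2 / (2 * ε * t) := by positivity
  linarith

/-- convergence of a sequence with vanishing energy and bounded weighted norm -/
lemma compact (S : Setup d F) {ρ₀ C₀ : ℝ} (hC₀ : 0 ≤ C₀)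
    (hH : ∀ u, GInv S u → wn u ≤ C₀ * (mas u (Metric.ball 0 ρ₀) + En S u)) (hρ₀ : 0 < ρ₀)
    (hLR : U.LRStmt d F) {v : ℕ → Cfg d → F} (hv : ∀ n, GInv S (v n)) {B : ℝ}
    (hB : ∀ n, wn (v n) ≤ B) (hE : Tendsto (fun n => En S (v n)) atTop (𝓝 0)) :
    ∃ φ : ℕ → ℕ, StrictMono φ ∧ ∃ Ψ : Cfg d → F, KW S Ψ ∧ WI Ψ ∧
      (∀ n, WI (fun x => v (φ n) x - Ψ x)) ∧
      Tendsto (fun n => wn (fun x => v (φ n) x - Ψ x)) atTop (𝓝 0) := by
  obtain ⟨E₀, hE₀⟩ : ∃ E₀ : ℝ, ∀ n, En S (v n) ≤ E₀ := by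
    obtain ⟨E₀, hE₀⟩ := hE.bddAbove_range
    exact ⟨E₀, fun n => hE₀ ⟨n, rfl⟩⟩
  have hm : ∀ n, MemLp (v n) 2 (volume : Measure (Cfg d)) := fun n => (hv n).1.memLp
  obtain ⟨φ, hφ, Ψ, hΨm, hΨi, hΨl⟩ := hLR v (fun n => (hv n).1.1) (by
    intro s hs
    obtain ⟨K, hK, hK2⟩ := loc_en S hs
    refine ⟨(1 + s ^ 2) * B + K * ((1 + (3 * s) ^ 2) * B + E₀), fun n => add_le_add ?_ ?_⟩
    · exact (mas_le_wn (WI_of_memLp (hm n)) s).trans
        (mul_le_mul_of_nonneg_left (hB n) (by positivity))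
    · refine (hK2 (v n) (hv n).1).trans (mul_le_mul_of_nonneg_left (add_le_add ?_ (hE₀ n)) hK)
      exact (mas_le_wn (WI_of_memLp (hm n)) _).trans
        (mul_le_mul_of_nonneg_left (hB n) (by positivity)))
  set f : ℕ → Cfg d → F := fun n => v (φ n) with hfd
  have hf : ∀ n, GInv S (f n) := fun n => hv _
  have hfm : ∀ n, MemLp (f n) 2 (volume : Measure (Cfg d)) := fun n => hm _
  have hfE : Tendsto (fun n => En S (f n)) atTop (𝓝 0) := hE.comp hφ.tendsto_atTop
  have hΨL : ∀ s : ℝ, 0 < s → MemLp Ψ 2 (volume.restrict (Metric.ball (0 : Cfg d) s)) := fun s hs =>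
    (memLp_two_iff_integrable_sq_norm hΨm.aestronglyMeasurable).mpr (hΨi s hs)
  have hdi : ∀ n, ∀ s : ℝ, 0 < s →
      IntegrableOn (fun x => ‖f n x - Ψ x‖ ^ 2) (Metric.ball (0 : Cfg d) s) := fun n s hs =>
    ((hfm n).restrict _ |>.sub (hΨL s hs)).integrable_norm_pow (by norm_num)
  set δ : ℕ → ℝ := fun n => ∫ x in Metric.ball (0 : Cfg d) ρ₀, ‖f n x - Ψ x‖ ^ 2 with hδd
  have hδ : Tendsto δ atTop (𝓝 0) := hΨl ρ₀ hρ₀
  have hδ0 : ∀ n, 0 ≤ δ n := fun n => integral_nonneg fun _ => by positivity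
  -- Cauchy estimate
  have hA : ∀ n m, wn (fun x => f n x - f m x) ≤
      C₀ * (2 * δ n + 2 * δ m + (2 * En S (f n) + 2 * En S (f m))) := by
    intro n m
    refine (hH _ (GInv_sub (hf n) (hf m))).trans (mul_le_mul_of_nonneg_left (add_le_add ?_
      (En_sub_le S (hf n).1 (hf m).1)) hC₀)
    rw [mas, hδd, ← integral_const_mul, ← integral_const_mul, ← integral_add
      ((hdi n ρ₀ hρ₀).const_mul _) ((hdi m ρ₀ hρ₀).const_mul _)]
    refine integral_mono_of_nonneg (Eventually.of_forall fun x => by positivity)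
      (((hdi n ρ₀ hρ₀).const_mul _).add ((hdi m ρ₀ hρ₀).const_mul _))
      (Eventually.of_forall fun x => ?_)
    have h1 : f n x - f m x = (f n x - Ψ x) - (f m x - Ψ x) := by abel
    simp only
    rw [h1]
    have h2 := norm_sub_le (f n x - Ψ x) (f m x - Ψ x)
    have h3 := norm_nonneg ((f n x - Ψ x) - (f m x - Ψ x))
    nlinarith [sq_nonneg (‖f n x - Ψ x‖ - ‖f m x - Ψ x‖)]
  have hwm : ∀ n, AEStronglyMeasurable (fun x => ‖f n x - Ψ x‖ ^ 2 / (1 + ‖x‖ ^ 2))
      (volume : Measure (Cfg d)) := fun n =>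
    wt_meas ((hfm n).1.sub hΨm.aestronglyMeasurable)
  have hwi : ∀ n, ∀ s : ℝ, 0 < s →
      IntegrableOn (fun x => ‖f n x - Ψ x‖ ^ 2 / (1 + ‖x‖ ^ 2)) (Metric.ball (0 : Cfg d) s) := by
    intro n s hs
    refine (hdi n s hs).mono' (hwm n).restrict (Eventually.of_forall fun x => ?_)
    rw [Real.norm_of_nonneg (by positivity)]
    exact wt_le _ _
  have hBn : ∀ n, ∀ s : ℝ, 0 < s →
      ∫ x in Metric.ball (0 : Cfg d) s, ‖f n x - Ψ x‖ ^ 2 / (1 + ‖x‖ ^ 2) ≤
      2 * (C₀ * (2 * δ n + 2 * 0 + (2 * En S (f n) + 2 * 0))) + 2 * 0 := by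
    intro n s hs
    have h1 : ∀ m, ∫ x in Metric.ball (0 : Cfg d) s, ‖f n x - Ψ x‖ ^ 2 / (1 + ‖x‖ ^ 2) ≤
        2 * (C₀ * (2 * δ n + 2 * δ m + (2 * En S (f n) + 2 * En S (f m)))) +
          2 * ∫ x in Metric.ball (0 : Cfg d) s, ‖f m x - Ψ x‖ ^ 2 := by
      intro m
      have hWI : WI (fun x => f n x - f m x) := WI_of_memLp ((hfm n).sub (hfm m))
      have h2 : ∫ x in Metric.ball (0 : Cfg d) s, ‖f n x - Ψ x‖ ^ 2 / (1 + ‖x‖ ^ 2) ≤
          ∫ x in Metric.ball (0 : Cfg d) s, (2 * (‖f n x - f m x‖ ^ 2 / (1 + ‖x‖ ^ 2)) +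
            2 * ‖f m x - Ψ x‖ ^ 2) := by
        refine integral_mono_of_nonneg (Eventually.of_forall fun x => by positivity)
          ((hWI.integrableOn.const_mul 2).add ((hdi m s hs).const_mul 2))
          (Eventually.of_forall fun x => ?_)
        have h3 : f n x - Ψ x = (f n x - f m x) - (Ψ x - f m x) := by abel
        have h4 := wt_sub_le (f n x - f m x) (Ψ x - f m x) x
        rw [← h3, norm_sub_rev (Ψ x) (f m x)] at h4
        have h5 := wt_le (f m x - Ψ x) x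
        simp only
        linarith
      refine h2.trans ?_
      rw [integral_add (hWI.integrableOn.const_mul 2) ((hdi m s hs).const_mul 2),
        integral_const_mul, integral_const_mul]
      refine add_le_add (mul_le_mul_of_nonneg_left ?_ (by norm_num)) le_rfl
      exact (setIntegral_le_integral hWI (Eventually.of_forall fun x => by positivity)).trans
        (hA n m)
    have h2 : Tendsto (fun m => 2 * (C₀ * (2 * δ n + 2 * δ m + (2 * En S (f n) + 2 * En S (f m)))) +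
        2 * ∫ x in Metric.ball (0 : Cfg d) s, ‖f m x - Ψ x‖ ^ 2) atTop
        (𝓝 (2 * (C₀ * (2 * δ n + 2 * 0 + (2 * En S (f n) + 2 * 0))) + 2 * 0)) := by
      refine Tendsto.add (Tendsto.const_mul _ (Tendsto.const_mul _ (Tendsto.add
        (Tendsto.const_add _ (hδ.const_mul _)) (Tendsto.const_add _ (hfE.const_mul _))))) ?_
      exact (hΨl s hs).const_mul _
    exact ge_of_tendsto' h2 h1
  have hC := fun n => ball_bound (g := fun x => ‖f n x - Ψ x‖ ^ 2 / (1 + ‖x‖ ^ 2))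
    (fun x => by positivity) (hwi n) (hBn n)
  have hWd : ∀ n, WI (fun x => f n x - Ψ x) := fun n => (hC n).1
  have hWΨ : WI Ψ := by
    have h1 := (WI_of_memLp (hfm 0)).sub (hWd 0) (hfm 0).1 ((hfm 0).1.sub hΨm.aestronglyMeasurable)
    simpa using h1
  have hlim : Tendsto (fun n => wn (fun x => f n x - Ψ x)) atTop (𝓝 0) := by
    refine squeeze_zero (fun n => wn_nonneg _) (fun n => (hC n).2) ?_
    have h1 : Tendsto (fun n => 2 * (C₀ * (2 * δ n + 2 * 0 + (2 * En S (f n) + 2 * 0))) + 2 * 0)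
        atTop (𝓝 (2 * (C₀ * (2 * 0 + 2 * 0 + (2 * 0 + 2 * 0))) + 2 * 0)) :=
      ((((hδ.const_mul 2).add_const _).add ((hfE.const_mul 2).add_const _)).const_mul _
        |>.const_mul _).add_const _
    simpa using h1
  exact ⟨φ, hφ, Ψ, ⟨hΨm.aestronglyMeasurable, f, hf, hWΨ, hlim, hfE⟩, hWΨ, hWd, hlim⟩

lemma core (S : Setup d F) {ρ₀ C₀ : ℝ} (hC₀ : 0 ≤ C₀)
    (hH : ∀ u, GInv S u → wn u ≤ C₀ * (mas u (Metric.ball 0 ρ₀) + En S u)) (hρ₀ : 0 < ρ₀)
    (hLR : U.LRStmt d F) {n : ℕ} {o : Fin n → Cfg d → F} (hoZ : ∀ j, ZM S (o j))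
    (hoO : ∀ j k, ∫ x, inner ℂ (o j x) (o k x) = if j = k then 1 else 0)
    (hsp : ∀ u, KW S u → ∃ c : Fin n → ℂ, ∀ᵐ x ∂(volume : Measure (Cfg d)),
      u x = ∑ j, c j • o j x)
    (hdec : ∀ j, Integrable (fun x => (1 + ‖x‖ ^ 2) * ‖o j x‖ ^ 2) (volume : Measure (Cfg d))) :
    ∃ C : ℝ, 0 ≤ C ∧ ∀ u, GInv S u → wn (rr o u) ≤ C * En S u := by
  have hom : ∀ j, MemLp (o j) 2 (volume : Measure (Cfg d)) := fun j => by
    obtain ⟨w, _, hw, _⟩ := hoZ j
    exact hw.mem'
  by_contra hcon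
  push Not at hcon
  have hs : ∀ n : ℕ, ∃ u, GInv S u ∧ wn (rr o u) = 1 ∧ En S u ≤ 1 / ((n : ℝ) + 1) := by
    intro n
    obtain ⟨u, hu, hlt⟩ := hcon ((n : ℝ) + 1) (by positivity)
    have hE := En_nonneg S u
    have hpos : 0 < wn (rr o u) := lt_of_le_of_lt (by positivity) hlt
    refine ⟨fun x => (((Real.sqrt (wn (rr o u)))⁻¹ : ℝ) : ℂ) • u x, GInv_csmul _ hu, ?_, ?_⟩
    · rw [rr_csmul, wn_csmul, Complex.norm_real, Real.norm_of_nonneg (by positivity), inv_pow,
        Real.sq_sqrt hpos.le, inv_mul_cancel₀ hpos.ne']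
    · rw [En_csmul S _ hu.1, Complex.norm_real, Real.norm_of_nonneg (by positivity), inv_pow,
        Real.sq_sqrt hpos.le, inv_mul_le_iff₀ hpos, mul_one_div, le_div_iff₀ (by positivity)]
      linarith
  choose u hu hu1 hu2 using hs
  have hv : ∀ n : ℕ, ∃ v, GInv S v ∧ nsq (fun x => v x - rr o (u n) x) ≤ 1 / ((n : ℝ) + 1) ∧
      En S v ≤ 2 * En S (u n) + 1 / ((n : ℝ) + 1) := fun n => approx hoZ (hu n) (by positivity)
  choose v hv hv1 hv2 using hv
  have hlim1 : Tendsto (fun n : ℕ => 1 / ((n : ℝ) + 1)) atTop (𝓝 0) :=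
    tendsto_one_div_add_atTop_nhds_zero_nat
  have hrm : ∀ n, MemLp (rr o (u n)) 2 (volume : Measure (Cfg d)) := fun n =>
    rr_memLp hom (hu n).1.memLp
  have hvr : ∀ n, MemLp (fun x => v n x - rr o (u n) x) 2 (volume : Measure (Cfg d)) := fun n =>
    (hv n).1.memLp.sub (hrm n)
  have hE : Tendsto (fun n => En S (v n)) atTop (𝓝 0) := by
    have h1 : Tendsto (fun n : ℕ => 2 * (1 / ((n : ℝ) + 1)) + 1 / ((n : ℝ) + 1)) atTop
        (𝓝 (2 * 0 + 0)) := (hlim1.const_mul 2).add hlim1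
    rw [mul_zero, add_zero] at h1
    refine squeeze_zero (fun n => En_nonneg _ _) (fun n => ?_) h1
    have := hv2 n
    have := hu2 n
    linarith
  have hwr : ∀ n, wn (fun x => v n x - rr o (u n) x) ≤ 1 / ((n : ℝ) + 1) := fun n =>
    (wn_le_nsq (hvr n)).trans (hv1 n)
  have hB : ∀ n, wn (v n) ≤ 4 := by
    intro n
    have h1 := wn_sub_le (WI_of_memLp (hvr n)) (WI_of_memLp (hrm n).neg)
    have h2 : (fun x => v n x - rr o (u n) x - (-rr o (u n)) x) = v n := by
      funext x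
      simp
    have h3 : wn (-rr o (u n)) = wn (rr o (u n)) := by
      unfold wn
      simp
    rw [h2, h3, hu1] at h1
    have h4 := hwr n
    have h5 : 1 / ((n : ℝ) + 1) ≤ 1 := by
      rw [div_le_one (by positivity)]
      have : (0 : ℝ) ≤ n := Nat.cast_nonneg n
      linarith
    linarith
  obtain ⟨φ, hφ, Ψ, hKΨ, hWΨ, hWd, hlim⟩ := compact S hC₀ hH hρ₀ hLR hv hB hE
  obtain ⟨c, hc⟩ := hsp Ψ hKΨ
  -- the remainders converge to the limit
  have hrd : ∀ n, WI (fun x => rr o (u (φ n)) x - Ψ x) := fun n =>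
    (WI_of_memLp (hrm (φ n))).sub hWΨ (hrm (φ n)).1 hKΨ.1
  have hrl : Tendsto (fun n => wn (fun x => rr o (u (φ n)) x - Ψ x)) atTop (𝓝 0) := by
    have h1 : Tendsto (fun n => 2 * wn (fun x => v (φ n) x - Ψ x) + 2 * (1 / ((φ n : ℝ) + 1)))
        atTop (𝓝 (2 * 0 + 2 * 0)) :=
      (hlim.const_mul 2).add ((hlim1.comp hφ.tendsto_atTop).const_mul 2)
    rw [mul_zero, add_zero] at h1
    refine squeeze_zero (fun n => wn_nonneg _) (fun n => ?_) h1
    have h2 := wn_sub_le (hWd n) (WI_of_memLp (hvr (φ n)))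
    have h3 : (fun x => v (φ n) x - Ψ x - (v (φ n) x - rr o (u (φ n)) x)) =
        fun x => rr o (u (φ n)) x - Ψ x := by
      funext x
      abel
    rw [h3] at h2
    have h4 := hwr (φ n)
    linarith
  set g : Cfg d → F := fun x => ∑ j, c j • o j x with hg
  have hgm : MemLp g 2 (volume : Measure (Cfg d)) :=
    memLp_finsetSum _ fun j _ => (hom j).const_smul _
  have hwg : ∀ n, wn (fun x => rr o (u (φ n)) x - Ψ x) =
      ∫ x, ‖g x - rr o (u (φ n)) x‖ ^ 2 / (1 + ‖x‖ ^ 2) := by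
    intro n
    refine integral_congr_ae ?_
    filter_upwards [hc] with x hx
    rw [hx, norm_sub_rev]
  have hcz : ∀ j, c j = 0 := by
    intro j
    set A : ℝ := ∫ x, (1 + ‖x‖ ^ 2) * ‖o j x‖ ^ 2 with hA
    have hA0 : 0 ≤ A := integral_nonneg fun _ => by positivity
    have h1 : ∫ x, inner ℂ (o j x) (g x) = c j := by
      simp only [hg, inner_sum, inner_smul_right]
      rw [integral_finsetSum _ fun k _ =>
        (integrable_inner_memLp (hom j) (hom k)).const_mul _]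
      simp only [integral_const_mul, hoO]
      simp
    have h2 : ∀ n, ∫ x, inner ℂ (o j x) (g x - rr o (u (φ n)) x) = c j := by
      intro n
      simp only [inner_sub_right]
      rw [integral_sub (integrable_inner_memLp (hom j) hgm)
        (integrable_inner_memLp (hom j) (hrm _)), h1, inner_rr hom hoO (hu _).1.memLp, sub_zero]
    have h3 : ∀ ε : ℝ, 0 < ε → ‖c j‖ ≤ ε / 2 * A := by
      intro ε hε
      have h4 : ∀ n, ‖c j‖ ≤ ε / 2 * A + 1 / (2 * ε) * wn (fun x => rr o (u (φ n)) x - Ψ x) := by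
        intro n
        have hI : Integrable (fun x => ‖g x - rr o (u (φ n)) x‖ ^ 2 / (1 + ‖x‖ ^ 2)) :=
          WI_of_memLp (hgm.sub (hrm _))
        rw [← h2 n, hwg, hA, ← integral_const_mul, ← integral_const_mul, ← integral_add
          ((hdec j).const_mul _) (hI.const_mul _)]
        exact norm_integral_le_of_norm_le (((hdec j).const_mul _).add (hI.const_mul _))
          (Eventually.of_forall fun x => am_gm _ _ x hε)
      have h5 : Tendsto (fun n => ε / 2 * A + 1 / (2 * ε) *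
          wn (fun x => rr o (u (φ n)) x - Ψ x)) atTop (𝓝 (ε / 2 * A + 1 / (2 * ε) * 0)) :=
        (hrl.const_mul _).const_add _
      rw [mul_zero, add_zero] at h5
      exact ge_of_tendsto' h5 h4
    have h6 : ‖c j‖ ≤ 0 := by
      have h7 : Tendsto (fun ε : ℝ => ε / 2 * A) (𝓝[>] 0) (𝓝 (0 / 2 * A)) := by
        refine Tendsto.mono_left ?_ nhdsWithin_le_nhds
        exact ((tendsto_id).div_const _).mul_const _
      rw [zero_div, zero_mul] at h7
      refine ge_of_tendsto h7 ?_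
      filter_upwards [self_mem_nhdsWithin] with ε hε
      exact h3 ε hε
    exact norm_le_zero_iff.mp h6
  have hone : ∀ n, wn (fun x => rr o (u (φ n)) x - Ψ x) = 1 := by
    intro n
    rw [← hu1 (φ n)]
    refine integral_congr_ae ?_
    filter_upwards [hc] with x hx
    rw [hx]
    simp [hcz]
  simp only [hone] at hrl
  exact absurd (tendsto_nhds_unique hrl tendsto_const_nhds) (by norm_num)

end IC

variable {d : ℕ} {F : Type*} [NormedAddCommGroup F] [InnerProductSpace ℂ F]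

/-- **D9** inner completeness -/
theorem icOf (S : Setup d F) : ICOfStmt S := by
  intro hDec hKW hHI hDy hDisc hLR hfd
  obtain ⟨zk, -, n, o, hoZ, hoO, hsp⟩ := hKW hDec hDy hDisc hLR hfd
  obtain ⟨ρ₀, C₀, hρ₀, hC₀, hH⟩ := hHI hDy hDisc
  obtain ⟨ρ₁, C₁, -, -, hd⟩ := hDec hDy hDisc
  have hdec : ∀ j, Integrable (fun x => (1 + ‖x‖ ^ 2) * ‖o j x‖ ^ 2)
      (volume : Measure (Cfg d)) := fun j => (hd _ (zk _ (hoZ j))).1
  have hom : ∀ j, MemLp (o j) 2 (volume : Measure (Cfg d)) := fun j => by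
    obtain ⟨w, _, hw, _⟩ := hoZ j
    exact hw.mem'
  obtain ⟨C, hC, hcore⟩ := IC.core S hC₀ hH hρ₀ hLR hoZ hoO hsp hdec
  refine ⟨n, o, 2 * C, by positivity, hoZ, hoO, fun ρ hρ u hu => ?_⟩
  have h1 : mas (fun x => u x - ∑ j, (∫ z, inner ℂ (o j z) (u z)) • o j x) (Metric.ball 0 ρ) ≤
      (1 + ρ ^ 2) * wn (IC.rr o u) :=
    IC.mas_le_wn (IC.WI_of_memLp (IC.rr_memLp hom hu.1.memLp)) ρ
  have h2 := hcore u hu
  have h3 := IC.En_nonneg S u
  refine h1.trans ?_
  calc (1 + ρ ^ 2) * wn (IC.rr o u) ≤ (1 + ρ ^ 2) * (C * En S u) :=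
        mul_le_mul_of_nonneg_left h2 (by positivity)
    _ ≤ (2 * ρ ^ 2) * (C * En S u) := by
        refine mul_le_mul_of_nonneg_right ?_ (mul_nonneg hC h3)
        nlinarith
    _ = 2 * C * ρ ^ 2 * En S u := by ring

end Vale.Agent.P353.Z.AD
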