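import Vale.Agent.P353.AN.D.Tr
import Vale.Agent.P353.AN.A.Rot

/-! # P353, all `N`, block D: L14 inner completeness for all centreless setups -/

open MeasureTheory Filter Topology Matrix
open scoped ContDiff

namespace Vale.Agent.P353.Z.AD

variable {d dh dm ds dz : ℕ} {F : Type*} [NormedAddCommGroup F] [InnerProductSpace ℂ F]

namespace ICAll

lemma emb_inl (φ : Spl dh dm d) (y : Cfg dh) (w : Wsp dm) (i : Fin 9) (A : Fin dh) :
    emb φ y w (i, φ (Sum.inl A)) = y (i, A) := by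
  simp [emb]

lemma emb_inr0 (φ : Spl dh dm d) (y : Cfg dh) (i : Fin 9) (B : Fin dm) :
    emb φ y 0 (i, φ (Sum.inr B)) = 0 := by
  have h : (emb φ y (0 : Wsp dm)) (i, φ (Sum.inr B)) =
      Fin.lastCases (motive := fun _ => ℝ) 0 (fun _ => (0 : ℝ)) i := by
    simp [emb]
  rw [h]
  refine Fin.lastCases (motive := fun i => Fin.lastCases (motive := fun _ => ℝ) 0 (fun _ => (0 : ℝ)) i = 0)
    ?_ (fun j => ?_) i
  · rw [Fin.lastCases_last]
  · rw [Fin.lastCases_castSucc]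

/-- colour vectors of the first summand -/
noncomputable def incl (φ : Spl dh dm d) : (Fin dh → ℝ) →ₗ[ℝ] (Fin d → ℝ) where
  toFun := fun v A => Sum.elim v (fun _ => 0) (φ.symm A)
  map_add' := by
    intro v w
    funext A
    simp only [Pi.add_apply]
    rcases φ.symm A with a | b
    · simp only [Sum.elim_inl, Pi.add_apply]
    · simp only [Sum.elim_inr, add_zero]
  map_smul' := by
    intro c v
    funext A
    simp only [Pi.smul_apply, RingHom.id_apply]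
    rcases φ.symm A with a | b
    · simp only [Sum.elim_inl, Pi.smul_apply]
    · simp only [Sum.elim_inr, smul_zero]

lemma incl_inl (φ : Spl dh dm d) (v : Fin dh → ℝ) (a : Fin dh) : incl φ v (φ (Sum.inl a)) = v a := by
  show Sum.elim v (fun _ => 0) (φ.symm (φ (Sum.inl a))) = v a
  rw [Equiv.symm_apply_apply, Sum.elim_inl]

lemma incl_inr (φ : Spl dh dm d) (v : Fin dh → ℝ) (b : Fin dm) : incl φ v (φ (Sum.inr b)) = 0 := by
  show Sum.elim v (fun _ => (0 : ℝ)) (φ.symm (φ (Sum.inr b))) = 0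
  rw [Equiv.symm_apply_apply, Sum.elim_inr]

lemma incl_inj (φ : Spl dh dm d) : Function.Injective (incl φ) := by
  intro v w h
  funext a
  rw [← incl_inl φ v a, h, incl_inl]

lemma incl_mem (S : Setup d F) (φ : Spl dh dm d) (y : Cfg dh) (h : AN.Std S φ y) (v : Fin dh → ℝ) :
    incl φ v ∈ cz S (emb φ y 0) := by
  intro i C
  rw [← φ.sum_comp, Fintype.sum_sum_type]
  have h2 : ∀ b : Fin dm, (∑ B, S.f (φ (Sum.inr b)) B C * incl φ v (φ (Sum.inr b)) *
      (emb φ y (0 : Wsp dm)) (i, B)) = 0 := by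
    intro b
    refine Finset.sum_eq_zero fun B _ => ?_
    rw [incl_inr, mul_zero, zero_mul]
  have h1 : ∀ a : Fin dh, (∑ B, S.f (φ (Sum.inl a)) B C * incl φ v (φ (Sum.inl a)) *
      (emb φ y (0 : Wsp dm)) (i, B)) = 0 := by
    intro a
    rw [← φ.sum_comp, Fintype.sum_sum_type]
    have h3 : ∀ b : Fin dm, S.f (φ (Sum.inl a)) (φ (Sum.inr b)) C * incl φ v (φ (Sum.inl a)) *
      (emb φ y (0 : Wsp dm)) (i, φ (Sum.inr b)) = 0 := by
      intro b
      rw [emb_inr0, mul_zero]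
    rw [Finset.sum_eq_zero (fun b _ => h3 b), add_zero]
    obtain ⟨c, rfl⟩ := φ.surjective C
    rcases c with c | c
    · have h4 : ∀ b : Fin dh, S.f (φ (Sum.inl a)) (φ (Sum.inl b)) (φ (Sum.inl c)) *
          incl φ v (φ (Sum.inl a)) * (emb φ y (0 : Wsp dm)) (i, φ (Sum.inl b)) =
          (- v a) * (S.f (φ (Sum.inl b)) (φ (Sum.inl a)) (φ (Sum.inl c)) * y (i, b)) := by
        intro b
        rw [incl_inl, emb_inl, S.f_swap]
        ring
      rw [Finset.sum_congr rfl (fun b _ => h4 b), ← Finset.mul_sum, h.cen, mul_zero]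
    · refine Finset.sum_eq_zero fun b _ => ?_
      rw [h.sub, zero_mul, zero_mul]
  rw [Finset.sum_eq_zero (fun a _ => h1 a), Finset.sum_eq_zero (fun b _ => h2 b), add_zero]

/-- the centraliser of a standard point contains `h` -/
lemma cd_ge (S : Setup d F) (φ : Spl dh dm d) (y : Cfg dh) (h : AN.Std S φ y) :
    dh ≤ cd S (emb φ y 0) := by
  have h1 : Module.finrank ℝ (Fin dh → ℝ) ≤ Module.finrank ℝ (cz S (emb φ y 0)) :=
    LinearMap.finrank_le_finrank_of_injective (f := (incl φ).codRestrict _ (incl_mem S φ y h))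
      (LinearMap.injective_codRestrict_iff _ |>.2 (incl_inj φ))
  rw [Module.finrank_fin_fun] at h1
  exact h1

lemma cmb_zero (ψ : Spl ds 0 dh) (z₀ : Cfg 0) : cmb ψ 0 z₀ = 0 := by
  ext p
  show Sum.elim (fun A => (0 : Cfg ds) (p.1, A)) (fun B => z₀ (p.1, B)) (ψ.symm p.2) = 0
  rcases ψ.symm p.2 with a | b
  · rfl
  · exact b.elim0

lemma emb_zero (φ : Spl dh 0 d) (w : Wsp 0) : emb φ 0 w = 0 := by
  ext p
  show Sum.elim (fun A => (0 : Cfg dh) (p.1, A))
    (fun B => Fin.lastCases (motive := fun _ => ℝ) 0 (fun j => w (j, B)) p.1) (φ.symm p.2) = 0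
  rcases φ.symm p.2 with a | b
  · rfl
  · exact b.elim0

lemma card_spl (φ : Spl dh dm d) : dh + dm = d := by
  have h := Fintype.card_congr φ
  rw [Fintype.card_sum, Fintype.card_fin, Fintype.card_fin, Fintype.card_fin] at h
  exact h

lemma ds_lt (φ : Spl dh dm d) (ψ : Spl ds dz dh) (z₀ : Cfg dz) (h : emb φ (cmb ψ 0 z₀) 0 ≠ 0) :
    ds < d := by
  have h1 := card_spl φ
  have h2 := card_spl ψ
  by_contra hcon
  have hdm : dm = 0 := by omega
  have hdz : dz = 0 := by omega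
  subst hdm
  subst hdz
  apply h
  rw [cmb_zero, emb_zero]

lemma meas_shl (d : ℕ) (s t : ℝ) : MeasurableSet (shl d s t) := by
  have h1 : IsOpen (shl d s t) := by
    have : shl d s t = (fun x : Cfg d => ‖x‖) ⁻¹' Set.Ioo s t := by
      ext x
      rfl
    rw [this]
    exact isOpen_Ioo.preimage continuous_norm
  exact h1.measurableSet

/-- local data at a point -/
def Loc (S : Setup d F) (Y : Cfg d) (P : (ℕ → ℝ) → (ℕ → Cfg d → F) → Prop) : Prop :=
  (∃ ε : ℝ, 0 < ε ∧ ∀ (R : ℕ → ℝ) (u : ℕ → Cfg d → F), Sq S R u →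
    (∀ Y', Y' ≠ 0 → S.V Y' = 0 → cd S Y' < cd S Y → Nul R u Y') → P R u → NulE R u Y ε) ∧
  (∀ (R : ℕ → ℝ) (u : ℕ → Cfg d → F), Sq S R u →
    (∃ C : ℝ, ∀ k : ℤ, ∀ᶠ n in atTop, mas (u n) (shl d ((2 : ℝ) ^ k * R n) ((2 : ℝ) ^ (k + 1) * R n)) ≤
      C * (2 : ℝ) ^ (3 * |k|)) →
    (∀ s t : ℝ, 0 < s → s < t → Tendsto (fun n => R n ^ 2 * ena S (u n) (shl d (s * R n) (t * R n))) atTop (𝓝 0)) →
    ∃ l : ℕ → ℕ, StrictMono l ∧ P (fun n => R (l n)) (fun n => u (l n)))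

lemma exists_loc (hfin : FiniteDimensional ℂ F) (d : ℕ) (S : Setup d F)
    (H : ∀ (R : Matrix (Fin 9) (Fin 9) ℝ) (hR : R * R.transpose = 1)
      (O : Matrix (Fin d) (Fin d) ℝ) (hO : O * O.transpose = 1),
      LocStmt (S.rot R hR O hO) ∧ LioStmt (S.rot R hR O hO) ∧ NonCommStmt (S.rot R hR O hO))
    (hStd : Std2Stmt S) (hTr : TrStmt S)
    (IH : ∀ m < d, ∀ T : Setup m F, AN.Cless T → ICStmt T) (Y : Cfg d) (hY : Y ≠ 0) (hV : S.V Y = 0) :
    ∃ P, Loc S Y P := by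
  obtain ⟨R, hR, O, hO, dh, dm, ds, dz, φ, ψ, z₀, h, hYe⟩ := hStd Y hV
  obtain ⟨HL, HLio, HN⟩ := H R hR O hO
  have hF := Tr.mkFx (AN.rot_stmt S) hR hO
  have hne : emb φ (cmb ψ 0 z₀) 0 ≠ 0 := by
    rw [← hYe]
    intro h0
    apply hY
    rw [← norm_eq_zero, ← hF.nm, h0, norm_zero]
  have hIC : ICStmt h.ss := IH ds (ds_lt φ ψ z₀ hne) h.ss h.less
  obtain ⟨ε₀, hε₀, HL⟩ := HL hfin dh dm ds dz φ ψ z₀ h hne hIC
  obtain ⟨ε₀', hε₀', HLio⟩ := HLio hfin dh dm ds dz φ ψ z₀ h hne hIC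
  obtain ⟨ε₁, hε₁, HL⟩ := HL (min ε₀ ε₀') (lt_min hε₀ hε₀') (min_le_left _ _)
  have HLio := HLio (min ε₀ ε₀') (lt_min hε₀ hε₀') (min_le_right _ _)
  refine ⟨fun Rn u => SPZ (S.rot R hR O hO) φ ψ z₀ h (min ε₀ ε₀') Rn
    (fun n x => u n (rox R.transpose O.transpose x)), ⟨ε₁, hε₁, ?_⟩, ?_⟩
  · intro Rn u hS hnul hP
    obtain ⟨t1, -, t3, t4, t5, -⟩ := hTr R hR O hO Rn u
    have hS' := t1 hS
    rw [← t3, hYe]
    refine HL Rn _ hS' (HN hfin Rn _ hS') ?_ hP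
    intro Y' hY' hV' hc
    have hYY : rox R O (rox R.transpose O.transpose Y') = Y' := hF.r Y'
    have h1 : Nul Rn u (rox R.transpose O.transpose Y') := by
      refine hnul _ ?_ ?_ ?_
      · intro h0
        apply hY'
        rw [← norm_eq_zero, ← hYY, hF.nm, h0, norm_zero]
      · rw [← t5, hYY]
        exact hV'
      · rw [← t4, hYY, ← t4 Y, hYe]
        exact lt_of_lt_of_le hc (cd_ge _ φ _ h.std)
    obtain ⟨ε, hε, h2⟩ := h1
    refine ⟨ε, hε, ?_⟩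
    rw [← hYY, t3]
    exact h2
  · intro Rn u hS hg he
    obtain ⟨t1, t2, -, -, -, t6⟩ := hTr R hR O hO Rn u
    have hS' := t1 hS
    have hA : ∃ C : ℝ, ∀ k : ℤ, ∀ᶠ n in atTop,
        mas (fun x => u n (rox R.transpose O.transpose x))
          (shl d ((2 : ℝ) ^ k * Rn n) ((2 : ℝ) ^ (k + 1) * Rn n)) ≤ C * (2 : ℝ) ^ (3 * |k|) := by
      obtain ⟨C, hC⟩ := hg
      refine ⟨C, fun k => ?_⟩
      filter_upwards [hC k] with n hn
      rw [(t2 n _ (meas_shl d _ _) (t6 _ _)).1]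
      exact hn
    have hB : ∀ s t : ℝ, 0 < s → s < t → Tendsto (fun n => Rn n ^ 2 *
        ena (S.rot R hR O hO) (fun x => u n (rox R.transpose O.transpose x))
          (shl d (s * Rn n) (t * Rn n))) atTop (𝓝 0) := by
      intro s t hs ht
      refine (he s t hs ht).congr fun n => ?_
      rw [(t2 n _ (meas_shl d _ _) (t6 _ _)).2 (hS.inv n).1]
    obtain ⟨l, hl, h10⟩ := HLio Rn (fun n x => u n (rox R.transpose O.transpose x)) hS' hA hB
    exact ⟨l, hl, h10⟩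

end ICAll

open ICAll in
/-- L14 -/
theorem icAllOf (F : Type*) [NormedAddCommGroup F] [InnerProductSpace ℂ F] : ICAllOfStmt F := by
  intro hfin H hdisc hLR d
  induction d using Nat.strong_induction_on with
  | _ d IH =>
    intro S _
    have hloc : ∀ Y : Cfg d, ∃ P : (ℕ → ℝ) → (ℕ → Cfg d → F) → Prop, Y ≠ 0 → S.V Y = 0 → Loc S Y P := by
      intro Y
      by_cases h1 : Y ≠ 0 ∧ S.V Y = 0
      · obtain ⟨P, hP⟩ := exists_loc hfin d S
          (fun R hR O hO => ⟨(H d _).1, (H d _).2.1, (H d _).2.2.2.2.1⟩)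
          (H d S).2.2.1 (H d S).2.2.2.1 (fun m hm T hT => (IH m hm T hT).1) Y h1.1 h1.2
        exact ⟨P, fun _ _ => hP⟩
      · exact ⟨fun _ _ => True, fun h2 h3 => absurd ⟨h2, h3⟩ h1⟩
    choose PZ hPZ using hloc
    have hL : LocHyp S PZ := fun Y hY hV => (hPZ Y hY hV).1
    have hLio : LioHyp S PZ := fun R u hS hg he Y hY hV => (hPZ Y hY hV).2 R u hS hg he
    obtain ⟨-, -, -, -, h5, h6, h7, h8, h9, h10, h11, h12⟩ := H d S
    have hDy : DyStmt S := h8 h5 h6 h7 hfin PZ hL hLio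
    exact ⟨h12 h9 h10 h11 hDy hdisc (hLR d) hfin, PZ, hL, hLio⟩

end Vale.Agent.P353.Z.AD
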