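import Vale.Agent.P353.AN.D.KWB

/-! # P353, all `N`, block D, D8: the weighted kernel consists of zero modes (helper455) -/

open MeasureTheory Filter Topology
open scoped ContDiff

namespace Vale.Agent.P353.Z.AD

namespace KWB

open IC

variable {d : ℕ} {F : Type*} [NormedAddCommGroup F] [InnerProductSpace ℂ F]

lemma f_sum_zero (S : Setup d F) (C : Fin d) (a : Fin d → ℂ) :
    ∑ A, ∑ B, (S.f C A B : ℂ) * (a A * a B) = 0 := by
  have he : ∀ A B : Fin d, S.f C B A = - S.f C A B := fun A B => S.f_swap' C A B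
  have h1 : ∑ A, ∑ B, (S.f C A B : ℂ) * (a A * a B) =
      -∑ A, ∑ B, (S.f C A B : ℂ) * (a A * a B) := by
    conv_lhs => rw [Finset.sum_comm]
    rw [← Finset.sum_neg_distrib]
    refine Finset.sum_congr rfl fun A _ => ?_
    rw [← Finset.sum_neg_distrib]
    refine Finset.sum_congr rfl fun B _ => ?_
    rw [he A B]
    push_cast
    ring
  have h2 : (2 : ℂ) * ∑ A, ∑ B, (S.f C A B : ℂ) * (a A * a B) = 0 := by
    linear_combination h1
  simpa using h2

lemma G_rad (S : Setup d F) {f : ℝ → ℝ} (hf : ContDiff ℝ ∞ f) (C : Fin d) (u : Cfg d → F)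
    (x : Cfg d) (hu : DifferentiableAt ℝ u x) :
    S.G C (fun y => ((rad f y : ℝ) : ℂ) • u y) x = ((rad f x : ℝ) : ℂ) • S.G C u x := by
  have h : ∀ i A, pd i A (fun y => ((rad f y : ℝ) : ℂ) • u y) x =
      ((2 * deriv f (‖x‖ ^ 2) * x (i, A) : ℝ) : ℂ) • u x + ((rad f x : ℝ) : ℂ) • pd i A u x := by
    intro i A
    rw [pd_rsmul ((contDiff_rad hf).differentiable (by simp) x) hu]
    have := pdr_rad hf i A x
    rw [pdr] at this
    rw [this]
  have e : ∑ i, ∑ A, ∑ B, ((S.f C A B : ℂ) * (x (i, A) : ℂ)) •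
      (((2 * deriv f (‖x‖ ^ 2) * x (i, B) : ℝ) : ℂ) • u x) = 0 := by
    refine Finset.sum_eq_zero fun i _ => ?_
    have e1 := f_sum_zero S C (fun A => (x (i, A) : ℂ))
    have e2 : ∑ A, ∑ B, ((S.f C A B : ℂ) * (x (i, A) : ℂ)) •
        (((2 * deriv f (‖x‖ ^ 2) * x (i, B) : ℝ) : ℂ) • u x) =
        ((2 * deriv f (‖x‖ ^ 2) : ℝ) : ℂ) •
          (∑ A, ∑ B, (S.f C A B : ℂ) * ((x (i, A) : ℂ) * (x (i, B) : ℂ))) • u x := by
      rw [Finset.sum_smul, Finset.smul_sum]
      refine Finset.sum_congr rfl fun A _ => ?_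
      rw [Finset.sum_smul, Finset.smul_sum]
      refine Finset.sum_congr rfl fun B _ => ?_
      rw [smul_smul, smul_smul]
      congr 1
      push_cast
      ring
    rw [e2, e1, zero_smul, smul_zero]
  have e3 : ∑ i, ∑ A, ∑ B, ((S.f C A B : ℂ) * (x (i, A) : ℂ)) •
      (((rad f x : ℝ) : ℂ) • pd i B u x) = ((rad f x : ℝ) : ℂ) •
        ∑ i, ∑ A, ∑ B, ((S.f C A B : ℂ) * (x (i, A) : ℂ)) • pd i B u x := by
    simp only [Finset.smul_sum, smul_comm ((rad f x : ℝ) : ℂ)]
  simp only [Setup.G, h, smul_add, Finset.sum_add_distrib, map_smul]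
  rw [e, e3, smul_zero, zero_add]
  rw [smul_comm ((rad f x : ℝ) : ℂ) (-Complex.I)]

lemma GInv_rad (S : Setup d F) {f : ℝ → ℝ} (hf : ContDiff ℝ ∞ f) {u : Cfg d → F}
    (hu : GInv S u) : GInv S (fun y => ((rad f y : ℝ) : ℂ) • u y) :=
  ⟨hu.1.rsmul (contDiff_rad hf), fun C x => by
    rw [G_rad S hf C u x (hu.1.diff x), hu.2, smul_zero]⟩

/-- cutoff functions in the variable `‖x‖²` -/
lemma exists_rcut : ∃ M : ℝ, 0 ≤ M ∧ ∀ R : ℝ, 0 < R → ∃ f : ℝ → ℝ, ContDiff ℝ ∞ f ∧
    (∀ t, 0 ≤ f t) ∧ (∀ t, f t ≤ 1) ∧ (∀ t, 0 ≤ t → t ≤ R ^ 2 → f t = 1) ∧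
    (∀ t, 4 * R ^ 2 ≤ t → f t = 0) ∧ (∀ t, |deriv f t| * R ^ 2 ≤ M) ∧
    (∀ t, 4 * R ^ 2 < t → deriv f t = 0) := by
  let g : ContDiffBump (0 : ℝ) := ⟨1, 4, one_pos, by norm_num⟩
  have hgc : ContDiff ℝ ∞ (g : ℝ → ℝ) := g.contDiff
  have hgs : HasCompactSupport (g : ℝ → ℝ) := g.hasCompactSupport
  obtain ⟨M, hM⟩ := (hgs.deriv).exists_bound_of_continuous (hgc.continuous_deriv (by simp))
  refine ⟨max M 0, le_max_right _ _, fun R hR => ⟨fun t => g ((R ^ 2)⁻¹ * t), ?_⟩⟩
  have hR2 : 0 < R ^ 2 := by positivity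
  have hd : ∀ t, deriv (fun t => g ((R ^ 2)⁻¹ * t)) t = (R ^ 2)⁻¹ * deriv g ((R ^ 2)⁻¹ * t) := by
    intro t
    have h1 := deriv_comp_mul_left (R ^ 2)⁻¹ (g : ℝ → ℝ) t
    simpa using h1
  have h0 : ∀ t, 4 * R ^ 2 ≤ t → g ((R ^ 2)⁻¹ * t) = 0 := by
    intro t ht
    refine g.zero_of_le_dist ?_
    rw [dist_zero_right, Real.norm_eq_abs]
    change 4 ≤ |(R ^ 2)⁻¹ * t|
    have h1 : 4 ≤ (R ^ 2)⁻¹ * t := by
      rw [le_inv_mul_iff₀ hR2]
      linarith
    exact h1.trans (le_abs_self _)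
  refine ⟨hgc.comp (contDiff_const.mul contDiff_id), fun t => g.nonneg, fun t => g.le_one,
    fun t ht0 ht => ?_, h0, fun t => ?_, fun t ht => ?_⟩
  · refine g.one_of_mem_closedBall ?_
    rw [Metric.mem_closedBall, dist_zero_right, Real.norm_eq_abs]
    change |(R ^ 2)⁻¹ * t| ≤ 1
    rw [abs_of_nonneg (by positivity), inv_mul_le_iff₀ hR2]
    linarith
  · rw [hd, abs_mul, abs_of_pos (inv_pos.mpr hR2)]
    have h1 := hM ((R ^ 2)⁻¹ * t)
    rw [Real.norm_eq_abs] at h1
    calc (R ^ 2)⁻¹ * |deriv g ((R ^ 2)⁻¹ * t)| * R ^ 2 = |deriv g ((R ^ 2)⁻¹ * t)| := by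
          field_simp
      _ ≤ M := h1
      _ ≤ max M 0 := le_max_left _ _
  · have h1 : (fun t => g ((R ^ 2)⁻¹ * t)) =ᶠ[𝓝 t] fun _ => 0 := by
      filter_upwards [lt_mem_nhds ht] with s hs
      exact h0 s hs.le
    rw [h1.deriv_eq]
    simp

lemma B_bd (S : Setup d F) (β : Fin 16) : ∃ K : ℝ, 0 ≤ K ∧ ∀ x : Cfg d, ‖S.B β x‖ ≤ K * ‖x‖ := by
  refine ⟨∑ i, ∑ A, ‖S.vec (S.g i) A β‖, by positivity, fun x => ?_⟩
  unfold Setup.B
  rw [Finset.sum_mul]
  refine (norm_sum_le _ _).trans (Finset.sum_le_sum fun i _ => ?_)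
  rw [Finset.sum_mul]
  refine (norm_sum_le _ _).trans (Finset.sum_le_sum fun A _ => ?_)
  rw [norm_smul, Complex.norm_real, mul_comm]
  exact mul_le_mul_of_nonneg_left (PiLp.norm_apply_le x (i, A)) (norm_nonneg _)

/-- energy of a radial cutoff -/
lemma En_rad_le (S : Setup d F) : ∃ K : ℝ, 0 ≤ K ∧ ∀ R : ℝ, 0 < R → ∃ f : ℝ → ℝ,
    ContDiff ℝ ∞ f ∧ (∀ t, 0 ≤ f t) ∧ (∀ t, f t ≤ 1) ∧ (∀ t, 0 ≤ t → t ≤ R ^ 2 → f t = 1) ∧
    (∀ t, 4 * R ^ 2 ≤ t → f t = 0) ∧ ∀ v : Cfg d → F, Setup.Tst v →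
      En S (fun y => ((rad f y : ℝ) : ℂ) • v y) ≤
        2 * En S v + K / R ^ 2 * mas v (Metric.ball 0 (3 * R)) := by
  obtain ⟨M, hM, hcut⟩ := exists_rcut
  choose KB hKB hKB2 using fun β => B_bd S β
  refine ⟨∑ β, 2 * (4 * M * KB β) ^ 2, by positivity, fun R hR => ?_⟩
  obtain ⟨f, hf, hf0, hf1, hfi, hfo, hfd, hfz⟩ := hcut R hR
  refine ⟨f, hf, hf0, hf1, hfi, hfo, fun v hv => ?_⟩
  set D : ℝ := mas v (Metric.ball 0 (3 * R)) with hDd
  have hind : Integrable ((Metric.ball (0 : Cfg d) (3 * R)).indicator fun x => ‖v x‖ ^ 2) :=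
    hv.norm_sq_int.indicator Metric.isOpen_ball.measurableSet
  have hMi : ∫ x, (Metric.ball (0 : Cfg d) (3 * R)).indicator (fun x => ‖v x‖ ^ 2) x = D :=
    integral_indicator Metric.isOpen_ball.measurableSet
  have hQ : ∀ β, nsq (S.Q β (fun y => ((rad f y : ℝ) : ℂ) • v y)) ≤
      2 * nsq (S.Q β v) + (2 * (4 * M * KB β) ^ 2) / R ^ 2 * D := by
    intro β
    rw [← hMi, nsq, nsq, ← integral_const_mul, ← integral_const_mul, ← integral_add
      ((hv.Q S β).norm_sq_int.const_mul _) (hind.const_mul _)]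
    refine integral_mono_of_nonneg (Eventually.of_forall fun x => by positivity)
      (((hv.Q S β).norm_sq_int.const_mul _).add (hind.const_mul _))
      (Eventually.of_forall fun x => ?_)
    simp only
    rw [S.Q_rad hf β v x (hv.diff x)]
    have h2 : ‖((rad f x : ℝ) : ℂ) • S.Q β v x‖ ≤ ‖S.Q β v x‖ := by
      rw [norm_smul, Complex.norm_real, Real.norm_of_nonneg (show 0 ≤ rad f x from hf0 _)]
      exact mul_le_of_le_one_left (norm_nonneg _) (show rad f x ≤ 1 from hf1 _)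
    have h3 : ‖(-Complex.I * ((2 * deriv f (‖x‖ ^ 2) : ℝ) : ℂ)) • S.B β x (v x)‖ ^ 2 ≤
        (4 * M * KB β) ^ 2 / R ^ 2 *
          (Metric.ball (0 : Cfg d) (3 * R)).indicator (fun x => ‖v x‖ ^ 2) x := by
      by_cases hx : ‖x‖ ≤ 2 * R
      · have hxb : x ∈ Metric.ball (0 : Cfg d) (3 * R) := by
          rw [Metric.mem_ball, dist_zero_right]
          linarith
        rw [Set.indicator_of_mem hxb]
        have h4 : ‖(-Complex.I * ((2 * deriv f (‖x‖ ^ 2) : ℝ) : ℂ)) • S.B β x (v x)‖ ≤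
            4 * M * KB β / R * ‖v x‖ := by
          rw [norm_smul, norm_mul, norm_neg, Complex.norm_I, one_mul, Complex.norm_real,
            Real.norm_eq_abs, abs_mul, abs_of_pos (by norm_num : (0 : ℝ) < 2)]
          have h5 := ((S.B β x).le_opNorm (v x)).trans
            (mul_le_mul_of_nonneg_right (hKB2 β x) (norm_nonneg _))
          have h6 : |deriv f (‖x‖ ^ 2)| ≤ M / R ^ 2 := by
            rw [le_div_iff₀ (by positivity)]
            exact hfd _
          calc 2 * |deriv f (‖x‖ ^ 2)| * ‖S.B β x (v x)‖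
              ≤ 2 * (M / R ^ 2) * (KB β * ‖x‖ * ‖v x‖) := by
                gcongr
            _ ≤ 2 * (M / R ^ 2) * (KB β * (2 * R) * ‖v x‖) := by
                have := hKB β
                gcongr
            _ = 4 * M * KB β / R * ‖v x‖ := by
                field_simp
                ring
        have h7 := pow_le_pow_left₀ (norm_nonneg _) h4 2
        rw [mul_pow, div_pow] at h7
        exact h7
      · have h8 : 4 * R ^ 2 < ‖x‖ ^ 2 := by
          have h9 : 2 * R < ‖x‖ := not_le.mp hx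
          nlinarith
        rw [hfz _ h8]
        have h10 : 0 ≤ (Metric.ball (0 : Cfg d) (3 * R)).indicator (fun x => ‖v x‖ ^ 2) x :=
          Set.indicator_nonneg (fun _ _ => by positivity) _
        have h11 : 0 ≤ (4 * M * KB β) ^ 2 / R ^ 2 *
            (Metric.ball (0 : Cfg d) (3 * R)).indicator (fun x => ‖v x‖ ^ 2) x :=
          mul_nonneg (by positivity) h10
        simpa using h11
    have h5 := norm_add_le (((rad f x : ℝ) : ℂ) • S.Q β v x)
      ((-Complex.I * ((2 * deriv f (‖x‖ ^ 2) : ℝ) : ℂ)) • S.B β x (v x))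
    have h6 := norm_nonneg (((rad f x : ℝ) : ℂ) • S.Q β v x)
    have h7 := norm_nonneg ((-Complex.I * ((2 * deriv f (‖x‖ ^ 2) : ℝ) : ℂ)) • S.B β x (v x))
    have h8 := norm_nonneg (((rad f x : ℝ) : ℂ) • S.Q β v x +
      (-Complex.I * ((2 * deriv f (‖x‖ ^ 2) : ℝ) : ℂ)) • S.B β x (v x))
    have h9 : (2 * (4 * M * KB β) ^ 2) / R ^ 2 *
          (Metric.ball (0 : Cfg d) (3 * R)).indicator (fun x => ‖v x‖ ^ 2) x =
        2 * ((4 * M * KB β) ^ 2 / R ^ 2 *
          (Metric.ball (0 : Cfg d) (3 * R)).indicator (fun x => ‖v x‖ ^ 2) x) := by ring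
    rw [h9]
    generalize ‖((rad f x : ℝ) : ℂ) • S.Q β v x +
      (-Complex.I * ((2 * deriv f (‖x‖ ^ 2) : ℝ) : ℂ)) • S.B β x (v x)‖ = X at h5 h8 ⊢
    generalize ‖(-Complex.I * ((2 * deriv f (‖x‖ ^ 2) : ℝ) : ℂ)) • S.B β x (v x)‖ = Y
      at h3 h5 h7 ⊢
    generalize ‖((rad f x : ℝ) : ℂ) • S.Q β v x‖ = Z at h2 h5 h6 ⊢
    nlinarith [sq_nonneg (Z - Y), norm_nonneg (S.Q β v x)]
  unfold En
  refine (Finset.sum_le_sum fun β _ => hQ β).trans (le_of_eq ?_)
  rw [Finset.sum_add_distrib, Finset.mul_sum, Finset.sum_div, Finset.sum_mul]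

/-- **second part of D8** -/
theorem zm_of_kw {S : Setup d F} (hDec : DecStmt S) (hDy : DyStmt S) (hDisc : DiscStmt)
    {u : Cfg d → F} (hu : KW S u) : ZM S u := by
  obtain ⟨ρ, C, hρ, hC, hdec⟩ := hDec hDy hDisc
  obtain ⟨hwi, -⟩ := hdec u hu
  obtain ⟨mu, a, ha, hia, hla, hea⟩ := hu
  obtain ⟨K, hK, hcut⟩ := En_rad_le S
  have hm : MemLp u 2 (volume : Measure (Cfg d)) := by
    rw [memLp_two_iff_integrable_sq_norm mu]
    refine hwi.mono' (mu.norm.pow 2) (Eventually.of_forall fun x => ?_)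
    rw [Real.norm_of_nonneg (by positivity)]
    have h4 : 0 ≤ ‖u x‖ ^ 2 := by positivity
    have h5 : 0 ≤ ‖x‖ ^ 2 := by positivity
    nlinarith
  set A : ℝ := ∫ x, (1 + ‖x‖ ^ 2) * ‖u x‖ ^ 2 with hA
  have hA0 : 0 ≤ A := integral_nonneg fun _ => by positivity
  have hN0 : 0 ≤ nsq u := nsq_nonneg _
  have step : ∀ k : ℕ, ∃ w, GInv S w ∧
      nsq (fun x => w x - u x) ≤ (2 + 2 * A) * (1 / ((k : ℝ) + 1)) ∧
      En S w ≤ (2 + K * (2 + 2 * nsq u)) * (1 / ((k : ℝ) + 1)) := by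
    intro k
    set R : ℝ := (k : ℝ) + 1 with hRd
    have hR : 0 < R := by positivity
    have hR1 : 1 ≤ R := by
      have : (0 : ℝ) ≤ k := Nat.cast_nonneg k
      linarith
    obtain ⟨f, hf, hf0, hf1, hfi, hfo, hfE⟩ := hcut R hR
    have hη : 0 < 1 / ((1 + (3 * R) ^ 2) * R) := by positivity
    have hη2 : 0 < 1 / R := by positivity
    obtain ⟨n, hn1, hn2⟩ := ((hla.eventually_le_const hη).and
      (hea.eventually_le_const hη2)).exists
    have ham : MemLp (a n) 2 (volume : Measure (Cfg d)) := (ha n).1.memLp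
    have hau : MemLp (fun x => a n x - u x) 2 (volume : Measure (Cfg d)) := ham.sub hm
    have hmas : mas (fun x => a n x - u x) (Metric.ball 0 (3 * R)) ≤ 1 / R := by
      refine (mas_le_wn (WI_of_memLp hau) (3 * R)).trans ?_
      calc (1 + (3 * R) ^ 2) * wn (fun x => a n x - u x)
          ≤ (1 + (3 * R) ^ 2) * (1 / ((1 + (3 * R) ^ 2) * R)) :=
            mul_le_mul_of_nonneg_left hn1 (by positivity)
        _ = 1 / R := by field_simp
    refine ⟨fun y => ((rad f y : ℝ) : ℂ) • a n y, GInv_rad S hf (ha n), ?_, ?_⟩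
    · have hind : Integrable ((Metric.ball (0 : Cfg d) (3 * R)).indicator
          fun x => ‖a n x - u x‖ ^ 2) :=
        (memLp_norm_sq_int hau).indicator Metric.isOpen_ball.measurableSet
      have hMi : ∫ x, (Metric.ball (0 : Cfg d) (3 * R)).indicator
          (fun x => ‖a n x - u x‖ ^ 2) x =
          mas (fun x => a n x - u x) (Metric.ball 0 (3 * R)) :=
        integral_indicator Metric.isOpen_ball.measurableSet
      have h1 : nsq (fun x => ((rad f x : ℝ) : ℂ) • a n x - u x) ≤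
          2 * mas (fun x => a n x - u x) (Metric.ball 0 (3 * R)) + 2 / (1 + R ^ 2) * A := by
        rw [← hMi, hA, nsq, ← integral_const_mul, ← integral_const_mul, ← integral_add
          (hind.const_mul _) (hwi.const_mul _)]
        refine integral_mono_of_nonneg (Eventually.of_forall fun x => by positivity)
          ((hind.const_mul _).add (hwi.const_mul _)) (Eventually.of_forall fun x => ?_)
        simp only
        have h2 : ((rad f x : ℝ) : ℂ) • a n x - u x =
            ((rad f x : ℝ) : ℂ) • (a n x - u x) - ((1 - rad f x : ℝ) : ℂ) • u x := by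
          push_cast
          rw [smul_sub, sub_smul, one_smul]
          abel
        have h3 : ‖((rad f x : ℝ) : ℂ) • (a n x - u x)‖ ^ 2 ≤
            (Metric.ball (0 : Cfg d) (3 * R)).indicator (fun x => ‖a n x - u x‖ ^ 2) x := by
          by_cases hx : x ∈ Metric.ball (0 : Cfg d) (3 * R)
          · rw [Set.indicator_of_mem hx, norm_smul, Complex.norm_real,
              Real.norm_of_nonneg (show 0 ≤ rad f x from hf0 _), mul_pow]
            have h4 : rad f x ^ 2 ≤ 1 := pow_le_one₀ (hf0 _) (hf1 _)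
            exact mul_le_of_le_one_left (by positivity) h4
          · rw [Set.indicator_of_notMem hx]
            rw [Metric.mem_ball, dist_zero_right, not_lt] at hx
            have h4 : rad f x = 0 := hfo _ (by nlinarith)
            simp [h4]
        have h5 : ‖((1 - rad f x : ℝ) : ℂ) • u x‖ ^ 2 ≤
            1 / (1 + R ^ 2) * ((1 + ‖x‖ ^ 2) * ‖u x‖ ^ 2) := by
          rw [norm_smul, Complex.norm_real, mul_pow, ← mul_assoc]
          refine mul_le_mul_of_nonneg_right ?_ (by positivity)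
          by_cases hx : ‖x‖ ≤ R
          · have h4 : rad f x = 1 := hfi _ (by positivity) (by
              have := norm_nonneg x
              nlinarith)
            rw [h4, sub_self, norm_zero, zero_pow two_ne_zero]
            positivity
          · have h6 : R < ‖x‖ := not_le.mp hx
            have h7 : ‖1 - rad f x‖ ^ 2 ≤ 1 := by
              rw [Real.norm_of_nonneg (by linarith [hf1 (‖x‖ ^ 2), show rad f x = f (‖x‖ ^ 2) from rfl])]
              refine pow_le_one₀ ?_ ?_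
              · linarith [hf1 (‖x‖ ^ 2), show rad f x = f (‖x‖ ^ 2) from rfl]
              · linarith [hf0 (‖x‖ ^ 2), show rad f x = f (‖x‖ ^ 2) from rfl]
            refine h7.trans ?_
            rw [one_div_mul_eq_div, le_div_iff₀ (by positivity)]
            nlinarith
        rw [h2]
        have h6 := norm_sub_le (((rad f x : ℝ) : ℂ) • (a n x - u x))
          (((1 - rad f x : ℝ) : ℂ) • u x)
        have h7 := norm_nonneg (((rad f x : ℝ) : ℂ) • (a n x - u x) -
          ((1 - rad f x : ℝ) : ℂ) • u x)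
        have h8 : 2 / (1 + R ^ 2) * ((1 + ‖x‖ ^ 2) * ‖u x‖ ^ 2) =
            2 * (1 / (1 + R ^ 2) * ((1 + ‖x‖ ^ 2) * ‖u x‖ ^ 2)) := by ring
        rw [h8]
        nlinarith [sq_nonneg (‖((rad f x : ℝ) : ℂ) • (a n x - u x)‖ -
          ‖((1 - rad f x : ℝ) : ℂ) • u x‖)]
      have h2 : 2 / (1 + R ^ 2) * A ≤ 2 * (1 / R) * A := by
        refine mul_le_mul_of_nonneg_right ?_ hA0
        rw [mul_one_div]
        exact div_le_div_of_nonneg_left (by norm_num) hR (by nlinarith)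
      have h3 : (2 + 2 * A) * (1 / R) = 2 * (1 / R) + 2 * (1 / R) * A := by ring
      rw [h3]
      linarith
    · refine (hfE (a n) (ha n).1).trans ?_
      have hm1 : mas (a n) (Metric.ball 0 (3 * R)) ≤ 2 + 2 * nsq u := by
        have h1 := mas_sub_le (f := fun x => a n x - u x) (g := fun x => -u x)
          (A := Metric.ball (0 : Cfg d) (3 * R)) (memLp_norm_sq_int hau).integrableOn
          (memLp_norm_sq_int hm.neg).integrableOn
        have h2 : (fun x => a n x - u x - -u x) = a n := by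
          funext x
          simp
        have h3 : mas (fun x => -u x) (Metric.ball 0 (3 * R)) ≤ nsq u := by
          unfold mas nsq
          simp only [norm_neg]
          exact setIntegral_le_integral (memLp_norm_sq_int hm)
            (Eventually.of_forall fun x => by positivity)
        rw [h2] at h1
        have h4 : 1 / R ≤ 1 := by
          rw [div_le_one hR]
          exact hR1
        linarith
      have h5 : K / R ^ 2 * mas (a n) (Metric.ball 0 (3 * R)) ≤
          K * (1 / R) * (2 + 2 * nsq u) := by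
        have h6 : K / R ^ 2 ≤ K * (1 / R) := by
          rw [mul_one_div]
          exact div_le_div_of_nonneg_left hK hR (by nlinarith)
        exact mul_le_mul h6 hm1 (mas_nonneg _ _) (by positivity)
      have h7 : (2 + K * (2 + 2 * nsq u)) * (1 / R) =
          2 * (1 / R) + K * (1 / R) * (2 + 2 * nsq u) := by ring
      rw [h7]
      linarith
  choose w hw hw1 hw2 using step
  have hlim1 : Tendsto (fun n : ℕ => 1 / ((n : ℝ) + 1)) atTop (𝓝 0) :=
    tendsto_one_div_add_atTop_nhds_zero_nat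
  refine ⟨w, hw, ⟨fun n => (hw n).1.memLp, hm, ?_⟩, ?_⟩
  · have h1 := hlim1.const_mul (2 + 2 * A)
    rw [mul_zero] at h1
    exact squeeze_zero (fun n => nsq_nonneg _) hw1 h1
  · have h1 := hlim1.const_mul (2 + K * (2 + 2 * nsq u))
    rw [mul_zero] at h1
    exact squeeze_zero (fun n => En_nonneg _ _) hw2 h1

/-- **first part of D8** -/
theorem kw_of_zm {S : Setup d F} {u : Cfg d → F} (hu : ZM S u) : KW S u := by
  obtain ⟨w, hw, hl, he⟩ := hu
  refine ⟨hl.mem'.1, w, hw, WI_of_memLp hl.mem', ?_, he⟩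
  exact squeeze_zero (fun n => wn_nonneg _)
    (fun n => wn_le_nsq ((hl.mem n).sub hl.mem')) hl.lim

end KWB

variable {d : ℕ} {F : Type*} [NormedAddCommGroup F] [InnerProductSpace ℂ F]

/-- **D8** -/
theorem kwOf (S : Setup d F) : KWStmt S := by
  intro hDec hDy hDisc hLR _
  exact ⟨fun u hu => KWB.kw_of_zm hu, fun u hu => KWB.zm_of_kw hDec hDy hDisc hu,
    KWB.kw_basis hDec hDy hDisc hLR fun u hu => KWB.zm_of_kw hDec hDy hDisc hu⟩

end Vale.Agent.P353.Z.AD
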