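import Vale.Agent.P353.AN.D.LocB

/-! # P353, all `N`, block D, L12: the local theorem -/

open MeasureTheory Filter Topology Matrix
open scoped ContDiff

namespace Vale.Agent.P353.Z.AD

variable {d dh dm ds dz : ℕ} {F : Type*} [NormedAddCommGroup F] [InnerProductSpace ℂ F]

omit [InnerProductSpace ℂ F] in
lemma lo_nule_shift {R : ℕ → ℝ} {u : ℕ → Cfg d → F} {Y : Cfg d} {ε : ℝ} (N : ℕ) :
    NulE (fun n => R (n + N)) (fun n => u (n + N)) Y ε ↔ NulE R u Y ε :=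
  tendsto_add_atTop_iff_nat (f := fun n => mas (u n) (Metric.ball (R n • Y) (ε * R n))) N

lemma lo_sq_shift {S : Setup d F} {R : ℕ → ℝ} {u : ℕ → Cfg d → F} (h : Sq S R u) (N : ℕ) :
    Sq S (fun n => R (n + N)) (fun n => u (n + N)) where
  inv := fun n => h.inv _
  pos := fun n => h.pos _
  lim := h.lim.comp (tendsto_add_atTop_nat N)
  bd := fun s t hs hst => by
    obtain ⟨C, hC⟩ := h.bd s t hs hst
    exact ⟨C, fun n => hC _⟩

lemma lo_emb_cont (φ : Spl dh dm d) : Continuous fun p : Cfg dh × Wsp dm => emb φ p.1 p.2 := by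
  unfold emb
  refine (PiLp.continuous_toLp 2 _).comp (continuous_pi fun q => ?_)
  rcases h : φ.symm q.2 with A | B
  · simp only [Sum.elim_inl]
    fun_prop
  · simp only [Sum.elim_inr]
    rcases q with ⟨i, C⟩
    refine Fin.lastCases ?_ (fun j => ?_) i
    · simp only [Fin.lastCases_last]
      exact continuous_const
    · simp only [Fin.lastCases_castSucc]
      fun_prop

lemma lo_res_cont (S : Setup d F) (φ : Spl dh dm d) {u : Cfg d → F} (hu : Continuous u) :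
    Continuous fun p : Cfg dh × Wsp dm => S.res φ u p.1 p.2 := by
  have h1 : Continuous fun y : Cfg dh => (S.Dy φ 8 y).det := by
    refine Continuous.matrix_det ?_
    refine continuous_matrix fun B C => ?_
    show Continuous fun y : Cfg dh => ∑ A, S.f (φ (Sum.inr B)) (φ (Sum.inl A)) (φ (Sum.inr C)) * y (8, A)
    fun_prop
  have h2 : Continuous fun p : Cfg dh × Wsp dm => ((Real.sqrt (S.Jd φ p.1) : ℝ) : ℂ) := by
    unfold Setup.Jd
    exact Complex.continuous_ofReal.comp (Real.continuous_sqrt.comp (h1.comp continuous_fst).abs)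
  unfold Setup.res
  exact h2.smul (hu.comp (lo_emb_cont φ))

lemma lo_nb_meas (y₀ : Cfg dh) (R ε : ℝ) : MeasurableSet (AN.Nb y₀ dm R ε) := by
  unfold AN.Nb
  have h1 : Continuous fun p : Cfg dh × Wsp dm => ‖p.1 - R • y₀‖ := (continuous_fst.sub continuous_const).norm
  have h2 : Continuous fun p : Cfg dh × Wsp dm => ‖p.2‖ := continuous_snd.norm
  exact ((isOpen_lt h1 continuous_const).inter (isOpen_lt h2 continuous_const)).measurableSet

lemma lo_nb_sub (y₀ : Cfg dh) (R ε : ℝ) : AN.Nb y₀ dm R ε ⊆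
    Metric.closedBall (R • y₀) (ε * R) ×ˢ Metric.closedBall (0 : Wsp dm) (ε * R) := by
  intro p hp
  refine ⟨?_, ?_⟩
  · rw [Metric.mem_closedBall, dist_eq_norm]
    exact hp.1.le
  · rw [Metric.mem_closedBall, dist_zero_right]
    exact hp.2.le

lemma lo_res_int (S : Setup d F) (φ : Spl dh dm d) {u : Cfg d → F} (hu : Continuous u) (y₀ : Cfg dh) (R ε : ℝ) :
    IntegrableOn (fun p : Cfg dh × Wsp dm => ‖S.res φ u p.1 p.2‖ ^ 2) (AN.Nb y₀ dm R ε)
      ((volume : Measure (Cfg dh)).prod (volume : Measure (Wsp dm))) := by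
  have hK : IsCompact (Metric.closedBall (R • y₀) (ε * R) ×ˢ Metric.closedBall (0 : Wsp dm) (ε * R)) :=
    (isCompact_closedBall _ _).prod (isCompact_closedBall _ _)
  exact (((lo_res_cont S φ hu).norm.pow 2).continuousOn.integrableOn_compact hK).mono_set (lo_nb_sub y₀ R ε)

/-! ### arithmetic -/

lemma lo_limit {x : ℕ → ℝ} (hx : ∀ n, 0 ≤ x n) {M : ℝ} (hM : 0 ≤ M)
    (h : ∀ δ : ℝ, 0 < δ → ∃ e : ℕ → ℝ, Tendsto e atTop (𝓝 0) ∧ ∀ n, x n ≤ e n + M * δ) :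
    Tendsto x atTop (𝓝 0) := by
  refine tendsto_order.2 ⟨fun a ha => Eventually.of_forall fun n => ha.trans_le (hx n), fun τ hτ => ?_⟩
  obtain ⟨δ, hδdef⟩ : ∃ δ : ℝ, δ = τ / (2 * (M + 1)) := ⟨_, rfl⟩
  have hδ : 0 < δ := by rw [hδdef]; positivity
  have hδM : M * δ < τ / 2 := by
    have e1 : δ * (M + 1) = τ / 2 := by rw [hδdef]; field_simp
    nlinarith
  obtain ⟨e, he, hxe⟩ := h δ hδ
  filter_upwards [he.eventually (gt_mem_nhds (show (0 : ℝ) < τ / 2 by positivity))] with n hn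
  have := hxe n
  linarith

lemma lo_en {A E1 Co Sg r ns C1 en ma K : ℝ} (hr : 1 ≤ r) (hCo : 0 ≤ Co) (hC1 : 0 ≤ C1)
    (h1 : A + E1 ≤ Co * (Sg + (1 / r ^ 2 + 0 ^ 2 / r) * ns)) (h4 : Sg ≤ C1 * (en + 1 / r ^ 2 * ma))
    (hen : r ^ 2 * en ≤ K) (hma : ma ≤ K) (hns : ns ≤ C1 * K) : A + E1 ≤ 3 * Co * C1 * K / r ^ 2 := by
  have hr0 : 0 < r := by linarith
  have hR2 : 0 < r ^ 2 := by positivity
  have h5 : C1 * (en + 1 / r ^ 2 * ma) ≤ 2 * C1 * K / r ^ 2 := by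
    rw [le_div_iff₀ hR2]
    have e1 : C1 * (en + 1 / r ^ 2 * ma) * r ^ 2 = C1 * (r ^ 2 * en + ma) := by
      field_simp
    rw [e1]
    have := mul_le_mul_of_nonneg_left (add_le_add hen hma) hC1
    linarith
  have h6 : (1 / r ^ 2 + 0 ^ 2 / r) * ns ≤ C1 * K / r ^ 2 := by
    rw [le_div_iff₀ hR2]
    have e1 : (1 / r ^ 2 + 0 ^ 2 / r) * ns * r ^ 2 = ns := by
      field_simp
      ring
    rw [e1]
    exact hns
  have h8 : Sg + (1 / r ^ 2 + 0 ^ 2 / r) * ns ≤ 2 * C1 * K / r ^ 2 + C1 * K / r ^ 2 := add_le_add (h4.trans h5) h6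
  have h9 := mul_le_mul_of_nonneg_left h8 hCo
  have h10 : Co * (2 * C1 * K / r ^ 2 + C1 * K / r ^ 2) = 3 * Co * C1 * K / r ^ 2 := by ring
  linarith

lemma lo_arith {ns far Far Cu r E1 δ K1 CI η Q K2 m c : ℝ}
    (hmain : ns ≤ far + Cu / (8 * r) * E1 + 2 * δ * ns + 2 * (2 * CI * (1 + (η * r) ^ 2) * Q + 2 * m * c))
    (hfar : far ≤ Far) (hE1 : E1 ≤ K2 / r ^ 2) (hns : ns ≤ K1) (hQ : Q ≤ K2 / r ^ 2) (hr : 1 ≤ r)
    (hη2 : η ^ 2 ≤ δ) (hδ : 0 ≤ δ) (hCu : 0 ≤ Cu) (hCI : 0 ≤ CI) (hK2 : 0 ≤ K2) :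
    ns ≤ (Far + (Cu * K2 / 8 + 4 * CI * K2) / r + 4 * m * c) + (2 * K1 + 4 * CI * K2) * δ := by
  have hRn : 0 < r := by linarith
  have hR2 : 0 < r ^ 2 := by positivity
  have b1 : Cu / (8 * r) * E1 ≤ Cu * K2 / 8 / r := by
    have g1 : Cu / (8 * r) * E1 ≤ Cu / (8 * r) * (K2 / r ^ 2) :=
      mul_le_mul_of_nonneg_left hE1 (by positivity)
    have g2 : Cu / (8 * r) * (K2 / r ^ 2) = Cu * K2 / 8 / r * (1 / r ^ 2) := by
      field_simp
    have g3 : 1 / r ^ 2 ≤ 1 := by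
      rw [div_le_one hR2]
      exact one_le_pow₀ hr
    have g4 : 0 ≤ Cu * K2 / 8 / r := by positivity
    have g5 := mul_le_mul_of_nonneg_left g3 g4
    linarith
  have b2 : 2 * δ * ns ≤ 2 * δ * K1 := mul_le_mul_of_nonneg_left hns (by positivity)
  have b3 : 2 * (2 * CI * (1 + (η * r) ^ 2) * Q) ≤ 4 * CI * K2 / r + 4 * CI * K2 * δ := by
    have g1 : 2 * CI * (1 + (η * r) ^ 2) * Q ≤ 2 * CI * (1 + (η * r) ^ 2) * (K2 / r ^ 2) :=
      mul_le_mul_of_nonneg_left hQ (by positivity)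
    have g2 : 2 * CI * (1 + (η * r) ^ 2) * (K2 / r ^ 2) = 2 * CI * K2 * (1 / r ^ 2) + 2 * CI * K2 * η ^ 2 := by
      field_simp
    have g3 : 1 / r ^ 2 ≤ 1 / r := by
      refine one_div_le_one_div_of_le hRn ?_
      nlinarith
    have g4 : 0 ≤ 2 * CI * K2 := by positivity
    have g5 := mul_le_mul_of_nonneg_left g3 g4
    have g6 := mul_le_mul_of_nonneg_left hη2 g4
    have g7 : 4 * CI * K2 / r = 2 * (2 * CI * K2 * (1 / r)) := by ring
    rw [g7]
    linarith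
  have b4 : (Cu * K2 / 8 + 4 * CI * K2) / r = Cu * K2 / 8 / r + 4 * CI * K2 / r := by ring
  rw [b4]
  linarith

/-- **L12** -/
theorem locOf (S : Setup d F) : LocOfStmt S := by
  intro hFar hSQ hUF hSec hCut hRel hcmb hOut hFr hCalc fd dh dm ds dz φ ψ z₀ h hY hIC
  obtain ⟨n₀, o, CI, hCI, hz, ho, hic⟩ := hIC
  obtain ⟨hA, hB⟩ := hCalc dh dm
  obtain ⟨εf, hεf, hfar⟩ := hFar dh dm ds dz φ ψ z₀ h
  obtain ⟨εu, hεu, huf⟩ := hUF fd dh dm ds dz φ ψ z₀ h
  obtain ⟨εs, Cs, hεs, hCs, hsec⟩ := hSec fd dh dm ds dz φ ψ z₀ h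
  obtain ⟨εc, s, t, hεc, hs, hst, hcut⟩ := hCut dh dm ds dz φ ψ z₀ h hY
  obtain ⟨εr, hεr, hrel⟩ := hRel fd dh dm ds dz φ ψ z₀ h
  obtain ⟨Om, εo, R0, Co, -, -, hεo, hR0, hCo, hout⟩ :=
    hOut dh dm φ fd (AN.N0 S) hFr.1 (cmb ψ 0 z₀) h.std
  obtain ⟨εb, Cb, hεb, hCb, hbd⟩ := AN.bd_stmt S dh dm φ (cmb ψ 0 z₀) h.std
  obtain ⟨ε₀, hε₀, l1, l2, l3, l4, l5, l6, l7⟩ : ∃ ε₀ : ℝ, 0 < ε₀ ∧ ε₀ ≤ εf / 2 ∧ ε₀ ≤ εu ∧ ε₀ ≤ εs ∧ ε₀ ≤ εc ∧
      ε₀ ≤ εr ∧ ε₀ ≤ εo ∧ ε₀ ≤ εb := by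
    refine ⟨min (εf / 2) (min εu (min εs (min εc (min εr (min εo εb))))), ?_, ?_⟩
    · simp only [lt_min_iff]
      exact ⟨by positivity, hεu, hεs, hεc, hεr, hεo, hεb⟩
    · simp only [min_le_iff, le_refl, true_or, or_true, and_self]
  refine ⟨ε₀, hε₀, fun ε hε hεε₀ => ?_⟩
  obtain ⟨C1, δ1, hC1, hδ1, θ₁, hθc, hθb, hθs, hΘ⟩ := hcut (ε / 2) (by positivity) (by linarith)
  refine ⟨δ1, hδ1, ?_⟩
  -- the claim for `R n ≥ R0`
  have main : ∀ (R : ℕ → ℝ) (u : ℕ → Cfg d → F), Sq S R u → (∀ n, R0 ≤ R n) →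
      (∀ Y', S.V Y' ≠ 0 → Nul R u Y') → (∀ Y', Y' ≠ 0 → S.V Y' = 0 → cd S Y' < dh → Nul R u Y') →
      SPZ S φ ψ z₀ h ε R u → NulE R u (emb φ (cmb ψ 0 z₀) 0) δ1 := by
    intro R u hSq hRR hnc hnul hspz
    have hR1 : ∀ n, 1 ≤ R n := fun n => hR0.trans (hRR n)
    have hRp : ∀ n, 0 < R n := fun n => by linarith [hR1 n]
    choose Θ hΘ0 hΘ1 hΘ2 hΘ3 hΘ4 using fun n => hΘ (R n) (hR1 n)
    have hv := fun n => hΘ4 n (u n) (hSq.inv n)
    obtain ⟨v, hvdef⟩ : ∃ v : ℕ → Cfg dh → Wsp dm → F, v = fun n => mul2 (Θ n) (S.res φ (u n)) := ⟨_, rfl⟩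
    have hvn : ∀ n, mul2 (Θ n) (S.res φ (u n)) = v n := fun n => by rw [hvdef]
    simp only [hvn] at hv
    obtain ⟨K, hK⟩ := hSq.bd s t hs hst
    have hmas0 : ∀ n, 0 ≤ mas (u n) (shl d (s * R n) (t * R n)) := fun n => integral_nonneg fun x => by positivity
    have hena0 : ∀ n, 0 ≤ ena S (u n) (shl d (s * R n) (t * R n)) := fun n =>
      Finset.sum_nonneg fun β _ => integral_nonneg fun x => by positivity
    have hRe0 : ∀ n, 0 ≤ R n ^ 2 * ena S (u n) (shl d (s * R n) (t * R n)) := fun n =>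
      mul_nonneg (sq_nonneg _) (hena0 n)
    have hmasK : ∀ n, mas (u n) (shl d (s * R n) (t * R n)) ≤ K := fun n => by
      have := hK n
      have := hRe0 n
      linarith
    have henaK : ∀ n, R n ^ 2 * ena S (u n) (shl d (s * R n) (t * R n)) ≤ K := fun n => by
      have := hK n
      have := hmas0 n
      linarith
    have hK0 : 0 ≤ K := (hmas0 0).trans (hmasK 0)
    have hNbK : ∀ n, (∫ p in AN.Nb (cmb ψ 0 z₀) dm (R n) (4 * (ε / 2)), ‖S.res φ (u n) p.1 p.2‖ ^ 2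
        ∂((volume : Measure (Cfg dh)).prod (volume : Measure (Wsp dm)))) ≤ C1 * K := fun n =>
      (hv n).2.2.2.1.trans (mul_le_mul_of_nonneg_left (hmasK n) hC1.le)
    have hsup : ∀ n, Sup2 (cmb ψ 0 z₀) ε (R n) (v n) := fun n => by
      have := (hv n).2.1
      rwa [show 2 * (ε / 2) = ε by ring] at this
    have hvle : ∀ n (p : Cfg dh × Wsp dm), ‖v n p.1 p.2‖ ^ 2 ≤ ‖S.res φ (u n) p.1 p.2‖ ^ 2 := by
      intro n p
      rw [hvdef]
      unfold mul2
      rw [norm_smul, Complex.norm_real, mul_pow, Real.norm_eq_abs, sq_abs]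
      obtain ⟨g1, g2⟩ := hΘ0 n p.1 p.2
      have g3 : Θ n p.1 p.2 ^ 2 ≤ 1 := by nlinarith
      have g4 : 0 ≤ ‖S.res φ (u n) p.1 p.2‖ ^ 2 := by positivity
      calc _ ≤ 1 * ‖S.res φ (u n) p.1 p.2‖ ^ 2 := mul_le_mul_of_nonneg_right g3 g4
        _ = _ := one_mul _
    have hvz : ∀ n (p : Cfg dh × Wsp dm), p ∉ AN.Nb (cmb ψ 0 z₀) dm (R n) (4 * (ε / 2)) →
        ‖v n p.1 p.2‖ ^ 2 = 0 := by
      intro n p hp
      by_contra hne
      have h1 : v n p.1 p.2 ≠ 0 := by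
        intro h0
        apply hne
        rw [h0]; simp
      obtain ⟨g1, g2⟩ := hsup n p.1 p.2 h1
      have g3 : 0 < ε * R n := mul_pos hε (hRp n)
      apply hp
      refine ⟨?_, ?_⟩
      · refine g1.trans_lt ?_
        nlinarith
      · refine g2.trans_lt ?_
        nlinarith
    have huc : ∀ n, Continuous (u n) := fun n => (hSq.inv n).1.1.continuous
    have hri := fun n => lo_res_int (dm := dm) S φ (huc n) (cmb ψ 0 z₀) (R n) (4 * (ε / 2))
    have hvi := fun n => hB.int_sq (v n) (hv n).1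
    have hnsK : ∀ n, ns2 (v n) ≤ C1 * K := by
      intro n
      refine le_trans ?_ (hNbK n)
      unfold ns2
      rw [← setIntegral_eq_integral_of_forall_compl_eq_zero (hvz n)]
      exact integral_mono (hvi n).integrableOn (hri n) (hvle n)
    -- energies
    obtain ⟨K2, hK2def⟩ : ∃ K2 : ℝ, K2 = 3 * Co * C1 * K := ⟨_, rfl⟩
    have hK20 : 0 ≤ K2 := by rw [hK2def]; positivity
    have hE : ∀ n, (∑ β, ns2 (S.Qh φ β (v n))) + S.E1 φ (v n) ≤ K2 / R n ^ 2 := by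
      intro n
      have h1 := (hout ε hε (by linarith) (R n) (hRR n) 0 le_rfl zero_le_one (v n) (hv n).1 (hsup n)).1
      have h2 : S.EH φ (AN.N0 S) 0 (v n) = ∑ β, ns2 (S.Qh φ β (v n)) := by
        unfold Setup.EH
        refine Finset.sum_congr rfl fun β _ => ?_
        congr 1
        funext y w
        simp [Setup.Qhm]
      have h3 : S.ES φ (AN.N0 S) 0 (v n) = ∑ β, ns2 (AN.Qs S φ β (v n)) := by
        unfold Setup.ES
        refine Finset.sum_congr rfl fun β _ => ?_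
        congr 1
        funext y w
        simp [Setup.QS, Setup.Qhm, AN.Qs]
      rw [h2, h3] at h1
      rw [hK2def]
      exact lo_en (hR1 n) hCo.le hC1.le h1 (hv n).2.2.2.2.1 (henaK n) (hmasK n) (hnsK n)
    have hE10 : ∀ n, 0 ≤ S.E1 φ (v n) := fun n => Finset.sum_nonneg fun β _ => hB.nonneg _
    have hsplit := fun n => hSQ hCalc dh dm ds dz φ ψ z₀ h (v n) (hv n).1
    have hQss0 : ∀ n, 0 ≤ ∑ β, ns2 (Qss h β (v n)) := fun n => Finset.sum_nonneg fun β _ => hB.nonneg _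
    have hpy0 : ∀ n, 0 ≤ ∑ i, ∑ B, ns2 (py i (ψ (Sum.inr B)) (v n)) := fun n =>
      Finset.sum_nonneg fun i _ => Finset.sum_nonneg fun B _ => hB.nonneg _
    have hQssK : ∀ n, ∑ β, ns2 (Qss h β (v n)) ≤ K2 / R n ^ 2 := by
      intro n
      have h1 := hE n
      rw [(hsplit n).2] at h1
      have h2 := hE10 n
      have h3 := hpy0 n
      linarith
    have hE1K : ∀ n, S.E1 φ (v n) ≤ K2 / R n ^ 2 := by
      intro n
      have h1 := hE n
      rw [(hsplit n).2] at h1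
      have h2 := hQss0 n
      have h3 := hpy0 n
      linarith
    have hpyK : ∀ n i B, R n ^ 2 * ns2 (py i (ψ (Sum.inr B)) (v n)) ≤ K2 := by
      intro n i B
      have h1 := hE n
      rw [(hsplit n).2] at h1
      have h2 := hQss0 n
      have h4 := hE10 n
      have h3 : ns2 (py i (ψ (Sum.inr B)) (v n)) ≤ ∑ i, ∑ B, ns2 (py i (ψ (Sum.inr B)) (v n)) :=
        (Finset.single_le_sum (f := fun B => ns2 (py i (ψ (Sum.inr B)) (v n))) (fun B _ => hB.nonneg _)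
          (Finset.mem_univ B)).trans
        (Finset.single_le_sum (f := fun i => ∑ B, ns2 (py i (ψ (Sum.inr B)) (v n)))
          (fun i _ => Finset.sum_nonneg fun B _ => hB.nonneg _) (Finset.mem_univ i))
      have h5 := hpy0 n
      have h6 : ns2 (py i (ψ (Sum.inr B)) (v n)) ≤ K2 / R n ^ 2 := by linarith
      have hR2 : 0 < R n ^ 2 := by have := hRp n; positivity
      rw [le_div_iff₀ hR2] at h6
      linarith
    -- zero mode coefficients
    have hcoef : ∀ j, Tendsto (fun n => ∫ yz, ‖∫ ys, inner ℂ (o j ys) (sec S φ ψ (v n) yz ys)‖ ^ 2) atTop (𝓝 0) := by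
      intro j
      have h1 := hrel (ε / 2) (by positivity) (by linarith) R u Θ θ₁ (C1 * K + K2) hSq.lim hR1 hSq.inv
        (fun n y w => hΘ0 n y w) hθc hθs (fun n => hΘ1 n) (fun n => hΘ3 n)
        (fun n => by rw [hvn]; exact (hv n).1) (fun n => (hNbK n).trans (by linarith))
        (fun n i B => by
          rw [hvn]
          have h0 : 0 ≤ C1 * K := by positivity
          exact (hpyK n i B).trans (by linarith))
        (by rw [show 2 * (ε / 2) = ε by ring]; exact hspz) (o j) (hz j)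
      simp only [hvn] at h1
      exact h1
    -- the limit
    have hns0 : ∀ n, 0 ≤ ns2 (v n) := fun n => hB.nonneg _
    have hlim : Tendsto (fun n => ns2 (v n)) atTop (𝓝 0) := by
      refine lo_limit hns0 (M := 2 * (C1 * K) + 4 * CI * K2) (by positivity) fun δ hδ => ?_
      obtain ⟨η0, Cu, hη0, hCu, hufδ⟩ := huf δ hδ
      obtain ⟨η, hη, hηle, hη2⟩ : ∃ η : ℝ, 0 < η ∧ η ≤ η0 ∧ η ^ 2 ≤ δ := by
        refine ⟨min η0 (Real.sqrt δ), lt_min hη0 (Real.sqrt_pos.2 hδ), min_le_left _ _, ?_⟩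
        have h1 : min η0 (Real.sqrt δ) ≤ Real.sqrt δ := min_le_right _ _
        have h2 : 0 ≤ min η0 (Real.sqrt δ) := (lt_min hη0 (Real.sqrt_pos.2 hδ)).le
        calc (min η0 (Real.sqrt δ)) ^ 2 ≤ (Real.sqrt δ) ^ 2 := pow_le_pow_left₀ h2 h1 2
          _ = δ := Real.sq_sqrt hδ.le
      have hfarη := hfar (4 * (ε / 2)) (by positivity) (by linarith) η hη R u hSq hnc hnul
      have hsumc : Tendsto (fun n => ∑ j, ∫ yz, ‖∫ ys, inner ℂ (o j ys) (sec S φ ψ (v n) yz ys)‖ ^ 2) atTop (𝓝 0) := by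
        have := tendsto_finsetSum (Finset.univ : Finset (Fin n₀)) fun j _ => hcoef j
        simpa using this
      have herr := (hfarη.add ((tendsto_const_nhds (x := Cu * K2 / 8 + 4 * CI * K2)).div_atTop hSq.lim)).add
        (hsumc.const_mul (4 * (n₀ : ℝ)))
      simp only [add_zero, mul_zero] at herr
      refine ⟨_, herr, fun n => ?_⟩
      obtain ⟨k1, k2, k3, -, k5, -⟩ := hsec (R n) (hR1 n) (v n) (hv n).1
        (AN.su359_mono (hsup n) (hRp n) (by linarith))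
      have hmain := lo_main S φ ψ z₀ h hA hB hcmb hCI hz ho hic (R := R n) (ε := ε) (η := η) (δ := δ) (Cu := Cu)
        (hRp n) hη hδ.le hCu.le
        (fun y hy => (hbd (R n) y (hRp n) (hy.trans (mul_le_mul_of_nonneg_right (by linarith) (hRp n).le))).1)
        (fun yz hyz ys hys f hf => hufδ (R n) (hRp n) yz
          (hyz.trans (mul_le_mul_of_nonneg_right (by linarith) (hRp n).le)) ys
          (hys.trans (mul_le_mul_of_nonneg_right hηle (hRp n).le)) f hf)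
        (hv n).1 (hsup n) k1 k2 (k3 (hv n).2.2.1) k5 (hsplit n).1
      -- far part
      have hfarle : (∫ p in {p : Cfg dh × Wsp dm | η * R n ≤ ‖sp ψ p.1‖}, ‖v n p.1 p.2‖ ^ 2
          ∂((volume : Measure (Cfg dh)).prod (volume : Measure (Wsp dm)))) ≤
          ∫ p in AN.Nb (cmb ψ 0 z₀) dm (R n) (4 * (ε / 2)) ∩ {p | η * R n ≤ ‖sp ψ p.1‖},
            ‖S.res φ (u n) p.1 p.2‖ ^ 2 ∂((volume : Measure (Cfg dh)).prod (volume : Measure (Wsp dm))) := by
        have hBm : MeasurableSet {p : Cfg dh × Wsp dm | η * R n ≤ ‖sp ψ p.1‖} :=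
          (isClosed_le continuous_const ((lo_sp_cont ψ).comp continuous_fst).norm).measurableSet
        rw [setIntegral_eq_of_subset_of_forall_sdiff_eq_zero hBm
          (s := AN.Nb (cmb ψ 0 z₀) dm (R n) (4 * (ε / 2)) ∩ {p | η * R n ≤ ‖sp ψ p.1‖}) Set.inter_subset_right
          (fun p hp => hvz n p fun h' => hp.2 ⟨h', hp.1⟩)]
        exact integral_mono (hvi n).integrableOn ((hri n).mono_set Set.inter_subset_left) (hvle n)
      exact lo_arith hmain hfarle (hE1K n) (hnsK n) (hQssK n) (hR1 n) hη2 hδ.le hCu.le hCI hK20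
    -- conclusion
    unfold NulE
    have hup : Tendsto (fun n => C1 * ns2 (v n)) atTop (𝓝 0) := by
      simpa using hlim.const_mul C1
    exact squeeze_zero (fun n => integral_nonneg fun x => by positivity) (fun n => (hv n).2.2.2.2.2) hup
  intro R u hSq hnc hnul hspz
  obtain ⟨N, hN⟩ := eventually_atTop.1 (hSq.lim.eventually_ge_atTop R0)
  rw [← lo_nule_shift N]
  refine main _ _ (lo_sq_shift hSq N) (fun n => hN _ (by omega)) (fun Y' h' => ?_) (fun Y' h1 h2 h3 => ?_) ?_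
  · obtain ⟨e, he, h2⟩ := hnc Y' h'
    exact ⟨e, he, (lo_nule_shift N).2 h2⟩
  · obtain ⟨e, he, h4⟩ := hnul Y' h1 h2 h3
    exact ⟨e, he, (lo_nule_shift N).2 h4⟩
  · intro χ hχ hχs o' ho'
    exact (tendsto_add_atTop_iff_nat (f := fun n => sfun S φ ψ ε (R n) χ o' (u n)) N).2 (hspz χ hχ hχs o' ho')

end Vale.Agent.P353.Z.AD
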