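import Vale.Agent.P353.AN.D.Stmt
import Vale.Agent.P353.Z.Loc
import Vale.Agent.P353.Z.Energy

/-! # P353, all `N`, block D1: non commuting points are null -/

open MeasureTheory Filter Topology
open scoped ContDiff

namespace Vale.Agent.P353.Z.AD

variable {d : ℕ} {F : Type*} [NormedAddCommGroup F] [InnerProductSpace ℂ F]

lemma nc_FF_smul (S : Setup d F) (A : Fin d) (i j : Fin 9) (r : ℝ) (x : Cfg d) :
    S.FF A i j (r • x) = r ^ 2 * S.FF A i j x := by
  simp only [Setup.FF, PiLp.smul_apply, smul_eq_mul, Finset.mul_sum]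
  refine Finset.sum_congr rfl fun B _ => Finset.sum_congr rfl fun C _ => by ring

lemma nc_V_smul (S : Setup d F) (r : ℝ) (x : Cfg d) : S.V (r • x) = r ^ 4 * S.V x := by
  simp only [Setup.V, nc_FF_smul, Finset.mul_sum]
  refine Finset.sum_congr rfl fun B _ => Finset.sum_congr rfl fun C _ =>
    Finset.sum_congr rfl fun D _ => by ring

lemma nc_V_nonneg (S : Setup d F) (x : Cfg d) : 0 ≤ S.V x := by
  unfold Setup.V
  have : 0 ≤ ∑ A, ∑ i, ∑ j, (S.FF A i j x) ^ 2 :=
    Finset.sum_nonneg fun A _ => Finset.sum_nonneg fun i _ => Finset.sum_nonneg fun j _ => sq_nonneg _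
  linarith

lemma nc_Fx_smul (S : Setup d F) (r : ℝ) (x : Cfg d) : S.Fx (r • x) = (r : ℂ) • S.Fx x := by
  simp only [Setup.Fx, PiLp.smul_apply, smul_eq_mul]
  rw [smul_comm ((r : ℂ)) _ _]
  congr 1
  simp only [Finset.smul_sum, smul_smul]
  refine Finset.sum_congr rfl fun q _ => Finset.sum_congr rfl fun A _ =>
    Finset.sum_congr rfl fun B _ => Finset.sum_congr rfl fun C _ => ?_
  congr 1
  push_cast
  ring

lemma nc_pdr_scale (χ : Cfg d → ℝ) (hχ : ContDiff ℝ ∞ χ) (r : ℝ) (i : Fin 9) (A : Fin d) (x : Cfg d) :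
    pdr i A (fun y => χ (r • y)) x = r * pdr i A χ (r • x) := by
  unfold pdr
  have h1 : HasFDerivAt (fun y : Cfg d => r • y) (r • ContinuousLinearMap.id ℝ (Cfg d)) x :=
    (hasFDerivAt_id x).const_smul r
  have h2 : HasFDerivAt χ (fderiv ℝ χ (r • x)) (r • x) :=
    (hχ.differentiable (by simp) _).hasFDerivAt
  have h3 := (h2.comp x h1).fderiv
  have h4 : (χ ∘ fun y : Cfg d => r • y) = fun y => χ (r • y) := rfl
  rw [h4] at h3
  rw [h3]
  simp

lemma nc_gradOp_scale (S : Setup d F) (χ : Cfg d → ℝ) (hχ : ContDiff ℝ ∞ χ) (r : ℝ) (β : Fin 16)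
    (x : Cfg d) : S.gradOp (fun y => χ (r • y)) β x = (r : ℂ) • S.gradOp χ β (r • x) := by
  simp only [Setup.gradOp, nc_pdr_scale χ hχ]
  rw [smul_comm ((r : ℂ)) _ _]
  congr 1
  simp only [Finset.smul_sum, smul_smul]
  refine Finset.sum_congr rfl fun q _ => Finset.sum_congr rfl fun A _ => ?_
  congr 1
  push_cast
  ring

lemma nc_gradOp_bound (S : Setup d F) (χ : Cfg d → ℝ) (hχ : ContDiff ℝ ∞ χ)
    (hc : HasCompactSupport χ) : ∃ K : ℝ, 0 ≤ K ∧ ∀ β y, ‖S.gradOp χ β y‖ ≤ K := by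
  have h1 : ∀ i A, ∃ C : ℝ, ∀ x, ‖pdr i A χ x‖ ≤ C := by
    intro i A
    have hcont : Continuous (pdr i A χ) := by
      unfold pdr
      exact (hχ.continuous_fderiv (by simp)).clm_apply continuous_const
    have hcs : HasCompactSupport (pdr i A χ) := by
      refine (hc.fderiv (𝕜 := ℝ)).mono ?_
      intro x hx
      simp only [Function.mem_support, pdr] at hx ⊢
      intro h0
      exact hx (by rw [h0]; rfl)
    exact hcs.exists_bound_of_continuous hcont
  choose C hC using h1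
  refine ⟨∑ β : Fin 16, ∑ i, ∑ A, |C i A| * ‖S.vec (S.g i) A β‖, by positivity, fun β y => ?_⟩
  have h2 : ‖S.gradOp χ β y‖ ≤ ∑ i, ∑ A, |C i A| * ‖S.vec (S.g i) A β‖ := by
    unfold Setup.gradOp
    rw [norm_smul, norm_neg, Complex.norm_I, one_mul]
    refine (norm_sum_le _ _).trans (Finset.sum_le_sum fun i _ => ?_)
    refine (norm_sum_le _ _).trans (Finset.sum_le_sum fun A _ => ?_)
    rw [norm_smul, Complex.norm_real]
    exact mul_le_mul_of_nonneg_right ((hC i A y).trans (le_abs_self _)) (norm_nonneg _)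
  refine h2.trans ?_
  exact Finset.single_le_sum (f := fun β : Fin 16 => ∑ i, ∑ A, |C i A| * ‖S.vec (S.g i) A β‖)
    (fun β _ => by positivity) (Finset.mem_univ β)

lemma nc_gradOp_zero (S : Setup d F) (χ : Cfg d → ℝ) (β : Fin 16) {y : Cfg d}
    (hy : y ∉ tsupport χ) : S.gradOp χ β y = 0 := by
  have h1 : fderiv ℝ χ y = 0 := fderiv_of_notMem_tsupport ℝ hy
  simp [Setup.gradOp, pdr, h1]

/-- **D1** non commuting points are null. -/
theorem nonComm (S : Setup d F) : NonCommStmt S := by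
  intro _ R u hS Y hY
  have hV0 : 0 < S.V Y := lt_of_le_of_ne (nc_V_nonneg S Y) (Ne.symm hY)
  have hY0 : Y ≠ 0 := by
    rintro rfl
    have := nc_V_smul S 0 (0 : Cfg d)
    simp at this
    exact hY this
  have hYn : 0 < ‖Y‖ := norm_pos_iff.2 hY0
  set c : ℝ := S.V Y / 2 with hcdef
  have hc : 0 < c := by positivity
  have hVc : Continuous S.V := (contDiff_V S).continuous
  have hev : ∀ᶠ y in 𝓝 Y, c < S.V y := by
    refine hVc.continuousAt.eventually (lt_mem_nhds ?_)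
    rw [hcdef]; linarith
  obtain ⟨δ, hδ, hδV⟩ := Metric.eventually_nhds_iff.1 hev
  set ε : ℝ := min (δ / 4) (‖Y‖ / 4) with hεdef
  have hε : 0 < ε := lt_min (by positivity) (by positivity)
  have hε1 : 2 * ε < δ := by
    have := min_le_left (δ / 4) (‖Y‖ / 4)
    rw [← hεdef] at this
    linarith
  have hε2 : 4 * ε ≤ ‖Y‖ := by
    have := min_le_right (δ / 4) (‖Y‖ / 4)
    rw [← hεdef] at this
    linarith
  refine ⟨ε, hε, ?_⟩
  let f : ContDiffBump Y := ⟨ε, 2 * ε, hε, by linarith⟩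
  let χ : Cfg d → ℝ := fun y => f y
  have hχs : ContDiff ℝ ∞ χ := f.contDiff
  have hχc : HasCompactSupport χ := f.hasCompactSupport
  have hχ0 : ∀ y, 0 ≤ χ y := fun y => f.nonneg
  have hχ1 : ∀ y, χ y ≤ 1 := fun y => f.le_one
  have hχin : ∀ y, dist y Y ≤ ε → χ y = 1 := fun y hy => f.one_of_mem_closedBall hy
  have hχout : ∀ y, 2 * ε ≤ dist y Y → χ y = 0 := fun y hy => f.zero_of_le_dist hy
  have hts : tsupport χ = Metric.closedBall Y (2 * ε) := f.tsupport_eq
  obtain ⟨K, hK, hKb⟩ := nc_gradOp_bound S χ hχs hχc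
  obtain ⟨M, hM⟩ := (isCompact_closedBall Y (2 * ε)).exists_bound_of_continuousOn
    (contDiff_Fx S).continuous.continuousOn
  have hM0 : 0 ≤ M := (norm_nonneg _).trans (hM Y (Metric.mem_closedBall_self (by positivity)))
  obtain ⟨C, hC⟩ := hS.bd (‖Y‖ / 4) (2 * ‖Y‖) (by positivity) (by linarith)
  set C' : ℝ := (1 / 16) * (2 * C + 32 * K ^ 2 * C) with hC'
  have hmain : ∀ n, (c * R n ^ 4 - M * R n) * (∫ x, ‖((χ ((R n)⁻¹ • x) : ℝ) : ℂ) • u n x‖ ^ 2) ≤
      C' / R n ^ 2 := by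
    intro n
    have hR := hS.pos n
    have hRi : 0 < (R n)⁻¹ := by positivity
    set χn : Cfg d → ℝ := fun x => χ ((R n)⁻¹ • x) with hχn
    have hχns : ContDiff ℝ ∞ χn := hχs.comp (contDiff_const_smul _)
    have hu : Setup.Tst (u n) := (hS.inv n).1
    have hw : Setup.Tst (fun x => ((χn x : ℝ) : ℂ) • u n x) := Setup.Tst.rsmul hχns hu
    set w : Cfg d → F := fun x => ((χn x : ℝ) : ℂ) • u n x with hwdef
    set A : Set (Cfg d) := shl d (‖Y‖ / 4 * R n) (2 * ‖Y‖ * R n) with hA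
    have hAm : MeasurableSet A :=
      (measurableSet_lt measurable_const measurable_norm).inter
        (measurableSet_lt measurable_norm measurable_const)
    -- points near `R Y` are in the shell
    have hin : ∀ x : Cfg d, (R n)⁻¹ • x ∈ Metric.closedBall Y (2 * ε) → x ∈ A := by
      intro x hx
      rw [Metric.mem_closedBall, dist_eq_norm] at hx
      have e1 : ‖(R n)⁻¹ • x‖ = (R n)⁻¹ * ‖x‖ := by
        rw [norm_smul, Real.norm_eq_abs, abs_of_pos hRi]
      have e2 : ‖(R n)⁻¹ • x‖ ≤ ‖Y‖ + 2 * ε := by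
        have := norm_add_le ((R n)⁻¹ • x - Y) Y
        rw [sub_add_cancel] at this
        linarith
      have e3 : ‖Y‖ - 2 * ε ≤ ‖(R n)⁻¹ • x‖ := by
        have := norm_sub_norm_le Y ((R n)⁻¹ • x)
        rw [norm_sub_rev] at this
        linarith
      rw [e1] at e2 e3
      have e4 : (R n)⁻¹ * ‖x‖ * R n = ‖x‖ := by field_simp
      constructor
      · have : (‖Y‖ / 4) < (R n)⁻¹ * ‖x‖ := by linarith
        calc ‖Y‖ / 4 * R n < (R n)⁻¹ * ‖x‖ * R n := by gcongr
          _ = ‖x‖ := e4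
      · have : (R n)⁻¹ * ‖x‖ < 2 * ‖Y‖ := by linarith
        calc ‖x‖ = (R n)⁻¹ * ‖x‖ * R n := e4.symm
          _ < 2 * ‖Y‖ * R n := by gcongr
    -- upper bound
    have hup : ∀ β, ∫ x, ‖S.Q β w x‖ ^ 2 ≤ 2 * (∫ x in A, ‖S.Q β (u n) x‖ ^ 2) +
        2 * (K / R n) ^ 2 * mas (u n) A := by
      intro β
      have i1 : Integrable (fun x => ‖S.Q β (u n) x‖ ^ 2) := (hu.Q S β).norm_sq_int
      have i2 : Integrable (fun x => ‖u n x‖ ^ 2) := hu.norm_sq_int
      have e0 : 2 * (∫ x in A, ‖S.Q β (u n) x‖ ^ 2) + 2 * (K / R n) ^ 2 * mas (u n) A =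
          ∫ x, A.indicator (fun x => 2 * ‖S.Q β (u n) x‖ ^ 2 + 2 * (K / R n) ^ 2 * ‖u n x‖ ^ 2) x := by
        rw [integral_indicator hAm, integral_add (i1.integrableOn.const_mul _)
          (i2.integrableOn.const_mul _), integral_const_mul, integral_const_mul]
        rfl
      rw [e0]
      refine integral_mono (hw.Q S β).norm_sq_int
        (((i1.const_mul 2).add (i2.const_mul _)).indicator hAm) fun x => ?_
      have hq : S.Q β w x = ((χn x : ℝ) : ℂ) • S.Q β (u n) x + S.gradOp χn β x (u n x) :=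
        S.Q_cut χn β (u n) x (hχns.differentiable (by simp) x) (hu.diff x)
      have hg : S.gradOp χn β x = (((R n)⁻¹ : ℝ) : ℂ) • S.gradOp χ β ((R n)⁻¹ • x) :=
        nc_gradOp_scale S χ hχs _ β x
      by_cases hxA : x ∈ A
      · rw [Set.indicator_of_mem hxA]
        have h1 : ‖((χn x : ℝ) : ℂ) • S.Q β (u n) x‖ ≤ ‖S.Q β (u n) x‖ := by
          rw [norm_smul, Complex.norm_real, Real.norm_eq_abs, abs_of_nonneg (hχ0 _)]
          exact mul_le_of_le_one_left (norm_nonneg _) (hχ1 _)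
        have h2 : ‖S.gradOp χn β x (u n x)‖ ≤ K / R n * ‖u n x‖ := by
          refine ((S.gradOp χn β x).le_opNorm _).trans ?_
          gcongr
          rw [hg, norm_smul, Complex.norm_real, Real.norm_eq_abs, abs_of_pos hRi, div_eq_inv_mul]
          gcongr
          exact hKb _ _
        have h3 : ‖S.Q β w x‖ ≤ ‖S.Q β (u n) x‖ + K / R n * ‖u n x‖ := by
          rw [hq]
          exact (norm_add_le _ _).trans (add_le_add h1 h2)
        have h4 : ‖S.Q β w x‖ ^ 2 ≤ (‖S.Q β (u n) x‖ + K / R n * ‖u n x‖) ^ 2 :=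
          pow_le_pow_left₀ (norm_nonneg _) h3 2
        nlinarith [sq_nonneg (‖S.Q β (u n) x‖ - K / R n * ‖u n x‖)]
      · rw [Set.indicator_of_notMem hxA]
        have hx1 : (R n)⁻¹ • x ∉ Metric.closedBall Y (2 * ε) := fun h => hxA (hin x h)
        have hx2 : χn x = 0 := by
          refine hχout _ ?_
          rw [Metric.mem_closedBall] at hx1
          exact (not_le.1 hx1).le
        have hx3 : S.gradOp χn β x = 0 := by
          rw [hg, nc_gradOp_zero S χ β (by rw [hts]; exact hx1), smul_zero]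
        have : S.Q β w x = 0 := by rw [hq, hx2, hx3]; simp
        simp [this]
    have hsum : ∑ β, ∫ x, ‖S.Q β w x‖ ^ 2 ≤ (2 * C + 32 * K ^ 2 * C) / R n ^ 2 := by
      have h1 : ∑ β, ∫ x, ‖S.Q β w x‖ ^ 2 ≤ 2 * ena S (u n) A + 32 * (K / R n) ^ 2 * mas (u n) A := by
        refine (Finset.sum_le_sum fun β _ => hup β).trans (le_of_eq ?_)
        rw [Finset.sum_add_distrib, ← Finset.mul_sum, Finset.sum_const, Finset.card_univ, Fintype.card_fin,
          nsmul_eq_mul]
        unfold ena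
        push_cast
        ring
      have h2 := hC n
      rw [← hA] at h2
      have hm0 : 0 ≤ mas (u n) A := integral_nonneg fun x => by positivity
      have he0 : 0 ≤ ena S (u n) A :=
        Finset.sum_nonneg fun β _ => integral_nonneg fun x => by positivity
      have h3 : mas (u n) A ≤ C := by
        have : 0 ≤ R n ^ 2 * ena S (u n) A := by positivity
        linarith
      have h4 : ena S (u n) A ≤ C / R n ^ 2 := by
        rw [le_div_iff₀ (by positivity)]
        linarith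
      calc ∑ β, ∫ x, ‖S.Q β w x‖ ^ 2 ≤ 2 * ena S (u n) A + 32 * (K / R n) ^ 2 * mas (u n) A := h1
        _ ≤ 2 * (C / R n ^ 2) + 32 * (K / R n) ^ 2 * C := by gcongr
        _ = (2 * C + 32 * K ^ 2 * C) / R n ^ 2 := by ring
    have hen := energy_formula S w hw
    have hpd : 0 ≤ ∑ i, ∑ A, ∫ x, ‖pd i A w x‖ ^ 2 :=
      Finset.sum_nonneg fun i _ => Finset.sum_nonneg fun A _ => integral_nonneg fun x => by positivity
    have iV : Integrable (fun x => S.V x * ‖w x‖ ^ 2) := hw.mul_norm_sq_int hVc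
    have hFw : Setup.Tst (fun x => S.Fx x (w x)) := hw.clm (contDiff_Fx S)
    have iF : Integrable (fun x => (inner ℂ (w x) (S.Fx x (w x))).re) :=
      (hw.inner_int hFw.1.continuous).re
    have hlow : (c * R n ^ 4 - M * R n) * (∫ x, ‖w x‖ ^ 2) ≤
        (∫ x, S.V x * ‖w x‖ ^ 2) + (∫ x, (inner ℂ (w x) (S.Fx x (w x))).re) := by
      rw [← integral_add iV iF, ← integral_const_mul]
      refine integral_mono (hw.norm_sq_int.const_mul _) (iV.add iF) fun x => ?_
      show (c * R n ^ 4 - M * R n) * ‖w x‖ ^ 2 ≤ S.V x * ‖w x‖ ^ 2 + (inner ℂ (w x) (S.Fx x (w x))).re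
      by_cases hx : w x = 0
      · rw [hx]; simp
      have hy : dist ((R n)⁻¹ • x) Y < 2 * ε := by
        by_contra hcon
        apply hx
        have := hχout _ (not_lt.1 hcon)
        show ((χn x : ℝ) : ℂ) • u n x = 0
        rw [show χn x = 0 from this]
        simp
      have ex : x = R n • ((R n)⁻¹ • x) := by
        rw [smul_smul, mul_inv_cancel₀ hR.ne', one_smul]
      have hVx : c * R n ^ 4 ≤ S.V x := by
        rw [ex, nc_V_smul]
        have := (hδV (hy.trans hε1)).le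
        rw [mul_comm]
        gcongr
      have hFxx : ‖S.Fx x‖ ≤ M * R n := by
        rw [ex, nc_Fx_smul, norm_smul, Complex.norm_real, Real.norm_eq_abs, abs_of_pos hR, mul_comm]
        gcongr
        exact hM _ hy.le
      have h5 : -(M * R n * ‖w x‖ ^ 2) ≤ (inner ℂ (w x) (S.Fx x (w x))).re := by
        have h6 : |(inner ℂ (w x) (S.Fx x (w x))).re| ≤ ‖w x‖ * (M * R n * ‖w x‖) := by
          refine (Complex.abs_re_le_norm _).trans ((norm_inner_le_norm _ _).trans ?_)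
          gcongr
          refine ((S.Fx x).le_opNorm _).trans ?_
          gcongr
        have h7 := (abs_le.1 h6).1
        nlinarith
      nlinarith [sq_nonneg ‖w x‖]
    calc (c * R n ^ 4 - M * R n) * (∫ x, ‖w x‖ ^ 2) ≤
        (∫ x, S.V x * ‖w x‖ ^ 2) + (∫ x, (inner ℂ (w x) (S.Fx x (w x))).re) := hlow
      _ ≤ (1 / 16) * ∑ β, ∫ x, ‖S.Q β w x‖ ^ 2 := by linarith
      _ ≤ (1 / 16) * ((2 * C + 32 * K ^ 2 * C) / R n ^ 2) := by gcongr
      _ = C' / R n ^ 2 := by rw [hC']; ring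
  -- conclusion
  have hlim : Tendsto (fun n => C' / R n ^ 2) atTop (𝓝 0) :=
    Tendsto.div_atTop tendsto_const_nhds ((tendsto_pow_atTop two_ne_zero).comp hS.lim)
  refine tendsto_of_tendsto_of_tendsto_of_le_of_le' tendsto_const_nhds hlim
    (Eventually.of_forall fun n => integral_nonneg fun x => by positivity) ?_
  have hlarge : ∀ᶠ n in atTop, max 1 ((M + 1) / c) ≤ R n := hS.lim.eventually_ge_atTop _
  filter_upwards [hlarge] with n hn
  have hR := hS.pos n
  have hRi : 0 < (R n)⁻¹ := by positivity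
  have hR1 : 1 ≤ R n := (le_max_left _ _).trans hn
  have hR2 : M + 1 ≤ R n * c := by
    have := (le_max_right _ _).trans hn
    rwa [div_le_iff₀ hc] at this
  have hbig : 1 ≤ c * R n ^ 4 - M * R n := by
    have h1 : R n ^ 2 ≤ R n ^ 4 := pow_le_pow_right₀ hR1 (by norm_num)
    have h2 : c * R n ^ 2 ≤ c * R n ^ 4 := by gcongr
    nlinarith
  have hu : Setup.Tst (u n) := (hS.inv n).1
  have hχns : ContDiff ℝ ∞ (fun x : Cfg d => χ ((R n)⁻¹ • x)) := hχs.comp (contDiff_const_smul _)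
  have hw : Setup.Tst (fun x => ((χ ((R n)⁻¹ • x) : ℝ) : ℂ) • u n x) := Setup.Tst.rsmul hχns hu
  have h0 : 0 ≤ ∫ x, ‖((χ ((R n)⁻¹ • x) : ℝ) : ℂ) • u n x‖ ^ 2 :=
    integral_nonneg fun x => by positivity
  have h1 : mas (u n) (Metric.ball (R n • Y) (ε * R n)) ≤
      ∫ x, ‖((χ ((R n)⁻¹ • x) : ℝ) : ℂ) • u n x‖ ^ 2 := by
    have e1 : mas (u n) (Metric.ball (R n • Y) (ε * R n)) =
        ∫ x in Metric.ball (R n • Y) (ε * R n), ‖((χ ((R n)⁻¹ • x) : ℝ) : ℂ) • u n x‖ ^ 2 := by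
      refine setIntegral_congr_fun measurableSet_ball fun x hx => ?_
      have hx1 : dist ((R n)⁻¹ • x) Y ≤ ε := by
        rw [Metric.mem_ball] at hx
        have : Y = (R n)⁻¹ • (R n • Y) := by
          rw [smul_smul, inv_mul_cancel₀ hR.ne', one_smul]
        rw [this, dist_smul₀, Real.norm_eq_abs, abs_of_pos hRi, inv_mul_le_iff₀ hR]
        linarith
      show ‖u n x‖ ^ 2 = ‖((χ ((R n)⁻¹ • x) : ℝ) : ℂ) • u n x‖ ^ 2
      rw [hχin _ hx1]
      simp
    rw [e1]
    exact setIntegral_le_integral hw.norm_sq_int (Eventually.of_forall fun x => by positivity)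
  calc mas (u n) (Metric.ball (R n • Y) (ε * R n))
      ≤ ∫ x, ‖((χ ((R n)⁻¹ • x) : ℝ) : ℂ) • u n x‖ ^ 2 := h1
    _ ≤ (c * R n ^ 4 - M * R n) * (∫ x, ‖((χ ((R n)⁻¹ • x) : ℝ) : ℂ) • u n x‖ ^ 2) :=
        le_mul_of_one_le_left h0 hbig
    _ ≤ C' / R n ^ 2 := hmain n

end Vale.Agent.P353.Z.AD
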