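import Vale.Agent.P353.AN.D.Stmt

/-! # P353, all `N`, block D2, D3: all points are null, the shells carry no mass -/

open MeasureTheory Filter Topology
open scoped ContDiff

namespace Vale.Agent.P353.Z.AD

variable {d : ℕ} {F : Type*} [NormedAddCommGroup F] [InnerProductSpace ℂ F]

/-- subsequences of admissible sequences are admissible -/
lemma nul_Sq_comp {S : Setup d F} {R : ℕ → ℝ} {u : ℕ → Cfg d → F} (h : Sq S R u) {k : ℕ → ℕ}
    (hk : StrictMono k) : Sq S (fun n => R (k n)) (fun n => u (k n)) where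
  inv := fun n => h.inv (k n)
  pos := fun n => h.pos (k n)
  lim := h.lim.comp hk.tendsto_atTop
  bd := by
    intro s t hs hst
    obtain ⟨C, hC⟩ := h.bd s t hs hst
    exact ⟨C, fun n => hC (k n)⟩

lemma nul_Nul_comp {R : ℕ → ℝ} {u : ℕ → Cfg d → F} {Y : Cfg d} (h : Nul R u Y) {k : ℕ → ℕ}
    (hk : StrictMono k) : Nul (fun n => R (k n)) (fun n => u (k n)) Y := by
  obtain ⟨ε, hε, h1⟩ := h
  exact ⟨ε, hε, h1.comp hk.tendsto_atTop⟩

lemma nul_mas_nonneg (u : Cfg d → F) (A : Set (Cfg d)) : 0 ≤ mas u A :=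
  integral_nonneg fun _ => sq_nonneg _

lemma nul_int {u : Cfg d → F} (hu : Setup.Tst u) :
    Integrable (fun x => ‖u x‖ ^ 2) (volume : Measure (Cfg d)) := by
  have hc : Continuous fun x => ‖u x‖ ^ 2 := (hu.1.continuous.norm).pow 2
  refine hc.integrable_of_hasCompactSupport ?_
  refine hu.2.mono fun x hx => ?_
  rw [Function.mem_support] at hx ⊢
  intro h0
  exact hx (by rw [h0]; simp)

lemma nul_mas_mono {u : Cfg d → F} (hu : Setup.Tst u) {A B : Set (Cfg d)} (h : A ⊆ B) :
    mas u A ≤ mas u B :=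
  setIntegral_mono_set (nul_int hu).integrableOn (Eventually.of_forall fun _ => sq_nonneg _)
    (Eventually.of_forall h)

lemma nul_mas_union {u : Cfg d → F} (hu : Setup.Tst u) {ι : Type*} (T : Finset ι)
    (A : ι → Set (Cfg d)) (hA : ∀ i, MeasurableSet (A i)) :
    mas u (⋃ i ∈ T, A i) ≤ ∑ i ∈ T, mas u (A i) := by
  classical
  induction T using Finset.induction_on with
  | empty => simp [mas]
  | insert a T ha ih =>
    rw [Finset.set_biUnion_insert, Finset.sum_insert ha]
    have h1 : mas u (A a ∪ ⋃ i ∈ T, A i) ≤ mas u (A a) + mas u (⋃ i ∈ T, A i) := by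
      have h2 : A a ∪ (⋃ i ∈ T, A i) = A a ∪ ((⋃ i ∈ T, A i) \ A a) := by
        rw [Set.union_diff_self]
      have h3 : MeasurableSet ((⋃ i ∈ T, A i) \ A a) :=
        (Finset.measurableSet_biUnion T fun i _ => hA i).diff (hA a)
      rw [h2]
      unfold mas
      rw [setIntegral_union Set.disjoint_sdiff_right h3 (nul_int hu).integrableOn
        (nul_int hu).integrableOn]
      have h4 := nul_mas_mono hu (A := (⋃ i ∈ T, A i) \ A a) (B := ⋃ i ∈ T, A i) Set.diff_subset
      unfold mas at h4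
      linarith
    linarith

/-- **D2** -/
theorem nulAll (S : Setup d F) : NulAllStmt S := by
  intro hD1 hF PZ hloc R u hsq hPZ
  have key : ∀ m : ℕ, ∀ Y : Cfg d, cd S Y = m → Y ≠ 0 → S.V Y = 0 → Nul R u Y := by
    intro m
    induction m using Nat.strong_induction_on with
    | _ m ih =>
      intro Y hY hY0 hV
      obtain ⟨ε, hε, hl⟩ := hloc Y hY0 hV
      refine ⟨ε, hε, ?_⟩
      -- every subsequence has a further subsequence with limit `0`
      refine tendsto_of_subseq_tendsto fun ns hns => ?_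
      obtain ⟨k, hk, hkm⟩ := strictMono_subseq_of_tendsto_atTop hns
      obtain ⟨l, hl1, hl2⟩ := hPZ Y hY0 hV (fun n => ns (k n)) hkm
      have hkl : StrictMono fun n => ns (k (l n)) := hkm.comp hl1
      have h1 := hl (fun n => R (ns (k (l n)))) (fun n => u (ns (k (l n)))) (nul_Sq_comp hsq hkl)
        (fun Y' hY' hV' hc => nul_Nul_comp (ih (cd S Y') (hY ▸ hc) Y' rfl hY' hV') hkl) hl2
      exact ⟨fun n => k (l n), h1⟩
  intro Y hY
  by_cases hV : S.V Y = 0
  · exact key _ Y rfl hY hV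
  · exact hD1 hF R u hsq Y hV

/-- **D3** -/
theorem shell (S : Setup d F) : ShellStmt S := by
  intro R u hsq hnul s t hs hst
  have hT : ∀ n, Setup.Tst (u n) := fun n => (hsq.inv n).1
  set K : Set (Cfg d) := Metric.closedBall 0 t ∩ {x | s ≤ ‖x‖} with hK
  have hKc : IsCompact K :=
    (isCompact_closedBall 0 t).inter_right (isClosed_le continuous_const continuous_norm)
  have hne : ∀ Y ∈ K, Y ≠ 0 := by
    intro Y hY h0
    have h1 : s ≤ ‖Y‖ := hY.2
    rw [h0, norm_zero] at h1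
    linarith
  choose! ε hε hnE using fun (Y : Cfg d) (hY : Y ≠ 0) => hnul Y hY
  obtain ⟨T, hTK, hcov⟩ := hKc.elim_nhds_subcover (fun Y => Metric.ball Y (ε Y))
    fun Y hY => Metric.ball_mem_nhds Y (hε Y (hne Y hY))
  have hlim : Tendsto (fun n => ∑ Y ∈ T, mas (u n) (Metric.ball (R n • Y) (ε Y * R n))) atTop (𝓝 0) := by
    have h := tendsto_finset_sum T (f := fun Y n => mas (u n) (Metric.ball (R n • Y) (ε Y * R n)))
      (a := fun _ => (0 : ℝ)) (x := atTop) fun Y hY => hnE Y (hne Y (hTK Y hY))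
    simpa using h
  refine squeeze_zero (fun n => nul_mas_nonneg _ _) (fun n => ?_) hlim
  refine le_trans (nul_mas_mono (hT n) ?_) (nul_mas_union (hT n) T
    (fun Y => Metric.ball (R n • Y) (ε Y * R n)) fun Y => Metric.isOpen_ball.measurableSet)
  intro x hx
  have hR := hsq.pos n
  have hR0 : R n ≠ 0 := hR.ne'
  have hxs : s * R n < ‖x‖ := hx.1
  have hxt : ‖x‖ < t * R n := hx.2
  have hmem : (R n)⁻¹ • x ∈ K := by
    have hn : ‖(R n)⁻¹ • x‖ = ‖x‖ / R n := by
      rw [norm_smul, norm_inv, Real.norm_eq_abs, abs_of_pos hR]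
      field_simp
    refine ⟨?_, ?_⟩
    · rw [mem_closedBall_zero_iff, hn, div_le_iff₀ hR]
      exact hxt.le
    · change s ≤ ‖(R n)⁻¹ • x‖
      rw [hn, le_div_iff₀ hR]
      exact hxs.le
  have h1 := hcov hmem
  simp only [Set.mem_iUnion, exists_prop] at h1 ⊢
  obtain ⟨Y, hY, h2⟩ := h1
  refine ⟨Y, hY, ?_⟩
  rw [Metric.mem_ball, dist_eq_norm] at h2 ⊢
  have h3 : x - R n • Y = R n • ((R n)⁻¹ • x - Y) := by
    rw [smul_sub, smul_smul, mul_inv_cancel₀ hR0, one_smul]
  rw [h3, norm_smul, Real.norm_eq_abs, abs_of_pos hR, mul_comm]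
  exact mul_lt_mul_of_pos_right h2 hR

end Vale.Agent.P353.Z.AD
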