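import Vale.Agent.P353.AN.B.Om

/-! # P353, all `N`, block D, L6: the vacuum projection is a polynomial in the number operator -/

open Filter Topology Matrix
open scoped ContDiff

namespace Vale.Agent.P353.Z.AD.Sc

variable {F : Type*} [NormedAddCommGroup F] [InnerProductSpace ℂ F] {ι : Type*} [Fintype ι] [DecidableEq ι]

/-- annihilators `∑_q Π_{pq} θ_q` -/
noncomputable def an (T : ι → F →L[ℂ] F) (P : Matrix ι ι ℂ) (p : ι) : F →L[ℂ] F := ∑ q, P p q • T q

/-- number operator `∑_p θ_p a_p` -/
noncomputable def nu (T : ι → F →L[ℂ] F) (P : Matrix ι ι ℂ) : F →L[ℂ] F := ∑ p, T p * an T P p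

/-- `∏_{1 ≤ k ≤ m} (1 - N/k)` -/
noncomputable def pj (N : F →L[ℂ] F) : ℕ → F →L[ℂ] F
  | 0 => 1
  | k + 1 => pj N k * (1 - ((k : ℂ) + 1)⁻¹ • N)

variable {T : ι → F →L[ℂ] F} {P : Matrix ι ι ℂ}

lemma an_T (hT : ∀ p q, T p * T q + T q * T p = if p = q then 1 else 0) (p q : ι) :
    T q * an T P p + an T P p * T q = P p q • (1 : F →L[ℂ] F) := by
  unfold an
  rw [Finset.mul_sum, Finset.sum_mul, ← Finset.sum_add_distrib]
  have h1 : ∀ r, T q * P p r • T r + P p r • T r * T q = if q = r then P p r • (1 : F →L[ℂ] F) else 0 := by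
    intro r
    rw [mul_smul_comm, smul_mul_assoc, ← smul_add, hT q r]
    split_ifs <;> simp
  simp only [h1, Finset.sum_ite_eq, Finset.mem_univ, if_true]

lemma an_an (hT : ∀ p q, T p * T q + T q * T p = if p = q then 1 else 0) (hP : P * Pᵀ = 0) (p q : ι) :
    an T P q * an T P p + an T P p * an T P q = 0 := by
  have h1 : an T P q * an T P p + an T P p * an T P q = ∑ r, P q r • (T r * an T P p + an T P p * T r) := by
    conv_lhs => rw [an, Finset.sum_mul, Finset.mul_sum, ← Finset.sum_add_distrib]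
    refine Finset.sum_congr rfl fun r _ => ?_
    rw [smul_mul_assoc, mul_smul_comm, smul_add]
  rw [h1]
  simp only [an_T hT, smul_smul, ← Finset.sum_smul]
  have h2 : ∑ r, P q r * P p r = 0 := by
    have h3 := congrFun (congrFun hP q) p
    rw [mul_apply] at h3
    exact h3
  rw [h2, zero_smul]

lemma an_mul (A B : Matrix ι ι ℂ) (p : ι) : an T (A * B) p = ∑ q, A p q • an T B q := by
  simp only [an, mul_apply, Finset.sum_smul, Finset.smul_sum, smul_smul]
  exact Finset.sum_comm

lemma nu_an (hT : ∀ p q, T p * T q + T q * T p = if p = q then 1 else 0) (hP : P * Pᵀ = 0) (hPP : P * P = P) (p : ι) :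
    nu T P * an T P p = an T P p * nu T P - an T P p := by
  have h1 : ∀ q, an T P p * (T q * an T P q) = P p q • an T P q - T q * (an T P p * an T P q) := by
    intro q
    have h2 := an_T (P := P) hT p q
    have h3 : an T P p * T q = P p q • (1 : F →L[ℂ] F) - T q * an T P p := by
      rw [← h2]
      abel
    rw [← mul_assoc, h3, sub_mul, smul_mul_assoc, one_mul, mul_assoc]
  have h4 : an T P p = ∑ q, P p q • an T P q := by
    conv_lhs => rw [← hPP]
    exact an_mul P P p
  have h5 : an T P p * nu T P = an T P p - ∑ q, T q * (an T P p * an T P q) := by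
    conv_lhs => rw [nu, Finset.mul_sum]
    simp only [h1, Finset.sum_sub_distrib]
    rw [← h4]
  have h6 : nu T P * an T P p = -∑ q, T q * (an T P p * an T P q) := by
    rw [nu, Finset.sum_mul, ← Finset.sum_neg_distrib]
    refine Finset.sum_congr rfl fun q _ => ?_
    rw [mul_assoc, eq_neg_of_add_eq_zero_left (an_an hT hP p q), mul_neg]
  rw [h5, h6]
  abel

lemma an_apply (A : Matrix ι ι ℂ) (p : ι) (v : F) : an T A p v = ∑ q, A p q • T q v := by
  rw [an, _root_.sum_apply]
  rfl

lemma nu_apply (A : Matrix ι ι ℂ) (v : F) : nu T A v = ∑ p, T p (an T A p v) := by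
  rw [nu, _root_.sum_apply]
  rfl

lemma nu_inner (hsa : ∀ p (v w : F), inner ℂ (T p v) w = inner ℂ v (T p w)) (hPh : Pᴴ = P) (hPP : P * P = P) (v w : F) :
    inner ℂ v (nu T P w) = ∑ p, inner ℂ (an T P p v) (an T P p w) := by
  have h1 : inner ℂ v (nu T P w) = ∑ p, ∑ q, P p q * inner ℂ (T p v) (T q w) := by
    rw [nu_apply, inner_sum]
    refine Finset.sum_congr rfl fun p _ => ?_
    rw [← hsa, an_apply, inner_sum]
    refine Finset.sum_congr rfl fun q _ => ?_
    rw [inner_smul_right]
  have h2 : ∀ p, inner ℂ (an T P p v) (an T P p w) = ∑ q, ∑ r, (P q p * P p r) * inner ℂ (T q v) (T r w) := by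
    intro p
    rw [an_apply, an_apply, sum_inner]
    refine Finset.sum_congr rfl fun q _ => ?_
    rw [inner_sum]
    refine Finset.sum_congr rfl fun r _ => ?_
    rw [inner_smul_left, inner_smul_right]
    have h3 : (starRingEnd ℂ) (P p q) = P q p := by
      have := congrFun (congrFun hPh q) p
      rwa [conjTranspose_apply] at this
    rw [h3]
    ring
  rw [h1]
  simp only [h2]
  rw [Finset.sum_comm (s := Finset.univ) (t := Finset.univ) (f := fun p q => ∑ r, (P q p * P p r) * inner ℂ (T q v) (T r w))]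
  refine Finset.sum_congr rfl fun q _ => ?_
  rw [Finset.sum_comm]
  refine Finset.sum_congr rfl fun r _ => ?_
  rw [← Finset.sum_mul]
  congr 1
  have := congrFun (congrFun hPP q) r
  rw [mul_apply] at this
  exact this.symm

lemma nu_symm (hsa : ∀ p (v w : F), inner ℂ (T p v) w = inner ℂ v (T p w)) (hPh : Pᴴ = P) (hPP : P * P = P) (v w : F) :
    inner ℂ (nu T P v) w = inner ℂ v (nu T P w) := by
  rw [nu_inner hsa hPh hPP, ← inner_conj_symm, nu_inner hsa hPh hPP, map_sum]
  exact Finset.sum_congr rfl fun p _ => inner_conj_symm _ _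

lemma nu_ker (hsa : ∀ p (v w : F), inner ℂ (T p v) w = inner ℂ v (T p w)) (hPh : Pᴴ = P) (hPP : P * P = P) {v : F}
    (hv : nu T P v = 0) (p : ι) : an T P p v = 0 := by
  have h1 := nu_inner hsa hPh hPP v v
  rw [hv, inner_zero_right] at h1
  have h2 : ∑ p, ‖an T P p v‖ ^ 2 = 0 := by
    have h3 : ((∑ p, ‖an T P p v‖ ^ 2 : ℝ) : ℂ) = ∑ p, inner ℂ (an T P p v) (an T P p v) := by
      push_cast
      refine Finset.sum_congr rfl fun p _ => ?_
      rw [inner_self_eq_norm_sq_to_K]
      norm_cast
    rw [← h1] at h3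
    exact_mod_cast h3
  have h3 := (Finset.sum_eq_zero_iff_of_nonneg (fun p _ => by positivity)).1 h2 p (Finset.mem_univ p)
  have h4 : ‖an T P p v‖ = 0 := by
    simpa using h3
  exact norm_eq_zero.1 h4

lemma pj_apply {N : F →L[ℂ] F} {v : F} {μ : ℂ} (h : N v = μ • v) (m : ℕ) :
    pj N m v = (∏ k ∈ Finset.range m, (1 - ((k : ℂ) + 1)⁻¹ * μ)) • v := by
  induction m with
  | zero => simp [pj]
  | succ k ih =>
    have h1 : pj N (k + 1) v = pj N k ((1 - ((k : ℂ) + 1)⁻¹ * μ) • v) := by
      change pj N k ((1 - ((k : ℂ) + 1)⁻¹ • N) v) = _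
      congr 1
      change v - ((k : ℂ) + 1)⁻¹ • N v = _
      rw [h, sub_smul, one_smul, smul_smul]
    rw [h1, map_smul, ih, Finset.prod_range_succ, smul_smul, mul_comm]

/-- the spectrum of the number operator -/
lemma spec [FiniteDimensional ℂ F] (hT : ∀ p q, T p * T q + T q * T p = if p = q then 1 else 0) (hP : P * Pᵀ = 0)
    (hPP : P * P = P) {v : F} (hv0 : v ≠ 0) {μ : ℂ} (hv : nu T P v = μ • v) :
    ∃ j : ℕ, j < Module.finrank ℂ F ∧ μ = j := by
  by_contra hcon
  push Not at hcon
  have h1 : ∀ j : ℕ, j ≤ Module.finrank ℂ F → ∃ u : F, u ≠ 0 ∧ nu T P u = (μ - j) • u := by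
    intro j
    induction j with
    | zero =>
      intro _
      exact ⟨v, hv0, by simpa using hv⟩
    | succ j ih =>
      intro hj
      obtain ⟨u, hu0, hu⟩ := ih (by omega)
      have h2 : μ - j ≠ 0 := sub_ne_zero.2 (hcon j (by omega))
      have h3 : ∃ p, an T P p u ≠ 0 := by
        by_contra h4
        push Not at h4
        have h5 : nu T P u = 0 := by
          rw [nu_apply]
          exact Finset.sum_eq_zero fun p _ => by rw [h4 p, map_zero]
        rw [hu] at h5
        exact (smul_ne_zero h2 hu0) h5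
      obtain ⟨p, hp⟩ := h3
      refine ⟨an T P p u, hp, ?_⟩
      have h4 := congrArg (fun A : F →L[ℂ] F => A u) (nu_an hT hP hPP p)
      have h5 : nu T P (an T P p u) = an T P p (nu T P u) - an T P p u := h4
      rw [h5, hu, map_smul]
      push_cast
      rw [← sub_sub, sub_smul (μ - (j : ℂ)) 1, one_smul]
  choose! u hu0 hu using h1
  have h2 : LinearIndependent ℂ (fun j : Fin (Module.finrank ℂ F + 1) => u j) := by
    refine Module.End.eigenvectors_linearIndependent' (nu T P).toLinearMap
      (fun j : Fin (Module.finrank ℂ F + 1) => μ - ((j : ℕ) : ℂ)) ?_ _ ?_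
    · intro i j hij
      have h3 : ((i : ℕ) : ℂ) = ((j : ℕ) : ℂ) := by
        have : μ - ((i : ℕ) : ℂ) = μ - ((j : ℕ) : ℂ) := hij
        linear_combination -this
      exact Fin.ext (by exact_mod_cast h3)
    · intro j
      exact Module.End.hasEigenvector_iff.2 ⟨Module.End.mem_eigenspace_iff.2 (hu j (by omega)), hu0 j (by omega)⟩
  have h3 := h2.fintype_card_le_finrank
  rw [Fintype.card_fin] at h3
  omega

/-- **the vacuum projection** -/
theorem proj_eq [FiniteDimensional ℂ F] (hT : ∀ p q, T p * T q + T q * T p = if p = q then 1 else 0)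
    (hsa : ∀ p (v w : F), inner ℂ (T p v) w = inner ℂ v (T p w)) (hPh : Pᴴ = P) (hP : P * Pᵀ = 0)
    (hPP : P * P = P) (K : Submodule ℂ F) (hK : ∀ v, v ∈ K ↔ ∀ p, an T P p v = 0) :
    K.starProjection = pj (nu T P) (Module.finrank ℂ F) := by
  have hsym : (nu T P).toLinearMap.IsSymmetric := fun v w => nu_symm hsa hPh hPP v w
  set b := hsym.eigenvectorBasis rfl with hb
  have h0 : (K.starProjection).toLinearMap = (pj (nu T P) (Module.finrank ℂ F)).toLinearMap := by
    refine b.toBasis.ext fun i => ?_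
    rw [OrthonormalBasis.coe_toBasis]
    have h1 : nu T P (b i) = ((hsym.eigenvalues rfl i : ℝ) : ℂ) • b i := hsym.apply_eigenvectorBasis rfl i
    set μ : ℂ := ((hsym.eigenvalues rfl i : ℝ) : ℂ) with hμ
    have hb0 : b i ≠ 0 := b.orthonormal.ne_zero i
    change K.starProjection (b i) = pj (nu T P) (Module.finrank ℂ F) (b i)
    rw [pj_apply h1]
    by_cases h2 : μ = 0
    · have h3 : b i ∈ K := by
        rw [hK]
        intro p
        refine nu_ker hsa hPh hPP ?_ p
        rw [h1, h2, zero_smul]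
      rw [Submodule.starProjection_eq_self_iff.2 h3, h2]
      simp
    · obtain ⟨j, hj, hμj⟩ := spec hT hP hPP hb0 h1
      have h3 : ∏ k ∈ Finset.range (Module.finrank ℂ F), (1 - ((k : ℂ) + 1)⁻¹ * μ) = 0 := by
        have hj0 : j ≠ 0 := by
          rintro rfl
          exact h2 (by simpa using hμj)
        obtain ⟨l, rfl⟩ := Nat.exists_eq_succ_of_ne_zero hj0
        refine Finset.prod_eq_zero (Finset.mem_range.2 (show l < _ by omega)) ?_
        rw [hμj]
        have h4 : (l : ℂ) + 1 ≠ 0 := by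
          exact_mod_cast Nat.succ_ne_zero l
        push_cast
        rw [inv_mul_cancel₀ h4, sub_self]
      rw [h3, zero_smul]
      refine K.starProjection_apply_eq_zero_iff.2 ?_
      rw [Submodule.mem_orthogonal]
      intro u hu
      have h4 : nu T P u = 0 := by
        rw [nu_apply]
        exact Finset.sum_eq_zero fun p _ => by rw [(hK u).1 hu p, map_zero]
      have h5 : μ * inner ℂ u (b i) = 0 := by
        rw [← inner_smul_right, ← h1, ← nu_symm hsa hPh hPP, h4, inner_zero_left]
      exact (mul_eq_zero.1 h5).resolve_left h2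
  ext1 v
  exact congrArg (fun A : F →ₗ[ℂ] F => A v) h0

/-- smoothness -/
theorem pj_smooth {E : Type*} [NormedAddCommGroup E] [NormedSpace ℝ E] {s : Set E} {N : E → F →L[ℂ] F}
    (h : ContDiffOn ℝ ∞ N s) (m : ℕ) : ContDiffOn ℝ ∞ (fun x => pj (N x) m) s := by
  induction m with
  | zero => exact contDiffOn_const
  | succ k ih =>
    refine ih.mul (contDiffOn_const.sub ?_)
    exact h.const_smul _

theorem nu_smooth {E : Type*} [NormedAddCommGroup E] [NormedSpace ℝ E] {s : Set E} {P : E → Matrix ι ι ℂ}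
    (h : ∀ p q, ContDiffOn ℝ ∞ (fun x => P x p q) s) : ContDiffOn ℝ ∞ (fun x => nu T (P x)) s := by
  unfold nu an
  refine ContDiffOn.sum fun p _ => ?_
  refine contDiffOn_const.mul ?_
  refine ContDiffOn.sum fun q _ => ?_
  exact (h p q).smul_const (T q)

end Vale.Agent.P353.Z.AD.Sc
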