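import Vale.Agent.P353.AN.B.Om

/-! # P353, all `N`, block D, L6: the positive square root is a smooth function -/

open Filter Topology Matrix
open scoped ContDiff Matrix.Norms.Operator

namespace Vale.Agent.P353.Z.AD.Sc

variable {n : ℕ}

/-- squared Frobenius norm -/
noncomputable def qF (X : Matrix (Fin n) (Fin n) ℝ) : ℝ := ∑ i, ∑ j, X i j * X i j

lemma pd_low (M : Matrix (Fin n) (Fin n) ℝ) (hp : ∀ v : Fin n → ℝ, v ≠ 0 → 0 < v ⬝ᵥ (M *ᵥ v)) :
    ∃ c : ℝ, 0 < c ∧ ∀ v : Fin n → ℝ, c * (v ⬝ᵥ v) ≤ v ⬝ᵥ (M *ᵥ v) := by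
  rcases subsingleton_or_nontrivial (Fin n → ℝ) with hs | hs
  · refine ⟨1, one_pos, fun v => ?_⟩
    rw [Subsingleton.elim v 0]
    simp
  · have hc : Continuous fun v : Fin n → ℝ => v ⬝ᵥ (M *ᵥ v) := by
      simp only [dotProduct, mulVec]
      fun_prop
    obtain ⟨w0, hw0, hmin⟩ := (isCompact_sphere (0 : Fin n → ℝ) 1).exists_isMinOn
      (NormedSpace.sphere_nonempty.2 zero_le_one) hc.continuousOn
    have hw0' : w0 ≠ 0 := by
      rintro rfl
      simp at hw0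
    have hc0 := hp w0 hw0'
    set c0 := w0 ⬝ᵥ (M *ᵥ w0) with hc0d
    have hbd : ∀ v : Fin n → ℝ, v ⬝ᵥ v ≤ n * ‖v‖ ^ 2 := by
      intro v
      calc v ⬝ᵥ v = ∑ i, v i * v i := rfl
        _ ≤ ∑ _i : Fin n, ‖v‖ ^ 2 := by
            refine Finset.sum_le_sum fun i _ => ?_
            have h1 : ‖v i‖ ≤ ‖v‖ := norm_le_pi_norm v i
            have h2 : v i * v i = ‖v i‖ ^ 2 := by
              rw [Real.norm_eq_abs, sq_abs, sq]
            rw [h2]
            exact pow_le_pow_left₀ (norm_nonneg _) h1 2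
        _ = n * ‖v‖ ^ 2 := by simp
    refine ⟨c0 / (n + 1), by positivity, fun v => ?_⟩
    by_cases hv : v = 0
    · rw [hv]
      simp
    have hn : 0 < ‖v‖ := norm_pos_iff.2 hv
    have h1 := hmin (show ‖v‖⁻¹ • v ∈ Metric.sphere (0 : Fin n → ℝ) 1 by
      rw [mem_sphere_zero_iff_norm, norm_smul, norm_inv, norm_norm, inv_mul_cancel₀ hn.ne'])
    simp only [Set.mem_ofPred_eq, mulVec_smul, smul_dotProduct, dotProduct_smul, smul_eq_mul] at h1
    have h2 : c0 * ‖v‖ ^ 2 ≤ v ⬝ᵥ (M *ᵥ v) := by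
      calc c0 * ‖v‖ ^ 2 ≤ ‖v‖⁻¹ * (‖v‖⁻¹ * (v ⬝ᵥ (M *ᵥ v))) * ‖v‖ ^ 2 :=
            mul_le_mul_of_nonneg_right h1 (by positivity)
        _ = v ⬝ᵥ (M *ᵥ v) := by field_simp
    refine le_trans ?_ h2
    rw [div_mul_eq_mul_div, div_le_iff₀ (by positivity)]
    have h3 := hbd v
    have h4 : (n : ℝ) * ‖v‖ ^ 2 ≤ (n + 1) * ‖v‖ ^ 2 := by
      have : (0 : ℝ) ≤ ‖v‖ ^ 2 := by positivity
      nlinarith
    calc c0 * (v ⬝ᵥ v) ≤ c0 * ((n + 1) * ‖v‖ ^ 2) :=
          mul_le_mul_of_nonneg_left (h3.trans h4) hc0.le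
      _ = c0 * ‖v‖ ^ 2 * (n + 1) := by ring

/-- coercivity of the Sylvester operator -/
lemma syl (M' M₀ X : Matrix (Fin n) (Fin n) ℝ) (hs : M₀ᵀ = M₀) (hp' : ∀ v : Fin n → ℝ, 0 ≤ v ⬝ᵥ (M' *ᵥ v))
    {c : ℝ} (hc : ∀ v : Fin n → ℝ, c * (v ⬝ᵥ v) ≤ v ⬝ᵥ (M₀ *ᵥ v)) :
    c * qF X ≤ ∑ i, ∑ j, X i j * (M' * X + X * M₀) i j := by
  have h1 : 0 ≤ ∑ i, ∑ j, X i j * (M' * X) i j := by
    rw [Finset.sum_comm]
    refine Finset.sum_nonneg fun j _ => ?_
    exact hp' fun i => X i j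
  have h2 : c * qF X ≤ ∑ i, ∑ j, X i j * (X * M₀) i j := by
    unfold qF
    rw [Finset.mul_sum]
    refine Finset.sum_le_sum fun i _ => ?_
    refine (hc (X i)).trans (le_of_eq ?_)
    simp only [dotProduct, mulVec, mul_apply]
    refine Finset.sum_congr rfl fun j _ => ?_
    congr 1
    refine Finset.sum_congr rfl fun k _ => ?_
    rw [mul_comm]
    congr 1
    exact congrFun (congrFun hs k) j
  have h3 : ∑ i, ∑ j, X i j * (M' * X + X * M₀) i j =
      (∑ i, ∑ j, X i j * (M' * X) i j) + ∑ i, ∑ j, X i j * (X * M₀) i j := by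
    simp only [Matrix.add_apply, mul_add, Finset.sum_add_distrib]
  rw [h3]
  linarith

lemma qF_nonneg (X : Matrix (Fin n) (Fin n) ℝ) : 0 ≤ qF X :=
  Finset.sum_nonneg fun _ _ => Finset.sum_nonneg fun _ _ => mul_self_nonneg _

lemma qF_entry (X : Matrix (Fin n) (Fin n) ℝ) (i j : Fin n) : X i j ^ 2 ≤ qF X := by
  have h1 : X i j * X i j ≤ ∑ j, X i j * X i j :=
    Finset.single_le_sum (f := fun j => X i j * X i j) (fun _ _ => mul_self_nonneg _) (Finset.mem_univ j)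
  have h2 : ∑ j, X i j * X i j ≤ qF X :=
    Finset.single_le_sum (f := fun i => ∑ j, X i j * X i j)
      (fun _ _ => Finset.sum_nonneg fun _ _ => mul_self_nonneg _) (Finset.mem_univ i)
  rw [sq]
  exact h1.trans h2

lemma cs (X B : Matrix (Fin n) (Fin n) ℝ) (c : ℝ) (hc : 0 < c) :
    ∑ i, ∑ j, X i j * B i j ≤ c / 2 * qF X + 1 / (2 * c) * qF B := by
  unfold qF
  simp only [Finset.mul_sum, ← Finset.sum_add_distrib]
  refine Finset.sum_le_sum fun i _ => Finset.sum_le_sum fun j _ => ?_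
  have h1 : 0 ≤ (c * X i j - B i j) ^ 2 := sq_nonneg _
  have h2 : c / 2 * (X i j * X i j) + 1 / (2 * c) * (B i j * B i j) - X i j * B i j =
      (c * X i j - B i j) ^ 2 / (2 * c) := by
    field_simp
    ring
  have h3 : 0 ≤ (c * X i j - B i j) ^ 2 / (2 * c) := by positivity
  linarith

/-- quantitative continuity of the square root -/
lemma qF_root (Om Om₀ : Matrix (Fin n) (Fin n) ℝ) (hs : Om₀ᵀ = Om₀) (hp' : ∀ v : Fin n → ℝ, 0 ≤ v ⬝ᵥ (Om *ᵥ v))
    {c : ℝ} (hc0 : 0 < c) (hc : ∀ v : Fin n → ℝ, c * (v ⬝ᵥ v) ≤ v ⬝ᵥ (Om₀ *ᵥ v)) :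
    qF (Om - Om₀) ≤ 1 / c ^ 2 * qF (Om * Om - Om₀ * Om₀) := by
  have h1 := syl Om Om₀ (Om - Om₀) hs hp' hc
  have h2 : Om * (Om - Om₀) + (Om - Om₀) * Om₀ = Om * Om - Om₀ * Om₀ := by
    rw [mul_sub, sub_mul]
    abel
  rw [h2] at h1
  have h3 := cs (Om - Om₀) (Om * Om - Om₀ * Om₀) c hc0
  have h4 : c / 2 * qF (Om - Om₀) ≤ 1 / (2 * c) * qF (Om * Om - Om₀ * Om₀) := by linarith
  have h5 : 2 / c * (c / 2 * qF (Om - Om₀)) ≤ 2 / c * (1 / (2 * c) * qF (Om * Om - Om₀ * Om₀)) :=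
    mul_le_mul_of_nonneg_left h4 (by positivity)
  have h6 : 2 / c * (c / 2 * qF (Om - Om₀)) = qF (Om - Om₀) := by field_simp
  have h7 : 2 / c * (1 / (2 * c) * qF (Om * Om - Om₀ * Om₀)) = 1 / c ^ 2 * qF (Om * Om - Om₀ * Om₀) := by
    field_simp
  rwa [h6, h7] at h5

lemma mat_eq (A : Matrix (Fin n) (Fin n) ℝ) : A = ∑ i, ∑ j, A i j • Matrix.single i j (1 : ℝ) := by
  ext a b
  simp only [Matrix.sum_apply, Matrix.smul_apply, Matrix.single_apply, smul_eq_mul, mul_ite, mul_one, mul_zero]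
  simp [Finset.sum_ite_eq', ite_and]

lemma mat_cd {E : Type*} [NormedAddCommGroup E] [NormedSpace ℝ E] {x : E}
    {A : E → Matrix (Fin n) (Fin n) ℝ} (hA : ∀ i j, ContDiffAt ℝ ∞ (fun x => A x i j) x) :
    ContDiffAt ℝ ∞ A x := by
  have h1 : A = fun x => ∑ i, ∑ j, A x i j • Matrix.single i j (1 : ℝ) := funext fun x => mat_eq (A x)
  rw [h1]
  exact ContDiffAt.sum fun i _ => ContDiffAt.sum fun j _ => (hA i j).smul contDiffAt_const

lemma ent_cd {E : Type*} [NormedAddCommGroup E] [NormedSpace ℝ E] {x : E}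
    {A : E → Matrix (Fin n) (Fin n) ℝ} (hA : ContDiffAt ℝ ∞ A x) (i j : Fin n) :
    ContDiffAt ℝ ∞ (fun x => A x i j) x := by
  have h1 : ContDiff ℝ ∞ fun X : Matrix (Fin n) (Fin n) ℝ => X i j :=
    (LinearMap.toContinuousLinearMap (Matrix.entryLinearMap ℝ ℝ i j)).contDiff
  exact h1.contDiffAt.comp x hA

/-- the Sylvester operator -/
noncomputable def sylL (M : Matrix (Fin n) (Fin n) ℝ) :
    Matrix (Fin n) (Fin n) ℝ →L[ℝ] Matrix (Fin n) (Fin n) ℝ :=
  ContinuousLinearMap.mul ℝ _ M + (ContinuousLinearMap.mul ℝ (Matrix (Fin n) (Fin n) ℝ)).flip M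

lemma sylL_apply (M X : Matrix (Fin n) (Fin n) ℝ) : sylL M X = M * X + X * M := rfl

lemma hasFDeriv_sq (M : Matrix (Fin n) (Fin n) ℝ) :
    HasFDerivAt (fun X : Matrix (Fin n) (Fin n) ℝ => X * X) (sylL M) M := by
  have h1 := (hasFDerivAt_id (𝕜 := ℝ) M).mul' (hasFDerivAt_id (𝕜 := ℝ) M)
  refine h1.congr_fderiv ?_
  ext1 X
  rfl

/-- **smoothness of the positive square root** -/
theorem sqrt_smooth {E : Type*} [NormedAddCommGroup E] [NormedSpace ℝ E] {s : Set E} (hso : IsOpen s)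
    (A Om : E → Matrix (Fin n) (Fin n) ℝ) (hA : ∀ i j, ContDiffOn ℝ ∞ (fun x => A x i j) s)
    (hsym : ∀ x ∈ s, (Om x)ᵀ = Om x) (hpos : ∀ x ∈ s, ∀ v : Fin n → ℝ, v ≠ 0 → 0 < v ⬝ᵥ (Om x *ᵥ v))
    (hsq : ∀ x ∈ s, Om x * Om x = A x) (i j : Fin n) : ContDiffOn ℝ ∞ (fun x => Om x i j) s := by
  intro x hx
  refine ContDiffAt.contDiffWithinAt ?_
  have hnx : s ∈ 𝓝 x := hso.mem_nhds hx
  obtain ⟨c, hc0, hc⟩ := pd_low (Om x) (hpos x hx)
  have hpos' : ∀ y ∈ s, ∀ v : Fin n → ℝ, 0 ≤ v ⬝ᵥ (Om y *ᵥ v) := by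
    intro y hy v
    by_cases hv : v = 0
    · rw [hv]
      simp
    · exact (hpos y hy v hv).le
  have hAx : ∀ i j, ContDiffAt ℝ ∞ (fun x => A x i j) x := fun i j => (hA i j).contDiffAt hnx
  -- continuity
  have hcont : ∀ i j, ContinuousAt (fun y => Om y i j) x := by
    intro i j
    have h1 : Tendsto (fun y => 1 / c ^ 2 * qF (A y - A x)) (𝓝 x) (𝓝 0) := by
      have h2 : ContinuousAt (fun y => 1 / c ^ 2 * qF (A y - A x)) x := by
        unfold qF
        refine continuousAt_const.mul ?_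
        refine tendsto_finsetSum _ fun i _ => tendsto_finsetSum _ fun j _ => ?_
        have h3 : ContinuousAt (fun y => (A y - A x) i j) x := (hAx i j).continuousAt.sub continuousAt_const
        exact h3.mul h3
      have h4 : (1 / c ^ 2 * qF (A x - A x)) = 0 := by simp [qF]
      have h5 : Tendsto (fun y => 1 / c ^ 2 * qF (A y - A x)) (𝓝 x) (𝓝 (1 / c ^ 2 * qF (A x - A x))) := h2
      rwa [h4] at h5
    have h2 : Tendsto (fun y => (Om y i j - Om x i j) ^ 2) (𝓝 x) (𝓝 0) := by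
      refine squeeze_zero' (Eventually.of_forall fun y => sq_nonneg _) ?_ h1
      filter_upwards [hnx] with y hy
      have h3 := qF_root (Om y) (Om x) (hsym x hx) (hpos' y hy) hc0 hc
      rw [hsq y hy, hsq x hx] at h3
      exact (qF_entry (Om y - Om x) i j).trans h3
    have h3 : Tendsto (fun y => |Om y i j - Om x i j|) (𝓝 x) (𝓝 0) := by
      have h4 := (Real.continuous_sqrt.tendsto 0).comp h2
      rw [Real.sqrt_zero] at h4
      refine h4.congr fun y => ?_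
      simp only [Function.comp]
      exact Real.sqrt_sq_eq_abs _
    have h4 : Tendsto (fun y => Om y i j - Om x i j) (𝓝 x) (𝓝 0) := by
      rwa [tendsto_zero_iff_abs_tendsto_zero]
    have h5 := h4.add_const (Om x i j)
    simp only [sub_add_cancel, zero_add] at h5
    exact h5
  have hcontM : ContinuousAt Om x := by
    have h1 : Om = fun y => ∑ i, ∑ j, Om y i j • Matrix.single i j (1 : ℝ) := funext fun y => mat_eq (Om y)
    rw [h1]
    exact tendsto_finsetSum _ fun i _ => tendsto_finsetSum _ fun j _ =>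
      (hcont i j).smul continuousAt_const
  -- local inverse
  have hinj : Function.Injective (sylL (Om x)) := by
    rw [injective_iff_map_eq_zero]
    intro X hX
    rw [sylL_apply] at hX
    have h1 := syl (Om x) (Om x) X (hsym x hx) (hpos' x hx) hc
    rw [hX] at h1
    simp only [Matrix.zero_apply, mul_zero, Finset.sum_const_zero] at h1
    have h2 : qF X = 0 := by
      have h3 := qF_nonneg X
      have h4 : c * qF X = 0 := le_antisymm h1 (mul_nonneg hc0.le h3)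
      exact (mul_eq_zero.1 h4).resolve_left hc0.ne'
    ext i j
    have h3 := qF_entry X i j
    rw [h2] at h3
    have h4 : X i j ^ 2 = 0 := le_antisymm h3 (sq_nonneg _)
    simpa using h4
  let e : Matrix (Fin n) (Fin n) ℝ ≃L[ℝ] Matrix (Fin n) (Fin n) ℝ :=
    (LinearEquiv.ofInjectiveEndo (sylL (Om x)).toLinearMap hinj).toContinuousLinearEquiv
  have he : (e : Matrix (Fin n) (Fin n) ℝ →L[ℝ] Matrix (Fin n) (Fin n) ℝ) = sylL (Om x) := by
    ext1 X
    rfl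
  have hd : HasFDerivAt (fun X : Matrix (Fin n) (Fin n) ℝ => X * X)
      (e : Matrix (Fin n) (Fin n) ℝ →L[ℝ] Matrix (Fin n) (Fin n) ℝ) (Om x) := by
    rw [he]
    exact hasFDeriv_sq (Om x)
  have hf : ContDiffAt ℝ ∞ (fun X : Matrix (Fin n) (Fin n) ℝ => X * X) (Om x) :=
    (contDiff_id.mul contDiff_id).contDiffAt
  have hn0 : (∞ : WithTop ℕ∞) ≠ 0 := by simp
  have hloc := hf.to_localInverse hd hn0
  have hev : ∀ᶠ X in 𝓝 (Om x), hf.localInverse hd hn0 (X * X) = X :=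
    (hf.hasStrictFDerivAt' hd hn0).eventually_left_inverse
  have h6 : ∀ᶠ y in 𝓝 x, hf.localInverse hd hn0 (A y) = Om y := by
    filter_upwards [hcontM.eventually hev, hnx] with y h7 hy
    rw [← hsq y hy]
    exact h7
  have hAM : ContDiffAt ℝ ∞ A x := mat_cd hAx
  have h7 : ContDiffAt ℝ ∞ (fun y => hf.localInverse hd hn0 (A y)) x := by
    refine ContDiffAt.comp x ?_ hAM
    rw [← hsq x hx]
    exact hloc
  have h8 : ContDiffAt ℝ ∞ Om x := h7.congr_of_eventuallyEq (h6.mono fun y hy => hy.symm)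
  exact ent_cd h8 i j

end Vale.Agent.P353.Z.AD.Sc
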