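import Vale.Agent.P353.AN.A.Stmt
import Vale.Agent.P353.AN.B.Defs
import Vale.Agent.P353.AN.F.Stmt

/-! # P353, all `N`, block D: compactness (FR / inner completeness) — definitions

`S` is an arbitrary `Setup d F` (compact Lie algebra). Block D is a strong induction on `d` over all centreless setups. -/

open MeasureTheory Filter Topology
open scoped ContDiff

namespace Vale.Agent.P353.Z.AD

variable {d dh dm ds dz : ℕ} {F : Type*} [NormedAddCommGroup F] [InnerProductSpace ℂ F]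

/-- gauge invariant test functions -/
def GInv (S : Setup d F) (u : Cfg d → F) : Prop := Setup.Tst u ∧ ∀ C x, S.G C u x = 0

/-- mass in a set -/
noncomputable def mas (u : Cfg d → F) (A : Set (Cfg d)) : ℝ := ∫ x in A, ‖u x‖ ^ 2

/-- energy density `∑_β |Q_β u|²` integrated over a set -/
noncomputable def ena (S : Setup d F) (u : Cfg d → F) (A : Set (Cfg d)) : ℝ :=
  ∑ β, ∫ x in A, ‖S.Q β u x‖ ^ 2

/-- total energy `∑_β ‖Q_β u‖²` -/
noncomputable def En (S : Setup d F) (u : Cfg d → F) : ℝ := ∑ β, nsq (S.Q β u)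

/-- open shell -/
def shl (d : ℕ) (s t : ℝ) : Set (Cfg d) := {x | s < ‖x‖ ∧ ‖x‖ < t}

/-- sequences of gauge invariant test functions with locally (off `0`) bounded mass and scaled energy -/
structure Sq (S : Setup d F) (R : ℕ → ℝ) (u : ℕ → Cfg d → F) : Prop where
  inv : ∀ n, GInv S (u n)
  pos : ∀ n, 0 < R n
  lim : Tendsto R atTop atTop
  bd : ∀ s t : ℝ, 0 < s → s < t → ∃ C : ℝ, ∀ n,
    mas (u n) (shl d (s * R n) (t * R n)) + R n ^ 2 * ena S (u n) (shl d (s * R n) (t * R n)) ≤ C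

/-- no mass in the ball of radius `ε R_n` around `R_n Y` -/
def NulE (R : ℕ → ℝ) (u : ℕ → Cfg d → F) (Y : Cfg d) (ε : ℝ) : Prop :=
  Tendsto (fun n => mas (u n) (Metric.ball (R n • Y) (ε * R n))) atTop (𝓝 0)

/-- `Y` is a null point of the sequence -/
def Nul (R : ℕ → ℝ) (u : ℕ → Cfg d → F) (Y : Cfg d) : Prop := ∃ ε : ℝ, 0 < ε ∧ NulE R u Y ε

/-- joint centraliser of the nine components of `Y` -/
def cz (S : Setup d F) (Y : Cfg d) : Submodule ℝ (Fin d → ℝ) where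
  carrier := {v | ∀ i C, ∑ A, ∑ B, S.f A B C * v A * Y (i, B) = 0}
  add_mem' := by
    intro a b ha hb i C
    have h1 := ha i C
    have h2 := hb i C
    simp only [Pi.add_apply, mul_add, add_mul, Finset.sum_add_distrib, h1, h2, add_zero]
  zero_mem' := by
    intro i C
    simp
  smul_mem' := by
    intro c a ha i C
    have h1 := ha i C
    have h2 : ∀ A B, S.f A B C * (c • a) A * Y (i, B) = c * (S.f A B C * a A * Y (i, B)) := by
      intro A B
      simp only [Pi.smul_apply, smul_eq_mul]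
      ring
    simp only [h2, ← Finset.mul_sum, h1, mul_zero]

/-- dimension of the centraliser -/
noncomputable def cd (S : Setup d F) (Y : Cfg d) : ℕ := Module.finrank ℝ (cz S Y)

/-- zero modes (strong limits of gauge invariant test functions) -/
def ZM (S : Setup d F) (o : Cfg d → F) : Prop :=
  ∃ u : ℕ → Cfg d → F, (∀ n, GInv S (u n)) ∧ L2t u o ∧ Tendsto (fun n => En S (u n)) atTop (𝓝 0)

/-- **IC** inner completeness of `S` (output of block D) -/
def ICStmt (S : Setup d F) : Prop := ∃ (n : ℕ) (o : Fin n → Cfg d → F) (C : ℝ), 0 ≤ C ∧ (∀ j, ZM S (o j)) ∧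
  (∀ j k, ∫ x, inner ℂ (o j x) (o k x) = if j = k then 1 else 0) ∧
  ∀ ρ : ℝ, 1 ≤ ρ → ∀ u, GInv S u →
    mas (fun x => u x - ∑ j, (∫ z, inner ℂ (o j z) (u z)) • o j x) (Metric.ball 0 ρ) ≤ C * ρ ^ 2 * En S u

/-- weighted norm -/
noncomputable def wn (u : Cfg d → F) : ℝ := ∫ x, ‖u x‖ ^ 2 / (1 + ‖x‖ ^ 2)

/-- dyadic shell `2^j < |x| < 2^{j+1}` -/
def dsh (d : ℕ) (j : ℤ) : Set (Cfg d) := shl d ((2 : ℝ) ^ j) ((2 : ℝ) ^ (j + 1))

/-- the point of `Cfg dh` with components `ys` (first summand, semisimple part) and `yz` (second summand, centre) -/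
noncomputable def cmb (ψ : Spl ds dz dh) (ys : Cfg ds) (yz : Cfg dz) : Cfg dh :=
  WithLp.toLp 2 fun p => Sum.elim (fun A => ys (p.1, A)) (fun B => yz (p.1, B)) (ψ.symm p.2)

/-- standard position with the centraliser split as `h = s ⊕ z`, `z` = centre of `h`, `s` centreless -/
structure Std2 (S : Setup d F) (φ : Spl dh dm d) (ψ : Spl ds dz dh) (z₀ : Cfg dz) : Prop where
  std : AN.Std S φ (cmb ψ 0 z₀)
  cen : ∀ A B C, S.f (φ (Sum.inl (ψ (Sum.inr A)))) (φ (Sum.inl B)) (φ (Sum.inl C)) = 0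
  less : ∀ v : Fin ds → ℝ, (∀ B C, ∑ A, S.f (φ (Sum.inl (ψ (Sum.inl A)))) (φ (Sum.inl (ψ (Sum.inl B))))
    (φ (Sum.inl (ψ (Sum.inl C)))) * v A = 0) → v = 0

lemma Std2.isSub {S : Setup d F} {φ : Spl dh dm d} {ψ : Spl ds dz dh} {z₀ : Cfg dz} (h : Std2 S φ ψ z₀) :
    (S.sub φ h.std.sub).IsSub ψ := by
  intro A B C
  change S.f (φ (Sum.inl (ψ (Sum.inl A)))) (φ (Sum.inl (ψ (Sum.inl B)))) (φ (Sum.inl (ψ (Sum.inr C)))) = 0
  rw [S.f_cyc, S.f_cyc]
  exact h.cen _ _ _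

/-- the setup of the semisimple part `s` of the centraliser -/
noncomputable def Std2.ss {S : Setup d F} {φ : Spl dh dm d} {ψ : Spl ds dz dh} {z₀ : Cfg dz} (h : Std2 S φ ψ z₀) :
    Setup ds F := (S.sub φ h.std.sub).sub ψ h.isSub

/-- the nine matrices `ad yz_i` on `m` at a scalar point -/
noncomputable def Dz (S : Setup d F) (φ : Spl dh dm d) (ψ : Spl ds dz dh) (yz : Cfg dz) :
    Fin 9 → Matrix (Fin dm) (Fin dm) ℝ := fun i => S.Dy φ i (cmb ψ 0 yz)

open Classical in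
/-- the positive square root `Ω` (junk if it does not exist) -/
noncomputable def omc (κ : ℝ) (D : Fin 9 → Matrix (Fin dm) (Fin dm) ℝ) : Matrix (Fin dm) (Fin dm) ℝ :=
  if h : ∃ Om, IsOm κ D Om then h.choose else 0

/-- normalised oscillator vacuum at the scalar point `yz`, applied to the vector `v` -/
noncomputable def vcz [FiniteDimensional ℂ F] (S : Setup d F) (φ : Spl dh dm d) (ψ : Spl ds dz dh) (yz : Cfg dz)
    (v : F) (w : Wsp dm) : F :=
  ((gR (Dz S φ ψ yz) (omc S.κ (Dz S φ ψ yz)) 1 w /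
      Real.sqrt (∫ w', gR (Dz S φ ψ yz) (omc S.κ (Dz S φ ψ yz)) 1 w' ^ 2) : ℝ) : ℂ) •
    (S.F0 φ (Dz S φ ψ yz) (omc S.κ (Dz S φ ψ yz))).starProjection v

/-- slice functional: `R^{-9 dz/2} ∫ χ(yz/R) ⟨vac_{yz}(w) o(ys), res u (ys, yz, w)⟩` over `|ys| < εR`, `|w| < εR` -/
noncomputable def sfun [FiniteDimensional ℂ F] (S : Setup d F) (φ : Spl dh dm d) (ψ : Spl ds dz dh) (ε R : ℝ)
    (χ : Cfg dz → ℝ) (o : Cfg ds → F) (u : Cfg d → F) : ℂ :=
  ((R ^ (-(9 * (dz : ℝ) / 2)) : ℝ) : ℂ) * ∫ yz : Cfg dz, ((χ (R⁻¹ • yz) : ℝ) : ℂ) *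
    ∫ ys in Metric.ball (0 : Cfg ds) (ε * R), ∫ w in Metric.ball (0 : Wsp dm) (ε * R),
      inner ℂ (vcz S φ ψ yz (o ys) w) (S.res φ u (cmb ψ ys yz) w)

/-- all slice functionals near `z₀` tend to zero -/
def SPZ [FiniteDimensional ℂ F] (S : Setup d F) (φ : Spl dh dm d) (ψ : Spl ds dz dh) (z₀ : Cfg dz)
    (h : Std2 S φ ψ z₀) (ε : ℝ) (R : ℕ → ℝ) (u : ℕ → Cfg d → F) : Prop :=
  ∀ χ : Cfg dz → ℝ, ContDiff ℝ ∞ χ → tsupport χ ⊆ Metric.ball z₀ ε → ∀ o, ZM h.ss o →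
    Tendsto (fun n => sfun S φ ψ ε (R n) χ o (u n)) atTop (𝓝 0)

end Vale.Agent.P353.Z.AD
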