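import Vale.Agent.P353.AN.D.StmtL
import Vale.Agent.P353.AN.D.ScSq
import Vale.Agent.P353.AN.D.ScNum
import Vale.Agent.P353.AN.B.Lam
import Vale.Agent.P353.AN.B.FZero
import Vale.Agent.P353.AN.X.Bri
import Vale.Agent.P353.AN.X.VecSp
import Vale.Agent.P353.AN.A.SymCoef

/-! # P353, all `N`, block D, L6: the scalar points -/

open MeasureTheory Filter Topology Matrix Kronecker
open scoped ContDiff

namespace Vale.Agent.P353.Z.AD

variable {d dh dm ds dz : ℕ} {F : Type*} [NormedAddCommGroup F] [InnerProductSpace ℂ F]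

namespace Sc

open LamPf

/-- the fermions of `m` -/
noncomputable def tt (S : Setup d F) (φ : Spl dh dm d) (p : Fin 16 × Fin dm) : F →L[ℂ] F :=
  S.th p.1 (φ (Sum.inr p.2))

lemma tt_anti (S : Setup d F) (φ : Spl dh dm d) (p q : Fin 16 × Fin dm) :
    tt S φ p * tt S φ q + tt S φ q * tt S φ p = if p = q then 1 else 0 := by
  unfold tt
  rw [S.th_anti]
  have h1 : (p.1 = q.1 ∧ φ (Sum.inr p.2) = φ (Sum.inr q.2)) ↔ p = q := by
    rw [φ.injective.eq_iff, Sum.inr.injEq, ← Prod.ext_iff]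
  simp only [h1]

lemma tt_sa (S : Setup d F) (φ : Spl dh dm d) (p : Fin 16 × Fin dm) (v w : F) :
    inner ℂ (tt S φ p v) w = inner ℂ v (tt S φ p w) := S.th_sa _ _ _ _

/-- `Π = Ω⁻¹Λ` -/
noncomputable def pm (S : Setup d F) (D : Fin 9 → Matrix (Fin dm) (Fin dm) ℝ) (Om : Matrix (Fin dm) (Fin dm) ℝ) :
    Matrix (Fin 16 × Fin dm) (Fin 16 × Fin dm) ℂ := l1 Om⁻¹ * S.Lam D Om

lemma om_unit {κ : ℝ} {D : Fin 9 → Matrix (Fin dm) (Fin dm) ℝ} {Om : Matrix (Fin dm) (Fin dm) ℝ} (hO : IsOm κ D Om) :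
    IsUnit Om.det := by
  rw [isUnit_iff_ne_zero]
  intro h0
  obtain ⟨v, hv, hv0⟩ := Matrix.exists_mulVec_eq_zero_iff.2 h0
  have h1 := hO.pos v hv
  rw [hv0, dotProduct_zero] at h1
  exact lt_irrefl _ h1

lemma om_D {κ : ℝ} {D : Fin 9 → Matrix (Fin dm) (Fin dm) ℝ} {Om : Matrix (Fin dm) (Fin dm) ℝ} (hD : Frz D)
    (hO : IsOm κ D Om) (i : Fin 9) : D i * Om = Om * D i := by
  refine hO.comm (D i) ?_
  rw [Finset.mul_sum, Finset.sum_mul]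
  refine Finset.sum_congr rfl fun j _ => ?_
  rw [← mul_assoc, hD.comm i j, mul_assoc, hD.comm i j, mul_assoc]

lemma om_Di {κ : ℝ} {D : Fin 9 → Matrix (Fin dm) (Fin dm) ℝ} {Om : Matrix (Fin dm) (Fin dm) ℝ} (hD : Frz D)
    (hO : IsOm κ D Om) (i : Fin 9) : D i * Om⁻¹ = Om⁻¹ * D i := by
  have hu := om_unit hO
  have h1 : Om⁻¹ * (D i * Om) * Om⁻¹ = Om⁻¹ * (Om * D i) * Om⁻¹ := by rw [om_D hD hO i]
  rw [← mul_assoc Om⁻¹ Om, nonsing_inv_mul _ hu, one_mul, mul_assoc Om⁻¹, mul_assoc (D i),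
    mul_nonsing_inv _ hu, mul_one] at h1
  exact h1.symm

lemma pm_comm (S : Setup d F) {D : Fin 9 → Matrix (Fin dm) (Fin dm) ℝ} {Om : Matrix (Fin dm) (Fin dm) ℝ} (hD : Frz D)
    (hO : IsOm S.κ D Om) : l1 Om⁻¹ * S.Lam D Om = S.Lam D Om * l1 Om⁻¹ := by
  have hu := om_unit hO
  rw [Lam_eq, mul_smul_comm, smul_mul_assoc, mul_sub, sub_mul, mul_smul_comm, smul_mul_assoc,
    l1_PP S D _ (om_Di hD hO), l1_mul, l1_mul, nonsing_inv_mul _ hu, mul_nonsing_inv _ hu]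

lemma pm_ct (S : Setup d F) {D : Fin 9 → Matrix (Fin dm) (Fin dm) ℝ} {Om : Matrix (Fin dm) (Fin dm) ℝ} (hD : Frz D)
    (hO : IsOm S.κ D Om) : (pm S D Om)ᴴ = pm S D Om := by
  have h1 : (Om⁻¹)ᵀ = Om⁻¹ := by rw [transpose_nonsing_inv, hO.symm]
  rw [pm, conjTranspose_mul, Lam_ct S D Om hD.anti hO.symm, l1_ct _ h1, pm_comm S hD hO]

lemma pm_sq (S : Setup d F) {D : Fin 9 → Matrix (Fin dm) (Fin dm) ℝ} {Om : Matrix (Fin dm) (Fin dm) ℝ} (hD : Frz D)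
    (hO : IsOm S.κ D Om) : pm S D Om * pm S D Om = pm S D Om := by
  have hu := om_unit hO
  have e : l1 Om⁻¹ * l1 Om = 1 := by rw [l1_mul, nonsing_inv_mul _ hu, l1_one]
  unfold pm
  calc l1 Om⁻¹ * S.Lam D Om * (l1 Om⁻¹ * S.Lam D Om)
      = l1 Om⁻¹ * (S.Lam D Om * l1 Om⁻¹) * S.Lam D Om := by simp only [mul_assoc]
    _ = l1 Om⁻¹ * (l1 Om⁻¹ * S.Lam D Om) * S.Lam D Om := by rw [pm_comm S hD hO]
    _ = l1 Om⁻¹ * (l1 Om⁻¹ * (S.Lam D Om * S.Lam D Om)) := by simp only [mul_assoc]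
    _ = l1 Om⁻¹ * (l1 Om⁻¹ * (l1 Om * S.Lam D Om)) := by rw [Lam_sq S D Om hD hO (om_D hD hO)]
    _ = l1 Om⁻¹ * ((l1 Om⁻¹ * l1 Om) * S.Lam D Om) := by simp only [mul_assoc]
    _ = l1 Om⁻¹ * S.Lam D Om := by rw [e, one_mul]

lemma PP_tr (S : Setup d F) {D : Fin 9 → Matrix (Fin dm) (Fin dm) ℝ} (hD : ∀ i, (D i)ᵀ = -D i) :
    (S.PP D)ᵀ = -S.PP D := by
  ext p q
  rw [transpose_apply, Matrix.neg_apply]
  simp only [Setup.PP, of_apply]
  rw [← mul_neg, ← Finset.sum_neg_distrib]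
  congr 1
  refine Finset.sum_congr rfl fun i _ => ?_
  have h1 : S.g i q.1 p.1 = S.g i p.1 q.1 := congrFun (congrFun (S.g_symm i) p.1) q.1
  have h2 : D i q.2 p.2 = -D i p.2 q.2 := congrFun (congrFun (hD i) p.2) q.2
  rw [h1, h2]
  push_cast
  ring

lemma l1_tr (A : Matrix (Fin dm) (Fin dm) ℝ) (hA : Aᵀ = A) : (l1 A)ᵀ = l1 A := by
  ext p q
  have h2 : A q.2 p.2 = A p.2 q.2 := congrFun (congrFun hA p.2) q.2
  simp only [l1, lc, transpose_apply, kroneckerMap_apply, map_apply, h2, one_apply, eq_comm]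

lemma Lam_tr (S : Setup d F) {D : Fin 9 → Matrix (Fin dm) (Fin dm) ℝ} {Om : Matrix (Fin dm) (Fin dm) ℝ} (hD : Frz D)
    (hO : IsOm S.κ D Om) : S.Lam D Om * (S.Lam D Om)ᵀ = 0 := by
  have h1 : S.PP D * S.PP D = -(l1 Om * l1 Om) := by
    rw [PP_sq S D hD.comm, l1_mul, hO.sq]
    ext p q
    simp [l1, lc, kroneckerMap_apply]
  have h2 := l1_PP S D Om (om_D hD hO)
  rw [Lam_eq, transpose_smul, transpose_sub, transpose_smul, PP_tr S hD.anti, l1_tr _ hO.symm, smul_mul_smul_comm]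
  have h3 : (l1 Om - Complex.I • S.PP D) * (l1 Om - Complex.I • -S.PP D) = 0 := by
    rw [smul_neg, sub_neg_eq_add, sub_mul, mul_add, mul_add, smul_mul_smul_comm, h1, smul_mul_assoc, mul_smul_comm, ← h2,
      Complex.I_mul_I, neg_one_smul, neg_neg]
    abel
  rw [h3, smul_zero]

lemma pm_tr (S : Setup d F) {D : Fin 9 → Matrix (Fin dm) (Fin dm) ℝ} {Om : Matrix (Fin dm) (Fin dm) ℝ} (hD : Frz D)
    (hO : IsOm S.κ D Om) : pm S D Om * (pm S D Om)ᵀ = 0 := by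
  rw [pm, transpose_mul, mul_assoc, ← mul_assoc (S.Lam D Om), Lam_tr S hD hO, zero_mul, mul_zero]

lemma mem_F0 (S : Setup d F) (φ : Spl dh dm d) {D : Fin 9 → Matrix (Fin dm) (Fin dm) ℝ}
    {Om : Matrix (Fin dm) (Fin dm) ℝ} (hO : IsOm S.κ D Om) (v : F) :
    v ∈ S.F0 φ D Om ↔ ∀ p, an (tt S φ) (pm S D Om) p v = 0 := by
  have h1 : l1 Om * l1 Om⁻¹ = 1 := by rw [l1_mul, mul_nonsing_inv _ (om_unit hO), l1_one]
  exact (Tm_zero S D Om φ Om h1 v).symm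

lemma F0_proj [FiniteDimensional ℂ F] (S : Setup d F) (φ : Spl dh dm d) {D : Fin 9 → Matrix (Fin dm) (Fin dm) ℝ}
    {Om : Matrix (Fin dm) (Fin dm) ℝ} (hD : Frz D) (hO : IsOm S.κ D Om) :
    (S.F0 φ D Om).starProjection = pj (nu (tt S φ) (pm S D Om)) (Module.finrank ℂ F) :=
  proj_eq (tt_anti S φ) (tt_sa S φ) (pm_ct S hD hO) (pm_tr S hD hO) (pm_sq S hD hO) _ (mem_F0 S φ hO)

lemma isOm_smul {κ : ℝ} {D : Fin 9 → Matrix (Fin dm) (Fin dm) ℝ} {Om : Matrix (Fin dm) (Fin dm) ℝ} (hO : IsOm κ D Om)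
    {R : ℝ} (hR : 0 < R) : IsOm κ (fun i => R • D i) (R • Om) := by
  have e : ∑ i, (R • D i) * (R • D i) = (R * R) • ∑ i, D i * D i := by
    rw [Finset.smul_sum]
    exact Finset.sum_congr rfl fun i _ => smul_mul_smul_comm _ _ _ _
  refine ⟨?_, ?_, ?_, ?_⟩
  · rw [transpose_smul, hO.symm]
  · intro v hv
    rw [smul_mulVec, dotProduct_smul, smul_eq_mul]
    exact mul_pos hR (hO.pos v hv)
  · rw [e, smul_mul_smul_comm, hO.sq, smul_neg, smul_comm]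
  · intro M hM
    rw [e, mul_smul_comm, smul_mul_assoc] at hM
    have h1 := smul_right_injective _ (mul_pos hR hR).ne' hM
    rw [mul_smul_comm, smul_mul_assoc, hO.comm M h1]

lemma Dz_smul (S : Setup d F) (φ : Spl dh dm d) (ψ : Spl ds dz dh) (R : ℝ) (yz : Cfg dz) :
    Dz S φ ψ (R • yz) = fun i => R • Dz S φ ψ yz i := by
  rw [← AX.DM_Mz, ← AX.DM_Mz]
  funext i
  simp only [DM, PiLp.smul_apply, smul_eq_mul, Finset.smul_sum, smul_smul]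

lemma Dz_cd (S : Setup d F) (φ : Spl dh dm d) (ψ : Spl ds dz dh) (i : Fin 9) (B C : Fin dm) :
    ContDiff ℝ ∞ fun yz : Cfg dz => Dz S φ ψ yz i B C := by
  simp only [← AX.DM_Mz, DM, Matrix.sum_apply, Matrix.smul_apply, smul_eq_mul]
  exact ContDiff.sum fun a _ => (Setup.contDiff_coord _).mul contDiff_const

end Sc

open Sc LamPf in
/-- **L6** -/
theorem scal (S : Setup d F) : ScalStmt S := by
  intro hfin dh dm ds dz φ ψ z₀ h
  have h1 : ∀ yz, (S.Dy φ 8 (cmb ψ 0 yz)).det ≠ 0 →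
      Frz (Dz S φ ψ yz) ∧ IsOm S.κ (Dz S φ ψ yz) (omc S.κ (Dz S φ ψ yz)) := by
    intro yz hy
    have hF := AX.frz_Dz h yz hy
    refine ⟨hF, ?_⟩
    obtain ⟨Om, hOm⟩ := om dm S.κ _ S.κ_pos hF
    rw [AX.omc_eq AX.omU S.κ_pos hOm]
    exact hOm
  have hopen : IsOpen {yz : Cfg dz | (S.Dy φ 8 (cmb ψ 0 yz)).det ≠ 0} := by
    have hc : Continuous fun yz : Cfg dz => (Dz S φ ψ yz 8).det :=
      (AN.Sy.contDiff_det fun B C => Dz_cd S φ ψ 8 B C).continuous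
    exact isOpen_ne_fun hc continuous_const
  have hAcd : ∀ B C, ContDiff ℝ ∞ fun yz : Cfg dz => (-(S.κ ^ 2 • ∑ i, Dz S φ ψ yz i * Dz S φ ψ yz i)) B C := by
    intro B C
    simp only [Matrix.neg_apply, Matrix.smul_apply, Matrix.sum_apply, Matrix.mul_apply]
    refine ContDiff.neg (ContDiff.const_smul _ ?_)
    exact ContDiff.sum fun i _ => ContDiff.sum fun E _ => (Dz_cd S φ ψ i B E).mul (Dz_cd S φ ψ i E C)
  have h3 : ∀ B C, ContDiffOn ℝ ∞ (fun yz => omc S.κ (Dz S φ ψ yz) B C) {yz | (S.Dy φ 8 (cmb ψ 0 yz)).det ≠ 0} :=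
    sqrt_smooth hopen (fun yz => -(S.κ ^ 2 • ∑ i, Dz S φ ψ yz i * Dz S φ ψ yz i)) (fun yz => omc S.κ (Dz S φ ψ yz))
      (fun B C => (hAcd B C).contDiffOn) (fun yz hy => (h1 yz hy).2.symm) (fun yz hy => (h1 yz hy).2.pos)
      (fun yz hy => (h1 yz hy).2.sq)
  refine ⟨h1, ?_, h3, ?_⟩
  · intro yz hy R hR
    have h2 : omc S.κ (Dz S φ ψ (R • yz)) = R • omc S.κ (Dz S φ ψ yz) := by
      refine AX.omc_eq AX.omU S.κ_pos ?_
      rw [Dz_smul]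
      exact isOm_smul (h1 yz hy).2 hR
    refine ⟨h2, ?_⟩
    have h4 : S.F0 φ (Dz S φ ψ (R • yz)) (omc S.κ (Dz S φ ψ (R • yz))) =
        S.F0 φ (Dz S φ ψ yz) (omc S.κ (Dz S φ ψ yz)) := by
      rw [h2, Dz_smul]
      exact (f0S S φ (Dz S φ ψ yz) (omc S.κ (Dz S φ ψ yz))).2 R hR
    unfold Pz
    simp only [h4]
  · -- smoothness of the projection
    have hinv : ∀ B C, ContDiffOn ℝ ∞ (fun yz => (omc S.κ (Dz S φ ψ yz))⁻¹ B C)
        {yz | (S.Dy φ 8 (cmb ψ 0 yz)).det ≠ 0} := by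
      intro B C
      have h4 : ContDiffOn ℝ ∞ (fun yz => ∑ E, (-(S.κ ^ 2 • ∑ i, Dz S φ ψ yz i * Dz S φ ψ yz i))⁻¹ B E *
          omc S.κ (Dz S φ ψ yz) E C) {yz | (S.Dy φ 8 (cmb ψ 0 yz)).det ≠ 0} := by
        refine ContDiffOn.sum fun E _ => ContDiffOn.mul ?_ (h3 E C)
        refine (AN.Sy.contDiffOn_inv hAcd B E).mono fun yz hy => ?_
        have h5 := (h1 yz hy).2
        change (-(S.κ ^ 2 • ∑ i, Dz S φ ψ yz i * Dz S φ ψ yz i)).det ≠ 0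
        rw [← h5.sq, det_mul]
        exact mul_ne_zero (om_unit h5).ne_zero (om_unit h5).ne_zero
      refine h4.congr fun yz hy => ?_
      have h5 := (h1 yz hy).2
      have h6 := om_unit h5
      rw [← mul_apply, ← h5.sq, Matrix.mul_inv_rev, mul_assoc, nonsing_inv_mul _ h6, mul_one]
    have hlc : ∀ (M : Cfg dz → Matrix (Fin dm) (Fin dm) ℝ),
        (∀ B C, ContDiffOn ℝ ∞ (fun yz => M yz B C) {yz | (S.Dy φ 8 (cmb ψ 0 yz)).det ≠ 0}) → ∀ B C,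
        ContDiffOn ℝ ∞ (fun yz => ((M yz B C : ℝ) : ℂ)) {yz | (S.Dy φ 8 (cmb ψ 0 yz)).det ≠ 0} :=
      fun M hM B C => Complex.ofRealCLM.contDiff.comp_contDiffOn (hM B C)
    have hpm : ∀ p q, ContDiffOn ℝ ∞ (fun yz => pm S (Dz S φ ψ yz) (omc S.κ (Dz S φ ψ yz)) p q)
        {yz | (S.Dy φ 8 (cmb ψ 0 yz)).det ≠ 0} := by
      intro p q
      simp only [pm, mul_apply, l1, kroneckerMap_apply, lc, map_apply, Setup.Lam, Setup.PP, of_apply]
      refine ContDiffOn.sum fun r _ => ?_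
      refine ContDiffOn.mul (contDiffOn_const.mul (hlc _ hinv _ _)) ?_
      refine contDiffOn_const.mul (ContDiffOn.sub ?_ ?_)
      · split_ifs
        · exact hlc _ h3 _ _
        · exact contDiffOn_const
      · refine contDiffOn_const.mul (contDiffOn_const.mul ?_)
        refine ContDiffOn.sum fun i _ => contDiffOn_const.mul ?_
        exact hlc (fun yz => Dz S φ ψ yz i) (fun B C => (Dz_cd S φ ψ i B C).contDiffOn) _ _
    refine (pj_smooth (nu_smooth (T := tt S φ) hpm) (Module.finrank ℂ F)).congr fun yz hy => ?_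
    exact F0_proj S φ (h1 yz hy).1 (h1 yz hy).2

end Vale.Agent.P353.Z.AD
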