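import Vale.Agent.P353.AN.D.StmtL
import Vale.Agent.P353.AN.C.Op

/-! # P353, all `N`, block D, L4: splitting of the block diagonal energy

`∑_β Q^h_β Q^h_β v - ∑_β Q^s_β Q^s_β v = -8 ∑ ∂_z² v` pointwise (`sum_QQ` for `h` and for `s`, potentials do not contain `yz`
because `z` is central), both supercharges are symmetric on test functions, and one integration by parts. -/

open MeasureTheory Filter Topology
open scoped ContDiff

namespace Vale.Agent.P353.Z.AD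

variable {d dh dm ds dz : ℕ} {F : Type*} [NormedAddCommGroup F] [InnerProductSpace ℂ F]

/-! ### coordinates -/

lemma sq873_sp (ψ : Spl ds dz dh) (ys : Cfg ds) (yz : Cfg dz) : sp ψ (cmb ψ ys yz) = ys := by
  ext p
  simp [sp, cmb]

lemma sq873_zp (ψ : Spl ds dz dh) (ys : Cfg ds) (yz : Cfg dz) : zp ψ (cmb ψ ys yz) = yz := by
  ext p
  simp [zp, cmb]

lemma sq873_cmb (ψ : Spl ds dz dh) (y : Cfg dh) : cmb ψ (sp ψ y) (zp ψ y) = y := by
  ext p
  obtain ⟨i, A⟩ := p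
  obtain ⟨B, rfl⟩ := ψ.surjective A
  cases B <;> simp [sp, zp, cmb]

/-- the inclusion of the `s` coordinates -/
noncomputable def sq873_inc (ψ : Spl ds dz dh) : Cfg ds →L[ℝ] Cfg dh :=
  LinearMap.toContinuousLinearMap
    { toFun := fun ys => cmb ψ ys 0
      map_add' := by
        intro a b
        ext p
        obtain ⟨i, A⟩ := p
        obtain ⟨B, rfl⟩ := ψ.surjective A
        cases B <;> simp [cmb]
      map_smul' := by
        intro c a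
        ext p
        obtain ⟨i, A⟩ := p
        obtain ⟨B, rfl⟩ := ψ.surjective A
        cases B <;> simp [cmb] }

lemma sq873_cmb_eq (ψ : Spl ds dz dh) (yz : Cfg dz) (ys : Cfg ds) :
    cmb ψ ys yz = sq873_inc ψ ys + cmb ψ 0 yz := by
  ext p
  obtain ⟨i, A⟩ := p
  obtain ⟨B, rfl⟩ := ψ.surjective A
  cases B <;> simp [cmb, sq873_inc]

lemma sq873_inc_single (ψ : Spl ds dz dh) (i : Fin 9) (A : Fin ds) :
    sq873_inc ψ (EuclideanSpace.single (i, A) 1) = EuclideanSpace.single (i, ψ (Sum.inl A)) 1 := by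
  ext p
  obtain ⟨j, C⟩ := p
  obtain ⟨B, rfl⟩ := ψ.surjective C
  cases B <;> simp [cmb, sq873_inc]

lemma sq873_hasFDerivAt (ψ : Spl ds dz dh) (yz : Cfg dz) (ys : Cfg ds) :
    HasFDerivAt (fun ys' => cmb ψ ys' yz) (sq873_inc ψ) ys := by
  have h : (fun ys' => cmb ψ ys' yz) = fun ys' => sq873_inc ψ ys' + cmb ψ 0 yz := by
    funext ys'
    exact sq873_cmb_eq ψ yz ys'
  rw [h]
  exact (sq873_inc ψ).hasFDerivAt.add_const _

lemma sq873_contDiff (ψ : Spl ds dz dh) (yz : Cfg dz) : ContDiff ℝ ∞ (fun ys : Cfg ds => cmb ψ ys yz) := by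
  have h : (fun ys' : Cfg ds => cmb ψ ys' yz) = fun ys' => sq873_inc ψ ys' + cmb ψ 0 yz := by
    funext ys'
    exact sq873_cmb_eq ψ yz ys'
  rw [h]
  exact (sq873_inc ψ).contDiff.add contDiff_const

lemma sq873_pd (ψ : Spl ds dz dh) {u : Cfg dh → F} (hu : ContDiff ℝ ∞ u) (i : Fin 9) (A : Fin ds) (yz : Cfg dz)
    (ys : Cfg ds) : pd i A (fun ys' => u (cmb ψ ys' yz)) ys = pd i (ψ (Sum.inl A)) u (cmb ψ ys yz) := by
  unfold pd
  have h1 := ((hu.differentiable (by simp)) (cmb ψ ys yz)).hasFDerivAt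
  have h2 := HasFDerivAt.comp ys h1 (sq873_hasFDerivAt ψ yz ys)
  have h3 : fderiv ℝ (fun ys' => u (cmb ψ ys' yz)) ys = _ := h2.fderiv
  rw [h3, ContinuousLinearMap.comp_apply, sq873_inc_single]

lemma sq873_sl {v : Cfg dh → Wsp dm → F} (hv : Tst2 v) (w : Wsp dm) : ContDiff ℝ ∞ (fun y => v y w) :=
  hv.1.comp (contDiff_id.prodMk contDiff_const)

lemma sq873_py (ψ : Spl ds dz dh) {v : Cfg dh → Wsp dm → F} (hv : Tst2 v) (i : Fin 9) (A : Fin ds) (y : Cfg dh)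
    (w : Wsp dm) : pd i A (fun ys => v (cmb ψ ys (zp ψ y)) w) (sp ψ y) = py i (ψ (Sum.inl A)) v y w := by
  rw [sq873_pd ψ (u := fun y => v y w) (sq873_sl hv w), sq873_cmb]
  rfl

lemma sq873_sum {M : Type*} [AddCommMonoid M] (ψ : Spl ds dz dh) (g : Fin dh → M)
    (hg : ∀ A, g (ψ (Sum.inr A)) = 0) : ∑ B, g B = ∑ A, g (ψ (Sum.inl A)) := by
  rw [← ψ.sum_comp, Fintype.sum_sum_type]
  simp [hg]

lemma sq873_split {M : Type*} [AddCommMonoid M] (ψ : Spl ds dz dh) (g : Fin dh → M) :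
    ∑ B, g B = (∑ A, g (ψ (Sum.inl A))) + ∑ A, g (ψ (Sum.inr A)) := by
  rw [← ψ.sum_comp, Fintype.sum_sum_type]

/-! ### the supercharge of `s` on slice functions -/

variable {S : Setup d F} {φ : Spl dh dm d} {ψ : Spl ds dz dh} {z₀ : Cfg dz}

/-- explicit form of `Qss` -/
noncomputable def sq873_L (h : Std2 S φ ψ z₀) (β : Fin 16) (v : Cfg dh → Wsp dm → F) (y : Cfg dh) (w : Wsp dm) : F :=
  (∑ i, ∑ A, (-Complex.I) • S.vec (S.g i) (φ (Sum.inl (ψ (Sum.inl A)))) β (py i (ψ (Sum.inl A)) v y w)) +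
    ∑ A, ∑ i, ∑ j, (((1 / 2) * h.ss.FF A i j (sp ψ y) : ℝ) : ℂ) •
      S.vec (S.g2 i j) (φ (Sum.inl (ψ (Sum.inl A)))) β (v y w)

lemma sq873_Qss_eq (h : Std2 S φ ψ z₀) (β : Fin 16) {v : Cfg dh → Wsp dm → F} (hv : Tst2 v) :
    Qss h β v = sq873_L h β v := by
  funext y w
  unfold Qss sq873_L Setup.Q Setup.W
  simp only [sq873_py ψ hv, sq873_cmb, Finset.smul_sum, _root_.sum_apply, _root_.smul_apply, smul_smul]
  congr 1
  refine Finset.sum_congr rfl fun A _ => Finset.sum_congr rfl fun i _ => Finset.sum_congr rfl fun j _ => ?_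
  push_cast
  rfl

lemma sq873_contDiff_sp (A : Fin ds) (i j : Fin 9) (h : Std2 S φ ψ z₀) :
    ContDiff ℝ ∞ (fun p : Cfg dh × Wsp dm => (1 / 2) * h.ss.FF A i j (sp ψ p.1)) := by
  refine contDiff_const.mul ((h.ss.contDiff_FF A i j).comp ?_)
  rw [contDiff_euclidean]
  intro q
  exact ((EuclideanSpace.proj (𝕜 := ℝ) (q.1, ψ (Sum.inl q.2))).contDiff).comp contDiff_fst

lemma sq873_Sm_L (hA : AN.CalcA dh dm F) (hB : AN.CalcB dh dm F) (h : Std2 S φ ψ z₀) (β : Fin 16) :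
    AN.Op687.Sm (dh := dh) (dm := dm) (F := F) (sq873_L h β) := by
  refine AN.Op687.sm_add hA hB ?_ ?_
  · exact AN.Op687.sm_sum hA hB _ _ fun i => AN.Op687.sm_sum hA hB _ _ fun A =>
      AN.Op687.sm_der hA hB i _ _ (S.vec_symm _ (S.g_im i) _ _)
  · exact AN.Op687.sm_sum hA hB _ _ fun A => AN.Op687.sm_sum hA hB _ _ fun i => AN.Op687.sm_sum hA hB _ _ fun j =>
      AN.Op687.sm_mul hA (fun y _ => (1 / 2) * h.ss.FF A i j (sp ψ y)) (sq873_contDiff_sp A i j h) _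
        (S.vec_symm _ (S.g2_im i j) _ _)

lemma sq873_Sm_Qss (hA : AN.CalcA dh dm F) (hB : AN.CalcB dh dm F) (h : Std2 S φ ψ z₀) (β : Fin 16) :
    AN.Op687.Sm (dh := dh) (dm := dm) (F := F) (Qss h β) := by
  have h1 := sq873_Sm_L hA hB h β
  refine ⟨fun u hu => ?_, fun u v hu hv => ?_⟩
  · rw [sq873_Qss_eq h β hu]
    exact h1.1 u hu
  · rw [sq873_Qss_eq h β hu, sq873_Qss_eq h β hv]
    exact h1.2 u v hu hv

lemma sq873_Sm_Qh (hA : AN.CalcA dh dm F) (hB : AN.CalcB dh dm F) (β : Fin 16) :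
    AN.Op687.Sm (dh := dh) (dm := dm) (F := F) (S.Qh φ β) := by
  have h1 := AN.Op687.sm_Qhm S φ hA hB (fun _ => 0) (by simp) 0 β
  have h2 : S.Qhm φ (fun _ => 0) 0 β = S.Qh φ β (dm := dm) := by
    funext v y w
    simp [Setup.Qhm]
  rwa [h2] at h1

/-! ### squares -/

lemma sq873_FF_l (h : Std2 S φ ψ z₀) (A : Fin ds) (i j : Fin 9) (y : Cfg dh) :
    (S.sub φ h.std.sub).FF (ψ (Sum.inl A)) i j y = h.ss.FF A i j (sp ψ y) := by
  have c2 : ∀ A B C, S.f (φ (Sum.inl A)) (φ (Sum.inl (ψ (Sum.inr B)))) (φ (Sum.inl C)) = 0 := by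
    intro A B C
    rw [S.f_cyc]
    exact h.cen _ _ _
  have c3 : ∀ A B C, S.f (φ (Sum.inl A)) (φ (Sum.inl B)) (φ (Sum.inl (ψ (Sum.inr C)))) = 0 := by
    intro A B C
    rw [S.f_cyc, S.f_cyc]
    exact h.cen _ _ _
  unfold Setup.FF
  rw [sq873_sum ψ]
  · refine congrArg _ (Finset.sum_congr rfl fun B _ => ?_)
    rw [sq873_sum ψ]
    · rfl
    · intro C
      change S.f _ _ _ * _ * _ = 0
      rw [c3, zero_mul, zero_mul]
  · intro B
    refine Finset.sum_eq_zero fun C _ => ?_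
    change S.f _ _ _ * _ * _ = 0
    rw [c2, zero_mul, zero_mul]

lemma sq873_FF_r (h : Std2 S φ ψ z₀) (A : Fin dz) (i j : Fin 9) (y : Cfg dh) :
    (S.sub φ h.std.sub).FF (ψ (Sum.inr A)) i j y = 0 := by
  unfold Setup.FF
  have h1 : ∀ B C, (S.sub φ h.std.sub).f (ψ (Sum.inr A)) B C = 0 := fun B C => h.cen A B C
  simp [h1]

lemma sq873_V (h : Std2 S φ ψ z₀) (y : Cfg dh) : (S.sub φ h.std.sub).V y = h.ss.V (sp ψ y) := by
  unfold Setup.V
  rw [sq873_sum ψ]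
  · simp only [sq873_FF_l h]
  · intro A
    simp [sq873_FF_r h]

lemma sq873_Fx (h : Std2 S φ ψ z₀) (y : Cfg dh) : (S.sub φ h.std.sub).Fx y = h.ss.Fx (sp ψ y) := by
  have c1 : ∀ A B C, (S.sub φ h.std.sub).f (ψ (Sum.inr A)) B C = 0 := fun A B C => h.cen A B C
  have c2 : ∀ A B C, (S.sub φ h.std.sub).f A (ψ (Sum.inr B)) C = 0 := by
    intro A B C
    rw [(S.sub φ h.std.sub).f_cyc]
    exact c1 _ _ _
  have c3 : ∀ A B C, (S.sub φ h.std.sub).f A B (ψ (Sum.inr C)) = 0 := by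
    intro A B C
    rw [(S.sub φ h.std.sub).f_cyc, (S.sub φ h.std.sub).f_cyc]
    exact c1 _ _ _
  unfold Setup.Fx
  refine congrArg _ (Finset.sum_congr rfl fun q _ => ?_)
  rw [sq873_sum ψ]
  · refine Finset.sum_congr rfl fun A _ => ?_
    rw [sq873_sum ψ]
    · refine Finset.sum_congr rfl fun B _ => ?_
      rw [sq873_sum ψ]
      · rfl
      · intro C
        simp [c3]
    · intro B
      simp [c2]
  · intro A
    simp [c1]

lemma sq873_Qh_eq (h : Std2 S φ ψ z₀) (β : Fin 16) (v : Cfg dh → Wsp dm → F) (y : Cfg dh) (w : Wsp dm) :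
    S.Qh φ β v y w = (S.sub φ h.std.sub).Q β (fun y' => v y' w) y := by
  unfold Setup.Qh Setup.Q Setup.W
  simp only [_root_.sum_apply, _root_.smul_apply]
  rfl

lemma sq873_QhQh (h : Std2 S φ ψ z₀) {v : Cfg dh → Wsp dm → F} (hv : Tst2 v) (y : Cfg dh) (w : Wsp dm) :
    ∑ β, S.Qh φ β (S.Qh φ β v) y w = -((8 : ℂ) • ∑ i, ∑ A, py i A (py i A v) y w) +
      ((16 * h.ss.V (sp ψ y) : ℝ) : ℂ) • v y w + (16 : ℂ) • h.ss.Fx (sp ψ y) (v y w) := by
  have h1 := (S.sub φ h.std.sub).sum_QQ (sq873_sl hv w) y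
  rw [sq873_V h, sq873_Fx h] at h1
  have h2 : ∀ β, S.Qh φ β (S.Qh φ β v) y w =
      (S.sub φ h.std.sub).Q β ((S.sub φ h.std.sub).Q β (fun y' => v y' w)) y := by
    intro β
    rw [sq873_Qh_eq h]
    congr 1
    funext y'
    exact sq873_Qh_eq h β v y' w
  simp only [h2]
  exact h1

lemma sq873_QsQs (h : Std2 S φ ψ z₀) {v : Cfg dh → Wsp dm → F} (hv : Tst2 v) (y : Cfg dh) (w : Wsp dm) :
    ∑ β, Qss h β (Qss h β v) y w = -((8 : ℂ) • ∑ i, ∑ A, py i (ψ (Sum.inl A)) (py i (ψ (Sum.inl A)) v) y w) +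
      ((16 * h.ss.V (sp ψ y) : ℝ) : ℂ) • v y w + (16 : ℂ) • h.ss.Fx (sp ψ y) (v y w) := by
  have hs : ContDiff ℝ ∞ (fun ys => v (cmb ψ ys (zp ψ y)) w) :=
    (sq873_sl hv w).comp (sq873_contDiff ψ (zp ψ y))
  have h1 := h.ss.sum_QQ hs (sp ψ y)
  have h2 : ∀ β, Qss h β (Qss h β v) y w =
      h.ss.Q β (h.ss.Q β (fun ys => v (cmb ψ ys (zp ψ y)) w)) (sp ψ y) := by
    intro β
    unfold Qss
    simp only [sq873_sp, sq873_zp]
  have h3 : ∀ i A, pd i A (pd i A (fun ys => v (cmb ψ ys (zp ψ y)) w)) (sp ψ y) =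
      py i (ψ (Sum.inl A)) (py i (ψ (Sum.inl A)) v) y w := by
    intro i A
    have e : pd i A (fun ys => v (cmb ψ ys (zp ψ y)) w) =
        fun ys => pd i (ψ (Sum.inl A)) (fun y' => v y' w) (cmb ψ ys (zp ψ y)) := by
      funext ys
      exact sq873_pd ψ (u := fun y => v y w) (sq873_sl hv w) i A _ _
    rw [e, sq873_pd ψ (contDiff_pd (sq873_sl hv w)), sq873_cmb]
    rfl
  simp only [h2]
  rw [h1]
  simp only [h3, sq873_cmb]

/-! ### inner products -/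

lemma sq873_ip_self (u : Cfg dh → Wsp dm → F) : ip2 u u = ((ns2 u : ℝ) : ℂ) := by
  unfold ip2 ns2
  rw [← integral_complex_ofReal]
  refine integral_congr_ae (Eventually.of_forall fun p => ?_)
  simp only [inner_self_eq_norm_sq_to_K]
  norm_cast

lemma sq873_sum_ip {κ : Type*} (hA : AN.CalcA dh dm F) (hB : AN.CalcB dh dm F) (t : Finset κ) (u : Cfg dh → Wsp dm → F)
    (v : κ → Cfg dh → Wsp dm → F) (hu : Tst2 u) (hv : ∀ k, Tst2 (v k)) :
    Tst2 (fun y w => ∑ k ∈ t, v k y w) ∧ ip2 u (fun y w => ∑ k ∈ t, v k y w) = ∑ k ∈ t, ip2 u (v k) := by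
  classical
  induction t using Finset.induction_on with
  | empty =>
    refine ⟨by simpa using hA.zero, ?_⟩
    simp [ip2]
  | insert k t hk ih =>
    simp only [Finset.sum_insert hk]
    refine ⟨hA.add _ _ (hv k) ih.1, ?_⟩
    rw [hB.ip_add u (v k) _ hu (hv k) ih.1, ih.2]

/-- **L4** -/
theorem splitQ (S : Setup d F) : SplitQStmt S := by
  intro hAB dh dm ds dz φ ψ z₀ h v hv
  obtain ⟨hA, hB⟩ := hAB dh dm
  have hs := fun β => sq873_Sm_Qss hA hB h β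
  have hq := fun β => sq873_Sm_Qh (S := S) (φ := φ) hA hB β
  refine ⟨fun β => (hs β).1 v hv, ?_⟩
  have tQ : ∀ β, Tst2 (S.Qh φ β (S.Qh φ β v)) := fun β => (hq β).1 _ ((hq β).1 v hv)
  have tS : ∀ β, Tst2 (Qss h β (Qss h β v)) := fun β => (hs β).1 _ ((hs β).1 v hv)
  have tP : ∀ p : Fin 9 × Fin dz, Tst2 (fun y w => (-8 : ℂ) • py p.1 (ψ (Sum.inr p.2)) (py p.1 (ψ (Sum.inr p.2)) v) y w) :=
    fun p => hA.smul _ _ (hA.py _ _ _ (hA.py _ _ _ hv))
  have e1 : ∀ β, ((ns2 (S.Qh φ β v) : ℝ) : ℂ) = ip2 v (S.Qh φ β (S.Qh φ β v)) := by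
    intro β
    rw [← sq873_ip_self, (hq β).2 v _ hv ((hq β).1 v hv)]
  have e2 : ∀ β, ((ns2 (Qss h β v) : ℝ) : ℂ) = ip2 v (Qss h β (Qss h β v)) := by
    intro β
    rw [← sq873_ip_self, (hs β).2 v _ hv ((hs β).1 v hv)]
  have e3 : ∀ p : Fin 9 × Fin dz, ip2 v (fun y w => (-8 : ℂ) • py p.1 (ψ (Sum.inr p.2)) (py p.1 (ψ (Sum.inr p.2)) v) y w) =
      8 * ((ns2 (py p.1 (ψ (Sum.inr p.2)) v) : ℝ) : ℂ) := by
    intro p
    rw [hB.ip_smul, ← sq873_ip_self, hB.ibp_y _ _ v _ hv (hA.py _ _ _ hv)]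
    ring
  have e4 : (fun y w => ∑ β, S.Qh φ β (S.Qh φ β v) y w) = fun y w => (∑ β, Qss h β (Qss h β v) y w) +
      ∑ p : Fin 9 × Fin dz, (-8 : ℂ) • py p.1 (ψ (Sum.inr p.2)) (py p.1 (ψ (Sum.inr p.2)) v) y w := by
    funext y w
    rw [sq873_QhQh h hv, sq873_QsQs h hv, ← Finset.smul_sum, Fintype.sum_prod_type, neg_smul]
    simp only [sq873_split ψ, Finset.sum_add_distrib, smul_add, neg_add]
    abel
  have f1 := sq873_sum_ip hA hB Finset.univ v (fun β => S.Qh φ β (S.Qh φ β v)) hv tQ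
  have f2 := sq873_sum_ip hA hB Finset.univ v (fun β => Qss h β (Qss h β v)) hv tS
  have f3 := sq873_sum_ip hA hB Finset.univ v (fun (p : Fin 9 × Fin dz) y w => (-8 : ℂ) •
    py p.1 (ψ (Sum.inr p.2)) (py p.1 (ψ (Sum.inr p.2)) v) y w) hv tP
  have g : ((∑ β, ns2 (S.Qh φ β v) : ℝ) : ℂ) =
      (((∑ β, ns2 (Qss h β v)) + 8 * ∑ i, ∑ A, ns2 (py i (ψ (Sum.inr A)) v) : ℝ) : ℂ) := by
    push_cast
    simp only [e1, e2]
    rw [← f1.2, e4, hB.ip_add v _ _ hv f2.1 f3.1, f2.2, f3.2]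
    simp only [e3]
    rw [Fintype.sum_prod_type]
    simp only [Finset.mul_sum]
  exact_mod_cast g

end Vale.Agent.P353.Z.AD
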