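import Vale.Agent.P353.AN.D.StmtL
import Vale.Agent.P353.AN.A.Std

/-! # P353, all `N`, block D (L1): standard position with split centraliser -/

open MeasureTheory Filter Topology
open scoped ContDiff

namespace Vale.Agent.P353.Z.AD
namespace Std2A

open AN AN.StdA

variable {d : ℕ} {F : Type*} [NormedAddCommGroup F] [InnerProductSpace ℂ F]

/-- components of `Y` -/
noncomputable def Yv (Y : Cfg d) (i : Fin 9) : Ec d := WithLp.toLp 2 fun A => Y (i, A)

lemma Yv_apply (Y : Cfg d) (i : Fin 9) (A : Fin d) : Yv Y i A = Y (i, A) := rfl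

/-- the joint centraliser of the components -/
noncomputable def hs (S : Setup d F) (Y : Cfg d) : Submodule ℝ (Ec d) := ⨅ i, LinearMap.ker (ad S (Yv Y i))

lemma mem_hs {S : Setup d F} {Y : Cfg d} {v : Ec d} : v ∈ hs S Y ↔ ∀ i, ad S (Yv Y i) v = 0 := by
  rw [hs, Submodule.mem_iInf]
  exact Iff.rfl

lemma comm_of_V {S : Setup d F} {Y : Cfg d} (hV : S.V Y = 0) (i j : Fin 9) : ad S (Yv Y i) (Yv Y j) = 0 := by
  have h0 : ∑ A, ∑ i, ∑ j, (S.FF A i j Y) ^ 2 = 0 := by
    have : (1 / 4 : ℝ) * ∑ A, ∑ i, ∑ j, (S.FF A i j Y) ^ 2 = 0 := hV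
    linarith
  have h1 := (Finset.sum_eq_zero_iff_of_nonneg (fun A _ =>
    Finset.sum_nonneg fun i _ => Finset.sum_nonneg fun j _ => sq_nonneg _)).1 h0
  ext C
  have h2 := (Finset.sum_eq_zero_iff_of_nonneg (fun i _ =>
    Finset.sum_nonneg fun j _ => sq_nonneg _)).1 (h1 C (Finset.mem_univ C))
  have h3 := (Finset.sum_eq_zero_iff_of_nonneg (fun j _ => sq_nonneg _)).1 (h2 i (Finset.mem_univ i))
  have h4 : S.FF C i j Y = 0 := pow_eq_zero_iff (two_ne_zero) |>.1 (h3 j (Finset.mem_univ j))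
  have h5 : ∑ A, ∑ B, S.f C A B * Y (i, A) * Y (j, B) = 0 :=
    (mul_eq_zero.1 h4).resolve_left S.κ_pos.ne'
  rw [ad_apply]
  simp only [Yv_apply]
  rw [PiLp.zero_apply, ← h5]
  exact Finset.sum_congr rfl fun A _ => Finset.sum_congr rfl fun B _ => by rw [S.f_cyc C A B]

lemma bracket_mem {S : Setup d F} {Y : Cfg d} {u v : Ec d} (hu : u ∈ hs S Y) (hv : v ∈ hs S Y) :
    ad S u v ∈ hs S Y := by
  rw [mem_hs] at hu hv ⊢
  intro i
  have h1 : ad S u (Yv Y i) = 0 := by rw [ad_swap, hu i, neg_zero]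
  rw [← ad_comm S h1, hv i, map_zero]

/-- A2 with a prescribed orthonormal basis of the centraliser -/
theorem std_aux (S : Setup d F) (Y : Cfg d) (hV : S.V Y = 0) {dh : ℕ} (h : Submodule ℝ (Ec d))
    (hmem : ∀ v, v ∈ h ↔ ∀ i, ad S (Yv Y i) v = 0) (hbr : ∀ u ∈ h, ∀ v ∈ h, ad S u v ∈ h)
    (bh : OrthonormalBasis (Fin dh) ℝ h) :
    ∃ (R : Matrix (Fin 9) (Fin 9) ℝ) (hR : R * R.transpose = 1)
      (O : Matrix (Fin d) (Fin d) ℝ) (hO : O * O.transpose = 1) (dm : ℕ) (φ : Spl dh dm d) (y : Cfg dh),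
      AN.Std (S.rot R hR O hO) φ y ∧ rox R O Y = emb φ y 0 ∧
      (∀ i a, y (i, a) = inner ℝ (bh a : Ec d) (∑ j, R i j • Yv Y j)) ∧
      ∀ a b c : Fin dh, (S.rot R hR O hO).f (φ (Sum.inl a)) (φ (Sum.inl b)) (φ (Sum.inl c)) =
        tri S (bh a) (bh b) (bh c) := by
  have hcomm := comm_of_V hV
  obtain ⟨e, he1, he⟩ := exists_unit S (Yv Y) hcomm
  obtain ⟨R, hR, hR8⟩ := exists_rot e he1
  have hYh : ∀ j, Yv Y j ∈ h := fun j => (hmem _).2 fun i => hcomm i j
  have hdh : Module.finrank ℝ h = dh := by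
    rw [Module.finrank_eq_card_basis bh.toBasis, Fintype.card_fin]
  set dm := Module.finrank ℝ hᗮ with hdm
  have hd : dh + dm = d := by
    have := h.finrank_add_finrank_orthogonal
    rwa [finrank_euclideanSpace_fin, hdh] at this
  set bm : OrthonormalBasis (Fin dm) ℝ hᗮ := stdOrthonormalBasis ℝ hᗮ with hbm
  set v : Fin dh ⊕ Fin dm → Ec d := Sum.elim (fun a => (bh a : Ec d)) (fun b => (bm b : Ec d)) with hv
  have hvl : ∀ a, v (Sum.inl a) = (bh a : Ec d) := fun a => rfl
  have hvr : ∀ b, v (Sum.inr b) = (bm b : Ec d) := fun b => rfl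
  have hvh : ∀ a, v (Sum.inl a) ∈ h := fun a => (bh a).2
  have hvm : ∀ b, v (Sum.inr b) ∈ hᗮ := fun b => (bm b).2
  have hort : ∀ p q, inner ℝ (v p) (v q) = if p = q then (1 : ℝ) else 0 := by
    rintro (a | b) (a' | b')
    · rw [hvl, hvl]
      have := (orthonormal_iff_ite.1 bh.orthonormal) a a'
      rw [Submodule.coe_inner] at this
      rw [this]
      simp only [Sum.inl.injEq]
    · rw [hvm b' _ (hvh a)]
      simp
    · rw [real_inner_comm, hvm b _ (hvh a')]
      simp
    · rw [hvr, hvr]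
      have := (orthonormal_iff_ite.1 bm.orthonormal) b b'
      rw [Submodule.coe_inner] at this
      rw [this]
      simp only [Sum.inr.injEq]
  set φ : Spl dh dm d := finSumFinEquiv.trans (finCongr hd) with hφ
  set O : Matrix (Fin d) (Fin d) ℝ := Matrix.of fun A A' => v (φ.symm A) A' with hO
  have hOO : O * O.transpose = 1 := by
    ext A B
    rw [Matrix.mul_apply, Matrix.one_apply]
    have h1 := hort (φ.symm A) (φ.symm B)
    rw [inner_Ec] at h1
    simp only [EmbeddingLike.apply_eq_iff_eq] at h1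
    rw [← h1]
    rfl
  -- rotated components
  set Yr : Fin 9 → Ec d := fun i => ∑ j, R i j • Yv Y j with hYr
  have hYrh : ∀ i, Yr i ∈ h := fun i => h.sum_mem fun j _ => h.smul_mem _ (hYh j)
  have hYr8 : Yr 8 = comb (Yv Y) e := by
    rw [hYr, comb]
    exact Finset.sum_congr rfl fun j _ => by rw [hR8]
  have hrox : ∀ i A, rox R O Y (i, A) = inner ℝ (v (φ.symm A)) (Yr i) := by
    intro i A
    have h1 : rox R O Y (i, A) = ∑ j, ∑ B, R i j * O A B * Y (j, B) := rfl
    rw [h1, inner_Ec, Finset.sum_comm]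
    refine Finset.sum_congr rfl fun B _ => ?_
    have h2 : Yr i B = ∑ j, R i j * Y (j, B) := by
      rw [hYr]
      simp [Yv_apply]
    rw [h2, Finset.mul_sum]
    refine Finset.sum_congr rfl fun j _ => ?_
    rw [hO, Matrix.of_apply]
    ring
  have hf : ∀ a b c, (S.rot R hR O hOO).f (φ a) (φ b) (φ c) = tri S (v a) (v b) (v c) := by
    intro a b c
    have h1 : (S.rot R hR O hOO).f (φ a) (φ b) (φ c) =
      ∑ A', ∑ B', ∑ C', O (φ a) A' * O (φ b) B' * O (φ c) C' * S.f A' B' C' := rfl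
    rw [h1, tri]
    refine Finset.sum_congr rfl fun A _ => Finset.sum_congr rfl fun B _ => Finset.sum_congr rfl fun C _ => ?_
    rw [hO]
    simp only [Matrix.of_apply, Equiv.symm_apply_apply]
    ring
  set y : Cfg dh := WithLp.toLp 2 fun p => inner ℝ (v (Sum.inl p.2)) (Yr p.1) with hy
  have hya : ∀ i a, y (i, a) = inner ℝ (v (Sum.inl a)) (Yr i) := fun i a => rfl
  have hexp : ∀ i, ∑ a, y (i, a) • v (Sum.inl a) = Yr i := by
    intro i
    have h1 := bh.sum_repr' (⟨Yr i, hYrh i⟩ : h)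
    have h2 := congrArg (Subtype.val) h1
    rw [Submodule.coe_sum] at h2
    refine Eq.trans ?_ h2
    refine Finset.sum_congr rfl fun a _ => ?_
    rw [hya, hvl, Submodule.coe_smul, Submodule.coe_inner]
  have htri0 : ∀ i, ∀ u ∈ h, ∀ w, tri S (Yr i) u w = 0 := by
    intro i u hu w
    rw [hYr]
    simp only
    rw [tri_sum_left]
    refine Finset.sum_eq_zero fun j _ => ?_
    rw [← inner_ad, (hmem u).1 hu j, inner_zero_left, mul_zero]
  refine ⟨R, hR, O, hOO, dm, φ, y, ⟨?_, ?_, ?_⟩, ?_, fun i a => rfl, fun a b c => hf (Sum.inl a) (Sum.inl b) (Sum.inl c)⟩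
  · intro A B C
    rw [hf, ← inner_ad]
    exact hvm C _ (hbr _ (hvh A) _ (hvh B))
  · intro i B C
    simp only [hf]
    have h1 := tri_sum_left S Finset.univ (fun a => y (i, a)) (fun a => v (Sum.inl a)) (v (Sum.inl B)) (v (Sum.inl C))
    rw [hexp, htri0 i _ (hvh B)] at h1
    rw [h1]
    exact Finset.sum_congr rfl fun a _ => by rw [mul_comm]
  · intro hdet
    obtain ⟨z, hz0, hz⟩ := Matrix.exists_vecMul_eq_zero_iff.2 hdet
    apply hz0
    have hDy : ∀ B C, (S.rot R hR O hOO).Dy φ 8 y B C = - inner ℝ (ad S (Yr 8) (v (Sum.inr B))) (v (Sum.inr C)) := by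
      intro B C
      have h1 : (S.rot R hR O hOO).Dy φ 8 y B C =
        ∑ A, (S.rot R hR O hOO).f (φ (Sum.inr B)) (φ (Sum.inl A)) (φ (Sum.inr C)) * y (8, A) := rfl
      rw [h1, inner_ad]
      simp only [hf]
      have h2 := tri_sum_left S Finset.univ (fun a => y (8, a)) (fun a => v (Sum.inl a)) (v (Sum.inr B)) (v (Sum.inr C))
      rw [hexp] at h2
      rw [h2, ← Finset.sum_neg_distrib]
      exact Finset.sum_congr rfl fun a _ => by rw [tri_swap S (v (Sum.inr B))]; ring
    set Z : Ec d := ∑ B, z B • v (Sum.inr B) with hZ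
    have hZm : Z ∈ hᗮ := hᗮ.sum_mem fun B _ => hᗮ.smul_mem _ (hvm B)
    have h3 : ∀ C, inner ℝ (ad S (Yr 8) Z) (v (Sum.inr C)) = 0 := by
      intro C
      have h4 := congrFun hz C
      rw [Matrix.vecMul, dotProduct, Pi.zero_apply] at h4
      simp only [hDy] at h4
      rw [hZ, map_sum, sum_inner]
      simp only [map_smul, inner_smul_left, conj_trivial]
      have : ∑ B, z B * -inner ℝ (ad S (Yr 8) (v (Sum.inr B))) (v (Sum.inr C)) =
        - ∑ B, z B * inner ℝ (ad S (Yr 8) (v (Sum.inr B))) (v (Sum.inr C)) := by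
        rw [← Finset.sum_neg_distrib]
        exact Finset.sum_congr rfl fun B _ => by ring
      rw [this] at h4
      linarith
    have h5 : ad S (Yr 8) Z ∈ hᗮ := by
      intro k hk
      have h6 := inner_ad_skew S (Yr 8) k Z
      rw [inner_ad, htri0 8 k hk] at h6
      linarith
    have h6 : ad S (Yr 8) Z = 0 := by
      have h7 := bm.sum_repr' (⟨ad S (Yr 8) Z, h5⟩ : hᗮ)
      have h8 := congrArg (Subtype.val) h7
      rw [Submodule.coe_sum] at h8
      refine Eq.trans h8.symm ?_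
      refine Finset.sum_eq_zero fun a _ => ?_
      rw [Submodule.coe_smul, Submodule.coe_inner, ← hvr, real_inner_comm, h3, zero_smul]
    rw [hYr8] at h6
    have h7 : Z ∈ h := (hmem Z).2 (he Z h6)
    have h8 : Z = 0 := inner_self_eq_zero.1 (hZm Z h7)
    funext B
    have h9 : inner ℝ (v (Sum.inr B)) Z = z B := by
      rw [hZ, inner_sum]
      simp only [inner_smul_right, hort]
      simp
    rw [← h9, h8, inner_zero_right, Pi.zero_apply]
  · ext p
    obtain ⟨i, A⟩ := p
    rw [hrox]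
    obtain ⟨q, rfl⟩ := φ.surjective A
    rw [Equiv.symm_apply_apply]
    rcases q with a | b
    · simp [emb, hya]
    · rw [real_inner_comm, hvm b _ (hYrh i)]
      simp only [emb, Equiv.symm_apply_apply, Sum.elim_inr]
      induction i using Fin.lastCases with
      | last => rw [Fin.lastCases_last]
      | cast j => rw [Fin.lastCases_castSucc]; rfl

/-- the centre of `h`, as a subspace of `h` -/
noncomputable def zc (S : Setup d F) (h : Submodule ℝ (Ec d)) : Submodule ℝ h where
  carrier := {u | ∀ w ∈ h, ad S (u : Ec d) w = 0}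
  add_mem' := by
    intro a b ha hb w hw
    rw [Submodule.coe_add, ad_add, LinearMap.add_apply, ha w hw, hb w hw, add_zero]
  zero_mem' := by
    intro w _
    have := ad_smul S 0 (0 : Ec d)
    rw [zero_smul, zero_smul] at this
    rw [Submodule.coe_zero, this]
    rfl
  smul_mem' := by
    intro c a ha w hw
    rw [Submodule.coe_smul, ad_smul, LinearMap.smul_apply, ha w hw, smul_zero]

lemma mem_zc {S : Setup d F} {h : Submodule ℝ (Ec d)} {u : h} :
    u ∈ zc S h ↔ ∀ w ∈ h, ad S (u : Ec d) w = 0 := Iff.rfl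

/-- an orthonormal basis adapted to a subspace -/
theorem exists_adapted {E : Type*} [NormedAddCommGroup E] [InnerProductSpace ℝ E] [FiniteDimensional ℝ E]
    (K : Submodule ℝ E) : ∃ (ds dz : ℕ) (b : OrthonormalBasis (Fin (ds + dz)) ℝ E),
      (∀ A, b (finSumFinEquiv (Sum.inl A)) ∈ Kᗮ) ∧ (∀ B, b (finSumFinEquiv (Sum.inr B)) ∈ K) ∧
      ∀ u, (∀ A, inner ℝ (b (finSumFinEquiv (Sum.inl A))) u = 0) → u ∈ K := by
  set bs := stdOrthonormalBasis ℝ Kᗮ with hbs
  set bz := stdOrthonormalBasis ℝ K with hbz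
  set v : Fin (Module.finrank ℝ Kᗮ) ⊕ Fin (Module.finrank ℝ K) → E :=
    Sum.elim (fun a => (bs a : E)) (fun b => (bz b : E)) with hv
  have hvl : ∀ a, v (Sum.inl a) = (bs a : E) := fun a => rfl
  have hvr : ∀ b, v (Sum.inr b) = (bz b : E) := fun b => rfl
  have hort : Orthonormal ℝ v := by
    rw [orthonormal_iff_ite]
    rintro (a | b) (a' | b')
    · rw [hvl, hvl]
      have := (orthonormal_iff_ite.1 bs.orthonormal) a a'
      rw [Submodule.coe_inner] at this
      rw [this]
      simp only [Sum.inl.injEq]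
    · rw [hvl, hvr, real_inner_comm, (bs a).2 _ (bz b').2]
      simp
    · rw [hvl, hvr, (bs a').2 _ (bz b).2]
      simp
    · rw [hvr, hvr]
      have := (orthonormal_iff_ite.1 bz.orthonormal) b b'
      rw [Submodule.coe_inner] at this
      rw [this]
      simp only [Sum.inr.injEq]
  have hexpK : ∀ u ∈ K, u ∈ Submodule.span ℝ (Set.range v) := by
    intro u hu
    have h1 := bz.sum_repr' (⟨u, hu⟩ : K)
    have h2 := congrArg (Subtype.val) h1
    rw [Submodule.coe_sum] at h2
    have h3 : (∑ b, inner ℝ ((bz b : K) : E) u • (bz b : E)) = u := by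
      refine Eq.trans ?_ h2
      exact Finset.sum_congr rfl fun a _ => by rw [Submodule.coe_smul, Submodule.coe_inner]
    rw [← h3]
    exact Submodule.sum_mem _ fun b _ => Submodule.smul_mem _ _ (Submodule.subset_span ⟨Sum.inr b, rfl⟩)
  have hexpS : ∀ u ∈ Kᗮ, u ∈ Submodule.span ℝ (Set.range v) := by
    intro u hu
    have h1 := bs.sum_repr' (⟨u, hu⟩ : Kᗮ)
    have h2 := congrArg (Subtype.val) h1
    rw [Submodule.coe_sum] at h2
    have h3 : (∑ b, inner ℝ ((bs b : Kᗮ) : E) u • (bs b : E)) = u := by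
      refine Eq.trans ?_ h2
      exact Finset.sum_congr rfl fun a _ => by rw [Submodule.coe_smul, Submodule.coe_inner]
    rw [← h3]
    exact Submodule.sum_mem _ fun b _ => Submodule.smul_mem _ _ (Submodule.subset_span ⟨Sum.inl b, rfl⟩)
  have hspan : ⊤ ≤ Submodule.span ℝ (Set.range v) := by
    intro u _
    obtain ⟨k, hk, w, hw, rfl⟩ := K.exists_add_mem_mem_orthogonal u
    exact Submodule.add_mem _ (hexpK k hk) (hexpS w hw)
  set b := (OrthonormalBasis.mk hort hspan).reindex finSumFinEquiv with hb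
  have hbv : ∀ q, b (finSumFinEquiv q) = v q := by
    intro q
    rw [hb, OrthonormalBasis.reindex_apply, Equiv.symm_apply_apply, OrthonormalBasis.coe_mk]
  refine ⟨_, _, b, fun A => ?_, fun B => ?_, fun u hu => ?_⟩
  · rw [hbv, hvl]
    exact (bs A).2
  · rw [hbv, hvr]
    exact (bz B).2
  · obtain ⟨k, hk, w, hw, rfl⟩ := K.exists_add_mem_mem_orthogonal u
    have h1 := bs.sum_repr' (⟨w, hw⟩ : Kᗮ)
    have h2 := congrArg (Subtype.val) h1
    rw [Submodule.coe_sum] at h2
    have h3 : w = 0 := by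
      refine Eq.trans h2.symm (Finset.sum_eq_zero fun a _ => ?_)
      have h4 := hu a
      rw [hbv, hvl, inner_add_right, real_inner_comm, (bs a).2 _ hk, zero_add] at h4
      rw [Submodule.coe_smul, Submodule.coe_inner]
      change inner ℝ (bs a : E) w • _ = 0
      rw [h4, zero_smul]
    rw [h3, add_zero]
    exact hk

end Std2A

open AN AN.StdA Std2A in
/-- **L1** -/
theorem std2 {d : ℕ} {F : Type*} [NormedAddCommGroup F] [InnerProductSpace ℂ F] (S : Setup d F) :
    Std2Stmt S := by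
  intro Y hV
  set h := hs S Y with hh
  obtain ⟨ds, dz, bh, hbs, hbz, hmemz⟩ := exists_adapted (zc S h)
  obtain ⟨R, hR, O, hO, dm, φ, y, hstd, hrox, hy, hf⟩ := std_aux S Y hV h (fun v => mem_hs)
    (fun u hu v hv => bracket_mem hu hv) bh
  have hYh : ∀ j, Yv Y j ∈ h := fun j => mem_hs.2 fun i => comm_of_V hV i j
  -- the rotated components are central
  have hYr : ∀ i, (⟨∑ j, R i j • Yv Y j, h.sum_mem fun j _ => h.smul_mem _ (hYh j)⟩ : h) ∈ zc S h := by
    intro i
    rw [mem_zc]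
    intro w hw
    refine ext_inner_right ℝ fun t => ?_
    rw [inner_zero_left, inner_ad, tri_sum_left]
    refine Finset.sum_eq_zero fun j _ => ?_
    rw [← inner_ad, mem_hs.1 hw j, inner_zero_left, mul_zero]
  set ψ : Spl ds dz (ds + dz) := finSumFinEquiv with hψ
  set z₀ : Cfg dz := WithLp.toLp 2 fun p => y (p.1, ψ (Sum.inr p.2)) with hz₀
  have hyz : y = cmb ψ 0 z₀ := by
    ext p
    obtain ⟨i, A⟩ := p
    obtain ⟨q, rfl⟩ := ψ.surjective A
    rcases q with a | b
    · have h1 := hbs a _ (hYr i)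
      rw [Submodule.coe_inner, real_inner_comm] at h1
      have h2 : y (i, ψ (Sum.inl a)) = 0 := by
        rw [hy]
        exact h1
      rw [h2]
      simp [cmb]
    · simp [cmb, hz₀]
  have htri : ∀ B, ∀ u ∈ h, ∀ w, tri S (bh (ψ (Sum.inr B)) : Ec d) u w = 0 := by
    intro B u hu w
    rw [← inner_ad, mem_zc.1 (hbz B) u hu, inner_zero_left]
  refine ⟨R, hR, O, hO, ds + dz, dm, ds, dz, φ, ψ, z₀, ⟨hyz ▸ hstd, ?_, ?_⟩, by rw [← hyz, hrox]⟩
  · intro A B C
    rw [hf]
    exact htri A _ (bh B).2 _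
  · intro v hv
    -- the vector
    set V : h := ∑ A, v A • bh (ψ (Sum.inl A)) with hVdef
    have hVs : V ∈ (zc S h)ᗮ := (zc S h)ᗮ.sum_mem fun A _ => (zc S h)ᗮ.smul_mem _ (hbs A)
    have hVc : (V : Ec d) = ∑ A, v A • (bh (ψ (Sum.inl A)) : Ec d) := by
      rw [hVdef, Submodule.coe_sum]
      exact Finset.sum_congr rfl fun A _ => rfl
    have h1 : ∀ B C, tri S (V : Ec d) (bh (ψ (Sum.inl B))) (bh (ψ (Sum.inl C))) = 0 := by
      intro B C
      rw [hVc, tri_sum_left, ← hv B C]
      exact Finset.sum_congr rfl fun A _ => by rw [hf, mul_comm]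
    -- `tri V` vanishes on all basis vectors
    have h2 : ∀ b c, tri S (V : Ec d) (bh b) (bh c) = 0 := by
      intro b c
      obtain ⟨p, rfl⟩ := ψ.surjective b
      obtain ⟨q, rfl⟩ := ψ.surjective c
      rcases p with B | B
      · rcases q with C | C
        · exact h1 B C
        · rw [← tri_cyc S (bh (ψ (Sum.inr C)) : Ec d)]
          exact htri C _ V.2 _
      · rw [tri_swap, htri B _ V.2, neg_zero]
    have h3 : V ∈ zc S h := by
      rw [mem_zc]
      intro w hw
      have h4 : ∀ b, inner ℝ (ad S (V : Ec d) w) (bh b : Ec d) = 0 := by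
        intro b
        have h5 := bh.sum_repr' (⟨w, hw⟩ : h)
        have h6 := congrArg (Subtype.val) h5
        rw [Submodule.coe_sum] at h6
        change _ = w at h6
        rw [← h6, map_sum, sum_inner]
        refine Finset.sum_eq_zero fun c _ => ?_
        rw [Submodule.coe_smul, map_smul, inner_smul_left, inner_ad, h2, mul_zero]
      have h5 : ad S (V : Ec d) w ∈ h := bracket_mem V.2 hw
      have h6 := bh.sum_repr' (⟨ad S (V : Ec d) w, h5⟩ : h)
      have h7 := congrArg (Subtype.val) h6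
      rw [Submodule.coe_sum] at h7
      refine Eq.trans h7.symm (Finset.sum_eq_zero fun b _ => ?_)
      rw [Submodule.coe_smul, Submodule.coe_inner, real_inner_comm]
      change inner ℝ (ad S (V : Ec d) w) (bh b : Ec d) • _ = 0
      rw [h4, zero_smul]
    have h8 : V = 0 := inner_self_eq_zero.1 (hVs V h3)
    funext A
    have hob : ∀ a b, inner ℝ (bh a : Ec d) (bh b : Ec d) = if a = b then (1 : ℝ) else 0 := by
      intro a b
      have := (orthonormal_iff_ite.1 bh.orthonormal) a b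
      rwa [Submodule.coe_inner] at this
    have h9 : inner ℝ (bh (ψ (Sum.inl A)) : Ec d) (V : Ec d) = v A := by
      rw [hVc, inner_sum, Finset.sum_eq_single A]
      · rw [inner_smul_right, hob, if_pos rfl, mul_one]
      · intro B _ hB
        rw [inner_smul_right, hob, if_neg, mul_zero]
        intro h
        exact hB (Sum.inl.inj (ψ.injective h)).symm
      · intro h
        exact absurd (Finset.mem_univ A) h
    rw [← h9, h8, Submodule.coe_zero, inner_zero_right, Pi.zero_apply]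

end Vale.Agent.P353.Z.AD
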