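import Vale.Agent.P353.AN.D.StmtL

/-! # P353, all `N`, block D: L13 transport by rotations -/

open MeasureTheory Filter Topology Matrix
open scoped ContDiff

namespace Vale.Agent.P353.Z.AD

variable {d : ℕ} {F : Type*} [NormedAddCommGroup F] [InnerProductSpace ℂ F]

namespace Tr

lemma rox_add (R : Matrix (Fin 9) (Fin 9) ℝ) (O : Matrix (Fin d) (Fin d) ℝ) (x y : Cfg d) :
    rox R O (x + y) = rox R O x + rox R O y := by
  ext p
  simp only [rox, PiLp.add_apply, mul_add, Finset.sum_add_distrib]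

lemma rox_smul (R : Matrix (Fin 9) (Fin 9) ℝ) (O : Matrix (Fin d) (Fin d) ℝ) (c : ℝ) (x : Cfg d) :
    rox R O (c • x) = c • rox R O x := by
  ext p
  simp only [rox, PiLp.smul_apply, smul_eq_mul, Finset.mul_sum]
  refine Finset.sum_congr rfl fun j _ => Finset.sum_congr rfl fun B _ => ?_
  ring

/-- `rox` as a linear map. -/
noncomputable def roxL (R : Matrix (Fin 9) (Fin 9) ℝ) (O : Matrix (Fin d) (Fin d) ℝ) :
    Cfg d →ₗ[ℝ] Cfg d where
  toFun := rox R O
  map_add' := rox_add R O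
  map_smul' := rox_smul R O

/-- `rox` as a linear equivalence. -/
noncomputable def roxE {R : Matrix (Fin 9) (Fin 9) ℝ} {O : Matrix (Fin d) (Fin d) ℝ}
    (h1 : ∀ x, rox R.transpose O.transpose (rox R O x) = x)
    (h2 : ∀ x, rox R O (rox R.transpose O.transpose x) = x) : Cfg d ≃ₗ[ℝ] Cfg d where
  toFun := rox R O
  map_add' := rox_add R O
  map_smul' := rox_smul R O
  invFun := rox R.transpose O.transpose
  left_inv := h1
  right_inv := h2

/-- Basic facts. -/
structure Fx (R : Matrix (Fin 9) (Fin 9) ℝ) (O : Matrix (Fin d) (Fin d) ℝ) : Prop where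
  l : ∀ x, rox R.transpose O.transpose (rox R O x) = x
  r : ∀ x, rox R O (rox R.transpose O.transpose x) = x
  nm : ∀ x, ‖rox R O x‖ = ‖x‖
  mp : MeasurePreserving (rox R O : Cfg d → Cfg d) volume volume
  em : MeasurableEmbedding (rox R O : Cfg d → Cfg d)

lemma mkFx {S : Setup d F} (h : AN.RotStmt S) {R : Matrix (Fin 9) (Fin 9) ℝ}
    (hR : R * R.transpose = 1) {O : Matrix (Fin d) (Fin d) ℝ} (hO : O * O.transpose = 1) :
    Fx R O := by
  obtain ⟨a1, a2, a3, _⟩ := h R hR O hO
  have hR' : R.transpose * R.transpose.transpose = 1 := by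
    rw [Matrix.transpose_transpose]
    exact mul_eq_one_comm.1 hR
  have hO' : O.transpose * O.transpose.transpose = 1 := by
    rw [Matrix.transpose_transpose]
    exact mul_eq_one_comm.1 hO
  obtain ⟨_, _, b3, _⟩ := h R.transpose hR' O.transpose hO'
  simp only [Matrix.transpose_transpose] at b3
  exact ⟨a3, b3, a1, a2, (roxE a3 b3).toContinuousLinearEquiv.toHomeomorph.measurableEmbedding⟩

lemma Fx.setInt {R : Matrix (Fin 9) (Fin 9) ℝ} {O : Matrix (Fin d) (Fin d) ℝ} (h : Fx R O)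
    (g : Cfg d → ℝ) (A : Set (Cfg d)) :
    ∫ x in A, g x = ∫ x in rox R O ⁻¹' A, g (rox R O x) :=
  (h.mp.setIntegral_preimage_emb h.em g A).symm

lemma Fx.setInt' {R : Matrix (Fin 9) (Fin 9) ℝ} {O : Matrix (Fin d) (Fin d) ℝ} (h : Fx R O)
    (g : Cfg d → ℝ) {A : Set (Cfg d)} (hA : ∀ x, rox R O x ∈ A ↔ x ∈ A) :
    ∫ x in A, g x = ∫ x in A, g (rox R O x) := by
  have : rox R O ⁻¹' A = A := Set.ext hA
  rw [h.setInt, this]

lemma Fx.shl {R : Matrix (Fin 9) (Fin 9) ℝ} {O : Matrix (Fin d) (Fin d) ℝ} (h : Fx R O)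
    (s t : ℝ) (x : Cfg d) : rox R O x ∈ shl d s t ↔ x ∈ shl d s t := by
  simp only [AD.shl, Set.mem_ofPred_eq, h.nm]

lemma Fx.tst {R : Matrix (Fin 9) (Fin 9) ℝ} {O : Matrix (Fin d) (Fin d) ℝ} (h : Fx R O)
    {u : Cfg d → F} (hu : Setup.Tst u) :
    Setup.Tst fun x => u (rox R.transpose O.transpose x) := by
  set e := (roxE h.l h.r).symm.toContinuousLinearEquiv with he
  have h1 : (fun x => u (rox R.transpose O.transpose x)) = u ∘ e := rfl
  rw [h1]
  exact ⟨hu.1.comp e.contDiff, hu.2.comp_homeomorph e.toHomeomorph⟩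

/-- The map on the colour space. -/
noncomputable def oE {O : Matrix (Fin d) (Fin d) ℝ} (hO : O * O.transpose = 1) :
    (Fin d → ℝ) ≃ₗ[ℝ] (Fin d → ℝ) where
  toFun := fun v => O *ᵥ v
  map_add' := fun x y => Matrix.mulVec_add O x y
  map_smul' := fun c x => Matrix.mulVec_smul O c x
  invFun := fun v => O.transpose *ᵥ v
  left_inv := fun v => by
    simp only [Matrix.mulVec_mulVec, mul_eq_one_comm.1 hO, Matrix.one_mulVec]
  right_inv := fun v => by
    simp only [Matrix.mulVec_mulVec, hO, Matrix.one_mulVec]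

lemma sum_five {α : Type*} [Fintype α] (T : α → α → α → α → α → ℝ) :
    ∑ a, ∑ b, ∑ a', ∑ b', ∑ c', T a b a' b' c' = ∑ a', ∑ b', ∑ c', ∑ a, ∑ b, T a b a' b' c' := by
  calc ∑ a, ∑ b, ∑ a', ∑ b', ∑ c', T a b a' b' c'
      = ∑ a, ∑ a', ∑ b, ∑ b', ∑ c', T a b a' b' c' :=
        Finset.sum_congr rfl fun a _ => Finset.sum_comm
    _ = ∑ a', ∑ a, ∑ b, ∑ b', ∑ c', T a b a' b' c' := Finset.sum_comm
    _ = ∑ a', ∑ a, ∑ b', ∑ b, ∑ c', T a b a' b' c' :=
        Finset.sum_congr rfl fun a' _ => Finset.sum_congr rfl fun a _ => Finset.sum_comm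
    _ = ∑ a', ∑ b', ∑ a, ∑ b, ∑ c', T a b a' b' c' :=
        Finset.sum_congr rfl fun a' _ => Finset.sum_comm
    _ = ∑ a', ∑ b', ∑ a, ∑ c', ∑ b, T a b a' b' c' :=
        Finset.sum_congr rfl fun a' _ => Finset.sum_congr rfl fun b' _ =>
          Finset.sum_congr rfl fun a _ => Finset.sum_comm
    _ = ∑ a', ∑ b', ∑ c', ∑ a, ∑ b, T a b a' b' c' :=
        Finset.sum_congr rfl fun a' _ => Finset.sum_congr rfl fun b' _ => Finset.sum_comm

lemma sum_four {α β : Type*} [Fintype α] [Fintype β] (T : α → α → α → β → ℝ) :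
    ∑ a, ∑ b, ∑ c, ∑ j, T a b c j = ∑ j, ∑ c, ∑ a, ∑ b, T a b c j := by
  calc ∑ a, ∑ b, ∑ c, ∑ j, T a b c j
      = ∑ a, ∑ b, ∑ j, ∑ c, T a b c j :=
        Finset.sum_congr rfl fun a _ => Finset.sum_congr rfl fun b _ => Finset.sum_comm
    _ = ∑ a, ∑ j, ∑ b, ∑ c, T a b c j := Finset.sum_congr rfl fun a _ => Finset.sum_comm
    _ = ∑ j, ∑ a, ∑ b, ∑ c, T a b c j := Finset.sum_comm
    _ = ∑ j, ∑ a, ∑ c, ∑ b, T a b c j :=
        Finset.sum_congr rfl fun j _ => Finset.sum_congr rfl fun a _ => Finset.sum_comm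
    _ = ∑ j, ∑ c, ∑ a, ∑ b, T a b c j := Finset.sum_congr rfl fun j _ => Finset.sum_comm

lemma o_back {O : Matrix (Fin d) (Fin d) ℝ} (hO : O * O.transpose = 1) (a : Fin d → ℝ)
    (k : Fin d) : ∑ A, O A k * (O *ᵥ a) A = a k := by
  have h1 := congrFun ((oE hO).symm_apply_apply a) k
  exact h1

lemma cz_key (S : Setup d F) {R : Matrix (Fin 9) (Fin 9) ℝ} (hR : R * R.transpose = 1)
    {O : Matrix (Fin d) (Fin d) ℝ} (hO : O * O.transpose = 1) (Y : Cfg d) (v : Fin d → ℝ)
    (i : Fin 9) (C : Fin d) :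
    ∑ A, ∑ B, (S.rot R hR O hO).f A B C * (O *ᵥ v) A * (rox R O Y) (i, B) =
      ∑ j, R i j * ∑ C', O C C' * ∑ A, ∑ B, S.f A B C' * v A * Y (j, B) := by
  have hX : ∀ B, (rox R O Y) (i, B) = (O *ᵥ fun B' => ∑ j, R i j * Y (j, B')) B := by
    intro B
    simp only [rox, Matrix.mulVec, dotProduct, Finset.mul_sum]
    rw [Finset.sum_comm]
    refine Finset.sum_congr rfl fun B' _ => Finset.sum_congr rfl fun j _ => ?_
    ring
  have h1 : ∀ A B, (S.rot R hR O hO).f A B C * (O *ᵥ v) A * (rox R O Y) (i, B) =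
      ∑ A', ∑ B', ∑ C', (O C C' * S.f A' B' C') * ((O A A' * (O *ᵥ v) A) *
        (O B B' * (rox R O Y) (i, B))) := by
    intro A B
    show (∑ A', ∑ B', ∑ C', O A A' * O B B' * O C C' * S.f A' B' C') * (O *ᵥ v) A *
      (rox R O Y) (i, B) = _
    simp only [Finset.sum_mul]
    refine Finset.sum_congr rfl fun A' _ => Finset.sum_congr rfl fun B' _ =>
      Finset.sum_congr rfl fun C' _ => ?_
    ring
  simp only [h1]
  rw [sum_five fun A B A' B' C' => (O C C' * S.f A' B' C') * ((O A A' * (O *ᵥ v) A) *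
        (O B B' * (rox R O Y) (i, B)))]
  have h2 : ∀ A' B' C', ∑ A, ∑ B, (O C C' * S.f A' B' C') * ((O A A' * (O *ᵥ v) A) *
        (O B B' * (rox R O Y) (i, B))) = ∑ j, R i j * (O C C' * (S.f A' B' C' * v A' *
          Y (j, B'))) := by
    intro A' B' C'
    simp only [← Finset.mul_sum]
    rw [← Finset.sum_mul, o_back hO]
    simp only [hX]
    rw [o_back hO, Finset.mul_sum, Finset.mul_sum]
    refine Finset.sum_congr rfl fun j _ => ?_
    ring
  simp only [h2]
  rw [sum_four fun A' B' C' j => R i j * (O C C' * (S.f A' B' C' * v A' * Y (j, B')))]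
  simp only [Finset.mul_sum]

lemma cd_eq (S : Setup d F) {R : Matrix (Fin 9) (Fin 9) ℝ} (hR : R * R.transpose = 1)
    {O : Matrix (Fin d) (Fin d) ℝ} (hO : O * O.transpose = 1) (Y : Cfg d) :
    cd (S.rot R hR O hO) (rox R O Y) = cd S Y := by
  have hO' : O.transpose * O = 1 := mul_eq_one_comm.1 hO
  have hR' : R.transpose * R = 1 := mul_eq_one_comm.1 hR
  have h1 : (cz S Y).map (oE hO : (Fin d → ℝ) →ₗ[ℝ] (Fin d → ℝ)) =
      cz (S.rot R hR O hO) (rox R O Y) := by
    ext v'
    rw [Submodule.mem_map]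
    constructor
    · rintro ⟨v, hv, rfl⟩ i C
      show ∑ A, ∑ B, (S.rot R hR O hO).f A B C * (O *ᵥ v) A * (rox R O Y) (i, B) = 0
      rw [cz_key]
      refine Finset.sum_eq_zero fun j _ => ?_
      rw [Finset.sum_eq_zero, mul_zero]
      intro C' _
      rw [hv j C', mul_zero]
    · intro hv'
      refine ⟨(oE hO).symm v', ?_, (oE hO).apply_symm_apply v'⟩
      set v := (oE hO).symm v' with hv
      have hvv : v' = O *ᵥ v := ((oE hO).apply_symm_apply v').symm
      set T : Matrix (Fin 9) (Fin d) ℝ := Matrix.of fun j C' =>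
        ∑ A, ∑ B, S.f A B C' * v A * Y (j, B) with hT
      have h2 : R * T * O.transpose = 0 := by
        ext i C
        have h3 := hv' i C
        rw [hvv, cz_key] at h3
        rw [Matrix.zero_apply, ← h3, Matrix.mul_assoc, Matrix.mul_apply]
        refine Finset.sum_congr rfl fun j _ => ?_
        congr 1
        rw [Matrix.mul_apply]
        refine Finset.sum_congr rfl fun C' _ => ?_
        rw [Matrix.transpose_apply, mul_comm]
        rfl
      have h4 : T = 0 := by
        calc T = (R.transpose * R) * T * (O.transpose * O) := by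
              rw [hR', hO', Matrix.one_mul, Matrix.mul_one]
          _ = R.transpose * (R * T * O.transpose) * O := by
              simp only [Matrix.mul_assoc]
          _ = 0 := by rw [h2, Matrix.mul_zero, Matrix.zero_mul]
      intro j C'
      exact congrFun (congrFun h4 j) C'
  unfold cd
  rw [← h1]
  exact LinearEquiv.finrank_map_eq (oE hO) (cz S Y)

end Tr

open Tr in
/-- L13 -/
theorem trOf (S : Setup d F) : TrOfStmt S := by
  intro hrot R hR O hO Rn u
  have hF := mkFx hrot hR hO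
  obtain ⟨_, _, _, hV, hW, hQ, hG⟩ := hrot R hR O hO
  have hback : ∀ n, (fun z => (fun x => u n (rox R.transpose O.transpose x)) (rox R O z)) = u n := by
    intro n
    funext z
    show u n (rox R.transpose O.transpose (rox R O z)) = u n z
    rw [hF.l]
  have hmas : ∀ n (A : Set (Cfg d)), (∀ x, rox R O x ∈ A ↔ x ∈ A) →
      mas (fun x => u n (rox R.transpose O.transpose x)) A = mas (u n) A := by
    intro n A hA
    unfold mas
    rw [hF.setInt' _ hA]
    refine integral_congr_ae (Eventually.of_forall fun x => ?_)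
    show ‖u n (rox R.transpose O.transpose (rox R O x))‖ ^ 2 = ‖u n x‖ ^ 2
    rw [hF.l]
  have hena : ∀ n (A : Set (Cfg d)), (∀ x, rox R O x ∈ A ↔ x ∈ A) → Setup.Tst (u n) →
      ena (S.rot R hR O hO) (fun x => u n (rox R.transpose O.transpose x)) A = ena S (u n) A := by
    intro n A hA hu
    unfold ena
    refine Finset.sum_congr rfl fun β _ => ?_
    rw [hF.setInt' _ hA]
    refine integral_congr_ae (Eventually.of_forall fun x => ?_)
    show ‖(S.rot R hR O hO).Q β (fun x => u n (rox R.transpose O.transpose x)) (rox R O x)‖ ^ 2 =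
      ‖S.Q β (u n) x‖ ^ 2
    rw [hQ _ ((hF.tst hu).1.differentiable (by simp)) β x, hback]
  refine ⟨?_, ?_, ?_, fun Y => cd_eq S hR hO Y, hV, hF.shl⟩
  · intro hS
    refine ⟨?_, hS.pos, hS.lim, ?_⟩
    · intro n
      refine ⟨hF.tst (hS.inv n).1, ?_⟩
      intro C x
      have h1 := hG _ ((hF.tst (hS.inv n).1).1.differentiable (by simp)) C
        (rox R.transpose O.transpose x)
      rw [hF.r, hback] at h1
      rw [h1]
      refine Finset.sum_eq_zero fun C' _ => ?_
      rw [(hS.inv n).2, smul_zero]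
    · intro s t hs ht
      obtain ⟨C, hC⟩ := hS.bd s t hs ht
      refine ⟨C, fun n => ?_⟩
      rw [hmas n _ (hF.shl _ _), hena n _ (hF.shl _ _) (hS.inv n).1]
      exact hC n
  · intro n A _ hA
    exact ⟨hmas n A hA, hena n A hA⟩
  · intro Y ε
    unfold NulE
    have h1 : ∀ n, mas (fun x => u n (rox R.transpose O.transpose x))
        (Metric.ball (Rn n • rox R O Y) (ε * Rn n)) = mas (u n) (Metric.ball (Rn n • Y) (ε * Rn n)) := by
      intro n
      unfold mas
      rw [hF.setInt]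
      have h2 : rox R O ⁻¹' Metric.ball (Rn n • rox R O Y) (ε * Rn n) =
          Metric.ball (Rn n • Y) (ε * Rn n) := by
        ext x
        rw [Set.mem_preimage, Metric.mem_ball, Metric.mem_ball, dist_eq_norm, dist_eq_norm,
          ← rox_smul]
        have h3 : rox R O x - rox R O (Rn n • Y) = rox R O (x - Rn n • Y) :=
          (map_sub (roxL R O) x (Rn n • Y)).symm
        rw [h3, hF.nm]
      rw [h2]
      refine integral_congr_ae (Eventually.of_forall fun x => ?_)
      show ‖u n (rox R.transpose O.transpose (rox R O x))‖ ^ 2 = ‖u n x‖ ^ 2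
      rw [hF.l]
    simp only [h1]

end Vale.Agent.P353.Z.AD
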