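import Vale.Agent.P353.AN.D.StmtL

/-! # P353, all `N`, block D, L8: unfrozen vacuum (`UFOfStmt`) -/

open MeasureTheory Filter Topology Matrix
open scoped ContDiff

namespace Vale.Agent.P353.Z.AD

variable {d dh dm ds dz r : ℕ} {F : Type*} [NormedAddCommGroup F] [InnerProductSpace ℂ F]

/-! ### integration tools -/

lemma uf_lin3 {X : Type*} [MeasurableSpace X] {μ : Measure X} {a b c : X → ℝ} (p q r : ℝ) (ha : Integrable a μ)
    (hb : Integrable b μ) (hc : Integrable c μ) :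
    ∫ x, (p * a x + q * b x + r * c x) ∂μ = p * (∫ x, a x ∂μ) + q * (∫ x, b x ∂μ) + r * ∫ x, c x ∂μ := by
  have e1 : ∫ x, (p * a x + q * b x + r * c x) ∂μ = (∫ x, (p * a x + q * b x) ∂μ) + ∫ x, r * c x ∂μ :=
    integral_add ((ha.const_mul p).add (hb.const_mul q)) (hc.const_mul r)
  have e2 : ∫ x, (p * a x + q * b x) ∂μ = (∫ x, p * a x ∂μ) + ∫ x, q * b x ∂μ :=
    integral_add (ha.const_mul p) (hb.const_mul q)
  rw [e1, e2, integral_const_mul, integral_const_mul, integral_const_mul]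

/-- Cauchy–Schwarz for real integrals -/
lemma uf_cs {X : Type*} [MeasurableSpace X] {μ : Measure X} {a b : X → ℝ} (ha : Integrable (fun x => a x ^ 2) μ)
    (hb : Integrable (fun x => b x ^ 2) μ) (hab : Integrable (fun x => a x * b x) μ) :
    (∫ x, a x * b x ∂μ) ^ 2 ≤ (∫ x, a x ^ 2 ∂μ) * ∫ x, b x ^ 2 ∂μ := by
  have h1 : ∀ t : ℝ, 0 ≤ (∫ x, a x ^ 2 ∂μ) * (t * t) + (-2 * ∫ x, a x * b x ∂μ) * t + ∫ x, b x ^ 2 ∂μ := by
    intro t
    have h2 : (∫ x, (t * a x - b x) ^ 2 ∂μ) =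
        (∫ x, a x ^ 2 ∂μ) * (t * t) + (-2 * ∫ x, a x * b x ∂μ) * t + ∫ x, b x ^ 2 ∂μ := by
      have e : (fun x => (t * a x - b x) ^ 2) =
          fun x => (t * t) * a x ^ 2 + (-2 * t) * (a x * b x) + 1 * b x ^ 2 := by
        funext x; ring
      rw [e, uf_lin3 _ _ _ ha hab hb]
      ring
    rw [← h2]
    exact integral_nonneg fun x => sq_nonneg _
  have h3 := discrim_le_zero h1
  unfold discrim at h3
  nlinarith [h3]

lemma uf_ft_int {f : Wsp dm → F} (hf : FT f) : Integrable (fun w => ‖f w‖ ^ 2) := by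
  have c1 : Continuous fun w => ‖f w‖ ^ 2 := hf.1.continuous.norm.pow 2
  have c2 : HasCompactSupport fun w => ‖f w‖ ^ 2 := by
    refine HasCompactSupport.intro hf.2 fun w hw => ?_
    rw [image_eq_zero_of_notMem_tsupport hw, norm_zero]
    norm_num
  exact c1.integrable_of_hasCompactSupport c2

lemma uf_gf_int {f : Wsp dm → F} (hf : FT f) {g : Wsp dm → ℝ} (hg : Continuous g) :
    Integrable (fun w => ((g w : ℝ) : ℂ) • f w) := by
  have c1 : Continuous fun w => ((g w : ℝ) : ℂ) • f w :=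
    (Complex.continuous_ofReal.comp hg).smul hf.1.continuous
  have c2 : HasCompactSupport fun w => ((g w : ℝ) : ℂ) • f w := by
    refine HasCompactSupport.intro hf.2 fun w hw => ?_
    rw [image_eq_zero_of_notMem_tsupport hw, smul_zero]
  exact c1.integrable_of_hasCompactSupport c2

lemma uf_I_le {f : Wsp dm → F} (hf : FT f) {g : Wsp dm → ℝ} (hg : Continuous g)
    (hg2 : Integrable (fun w => g w ^ 2)) :
    ‖∫ w, ((g w : ℝ) : ℂ) • f w‖ ^ 2 ≤ (∫ w, g w ^ 2) * nsf f := by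
  have h1 : ‖∫ w, ((g w : ℝ) : ℂ) • f w‖ ≤ ∫ w, |g w| * ‖f w‖ := by
    refine (norm_integral_le_integral_norm _).trans (le_of_eq ?_)
    refine integral_congr_ae (Eventually.of_forall fun w => ?_)
    simp only [norm_smul, Complex.norm_real, Real.norm_eq_abs]
  have h2 : Integrable (fun w => |g w| * ‖f w‖) := by
    have := (uf_gf_int hf hg).norm
    refine this.congr (Eventually.of_forall fun w => ?_)
    simp only [norm_smul, Complex.norm_real, Real.norm_eq_abs]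
  have h3 := uf_cs (μ := (volume : Measure (Wsp dm))) (a := fun w => |g w|) (b := fun w => ‖f w‖)
    (by simpa only [sq_abs] using hg2) (uf_ft_int hf) h2
  simp only [sq_abs] at h3
  refine le_trans ?_ h3
  exact pow_le_pow_left₀ (norm_nonneg _) h1 2

/-- difference of two vacuum projections -/
lemma uf_diff {f : Wsp dm → F} (hf : FT f) {g h : Wsp dm → ℝ} (hg : Continuous g) (hh : Continuous h)
    (hg2 : Integrable (fun w => g w ^ 2)) (hh2 : Integrable (fun w => h w ^ 2))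
    (hgh2 : Integrable (fun w => (g w - h w) ^ 2)) (g1 : ∫ w, g w ^ 2 = 1) (h1 : ∫ w, h w ^ 2 = 1) {κ : ℝ}
    (gh : ∫ w, (g w - h w) ^ 2 ≤ κ ^ 2) {P Q : F →L[ℂ] F} (hQ : ‖Q‖ ≤ 1) (hPQ : ‖P - Q‖ ≤ κ) :
    nsf (fun w => ((g w : ℝ) : ℂ) • P (∫ w', ((g w' : ℝ) : ℂ) • f w') -
      ((h w : ℝ) : ℂ) • Q (∫ w', ((h w' : ℝ) : ℂ) • f w')) ≤ 9 * κ ^ 2 * nsf f := by
  set A : F := ∫ w', ((g w' : ℝ) : ℂ) • f w' with hA
  set B : F := ∫ w', ((h w' : ℝ) : ℂ) • f w' with hB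
  set N : ℝ := nsf f with hN
  have hN0 : 0 ≤ N := integral_nonneg fun w => by positivity
  have a1 : ‖A‖ ^ 2 ≤ N := by
    have := uf_I_le hf hg hg2
    rwa [g1, one_mul] at this
  have a2 : ‖A - B‖ ^ 2 ≤ κ ^ 2 * N := by
    have e : A - B = ∫ w', (((g w' - h w' : ℝ)) : ℂ) • f w' := by
      rw [hA, hB, ← integral_sub (uf_gf_int hf hg) (uf_gf_int hf hh)]
      refine integral_congr_ae (Eventually.of_forall fun w => ?_)
      simp only [Complex.ofReal_sub, sub_smul]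
    have := uf_I_le hf (hg.sub hh) hgh2
    rw [e]
    exact this.trans (mul_le_mul_of_nonneg_right gh hN0)
  have key : ∀ w, ‖((g w : ℝ) : ℂ) • P A - ((h w : ℝ) : ℂ) • Q B‖ ^ 2 ≤
      (3 * κ ^ 2 * N) * g w ^ 2 + (3 * N) * (g w - h w) ^ 2 + (3 * κ ^ 2 * N) * h w ^ 2 := by
    intro w
    have e : ((g w : ℝ) : ℂ) • P A - ((h w : ℝ) : ℂ) • Q B =
        ((g w : ℝ) : ℂ) • (P - Q) A + (((g w - h w : ℝ)) : ℂ) • Q A + ((h w : ℝ) : ℂ) • Q (A - B) := by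
      simp only [_root_.sub_apply, map_sub, Complex.ofReal_sub, sub_smul, smul_sub]
      abel
    have n1 : ‖((g w : ℝ) : ℂ) • (P - Q) A‖ ≤ |g w| * (κ * ‖A‖) := by
      rw [norm_smul, Complex.norm_real, Real.norm_eq_abs]
      exact mul_le_mul_of_nonneg_left (((P - Q).le_opNorm A).trans
        (mul_le_mul_of_nonneg_right hPQ (norm_nonneg _))) (abs_nonneg _)
    have n2 : ‖(((g w - h w : ℝ)) : ℂ) • Q A‖ ≤ |g w - h w| * ‖A‖ := by
      rw [norm_smul, Complex.norm_real, Real.norm_eq_abs]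
      refine mul_le_mul_of_nonneg_left ((Q.le_opNorm A).trans ?_) (abs_nonneg _)
      exact (mul_le_mul_of_nonneg_right hQ (norm_nonneg _)).trans (le_of_eq (one_mul _))
    have n3 : ‖((h w : ℝ) : ℂ) • Q (A - B)‖ ≤ |h w| * ‖A - B‖ := by
      rw [norm_smul, Complex.norm_real, Real.norm_eq_abs]
      refine mul_le_mul_of_nonneg_left ((Q.le_opNorm _).trans ?_) (abs_nonneg _)
      exact (mul_le_mul_of_nonneg_right hQ (norm_nonneg _)).trans (le_of_eq (one_mul _))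
    have n4 : ‖((g w : ℝ) : ℂ) • P A - ((h w : ℝ) : ℂ) • Q B‖ ≤
        |g w| * (κ * ‖A‖) + |g w - h w| * ‖A‖ + |h w| * ‖A - B‖ := by
      rw [e]
      exact (norm_add₃_le).trans (add_le_add (add_le_add n1 n2) n3)
    have n5 := pow_le_pow_left₀ (norm_nonneg _) n4 2
    refine n5.trans ?_
    set x := |g w| * (κ * ‖A‖) with hx
    set y := |g w - h w| * ‖A‖ with hy
    set z := |h w| * ‖A - B‖ with hz
    have q1 : (x + y + z) ^ 2 ≤ 3 * (x ^ 2 + y ^ 2 + z ^ 2) := by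
      nlinarith [sq_nonneg (x - y), sq_nonneg (y - z), sq_nonneg (x - z)]
    have q2 : x ^ 2 ≤ κ ^ 2 * N * g w ^ 2 := by
      have : x ^ 2 = κ ^ 2 * ‖A‖ ^ 2 * g w ^ 2 := by
        rw [hx, mul_pow, mul_pow, sq_abs]; ring
      rw [this]
      gcongr
    have q3 : y ^ 2 ≤ N * (g w - h w) ^ 2 := by
      have : y ^ 2 = ‖A‖ ^ 2 * (g w - h w) ^ 2 := by
        rw [hy, mul_pow, sq_abs]; ring
      rw [this]
      gcongr
    have q4 : z ^ 2 ≤ κ ^ 2 * N * h w ^ 2 := by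
      have : z ^ 2 = ‖A - B‖ ^ 2 * h w ^ 2 := by
        rw [hz, mul_pow, sq_abs]; ring
      rw [this]
      gcongr
    linarith
  have iR : Integrable (fun w => (3 * κ ^ 2 * N) * g w ^ 2 + (3 * N) * (g w - h w) ^ 2 +
      (3 * κ ^ 2 * N) * h w ^ 2) :=
    ((hg2.const_mul _).add (hgh2.const_mul _)).add (hh2.const_mul _)
  have fin : nsf (fun w => ((g w : ℝ) : ℂ) • P A - ((h w : ℝ) : ℂ) • Q B) ≤
      ∫ w, ((3 * κ ^ 2 * N) * g w ^ 2 + (3 * N) * (g w - h w) ^ 2 + (3 * κ ^ 2 * N) * h w ^ 2) := by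
    unfold nsf
    refine integral_mono_of_nonneg (Eventually.of_forall fun w => by positivity) iR
      (Eventually.of_forall key)
  refine fin.trans ?_
  rw [uf_lin3 _ _ _ hg2 hgh2 hh2, g1, h1]
  have : 3 * N * ∫ w, (g w - h w) ^ 2 ≤ 3 * N * κ ^ 2 := mul_le_mul_of_nonneg_left gh (by positivity)
  linarith

/-! ### the matrices `D_i(y)` -/

lemma uf_Dy_sub (S : Setup d F) (φ : Spl dh dm d) (i : Fin 9) (y y' : Cfg dh) :
    S.Dy φ i (y - y') = S.Dy φ i y - S.Dy φ i y' := by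
  ext B C
  simp only [Setup.Dy, Setup.Dm, Matrix.of_apply, Matrix.sub_apply, PiLp.sub_apply, mul_sub,
    Finset.sum_sub_distrib]

lemma uf_Dy_smul (S : Setup d F) (φ : Spl dh dm d) (i : Fin 9) (c : ℝ) (y : Cfg dh) :
    S.Dy φ i (c • y) = c • S.Dy φ i y := by
  ext B C
  simp only [Setup.Dy, Setup.Dm, Matrix.of_apply, Matrix.smul_apply, PiLp.smul_apply, smul_eq_mul,
    Finset.mul_sum]
  exact Finset.sum_congr rfl fun A _ => by ring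

lemma uf_Dy_bd (S : Setup d F) (φ : Spl dh dm d) :
    ∃ K : ℝ, 0 < K ∧ ∀ (i : Fin 9) (y : Cfg dh) (B C : Fin dm), |S.Dy φ i y B C| ≤ K * ‖y‖ := by
  refine ⟨1 + ∑ B : Fin dm, ∑ C : Fin dm, ∑ A : Fin dh, |S.f (φ (Sum.inr B)) (φ (Sum.inl A)) (φ (Sum.inr C))|,
    ?_, ?_⟩
  · positivity
  · intro i y B C
    simp only [Setup.Dy, Setup.Dm, Matrix.of_apply]
    have h1 : |∑ A, S.f (φ (Sum.inr B)) (φ (Sum.inl A)) (φ (Sum.inr C)) * y (i, A)| ≤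
        (∑ A : Fin dh, |S.f (φ (Sum.inr B)) (φ (Sum.inl A)) (φ (Sum.inr C))|) * ‖y‖ := by
      refine (Finset.abs_sum_le_sum_abs _ _).trans ?_
      rw [Finset.sum_mul]
      refine Finset.sum_le_sum fun A _ => ?_
      rw [abs_mul]
      exact mul_le_mul_of_nonneg_left (PiLp.norm_apply_le y (i, A)) (abs_nonneg _)
    refine h1.trans (mul_le_mul_of_nonneg_right ?_ (norm_nonneg _))
    have h2 : (∑ A : Fin dh, |S.f (φ (Sum.inr B)) (φ (Sum.inl A)) (φ (Sum.inr C))|) ≤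
        ∑ C : Fin dm, ∑ A : Fin dh, |S.f (φ (Sum.inr B)) (φ (Sum.inl A)) (φ (Sum.inr C))| :=
      Finset.single_le_sum (f := fun C : Fin dm => ∑ A : Fin dh,
        |S.f (φ (Sum.inr B)) (φ (Sum.inl A)) (φ (Sum.inr C))|)
        (fun C _ => Finset.sum_nonneg fun A _ => abs_nonneg _) (Finset.mem_univ C)
    have h3 : (∑ C : Fin dm, ∑ A : Fin dh, |S.f (φ (Sum.inr B)) (φ (Sum.inl A)) (φ (Sum.inr C))|) ≤
        ∑ B : Fin dm, ∑ C : Fin dm, ∑ A : Fin dh, |S.f (φ (Sum.inr B)) (φ (Sum.inl A)) (φ (Sum.inr C))| :=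
      Finset.single_le_sum (f := fun B : Fin dm => ∑ C : Fin dm, ∑ A : Fin dh,
        |S.f (φ (Sum.inr B)) (φ (Sum.inl A)) (φ (Sum.inr C))|)
        (fun B _ => Finset.sum_nonneg fun C _ => Finset.sum_nonneg fun A _ => abs_nonneg _)
        (Finset.mem_univ B)
    linarith

lemma uf_det_smul (S : Setup d F) (φ : Spl dh dm d) {R : ℝ} (hR : 0 < R) (y : Cfg dh) :
    (S.Dy φ 8 (R • y)).det ≠ 0 ↔ (S.Dy φ 8 y).det ≠ 0 := by
  rw [uf_Dy_smul, Matrix.det_smul]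
  have : R ^ Fintype.card (Fin dm) ≠ 0 := pow_ne_zero _ hR.ne'
  constructor
  · intro h h2
    exact h (by rw [h2, mul_zero])
  · intro h
    exact mul_ne_zero this h

/-! ### scaling of the Gaussian -/

lemma uf_inv {R : ℝ} (hR : R ≠ 0) {M : Matrix (Fin dm) (Fin dm) ℝ} (hM : M.det ≠ 0) :
    (R • M)⁻¹ = R⁻¹ • M⁻¹ := by
  refine Matrix.inv_eq_left_inv ?_
  rw [Matrix.smul_mul, Matrix.mul_smul, smul_smul, inv_mul_cancel₀ hR, one_smul,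
    Matrix.nonsing_inv_mul _ (isUnit_iff_ne_zero.2 hM)]

lemma uf_tI {R : ℝ} (hR : R ≠ 0) {D : Fin 9 → Matrix (Fin dm) (Fin dm) ℝ} (hD : (D 8).det ≠ 0) :
    tI (fun i => R • D i) = tI D := by
  funext i
  simp only [tI]
  rw [uf_inv hR hD, Matrix.smul_mul, Matrix.mul_smul, smul_smul, inv_mul_cancel₀ hR, one_smul]

lemma uf_gR {R : ℝ} (hR : R ≠ 0) {D : Fin 9 → Matrix (Fin dm) (Fin dm) ℝ} (hD : (D 8).det ≠ 0)
    (Om : Matrix (Fin dm) (Fin dm) ℝ) (w : Wsp dm) :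
    gR (fun i => R • D i) (R • Om) 1 w = gR D Om R w := by
  have h1 : VV (fun i => R • D i) w = VV D w := by
    funext i
    simp only [VV, sV, t2, uf_tI hR hD]
  simp only [gR, qf, h1, Matrix.smul_mulVec, dotProduct_smul, smul_eq_mul, ← Finset.mul_sum]
  congr 1
  ring

/-! ### the vacuum at scalar points -/

lemma uf_Dz_smul (S : Setup d F) (φ : Spl dh dm d) (ψ : Spl ds dz dh) (hcmb : CmbStmt) (R : ℝ) (z : Cfg dz) :
    Dz S φ ψ (R • z) = fun i => R • Dz S φ ψ z i := by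
  funext i
  obtain ⟨-, -, -, -, -, h6, -⟩ := hcmb ds dz dh ψ
  have h := h6 R (0 : Cfg ds) z
  rw [smul_zero] at h
  simp only [Dz]
  rw [← h, uf_Dy_smul]

lemma uf_vac [FiniteDimensional ℂ F] (S : Setup d F) (φ : Spl dh dm d) (ψ : Spl ds dz dh) (hcmb : CmbStmt)
    {z₁ : Cfg dz} (hdet : (S.Dy φ 8 (cmb ψ 0 z₁)).det ≠ 0) {R : ℝ} (hR : 0 < R)
    (hom : omc S.κ (Dz S φ ψ (R • z₁)) = R • omc S.κ (Dz S φ ψ z₁)) (hP : Pz S φ ψ (R • z₁) = Pz S φ ψ z₁)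
    (f : Wsp dm → F) (w : Wsp dm) :
    S.PR φ (Dz S φ ψ z₁) (omc S.κ (Dz S φ ψ z₁)) R f w =
      ((gn S φ ψ (R • z₁) w : ℝ) : ℂ) •
        Pz S φ ψ (R • z₁) (∫ w', ((gn S φ ψ (R • z₁) w' : ℝ) : ℂ) • f w') := by
  set D := Dz S φ ψ z₁ with hD
  set Om := omc S.κ D with hOm
  set s : ℝ := Real.sqrt (∫ w', gR D Om R w' ^ 2) with hs
  have hg : ∀ w, gn S φ ψ (R • z₁) w = gR D Om R w / s := by
    intro w
    simp only [gn]
    rw [hom, uf_Dz_smul S φ ψ hcmb R z₁]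
    have h1 : ∀ w, gR (fun i => R • Dz S φ ψ z₁ i) (R • Om) 1 w = gR D Om R w := fun w =>
      uf_gR hR.ne' hdet Om w
    simp only [h1]
    rfl
  rw [hP]
  simp only [hg]
  have h2 : (∫ w', ((gR D Om R w' / s : ℝ) : ℂ) • f w') =
      (((s⁻¹ : ℝ)) : ℂ) • ∫ w', ((gR D Om R w' : ℝ) : ℂ) • f w' := by
    rw [← integral_smul]
    refine integral_congr_ae (Eventually.of_forall fun w' => ?_)
    simp only [smul_smul, ← Complex.ofReal_mul]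
    congr 2
    ring
  rw [h2, map_smul, smul_smul, ← Complex.ofReal_mul]
  have h3 : s * s = ∫ w', gR D Om R w' ^ 2 := Real.mul_self_sqrt (integral_nonneg fun w => sq_nonneg _)
  have h4 : gR D Om R w / s * s⁻¹ = gR D Om R w / ∫ w', gR D Om R w' ^ 2 := by
    rw [← h3, div_mul_eq_div_div, div_eq_mul_inv (gR D Om R w / s)]
  rw [h4]
  rfl

lemma uf_opnorm {ι : Type*} [Fintype ι] [DecidableEq ι] {L : EuclideanSpace ℝ ι →L[ℝ] ℝ} {M : ℝ} (hM : 0 ≤ M)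
    (h : ∀ p, |L (EuclideanSpace.single p 1)| ≤ M) : ‖L‖ ≤ (Fintype.card ι : ℝ) * M := by
  refine L.opNorm_le_bound (by positivity) fun v => ?_
  have e : v = ∑ p, v p • EuclideanSpace.single p (1 : ℝ) := by
    ext q
    simp [Pi.single_apply]
  have e2 : L v = ∑ p, v p * L (EuclideanSpace.single p 1) := by
    conv_lhs => rw [e]
    rw [map_sum]
    simp only [map_smul, smul_eq_mul]
  rw [e2, Real.norm_eq_abs]
  calc |∑ p, v p * L (EuclideanSpace.single p 1)| ≤ ∑ p, |v p * L (EuclideanSpace.single p 1)| :=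
        Finset.abs_sum_le_sum_abs _ _
    _ ≤ ∑ _p : ι, ‖v‖ * M := by
        refine Finset.sum_le_sum fun p _ => ?_
        rw [abs_mul]
        exact mul_le_mul (PiLp.norm_apply_le v p) (h p) (abs_nonneg _) (norm_nonneg _)
    _ = (Fintype.card ι : ℝ) * M * ‖v‖ := by
        rw [Finset.sum_const, nsmul_eq_mul, Finset.card_univ]
        ring

lemma uf_det_cont (S : Setup d F) (φ : Spl dh dm d) (ψ : Spl ds dz dh) :
    Continuous fun z : Cfg dz => (S.Dy φ 8 (cmb ψ 0 z)).det := by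
  have hc : Continuous fun z : Cfg dz => (S.Dy φ 8 (cmb ψ 0 z)) := by
    refine continuous_matrix fun B C => ?_
    simp only [Setup.Dy, Setup.Dm, Matrix.of_apply]
    refine continuous_finsetSum _ fun A _ => continuous_const.mul ?_
    simp only [cmb]
    rcases h : ψ.symm A with a | b
    · simp only [Sum.elim_inl]
      exact continuous_const
    · simp only [Sum.elim_inr]
      fun_prop
  exact hc.matrix_det

/-! ### Gaussian bounds -/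

lemma uf_gauss (dm : ℕ) {b : ℝ} (hb : 0 < b) :
    Integrable (fun w : Wsp dm => Real.exp (-(b * ‖w‖ ^ 2))) ∧
      ∫ w : Wsp dm, Real.exp (-(b * ‖w‖ ^ 2)) = (Real.pi / b) ^ (4 * dm) := by
  have h1 : ∫ w : Wsp dm, Real.exp (-(b * ‖w‖ ^ 2)) = (Real.pi / b) ^ (4 * dm) := by
    have h2 := GaussianFourier.integral_rexp_neg_mul_sq_norm (V := Wsp dm) hb
    have hf : Module.finrank ℝ (Wsp dm) = 8 * dm := by
      rw [finrank_euclideanSpace, Fintype.card_prod, Fintype.card_fin, Fintype.card_fin]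
    rw [hf] at h2
    have e : (fun w : Wsp dm => Real.exp (-(b * ‖w‖ ^ 2))) = fun w => Real.exp (-b * ‖w‖ ^ 2) := by
      funext w
      rw [neg_mul]
    rw [e, h2, ← Real.rpow_natCast]
    congr 1
    push_cast
    ring
  refine ⟨Integrable.of_integral_ne_zero ?_, h1⟩
  rw [h1]
  have : 0 < Real.pi / b := div_pos Real.pi_pos hb
  positivity

/-- quantitative continuity of the boson vacuum -/
lemma uf_gn_diff (S : Setup d F) (φ : Spl dh dm d) (ψ : Spl ds dz dh)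
    (hC : ContDiffOn ℝ ∞ (fun p : Cfg dz × Wsp dm => gn S φ ψ p.1 p.2) {p | (S.Dy φ 8 (cmb ψ 0 p.1)).det ≠ 0})
    {R : ℝ} {z₀ : Cfg dz} {ρ M : ℝ} {G : Wsp dm → ℝ} (hM : 0 ≤ M) (hG : ∀ w, 0 ≤ G w)
    (hdet : ∀ z, ‖z - R • z₀‖ ≤ ρ → (S.Dy φ 8 (cmb ψ 0 z)).det ≠ 0)
    (hder : ∀ z, ‖z - R • z₀‖ ≤ ρ → ∀ i A w, |fderiv ℝ (fun z => gn S φ ψ z w) z (EuclideanSpace.single (i, A) 1)| ≤
      M * G w)
    {a b : Cfg dz} (ha : ‖a - R • z₀‖ ≤ ρ) (hb : ‖b - R • z₀‖ ≤ ρ) (w : Wsp dm) :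
    |gn S φ ψ a w - gn S φ ψ b w| ≤ (9 * dz * M * ‖a - b‖) * G w := by
  have hop : IsOpen {p : Cfg dz × Wsp dm | (S.Dy φ 8 (cmb ψ 0 p.1)).det ≠ 0} :=
    isOpen_ne_fun ((uf_det_cont S φ ψ).comp continuous_fst) continuous_const
  have hdiff : ∀ z ∈ Metric.closedBall (R • z₀) ρ, DifferentiableAt ℝ (fun z => gn S φ ψ z w) z := by
    intro z hz
    rw [Metric.mem_closedBall, dist_eq_norm] at hz
    have hm : ((z, w) : Cfg dz × Wsp dm) ∈ {p : Cfg dz × Wsp dm | (S.Dy φ 8 (cmb ψ 0 p.1)).det ≠ 0} := hdet z hz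
    have h1 : DifferentiableAt ℝ (fun p : Cfg dz × Wsp dm => gn S φ ψ p.1 p.2) (z, w) :=
      (hC.contDiffAt (hop.mem_nhds hm)).differentiableAt (by simp)
    have h2 : DifferentiableAt ℝ (fun z : Cfg dz => (z, w)) z := by fun_prop
    exact h1.comp z h2
  have hbd : ∀ z ∈ Metric.closedBall (R • z₀) ρ, ‖fderiv ℝ (fun z => gn S φ ψ z w) z‖ ≤ 9 * dz * (M * G w) := by
    intro z hz
    rw [Metric.mem_closedBall, dist_eq_norm] at hz
    have h1 := uf_opnorm (L := fderiv ℝ (fun z => gn S φ ψ z w) z) (M := M * G w)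
      (mul_nonneg hM (hG w)) (fun p => hder z hz p.1 p.2 w)
    rw [Fintype.card_prod, Fintype.card_fin, Fintype.card_fin] at h1
    push_cast at h1
    exact h1
  have h3 := (convex_closedBall (R • z₀) ρ).norm_image_sub_le_of_norm_fderiv_le (𝕜 := ℝ) hdiff hbd
    (by rw [Metric.mem_closedBall, dist_eq_norm]; exact hb) (by rw [Metric.mem_closedBall, dist_eq_norm]; exact ha)
  rw [Real.norm_eq_abs] at h3
  refine h3.trans (le_of_eq ?_)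
  ring

lemma uf_int_of_one {g : Wsp dm → ℝ} (h : ∫ w, g w ^ 2 = 1) : Integrable (fun w => g w ^ 2) :=
  Integrable.of_integral_ne_zero (by rw [h]; exact one_ne_zero)

lemma uf_sq_bound {u : Wsp dm → ℝ} (hu : Continuous u) {T R c : ℝ} (hR : 0 < R) (hc : 0 < c)
    (h : ∀ w, |u w| ≤ T * (R ^ (2 * dm) * Real.exp (-(c * R * ‖w‖ ^ 2)))) :
    Integrable (fun w => u w ^ 2) ∧ ∫ w, u w ^ 2 ≤ T ^ 2 * (Real.pi / (2 * c)) ^ (4 * dm) := by
  obtain ⟨g1, g2⟩ := uf_gauss dm (b := 2 * c * R) (by positivity)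
  have e : ∀ w : Wsp dm, (T * (R ^ (2 * dm) * Real.exp (-(c * R * ‖w‖ ^ 2)))) ^ 2 =
      (T ^ 2 * R ^ (4 * dm)) * Real.exp (-(2 * c * R * ‖w‖ ^ 2)) := by
    intro w
    have e1 : Real.exp (-(2 * c * R * ‖w‖ ^ 2)) = Real.exp (-(c * R * ‖w‖ ^ 2)) ^ 2 := by
      rw [← Real.exp_nat_mul]
      congr 1
      push_cast
      ring
    have e2 : R ^ (4 * dm) = (R ^ (2 * dm)) ^ 2 := by
      rw [← pow_mul]
      congr 1
      ring
    rw [e1, e2]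
    ring
  have hle : ∀ w, u w ^ 2 ≤ (T ^ 2 * R ^ (4 * dm)) * Real.exp (-(2 * c * R * ‖w‖ ^ 2)) := by
    intro w
    rw [← e w, ← sq_abs (u w)]
    exact pow_le_pow_left₀ (abs_nonneg _) (h w) 2
  have i1 : Integrable (fun w => u w ^ 2) := by
    refine (g1.const_mul (T ^ 2 * R ^ (4 * dm))).mono' (hu.pow 2).aestronglyMeasurable
      (Eventually.of_forall fun w => ?_)
    rw [Real.norm_eq_abs, abs_of_nonneg (sq_nonneg _)]
    exact hle w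
  refine ⟨i1, ?_⟩
  calc ∫ w, u w ^ 2 ≤ ∫ w : Wsp dm, (T ^ 2 * R ^ (4 * dm)) * Real.exp (-(2 * c * R * ‖w‖ ^ 2)) :=
        integral_mono i1 (g1.const_mul _) hle
    _ = (T ^ 2 * R ^ (4 * dm)) * (Real.pi / (2 * c * R)) ^ (4 * dm) := by rw [integral_const_mul, g2]
    _ = T ^ 2 * (Real.pi / (2 * c)) ^ (4 * dm) := by
        rw [mul_assoc, ← mul_pow]
        congr 2
        field_simp

/-! ### the statement -/

omit [InnerProductSpace ℂ F] in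
lemma uf_two {f u v : Wsp dm → F} (h1 : Integrable (fun w => ‖f w - u w‖ ^ 2))
    (h2 : Integrable (fun w => ‖u w - v w‖ ^ 2)) :
    nsf (fun w => f w - v w) ≤ 2 * nsf (fun w => f w - u w) + 2 * nsf (fun w => u w - v w) := by
  unfold nsf
  have e := uf_lin3 (μ := (volume : Measure (Wsp dm))) 2 2 0 h1 h2 h2
  rw [zero_mul, add_zero] at e
  rw [← e]
  refine integral_mono_of_nonneg (Eventually.of_forall fun w => by positivity)
    (((h1.const_mul 2).add (h2.const_mul 2)).add (h2.const_mul 0)) (Eventually.of_forall fun w => ?_)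
  have h3 : ‖f w - v w‖ ≤ ‖f w - u w‖ + ‖u w - v w‖ := norm_sub_le_norm_sub_add_norm_sub _ _ _
  have h4 := pow_le_pow_left₀ (norm_nonneg _) h3 2
  show ‖f w - v w‖ ^ 2 ≤ 2 * ‖f w - u w‖ ^ 2 + 2 * ‖u w - v w‖ ^ 2 + 0 * ‖u w - v w‖ ^ 2
  nlinarith [sq_nonneg (‖f w - u w‖ - ‖u w - v w‖)]

lemma uf_int_sub {f : Wsp dm → F} (hf : FT f) {g : Wsp dm → ℝ} (hg : Continuous g)
    (hg2 : Integrable (fun w => g w ^ 2)) (v : F) :
    Integrable (fun w => ‖f w - ((g w : ℝ) : ℂ) • v‖ ^ 2) := by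
  have hc : Continuous fun w => ‖f w - ((g w : ℝ) : ℂ) • v‖ ^ 2 :=
    ((hf.1.continuous.sub ((Complex.continuous_ofReal.comp hg).smul continuous_const)).norm).pow 2
  refine (((uf_ft_int hf).const_mul 2).add (hg2.const_mul (2 * ‖v‖ ^ 2))).mono' hc.aestronglyMeasurable
    (Eventually.of_forall fun w => ?_)
  rw [Real.norm_eq_abs, abs_of_nonneg (by positivity)]
  have h3 : ‖f w - ((g w : ℝ) : ℂ) • v‖ ≤ ‖f w‖ + |g w| * ‖v‖ := by
    refine (norm_sub_le _ _).trans (le_of_eq ?_)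
    rw [norm_smul, Complex.norm_real, Real.norm_eq_abs]
  have h4 := pow_le_pow_left₀ (norm_nonneg _) h3 2
  show ‖f w - ((g w : ℝ) : ℂ) • v‖ ^ 2 ≤ 2 * ‖f w‖ ^ 2 + 2 * ‖v‖ ^ 2 * g w ^ 2
  have h5 : (|g w| * ‖v‖) ^ 2 = ‖v‖ ^ 2 * g w ^ 2 := by
    rw [mul_pow, sq_abs]; ring
  nlinarith [sq_nonneg (‖f w‖ - |g w| * ‖v‖)]

lemma uf_int_sub2 {g h : Wsp dm → ℝ} (hg : Continuous g) (hh : Continuous h)
    (hg2 : Integrable (fun w => g w ^ 2)) (hh2 : Integrable (fun w => h w ^ 2)) (u v : F) :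
    Integrable (fun w => ‖((g w : ℝ) : ℂ) • u - ((h w : ℝ) : ℂ) • v‖ ^ 2) := by
  have hc : Continuous fun w => ‖((g w : ℝ) : ℂ) • u - ((h w : ℝ) : ℂ) • v‖ ^ 2 :=
    ((((Complex.continuous_ofReal.comp hg).smul continuous_const).sub
      ((Complex.continuous_ofReal.comp hh).smul continuous_const)).norm).pow 2
  refine ((hg2.const_mul (2 * ‖u‖ ^ 2)).add (hh2.const_mul (2 * ‖v‖ ^ 2))).mono' hc.aestronglyMeasurable
    (Eventually.of_forall fun w => ?_)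
  rw [Real.norm_eq_abs, abs_of_nonneg (by positivity)]
  have h3 : ‖((g w : ℝ) : ℂ) • u - ((h w : ℝ) : ℂ) • v‖ ≤ |g w| * ‖u‖ + |h w| * ‖v‖ := by
    refine (norm_sub_le _ _).trans (le_of_eq ?_)
    rw [norm_smul, norm_smul, Complex.norm_real, Complex.norm_real, Real.norm_eq_abs, Real.norm_eq_abs]
  have h4 := pow_le_pow_left₀ (norm_nonneg _) h3 2
  show ‖((g w : ℝ) : ℂ) • u - ((h w : ℝ) : ℂ) • v‖ ^ 2 ≤ 2 * ‖u‖ ^ 2 * g w ^ 2 + 2 * ‖v‖ ^ 2 * h w ^ 2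
  have h5 : (|g w| * ‖u‖) ^ 2 = ‖u‖ ^ 2 * g w ^ 2 := by
    rw [mul_pow, sq_abs]; ring
  have h6 : (|h w| * ‖v‖) ^ 2 = ‖v‖ ^ 2 * h w ^ 2 := by
    rw [mul_pow, sq_abs]; ring
  nlinarith [sq_nonneg (|g w| * ‖u‖ - |h w| * ‖v‖)]

lemma uf_cont_aux {X Y Z : Type*} [TopologicalSpace X] [TopologicalSpace Y] [TopologicalSpace Z]
    (G : X → Y → Z) (U : Set X) (h : ContinuousOn (fun p : X × Y => G p.1 p.2) {p : X × Y | p.1 ∈ U})
    {z : X} (hz : z ∈ U) : Continuous (G z) :=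
  h.comp_continuous (f := fun w : Y => ((z, w) : X × Y)) (continuous_const.prodMk continuous_id) (fun _ => hz)

lemma uf_cont (S : Setup d F) (φ : Spl dh dm d) (ψ : Spl ds dz dh)
    (hsm : ContDiffOn ℝ ∞ (fun p : Cfg dz × Wsp dm => gn S φ ψ p.1 p.2) {p | (S.Dy φ 8 (cmb ψ 0 p.1)).det ≠ 0})
    {z : Cfg dz} (hd : (S.Dy φ 8 (cmb ψ 0 z)).det ≠ 0) : Continuous fun w => gn S φ ψ z w :=
  uf_cont_aux (gn S φ ψ) {z : Cfg dz | (S.Dy φ 8 (cmb ψ 0 z)).det ≠ 0}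
    (ContDiffOn.continuousOn hsm) (z := z) hd

/-- the estimate for one pair of vacua -/
lemma uf_est {f : Wsp dm → F} (hf : FT f) {g h : Wsp dm → ℝ} (hg : Continuous g) (hh : Continuous h)
    (g1 : ∫ w, g w ^ 2 = 1) (h1 : ∫ w, h w ^ 2 = 1) (hi : Integrable (fun w => (g w - h w) ^ 2)) {κ : ℝ}
    (gh : ∫ w, (g w - h w) ^ 2 ≤ κ ^ 2) {P Q : F →L[ℂ] F} (hQ : ‖Q‖ ≤ 1) (hPQ : ‖P - Q‖ ≤ κ)
    [CompleteSpace F] :
    nsf (fun w => f w - ((h w : ℝ) : ℂ) • ∫ w', ((h w' : ℝ) : ℂ) • Q (f w')) ≤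
      2 * nsf (fun w => f w - ((g w : ℝ) : ℂ) • P (∫ w', ((g w' : ℝ) : ℂ) • f w')) + 18 * κ ^ 2 * nsf f := by
  have hcomm : (∫ w', ((h w' : ℝ) : ℂ) • Q (f w')) = Q (∫ w', ((h w' : ℝ) : ℂ) • f w') := by
    rw [← ContinuousLinearMap.integral_comp_comm _ (uf_gf_int hf hh)]
    refine integral_congr_ae (Eventually.of_forall fun w => ?_)
    simp only [map_smul]
  rw [hcomm]
  have ig := uf_int_of_one g1
  have ih := uf_int_of_one h1
  have t1 := uf_two (f := f) (u := fun w => ((g w : ℝ) : ℂ) • P (∫ w', ((g w' : ℝ) : ℂ) • f w'))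
    (v := fun w => ((h w : ℝ) : ℂ) • Q (∫ w', ((h w' : ℝ) : ℂ) • f w'))
    (uf_int_sub hf hg ig _) (uf_int_sub2 hg hh ig ih _ _)
  have t2 := uf_diff hf hg hh ig ih hi g1 h1 gh hQ hPQ
  linarith

lemma uf_par1 {δ c0 C1 e0 : ℝ} (hδ : 0 < δ) (hc0 : 0 < c0) (hC1 : 0 < C1) (he0 : 0 < e0) :
    ∃ ε : ℝ, 0 < ε ∧ ε ≤ e0 ∧ 2 * (C1 * ε ^ 2) / c0 ≤ δ / 2 := by
  refine ⟨min e0 (Real.sqrt (δ * c0 / (4 * C1))), lt_min he0 (by positivity), min_le_left _ _, ?_⟩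
  have h1 : (min e0 (Real.sqrt (δ * c0 / (4 * C1)))) ^ 2 ≤ δ * c0 / (4 * C1) := by
    have h2 : 0 ≤ min e0 (Real.sqrt (δ * c0 / (4 * C1))) := le_min he0.le (Real.sqrt_nonneg _)
    calc (min e0 (Real.sqrt (δ * c0 / (4 * C1)))) ^ 2 ≤ (Real.sqrt (δ * c0 / (4 * C1))) ^ 2 :=
          pow_le_pow_left₀ h2 (min_le_right _ _) 2
      _ = δ * c0 / (4 * C1) := Real.sq_sqrt (by positivity)
  rw [div_le_iff₀ hc0]
  calc 2 * (C1 * (min e0 (Real.sqrt (δ * c0 / (4 * C1)))) ^ 2) ≤ 2 * (C1 * (δ * c0 / (4 * C1))) := by gcongr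
    _ = δ / 2 * c0 := by field_simp; ring

lemma uf_par2 {ε₀ r1 ε K κ Kg G2 : ℝ} (hε₀ : 0 < ε₀) (hr1 : 0 < r1) (hε : 0 < ε) (hK : 0 < K) (hκ0 : 0 < κ)
    (hKg0 : 0 ≤ Kg) (hG20 : 0 < G2) :
    ∃ r : ℝ, 0 < r ∧ r ≤ ε₀ / 2 ∧ r ≤ r1 ∧ K * (2 * r) ≤ ε ∧ Kg * r * G2 ≤ κ := by
  refine ⟨min (min (ε₀ / 2) r1) (min (ε / (2 * K)) (κ / (1 + Kg * G2))), ?_, ?_, ?_, ?_, ?_⟩
  · exact lt_min (lt_min (by positivity) hr1) (lt_min (by positivity) (by positivity))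
  · exact (min_le_left _ _).trans (min_le_left _ _)
  · exact (min_le_left _ _).trans (min_le_right _ _)
  · have h1 : min (min (ε₀ / 2) r1) (min (ε / (2 * K)) (κ / (1 + Kg * G2))) ≤ ε / (2 * K) :=
      (min_le_right _ _).trans (min_le_left _ _)
    calc K * (2 * min (min (ε₀ / 2) r1) (min (ε / (2 * K)) (κ / (1 + Kg * G2)))) ≤
          K * (2 * (ε / (2 * K))) := by gcongr
      _ = ε := by field_simp
  · have h1 : min (min (ε₀ / 2) r1) (min (ε / (2 * K)) (κ / (1 + Kg * G2))) ≤ κ / (1 + Kg * G2) :=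
      (min_le_right _ _).trans (min_le_right _ _)
    have hp : 0 < 1 + Kg * G2 := by positivity
    calc Kg * min (min (ε₀ / 2) r1) (min (ε / (2 * K)) (κ / (1 + Kg * G2))) * G2 ≤
          Kg * (κ / (1 + Kg * G2)) * G2 := by gcongr
      _ = κ * (Kg * G2 / (1 + Kg * G2)) := by field_simp
      _ ≤ κ * 1 := by
          gcongr
          rw [div_le_one hp]
          linarith
      _ = κ := mul_one _

lemma uf_fin {c0 R N κ δ C1 ε E X Y : ℝ} (hc0 : 0 < c0) (hR : 0 < R) (hN0 : 0 ≤ N) (hκ2 : 18 * κ ^ 2 = δ / 2)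
    (hε2 : 2 * (C1 * ε ^ 2) / c0 ≤ δ / 2) (t3 : c0 * R * X ≤ E + C1 * ε ^ 2 * R * N)
    (t1 : Y ≤ 2 * X + 18 * κ ^ 2 * N) : Y ≤ 2 / c0 / R * E + δ * N := by
  have t4 : X ≤ 1 / c0 / R * E + C1 * ε ^ 2 / c0 * N := by
    have hcR : 0 < c0 * R := by positivity
    have h1 : X ≤ (E + C1 * ε ^ 2 * R * N) / (c0 * R) := by
      rw [le_div_iff₀ hcR]
      linarith
    refine h1.trans (le_of_eq ?_)
    field_simp
  have t5 : 2 * (C1 * ε ^ 2 / c0 * N) ≤ δ / 2 * N := by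
    have : 2 * (C1 * ε ^ 2 / c0 * N) = 2 * (C1 * ε ^ 2) / c0 * N := by ring
    rw [this]
    exact mul_le_mul_of_nonneg_right hε2 hN0
  have t7 : 2 * (1 / c0 / R * E) = 2 / c0 / R * E := by ring
  rw [hκ2] at t1
  linarith

/-- norm of `cmb ψ 0 z`, determinants near `z₀` at all scales -/
lemma uf_geo (hcmb : CmbStmt) (S : Setup d F) (φ : Spl dh dm d) (ψ : Spl ds dz dh) {z₀ : Cfg dz} {ε₀ : ℝ}
    (hε₀ : 0 < ε₀) (hdet : ∀ y : Cfg dh, ‖y - cmb ψ 0 z₀‖ ≤ 4 * ε₀ → (S.Dy φ 8 y).det ≠ 0) :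
    (∀ z : Cfg dz, ‖z - z₀‖ ≤ 4 * ε₀ → (S.Dy φ 8 (cmb ψ 0 z)).det ≠ 0) ∧
    ∀ (R : ℝ), 0 < R → ∀ z : Cfg dz, ‖z - R • z₀‖ ≤ ε₀ * R → (S.Dy φ 8 (cmb ψ 0 z)).det ≠ 0 := by
  obtain ⟨-, -, -, hcn, hcs, hcl, -⟩ := hcmb ds dz dh ψ
  have hn0 : ∀ z : Cfg dz, ‖cmb ψ (0 : Cfg ds) z‖ = ‖z‖ := by
    intro z
    have := hcn 0 z
    rw [norm_zero, zero_pow two_ne_zero, zero_add] at this
    exact (sq_eq_sq₀ (norm_nonneg _) (norm_nonneg _)).1 this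
  have hdz : ∀ z : Cfg dz, ‖z - z₀‖ ≤ 4 * ε₀ → (S.Dy φ 8 (cmb ψ 0 z)).det ≠ 0 := by
    intro z hz
    refine hdet _ ?_
    rw [hcs, sub_zero, hn0]
    exact hz
  refine ⟨hdz, ?_⟩
  intro R hR z hz
  have h1 : ‖R⁻¹ • z - z₀‖ ≤ 4 * ε₀ := by
    have e : R⁻¹ • z - z₀ = R⁻¹ • (z - R • z₀) := by
      rw [smul_sub, smul_smul, inv_mul_cancel₀ hR.ne', one_smul]
    rw [e, norm_smul, Real.norm_eq_abs, abs_of_pos (inv_pos.2 hR)]
    calc R⁻¹ * ‖z - R • z₀‖ ≤ R⁻¹ * (ε₀ * R) := mul_le_mul_of_nonneg_left hz (inv_pos.2 hR).le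
      _ = ε₀ := by field_simp
      _ ≤ 4 * ε₀ := by linarith
  have h2 := hdz _ h1
  have h3 := (uf_det_smul S φ hR (cmb ψ 0 (R⁻¹ • z))).2 h2
  have h4 : R • cmb ψ (0 : Cfg ds) (R⁻¹ • z) = cmb ψ 0 z := by
    rw [hcl, smul_zero, smul_smul, mul_inv_cancel₀ hR.ne', one_smul]
  rwa [h4] at h3

lemma uf_DY_bd (hcmb : CmbStmt) (S : Setup d F) (φ : Spl dh dm d) (ψ : Spl ds dz dh) {K r ε R : ℝ} (hK : 0 < K)
    (hR : 0 < R) (hKb : ∀ (i : Fin 9) (y : Cfg dh) (B C : Fin dm), |S.Dy φ i y B C| ≤ K * ‖y‖)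
    (hrc : K * (2 * r) ≤ ε) {yz z₁ : Cfg dz} (hyz1 : ‖yz - R • z₁‖ ≤ r * R) {ys : Cfg ds} (hys : ‖ys‖ ≤ r * R)
    (i : Fin 9) (A B : Fin dm) :
    |S.DY φ (cmb ψ ys yz) i A B - R * Dz S φ ψ z₁ i A B| ≤ ε * R := by
  obtain ⟨-, -, -, hcn, hcs, hcl, -⟩ := hcmb ds dz dh ψ
  have h1 : S.DY φ (cmb ψ ys yz) i A B - R * Dz S φ ψ z₁ i A B =
      S.Dy φ i (cmb ψ ys (yz - R • z₁)) A B := by
    have h2 : cmb ψ ys (yz - R • z₁) = cmb ψ ys yz - R • cmb ψ 0 z₁ := by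
      rw [hcl, hcs, smul_zero, sub_zero]
    rw [h2, uf_Dy_sub, uf_Dy_smul]
    rfl
  rw [h1]
  refine (hKb i _ A B).trans ?_
  have h3 : ‖cmb ψ ys (yz - R • z₁)‖ ≤ ‖ys‖ + ‖yz - R • z₁‖ := by
    refine abs_le_of_sq_le_sq' ?_ (by positivity) |>.2
    rw [hcn]
    nlinarith [norm_nonneg ys, norm_nonneg (yz - R • z₁)]
  calc K * ‖cmb ψ ys (yz - R • z₁)‖ ≤ K * (r * R + r * R) := by
        refine mul_le_mul_of_nonneg_left ?_ hK.le
        linarith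
    _ = K * (2 * r) * R := by ring
    _ ≤ ε * R := mul_le_mul_of_nonneg_right hrc hR.le

/-- local form at a scalar point `z₁` -/
lemma uf_loc (S : Setup d F) [FiniteDimensional ℂ F] (hFib : ∀ (dh dm : ℕ) (φ : Spl dh dm d), FibStmt S φ)
    (hSc : ScalStmt S) (hcmb : CmbStmt) (φ : Spl dh dm d) (ψ : Spl ds dz dh) (z₀ : Cfg dz)
    (hstd : Std2 S φ ψ z₀) {ε₀ c C : ℝ} (hε₀ : 0 < ε₀) (hc : 0 < c) (hC : 0 < C)
    (hdet : ∀ y : Cfg dh, ‖y - cmb ψ 0 z₀‖ ≤ 4 * ε₀ → (S.Dy φ 8 y).det ≠ 0)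
    (hsm : ContDiffOn ℝ ∞ (fun p : Cfg dz × Wsp dm => gn S φ ψ p.1 p.2) {p | (S.Dy φ 8 (cmb ψ 0 p.1)).det ≠ 0})
    (hgn : ∀ (R : ℝ) (yz : Cfg dz), 0 < R → ‖yz - R • z₀‖ ≤ ε₀ * R →
      (∫ w, gn S φ ψ yz w ^ 2 = 1) ∧ (∀ w, gn S φ ψ yz (-w) = gn S φ ψ yz w) ∧
      (∀ w, 0 ≤ gn S φ ψ yz w ∧ gn S φ ψ yz w ≤ C * R ^ (2 * dm) * Real.exp (-(c * R * ‖w‖ ^ 2))) ∧
      (∀ i A w, |fderiv ℝ (fun z => gn S φ ψ z w) yz (EuclideanSpace.single (i, A) 1)| ≤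
        C / R * (R ^ (2 * dm) * Real.exp (-(c * R * ‖w‖ ^ 2)))))
    {z₁ : Cfg dz} (hz₁ : ‖z₁ - z₀‖ ≤ ε₀ / 2) {δ : ℝ} (hδ : 0 < δ) :
    ∃ r C' : ℝ, 0 < r ∧ 0 < C' ∧ ∀ R : ℝ, 0 < R → ∀ yz, ‖R⁻¹ • yz - z₁‖ < r → ∀ ys : Cfg ds, ‖ys‖ ≤ r * R →
      ∀ f : Wsp dm → F, FT f →
      nsf (fun w => f w - ((gn S φ ψ yz w : ℝ) : ℂ) • ∫ w', ((gn S φ ψ yz w' : ℝ) : ℂ) • Pz S φ ψ yz (f w')) ≤
        C' / R * S.e1 φ (S.DY φ (cmb ψ ys yz)) f + δ * nsf f := by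
  obtain ⟨hfrz, hhom, -, hPs⟩ := hSc inferInstance dh dm ds dz φ ψ z₀ hstd
  obtain ⟨hdz, hdR⟩ := uf_geo hcmb S φ ψ hε₀ hdet
  have hd1 := hdz z₁ (by linarith)
  obtain ⟨hF0, hO0⟩ := hfrz z₁ hd1
  obtain ⟨c0, C1, e0, hc0, hC1, he0, hfib⟩ := hFib dh dm φ inferInstance _ _ hF0 hO0
  obtain ⟨K, hK, hKb⟩ := uf_Dy_bd S φ
  -- parameters
  obtain ⟨κ, hκ0, hκ2⟩ : ∃ κ : ℝ, 0 < κ ∧ 18 * κ ^ 2 = δ / 2 := by
    refine ⟨Real.sqrt δ / 6, by positivity, ?_⟩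
    rw [div_pow, Real.sq_sqrt hδ.le]; ring
  obtain ⟨ε, hε, hεe, hε2⟩ := uf_par1 hδ hc0 hC1 he0
  obtain ⟨r1, hr1, hPc⟩ : ∃ r1 : ℝ, 0 < r1 ∧ ∀ a : Cfg dz, ‖a - z₁‖ < r1 → ‖Pz S φ ψ a - Pz S φ ψ z₁‖ ≤ κ := by
    have hop : IsOpen {z : Cfg dz | (S.Dy φ 8 (cmb ψ 0 z)).det ≠ 0} :=
      isOpen_ne_fun (uf_det_cont S φ ψ) continuous_const
    have hca : ContinuousAt (fun yz => Pz S φ ψ yz) z₁ :=
      (hPs.contDiffAt (hop.mem_nhds hd1)).continuousAt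
    obtain ⟨r1, hr1, h⟩ := Metric.continuousAt_iff.1 hca κ hκ0
    refine ⟨r1, hr1, fun a ha => ?_⟩
    have := h (by rw [dist_eq_norm]; exact ha)
    rw [dist_eq_norm] at this
    exact this.le
  have hKg0 : 0 ≤ 9 * dz * C := by positivity
  have hG20 : 0 < (Real.pi / (2 * c)) ^ (2 * dm) := by positivity
  have hG4 : (Real.pi / (2 * c)) ^ (4 * dm) = ((Real.pi / (2 * c)) ^ (2 * dm)) ^ 2 := by
    rw [← pow_mul]; congr 1; ring
  obtain ⟨r, hr, hra, hrb, hrc, hrd⟩ := uf_par2 hε₀ hr1 hε hK hκ0 hKg0 hG20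
  refine ⟨r, 2 / c0, hr, by positivity, ?_⟩
  intro R hR yz hyz ys hys f hf
  -- distances
  have hyz1 : ‖yz - R • z₁‖ ≤ r * R := by
    have e : yz - R • z₁ = R • (R⁻¹ • yz - z₁) := by
      rw [smul_sub, smul_smul, mul_inv_cancel₀ hR.ne', one_smul]
    rw [e, norm_smul, Real.norm_eq_abs, abs_of_pos hR, mul_comm]
    exact mul_le_mul_of_nonneg_right hyz.le hR.le
  have hb0 : ‖R • z₁ - R • z₀‖ ≤ ε₀ / 2 * R := by
    rw [← smul_sub, norm_smul, Real.norm_eq_abs, abs_of_pos hR, mul_comm]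
    exact mul_le_mul_of_nonneg_right hz₁ hR.le
  have hb1 : ‖R • z₁ - R • z₀‖ ≤ ε₀ * R :=
    hb0.trans (mul_le_mul_of_nonneg_right (by linarith) hR.le)
  have ha1 : ‖yz - R • z₀‖ ≤ ε₀ * R := by
    have h2 := norm_sub_le_norm_sub_add_norm_sub yz (R • z₁) (R • z₀)
    have h3 : r * R ≤ ε₀ / 2 * R := mul_le_mul_of_nonneg_right hra hR.le
    linarith
  obtain ⟨ga1, -, -, -⟩ := hgn R yz hR ha1
  obtain ⟨gb1, -, -, -⟩ := hgn R (R • z₁) hR hb1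
  have ca := uf_cont S φ ψ hsm (hdR R hR yz ha1)
  have cb := uf_cont S φ ψ hsm (hdR R hR (R • z₁) hb1)
  -- difference of the densities
  have hdiff : ∀ w, |gn S φ ψ (R • z₁) w - gn S φ ψ yz w| ≤
      (9 * dz * C * r) * (R ^ (2 * dm) * Real.exp (-(c * R * ‖w‖ ^ 2))) := by
    intro w
    have h1 := uf_gn_diff S φ ψ hsm (R := R) (z₀ := z₀) (ρ := ε₀ * R) (M := C / R)
      (G := fun w => R ^ (2 * dm) * Real.exp (-(c * R * ‖w‖ ^ 2))) (by positivity) (fun w => by positivity)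
      (fun z hz => hdR R hR z hz) (fun z hz i A w => (hgn R z hR hz).2.2.2 i A w) hb1 ha1 w
    refine h1.trans ?_
    refine mul_le_mul_of_nonneg_right ?_ (by positivity)
    have h2 : ‖R • z₁ - yz‖ ≤ r * R := by rw [norm_sub_rev]; exact hyz1
    calc 9 * dz * (C / R) * ‖R • z₁ - yz‖ ≤ 9 * dz * (C / R) * (r * R) := by gcongr
      _ = 9 * dz * C * r := by field_simp
  obtain ⟨id1, id2⟩ := uf_sq_bound (cb.sub ca) hR hc hdiff
  have hgg : ∫ w, (gn S φ ψ (R • z₁) w - gn S φ ψ yz w) ^ 2 ≤ κ ^ 2 := by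
    refine id2.trans ?_
    rw [hG4, ← mul_pow]
    exact pow_le_pow_left₀ (by positivity) hrd 2
  -- projections
  have hPa : Pz S φ ψ yz = Pz S φ ψ (R⁻¹ • yz) := by
    have h1 : ‖R⁻¹ • yz - z₀‖ ≤ 4 * ε₀ := by
      have := norm_sub_le_norm_sub_add_norm_sub (R⁻¹ • yz) z₁ z₀
      linarith
    have h2 := (hhom (R⁻¹ • yz) (hdz _ h1) R hR).2
    rw [smul_smul, mul_inv_cancel₀ hR.ne', one_smul] at h2
    exact h2
  have hPb : Pz S φ ψ (R • z₁) = Pz S φ ψ z₁ := (hhom z₁ hd1 R hR).2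
  have hPab : ‖Pz S φ ψ (R • z₁) - Pz S φ ψ yz‖ ≤ κ := by
    rw [hPa, hPb, norm_sub_rev]
    exact hPc _ (hyz.trans_le hrb)
  have hPn : ‖Pz S φ ψ yz‖ ≤ 1 := Submodule.starProjection_norm_le _
  have t1 := uf_est hf cb ca gb1 ga1 id1 hgg hPn hPab
  -- the fibre gap
  have hD := uf_DY_bd hcmb S φ ψ hK hR hKb hrc hyz1 hys
  obtain ⟨-, hfb⟩ := hfib R hR ε hε.le hεe (S.DY φ (cmb ψ ys yz)) hD
  obtain ⟨-, t3, -⟩ := hfb f hf
  have e3 : (fun w => f w - S.PR φ (Dz S φ ψ z₁) (omc S.κ (Dz S φ ψ z₁)) R f w) =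
      fun w => f w - ((gn S φ ψ (R • z₁) w : ℝ) : ℂ) •
        Pz S φ ψ (R • z₁) (∫ w', ((gn S φ ψ (R • z₁) w' : ℝ) : ℂ) • f w') := by
    funext w
    rw [uf_vac S φ ψ hcmb hd1 hR (hhom z₁ hd1 R hR).1 hPb f w]
  rw [e3] at t3
  have hN0 : 0 ≤ nsf f := integral_nonneg fun w => by positivity
  exact uf_fin hc0 hR hN0 hκ2 hε2 t3 t1

/-- **L8** -/
theorem ufOf (S : Setup d F) : UFOfStmt S := by
  intro hFib hSc hGn hcmb hfd dh dm ds dz φ ψ z₀ hstd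
  obtain ⟨ε₀, c, C, hε₀, hc, hC, hdet, hsm, hgn⟩ := hGn dh dm ds dz φ ψ z₀ hstd
  refine ⟨ε₀ / 2, by positivity, fun δ hδ => ?_⟩
  have he1 : ∀ (D : Fin 9 → Matrix (Fin dm) (Fin dm) ℝ) (f : Wsp dm → F), 0 ≤ S.e1 φ D f := by
    intro D f
    unfold Setup.e1
    exact mul_nonneg (by norm_num) (Finset.sum_nonneg fun β _ => integral_nonneg fun w => by positivity)
  have hcomp : IsCompact (Metric.closedBall z₀ (ε₀ / 2)) := isCompact_closedBall _ _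
  have key : ∃ η C : ℝ, 0 < η ∧ 0 < C ∧ ∀ R : ℝ, 0 < R → ∀ yz, R⁻¹ • yz ∈ Metric.closedBall z₀ (ε₀ / 2) →
      ∀ ys : Cfg ds, ‖ys‖ ≤ η * R → ∀ f : Wsp dm → F, FT f →
      nsf (fun w => f w - ((gn S φ ψ yz w : ℝ) : ℂ) • ∫ w', ((gn S φ ψ yz w' : ℝ) : ℂ) • Pz S φ ψ yz (f w')) ≤
        C / R * S.e1 φ (S.DY φ (cmb ψ ys yz)) f + δ * nsf f := by
    refine hcomp.induction_on (p := fun s => ∃ η C : ℝ, 0 < η ∧ 0 < C ∧ ∀ R : ℝ, 0 < R → ∀ yz, R⁻¹ • yz ∈ s →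
      ∀ ys : Cfg ds, ‖ys‖ ≤ η * R → ∀ f : Wsp dm → F, FT f →
      nsf (fun w => f w - ((gn S φ ψ yz w : ℝ) : ℂ) • ∫ w', ((gn S φ ψ yz w' : ℝ) : ℂ) • Pz S φ ψ yz (f w')) ≤
        C / R * S.e1 φ (S.DY φ (cmb ψ ys yz)) f + δ * nsf f) ?_ ?_ ?_ ?_
    · exact ⟨1, 1, one_pos, one_pos, fun R _ yz h => absurd h (Set.notMem_empty _)⟩
    · rintro s t hst ⟨η, C, h1, h2, h3⟩
      exact ⟨η, C, h1, h2, fun R hR yz h => h3 R hR yz (hst h)⟩
    · rintro s t ⟨η, C, h1, h2, h3⟩ ⟨η', C', h1', h2', h3'⟩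
      refine ⟨min η η', max C C', lt_min h1 h1', lt_max_of_lt_left h2, ?_⟩
      intro R hR yz h ys hys f hf
      rcases h with h | h
      · refine (h3 R hR yz h ys (hys.trans (mul_le_mul_of_nonneg_right (min_le_left _ _) hR.le)) f hf).trans ?_
        have := mul_le_mul_of_nonneg_right (div_le_div_of_nonneg_right (le_max_left C C') hR.le)
          (he1 (S.DY φ (cmb ψ ys yz)) f)
        linarith
      · refine (h3' R hR yz h ys (hys.trans (mul_le_mul_of_nonneg_right (min_le_right _ _) hR.le)) f hf).trans ?_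
        have := mul_le_mul_of_nonneg_right (div_le_div_of_nonneg_right (le_max_right C C') hR.le)
          (he1 (S.DY φ (cmb ψ ys yz)) f)
        linarith
    · intro z₁ hz₁
      rw [Metric.mem_closedBall, dist_eq_norm] at hz₁
      obtain ⟨r, C', hr, hC', h⟩ := uf_loc S hFib hSc hcmb φ ψ z₀ hstd hε₀ hc hC hdet hsm hgn hz₁ hδ
      refine ⟨Metric.ball z₁ r, mem_nhdsWithin_of_mem_nhds (Metric.ball_mem_nhds z₁ hr), r, C', hr, hC', ?_⟩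
      intro R hR yz hyz ys hys f hf
      rw [Metric.mem_ball, dist_eq_norm] at hyz
      exact h R hR yz hyz ys hys f hf
  obtain ⟨η, C', h1, h2, h3⟩ := key
  refine ⟨η, C', h1, h2, fun R hR yz hyz ys hys f hf => h3 R hR yz ?_ ys hys f hf⟩
  rw [Metric.mem_closedBall, dist_eq_norm]
  have e : R⁻¹ • yz - z₀ = R⁻¹ • (yz - R • z₀) := by
    rw [smul_sub, smul_smul, inv_mul_cancel₀ hR.ne', one_smul]
  rw [e, norm_smul, Real.norm_eq_abs, abs_of_pos (inv_pos.2 hR)]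
  calc R⁻¹ * ‖yz - R • z₀‖ ≤ R⁻¹ * (ε₀ / 2 * R) := mul_le_mul_of_nonneg_left hyz (inv_pos.2 hR).le
    _ = ε₀ / 2 := by field_simp

end Vale.Agent.P353.Z.AD
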