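import Vale.Agent.P353.AN.D.StmtL
import Vale.Agent.P353.AN.B.Lam

/-! # P353, all `N`, block D, L5: bilinears commuting with the `D_i` kill the fermionic vacuum -/

open MeasureTheory Filter Topology Matrix Kronecker
open scoped ContDiff

namespace Vale.Agent.P353.Z.AD

open LamPf

variable {d dh dm : ℕ} {F : Type*} [NormedAddCommGroup F] [InnerProductSpace ℂ F]

namespace VacSpinPf

variable (S : Setup d F) (D : Fin 9 → Matrix (Fin dm) (Fin dm) ℝ) (Om : Matrix (Fin dm) (Fin dm) ℝ)
  (φ : Spl dh dm d)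

/-- the fermion `θ_p` -/
noncomputable def thp (p : Fin 16 × Fin dm) : F →L[ℂ] F := S.th p.1 (φ (Sum.inr p.2))

lemma thp_anti (p q : Fin 16 × Fin dm) (v : F) :
    thp S φ p (thp S φ q v) + thp S φ q (thp S φ p v) = if p = q then v else 0 := by
  have h := congrArg (fun T : F →L[ℂ] F => T v) (S.th_anti p.1 (φ (Sum.inr p.2)) q.1 (φ (Sum.inr q.2)))
  have h1 : (p.1 = q.1 ∧ φ (Sum.inr p.2) = φ (Sum.inr q.2)) ↔ p = q := by
    rw [EmbeddingLike.apply_eq_iff_eq, Sum.inr.injEq, Prod.ext_iff]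
  change _ = _ at h
  simp only [h1] at h
  change thp S φ p (thp S φ q v) + thp S φ q (thp S φ p v) = _ at h
  rw [h]
  split_ifs <;> simp

lemma sum_sym (M : Matrix (Fin 16 × Fin dm) (Fin 16 × Fin dm) ℂ) (hM : Mᵀ = M) (v : F) :
    (2 : ℂ) • ∑ p, ∑ q, M p q • thp S φ p (thp S φ q v) = M.trace • v := by
  have h1 : ∑ p, ∑ q, M p q • thp S φ p (thp S φ q v) =
      ∑ p, ∑ q, M p q • thp S φ q (thp S φ p v) := by
    rw [Finset.sum_comm]
    refine Finset.sum_congr rfl fun p _ => Finset.sum_congr rfl fun q _ => ?_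
    have : M q p = M p q := congrFun (congrFun hM p) q
    rw [this]
  rw [two_smul]
  nth_rw 2 [h1]
  rw [← Finset.sum_add_distrib, Matrix.trace, Finset.sum_smul]
  refine Finset.sum_congr rfl fun p _ => ?_
  rw [← Finset.sum_add_distrib]
  simp only [← smul_add, thp_anti, smul_ite, smul_zero, Finset.sum_ite_eq, Finset.mem_univ, if_true,
    Matrix.diag_apply]

lemma Tm_mul (A B : Matrix (Fin 16 × Fin dm) (Fin 16 × Fin dm) ℂ) (r : Fin 16 × Fin dm) (v : F) :
    Tm S φ (A * B) r v = ∑ p, A r p • Tm S φ B p v := by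
  simp only [Tm, _root_.sum_apply, _root_.smul_apply, Finset.smul_sum, smul_smul, mul_apply,
    Finset.sum_smul]
  rw [Finset.sum_comm]

lemma trace_g (i : Fin 9) : (S.g i).trace = 0 := by
  obtain ⟨j, hj⟩ := exists_ne i
  have h1 : S.g i * S.g j + S.g j * S.g i = 0 := by
    rw [S.g_anti, if_neg hj.symm]
  have h2 : S.g j * S.g j = 1 := by
    have := S.g_anti j j
    rw [if_pos rfl, ← two_smul ℂ] at this
    have h3 : (2 : Matrix (Fin 16) (Fin 16) ℂ) = (2 : ℂ) • 1 := by
      ext a b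
      simp [Matrix.ofNat_apply, Matrix.one_apply]
    rw [h3] at this
    exact smul_right_injective _ (two_ne_zero (α := ℂ)) this
  have h3 : (S.g i).trace = (S.g j * S.g i * S.g j).trace := by
    rw [Matrix.trace_mul_comm, ← mul_assoc, h2, one_mul]
  have h4 : S.g j * S.g i * S.g j = - S.g i := by
    rw [eq_neg_of_add_eq_zero_right h1, neg_mul, mul_assoc, h2, mul_one]
  rw [h4, Matrix.trace_neg] at h3
  exact self_eq_neg.1 h3

end VacSpinPf

open VacSpinPf in
/-- **L5** -/
theorem vacSpin (S : Setup d F) (φ : Spl dh dm d) : VacSpinStmt S φ := by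
  intro D Om hD hO A hA hAD v hv
  have hOD : ∀ i, D i * Om = Om * D i := by
    intro i
    refine hO.comm (D i) ?_
    rw [Finset.mul_sum, Finset.sum_mul]
    refine Finset.sum_congr rfl fun j _ => ?_
    rw [← mul_assoc, hD.comm i j, mul_assoc, hD.comm i j, mul_assoc]
  have hAO : A * Om = Om * A := by
    refine hO.comm A ?_
    rw [Finset.mul_sum, Finset.sum_mul]
    refine Finset.sum_congr rfl fun j _ => ?_
    rw [← mul_assoc, hAD j, mul_assoc, hAD j, mul_assoc]
  have hpd : Om.PosDef := by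
    refine PosDef.of_dotProduct_mulVec_pos ?_ ?_
    · change Omᴴ = Om
      rw [conjTranspose_eq_transpose_of_trivial, hO.symm]
    · intro v hv
      rw [star_trivial]
      exact hO.pos v hv
  have hOu : IsUnit Om.det := isUnit_iff_ne_zero.2 hpd.det_pos.ne'
  have hinv : ∀ X : Matrix (Fin dm) (Fin dm) ℝ, X * Om = Om * X → X * Om⁻¹ = Om⁻¹ * X := by
    intro X hX
    have h1 : Om⁻¹ * (X * Om) * Om⁻¹ = Om⁻¹ * (Om * X) * Om⁻¹ := by rw [hX]
    rw [← mul_assoc Om⁻¹ Om, nonsing_inv_mul _ hOu, one_mul, mul_assoc Om⁻¹, mul_assoc X,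
      mul_nonsing_inv _ hOu, mul_one] at h1
    exact h1.symm
  have hOi : (Om⁻¹)ᵀ = Om⁻¹ := by rw [transpose_nonsing_inv, hO.symm]
  set K : Matrix (Fin 16 × Fin dm) (Fin 16 × Fin dm) ℂ := Complex.I • (l1 Om⁻¹ * S.PP D) with hK
  -- the vacuum equation
  have hvK : ∀ p, thp S φ p v = Tm S φ K p v := by
    intro p
    have h1 : Tm S φ (l1 Om⁻¹ * S.Lam D Om) p v = 0 := by
      rw [Tm_mul]
      refine Finset.sum_eq_zero fun q _ => ?_
      have : Tm S φ (S.Lam D Om) q v = 0 := hv q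
      rw [this, smul_zero]
    have h2 : l1 Om⁻¹ * S.Lam D Om = (1 / 2 : ℂ) • (1 - K) := by
      rw [Lam_eq, mul_smul_comm, mul_sub, l1_mul, nonsing_inv_mul _ hOu, l1_one, mul_smul_comm]
    rw [h2] at h1
    have h3 : Tm S φ ((1 / 2 : ℂ) • (1 - K)) p v = (1 / 2 : ℂ) • (thp S φ p v - Tm S φ K p v) := by
      simp only [Tm, _root_.sum_apply, _root_.smul_apply, Matrix.smul_apply, Matrix.sub_apply,
        sub_smul, smul_eq_mul, mul_smul, Finset.sum_sub_distrib, Finset.smul_sum, smul_sub]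
      simp only [Matrix.one_apply, ite_smul, one_smul, zero_smul, smul_ite, smul_zero,
        Finset.sum_ite_eq, Finset.mem_univ, if_true, _root_.sub_apply, _root_.sum_apply,
        _root_.smul_apply]
      rfl
    rw [h3] at h1
    have h4 := (smul_eq_zero.1 h1).resolve_left (by norm_num)
    exact sub_eq_zero.1 h4
  -- the form of the product
  have hM : l1 A * K = (Complex.I * (S.κ : ℂ)) • ∑ i, S.g i ⊗ₖ lc (A * Om⁻¹ * D i) := by
    rw [hK, mul_smul_comm, ← mul_assoc, l1_mul, PP_eq, mul_smul_comm, smul_smul, Finset.mul_sum]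
    congr 1
    refine Finset.sum_congr rfl fun i _ => ?_
    rw [l1, ← mul_kronecker_mul, one_mul, ← lc_mul]
  have hMt : (l1 A * K)ᵀ = l1 A * K := by
    rw [hM, transpose_smul, transpose_sum]
    congr 1
    refine Finset.sum_congr rfl fun i _ => ?_
    have h1 : (A * Om⁻¹ * D i)ᵀ = A * Om⁻¹ * D i := by
      rw [transpose_mul, transpose_mul, hOi, hA, hD.anti i, neg_mul, mul_neg, mul_neg, neg_neg,
        ← hinv A hAO, ← mul_assoc, ← hAD i, mul_assoc, hinv (D i) (hOD i), ← mul_assoc]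
    rw [← kroneckerMap_transpose, S.g_symm, lc, ← transpose_map, h1]
  have hMtr : (l1 A * K).trace = 0 := by
    rw [hM, trace_smul, trace_sum]
    have : ∀ i, (S.g i ⊗ₖ lc (A * Om⁻¹ * D i)).trace = 0 := by
      intro i
      rw [trace_kronecker, trace_g, zero_mul]
    simp only [this, Finset.sum_const_zero, smul_zero]
  have h5 : ∑ p, ∑ q, (l1 A * K) p q • thp S φ p (thp S φ q v) = 0 := by
    have := sum_sym S φ (l1 A * K) hMt v
    rw [hMtr, zero_smul] at this
    exact (smul_eq_zero.1 this).resolve_left two_ne_zero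
  have h6 : ∑ p, ∑ q, l1 A p q • thp S φ p (thp S φ q v) =
      ∑ p, ∑ q, (l1 A * K) p q • thp S φ p (thp S φ q v) := by
    refine Finset.sum_congr rfl fun p _ => ?_
    have h7 : ∀ q, thp S φ p (thp S φ q v) = ∑ r, K q r • thp S φ p (thp S φ r v) := by
      intro q
      rw [hvK q, Tm, _root_.sum_apply, map_sum]
      refine Finset.sum_congr rfl fun r _ => ?_
      rw [_root_.smul_apply, map_smul]
      rfl
    conv_lhs =>
      enter [2, q]
      rw [h7 q]
    simp only [Finset.smul_sum, smul_smul, mul_apply, Finset.sum_smul]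
    rw [Finset.sum_comm]
  rw [← h6] at h5
  rw [← h5, Fintype.sum_prod_type]
  refine Finset.sum_congr rfl fun α _ => Finset.sum_congr rfl fun B _ => ?_
  rw [Fintype.sum_prod_type, Finset.sum_eq_single α]
  · refine Finset.sum_congr rfl fun C _ => ?_
    simp [l1, lc, kroneckerMap_apply, thp]
  · intro β _ hβ
    refine Finset.sum_eq_zero fun C _ => ?_
    simp [l1, lc, kroneckerMap_apply, Ne.symm hβ]
  · intro h
    exact absurd (Finset.mem_univ _) h

end Vale.Agent.P353.Z.AD
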