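import Vale.Agent.P353.AN.A.Bd
import Vale.Agent.P353.AN.A.Coo
import Vale.Agent.P353.AN.A.Cut
import Vale.Agent.P353.AN.A.Dec
import Vale.Agent.P353.AN.A.Det
import Vale.Agent.P353.AN.A.Dexp
import Vale.Agent.P353.AN.A.Gh
import Vale.Agent.P353.AN.A.Inj
import Vale.Agent.P353.AN.A.Norm
import Vale.Agent.P353.AN.A.Rot
import Vale.Agent.P353.AN.A.Std
import Vale.Agent.P353.AN.A.TubeF
import Vale.Agent.P353.AN.B.All
import Vale.Agent.P353.AN.C.CalcA
import Vale.Agent.P353.AN.C.CalcB
import Vale.Agent.P353.AN.C.Coef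
import Vale.Agent.P353.AN.C.Cross
import Vale.Agent.P353.AN.C.Crude
import Vale.Agent.P353.AN.C.EnH
import Vale.Agent.P353.AN.C.FInt
import Vale.Agent.P353.AN.C.Fib
import Vale.Agent.P353.AN.C.Frame
import Vale.Agent.P353.AN.C.Gen
import Vale.Agent.P353.AN.C.Mass
import Vale.Agent.P353.AN.C.Op
import Vale.Agent.P353.AN.C.Out
import Vale.Agent.P353.AN.C.Par
import Vale.Agent.P353.AN.C.Rem
import Vale.Agent.P353.AN.D.Cmb
import Vale.Agent.P353.AN.D.CutLoc
import Vale.Agent.P353.AN.D.Dec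
import Vale.Agent.P353.AN.D.Disc
import Vale.Agent.P353.AN.D.Dy
import Vale.Agent.P353.AN.D.Far
import Vale.Agent.P353.AN.D.GeoB
import Vale.Agent.P353.AN.D.Gn
import Vale.Agent.P353.AN.D.HInf
import Vale.Agent.P353.AN.D.IC
import Vale.Agent.P353.AN.D.ICAll
import Vale.Agent.P353.AN.D.KWC
import Vale.Agent.P353.AN.D.Loc
import Vale.Agent.P353.AN.D.NonComm
import Vale.Agent.P353.AN.D.NulAll
import Vale.Agent.P353.AN.D.Rel
import Vale.Agent.P353.AN.D.Scal
import Vale.Agent.P353.AN.D.Sec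
import Vale.Agent.P353.AN.D.SplitQ
import Vale.Agent.P353.AN.D.Std2
import Vale.Agent.P353.AN.D.Tr
import Vale.Agent.P353.AN.D.UF
import Vale.Agent.P353.AN.D.VacSpin
import Vale.Agent.P353.Z.U.Rellich

/-! # P353, all `N`, block D: assembly of everything landed (chain check)

Hypothesis that is still open: `LioStmt` for centreless setups (E, GLUE, X1, L). -/

open MeasureTheory Filter Topology
open scoped ContDiff

namespace Vale.Agent.P353.Z.AD

variable {d dh dm ds dz : ℕ} {F : Type*} [NormedAddCommGroup F] [InnerProductSpace ℂ F]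

/-! ### block A -/

theorem tubeAll (S : Setup d F) : AN.TubeStmt S :=
  AN.tube_stmt S (AN.det_stmt S (AN.dexp_stmt S)) AN.coo_stmt (AN.inj_stmt S (AN.det_stmt S (AN.dexp_stmt S)) AN.coo_stmt)

theorem normAll (S : Setup d F) : AN.NormStmt S := AN.norm_stmt S (tubeAll S) (AN.dec_stmt S)

theorem cutAll (S : Setup d F) : AN.CutStmt S := AN.cut_stmt S (AN.bd_stmt S)

/-! ### block C -/

theorem calcAll (dh dm : ℕ) (F : Type*) [NormedAddCommGroup F] [InnerProductSpace ℂ F] :
    AN.CalcA dh dm F ∧ AN.CalcB dh dm F := ⟨AN.calcA dh dm F, AN.calcB dh dm F (AN.calcA dh dm F)⟩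

theorem opAll (S : Setup d F) (φ : Spl dh dm d) : AN.OpStmt S φ :=
  AN.op_stmt S φ (calcAll dh dm F).1 (calcAll dh dm F).2

theorem fIntAll (S : Setup d F) (φ : Spl dh dm d) : AN.FIntStmt S φ :=
  AN.fInt_stmt S φ (calcAll dh dm F).1 (calcAll dh dm F).2 (opAll S φ)

theorem enHAll (S : Setup d F) (φ : Spl dh dm d) : AN.EnHStmt S φ :=
  AN.enH_stmt S φ (calcAll dh dm F).1 (calcAll dh dm F).2 fun S' => AN.gen_stmt S'

theorem crudeAll (S : Setup d F) (φ : Spl dh dm d) : AN.CrudeStmt S φ :=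
  AN.crude_stmt S φ (calcAll dh dm F).1 (calcAll dh dm F).2 (opAll S φ) (fIntAll S φ)
    (AN.cross_stmt S φ (calcAll dh dm F).1 (calcAll dh dm F).2 (opAll S φ))
    (AN.par_stmt S φ (calcAll dh dm F).1 (calcAll dh dm F).2 (opAll S φ))
    (AN.rem_stmt S φ (calcAll dh dm F).1 (calcAll dh dm F).2 (opAll S φ) (fIntAll S φ) (enHAll S φ))

theorem outAll (S : Setup d F) (φ : Spl dh dm d) : AN.OutStmt S φ :=
  AN.out_stmt S φ (calcAll dh dm F).1 (calcAll dh dm F).2 (opAll S φ) (AN.coef_stmt S φ (AN.bd_stmt S))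
    (AN.fibOut_stmt S φ om (fibAll S φ)) (fIntAll S φ) (enHAll S φ)
    (AN.mass_stmt S φ (calcAll dh dm F).1 (calcAll dh dm F).2) (crudeAll S φ)

/-! ### block D, local part -/

theorem farAll (S : Setup d F) : FarStmt S := farOf S (geo_all S) (tubeAll S) cmbS

theorem gnAll [FiniteDimensional ℂ F] (S : Setup d F) : GnStmt S := gnOf S (scal S) qfS inferInstance

theorem ufAll [FiniteDimensional ℂ F] (S : Setup d F) : UFStmt S :=
  ufOf S (fun _ _ φ => fibAll S φ) (scal S) (gnAll S) cmbS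

theorem secAll [FiniteDimensional ℂ F] (S : Setup d F) : SecStmt S :=
  secOf S (fun _ _ φ => ⟨f0S S φ, vacSpin S φ⟩) (scal S) (gnAll S) cmbS

theorem cutLocAll (S : Setup d F) : CutLocStmt S :=
  cutLocOf S (normAll S) (AN.gh_stmt S) (cutAll S) (AN.bd_stmt S) cmbS

theorem relAll [FiniteDimensional ℂ F] (S : Setup d F) : RelStmt S :=
  relOf S (secAll S) (gnAll S) (scal S) cmbS fun _ => U.lr

theorem locAll [FiniteDimensional ℂ F] (S : Setup d F) : LocStmt S :=
  locOf S (farAll S) (splitQ S) (ufAll S) (secAll S) (cutLocAll S) (relAll S) cmbS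
    (fun _ _ φ => outAll S φ) (AN.frame_stmt S) fun dh dm => calcAll dh dm F

/-! ### block D, engine -/

theorem all_cless_rot {S : Setup d F} (hC : AN.Cless S) (R : Matrix (Fin 9) (Fin 9) ℝ) (hR : R * R.transpose = 1)
    (O : Matrix (Fin d) (Fin d) ℝ) (hO : O * O.transpose = 1) : AN.Cless (S.rot R hR O hO) := by
  intro v hv
  have hO' : O.transpose * O = 1 := mul_eq_one_comm.1 hO
  have h0 : ∀ k l, ∑ E, O E k * O E l = if k = l then 1 else 0 := by
    intro k l
    have := congrFun (congrFun hO' k) l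
    rw [Matrix.mul_apply, Matrix.one_apply] at this
    simpa [Matrix.transpose_apply] using this
  have hf : ∀ A B C, (S.rot R hR O hO).f A B C = ∑ A', ∑ B', ∑ C', O A A' * O B B' * O C C' * S.f A' B' C' :=
    fun _ _ _ => rfl
  have h1 : (fun A' => ∑ A, O A A' * v A) = 0 := by
    refine hC _ fun B' C' => ?_
    have h2 : ∑ B, ∑ C, O B B' * O C C' * ∑ A, (S.rot R hR O hO).f A B C * v A = 0 := by
      refine Finset.sum_eq_zero fun B _ => Finset.sum_eq_zero fun C _ => ?_
      rw [hv B C, mul_zero]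
    have h3 : ∑ B, ∑ C, O B B' * O C C' * ∑ A, (S.rot R hR O hO).f A B C * v A =
        ∑ A', S.f A' B' C' * ∑ A, O A A' * v A := by
      simp only [hf, Finset.sum_mul, Finset.mul_sum]
      calc ∑ B, ∑ C, ∑ A, ∑ A', ∑ B'', ∑ C'', O B B' * O C C' *
            (O A A' * O B B'' * O C C'' * S.f A' B'' C'' * v A)
          = ∑ A, ∑ A', ∑ B'', ∑ C'', (∑ B, O B B' * O B B'') * (∑ C, O C C' * O C C'') *
              (O A A' * S.f A' B'' C'' * v A) := by
            simp only [Finset.sum_mul, Finset.mul_sum]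
            rw [Finset.sum_comm_cycle]
            refine Finset.sum_congr rfl fun A _ => ?_
            rw [Finset.sum_comm_cycle]
            refine Finset.sum_congr rfl fun A' _ => ?_
            rw [Finset.sum_comm_cycle]
            refine Finset.sum_congr rfl fun B'' _ => ?_
            rw [Finset.sum_comm_cycle]
            refine Finset.sum_congr rfl fun C'' _ => ?_
            rw [Finset.sum_comm]
            refine Finset.sum_congr rfl fun C _ => Finset.sum_congr rfl fun B _ => ?_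
            ring
        _ = ∑ A', ∑ A, S.f A' B' C' * (O A A' * v A) := by
            simp only [h0, ite_mul, mul_ite, one_mul, mul_one, zero_mul, mul_zero, Finset.sum_ite_eq,
              Finset.mem_univ, if_true]
            rw [Finset.sum_comm]
            refine Finset.sum_congr rfl fun A' _ => Finset.sum_congr rfl fun A _ => ?_
            ring
    rw [h3] at h2
    exact h2
  have h4 : ∀ A, ∑ A', O A A' * ∑ B, O B A' * v B = v A := by
    intro A
    have h5 : ∀ k l, ∑ E, O k E * O l E = if k = l then 1 else 0 := by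
      intro k l
      have := congrFun (congrFun hO k) l
      rw [Matrix.mul_apply, Matrix.one_apply] at this
      simpa [Matrix.transpose_apply] using this
    calc ∑ A', O A A' * ∑ B, O B A' * v B = ∑ B, (∑ A', O A A' * O B A') * v B := by
          simp only [Finset.sum_mul, Finset.mul_sum]
          rw [Finset.sum_comm]
          refine Finset.sum_congr rfl fun B _ => Finset.sum_congr rfl fun A' _ => ?_
          ring
      _ = v A := by simp [h5]
  funext A
  rw [← h4 A]
  refine Finset.sum_eq_zero fun A' _ => ?_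
  have := congrFun h1 A'
  simp only [Pi.zero_apply] at this
  rw [this, mul_zero]

/-- **L14** for centreless setups: `LioStmt` is only needed for centreless setups -/
theorem icAllC (hfin : FiniteDimensional ℂ F)
    (H : ∀ (d : ℕ) (S : Setup d F), LocStmt S ∧ Std2Stmt S ∧ TrStmt S ∧ NonCommStmt S ∧ NulAllStmt S ∧ ShellStmt S ∧
      DyOfStmt S ∧ DecStmt S ∧ KWStmt S ∧ HInfStmt S ∧ ICOfStmt S)
    (hLio : ∀ (d : ℕ) (S : Setup d F), AN.Cless S → LioStmt S) (hdisc : DiscStmt) (hLR : ∀ d, U.LRStmt d F) (d : ℕ) :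
    ∀ S : Setup d F, AN.Cless S → ICStmt S ∧ DyStmt S ∧ ∃ PZ, LocHyp S PZ ∧ LioHyp S PZ := by
  induction d using Nat.strong_induction_on with
  | _ d IH =>
    intro S hS
    obtain ⟨h1, h2, h3, h5, h6, h7, h8, h9, h10, h11, h12⟩ := H d S
    have hloc : ∀ Y : Cfg d, ∃ P : (ℕ → ℝ) → (ℕ → Cfg d → F) → Prop, Y ≠ 0 → S.V Y = 0 → ICAll.Loc S Y P := by
      intro Y
      by_cases hY : Y ≠ 0 ∧ S.V Y = 0
      · obtain ⟨P, hP⟩ := ICAll.exists_loc hfin d S
          (fun R hR O hO => ⟨(H d _).1, hLio d _ (all_cless_rot hS R hR O hO), (H d _).2.2.2.1⟩)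
          h2 h3 (fun m hm T hT => (IH m hm T hT).1) Y hY.1 hY.2
        exact ⟨P, fun _ _ => hP⟩
      · exact ⟨fun _ _ => True, fun h2 h3 => absurd ⟨h2, h3⟩ hY⟩
    choose PZ hPZ using hloc
    have hL : LocHyp S PZ := fun Y hY hV => (hPZ Y hY hV).1
    have hLi : LioHyp S PZ := fun R u hS hg he Y hY hV => (hPZ Y hY hV).2 R u hS hg he
    have hDy : DyStmt S := h8 h5 h6 h7 hfin PZ hL hLi
    exact ⟨h12 h9 h10 h11 hDy hdisc (hLR d) hfin, hDy, PZ, hL, hLi⟩

/-- everything about one setup except `LioStmt` -/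
theorem engAll [FiniteDimensional ℂ F] (d : ℕ) (S : Setup d F) :
    LocStmt S ∧ Std2Stmt S ∧ TrStmt S ∧ NonCommStmt S ∧ NulAllStmt S ∧ ShellStmt S ∧
      DyOfStmt S ∧ DecStmt S ∧ KWStmt S ∧ HInfStmt S ∧ ICOfStmt S :=
  ⟨locAll S, std2 S, trOf S (AN.rot_stmt S), nonComm S, nulAll S, shell S, dyOf S,
    decKW S, kwOf S, hInf S, icOf S⟩

/-- **OUTPUT OF BLOCK D**: inner completeness, the dyadic inequality and the engine for every centreless setup -/
theorem icAll [FiniteDimensional ℂ F]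
    (hLio : ∀ (d : ℕ) (S : Setup d F), AN.Cless S → LioStmt S) (d : ℕ) (S : Setup d F) (hS : AN.Cless S) :
    ICStmt S ∧ DyStmt S ∧ ∃ PZ, LocHyp S PZ ∧ LioHyp S PZ :=
  icAllC inferInstance engAll hLio disc (fun _ => U.lr) d S hS

/-- the local theorem in all rotated frames -/
theorem locRotAll [FiniteDimensional ℂ F] (S : Setup d F)
    (R : Matrix (Fin 9) (Fin 9) ℝ) (hR : R * R.transpose = 1) (O : Matrix (Fin d) (Fin d) ℝ)
    (hO : O * O.transpose = 1) : LocStmt (S.rot R hR O hO) := locAll _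

end Vale.Agent.P353.Z.AD
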