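import Vale.Agent.P353.AN.D.HInf

/-! # P353, all `N`, block D: D7 weighted kernel elements decay -/

open MeasureTheory Filter Topology
open scoped ContDiff

namespace Vale.Agent.P353.Z.AD

variable {d : ℕ} {F : Type*} [NormedAddCommGroup F] [InnerProductSpace ℂ F]

namespace DecK

open HInf

/-- exponent of the weight -/
def pe (B j : ℤ) : ℤ := min (2 * max j 0) (4 * B - 2 * j)

/-- the weight -/
noncomputable def pw (B j : ℤ) : ℝ := (2 : ℝ) ^ pe B j

lemma pw_pos (B j : ℤ) : 0 < pw B j := by unfold pw; positivity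

lemma pw_mul (B i k : ℤ) : pw B (i + k) ≤ (2 : ℝ) ^ (2 * |k|) * pw B i := by
  unfold pw
  rw [← zpow_add₀ (by norm_num : (2 : ℝ) ≠ 0)]
  apply zpow_le_zpow_right₀ (by norm_num)
  unfold pe
  have h1 := le_abs_self k
  have h2 := neg_abs_le k
  have h3 := abs_nonneg k
  generalize |k| = a at *
  omega

lemma pw_le {B : ℤ} (hB : 0 ≤ B) (j : ℤ) : pw B j ≤ (2 : ℝ) ^ (2 * B) := by
  unfold pw
  apply zpow_le_zpow_right₀ (by norm_num)
  unfold pe
  omega

lemma four_zpow (j : ℤ) : (4 : ℝ) ^ j = (2 : ℝ) ^ (2 * j) := by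
  rw [zpow_mul]
  norm_num

lemma pw_four (B j : ℤ) : pw B j * (4 : ℝ) ^ j ≤ (2 : ℝ) ^ (4 * B) := by
  rw [four_zpow]
  unfold pw
  rw [← zpow_add₀ (by norm_num : (2 : ℝ) ≠ 0)]
  apply zpow_le_zpow_right₀ (by norm_num)
  unfold pe
  omega

lemma pw_ball {B j j₀ : ℤ} (h0 : 0 ≤ j₀) (hj : j < j₀) : pw B j ≤ (2 : ℝ) ^ (2 * j₀) := by
  unfold pw
  apply zpow_le_zpow_right₀ (by norm_num)
  unfold pe
  omega

lemma pw_eq {B j : ℤ} (h0 : 0 ≤ j) (hj : j ≤ B) : pw B j = (2 : ℝ) ^ (2 * j) := by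
  unfold pw pe
  congr 1
  omega

/-- the annulus `2^{j₀} ≤ |x| < 2^{J+1}` -/
def ann (d : ℕ) (j₀ J : ℤ) : Set (Cfg d) :=
  Metric.ball (0 : Cfg d) ((2 : ℝ) ^ (J + 1)) \ Metric.ball (0 : Cfg d) ((2 : ℝ) ^ j₀)

lemma ae_ann (j₀ J : ℤ) : ∀ᵐ x ∂(volume : Measure (Cfg d)), x ∈ ann d j₀ J →
    x ∈ US d fun j => j₀ ≤ j ∧ j ≤ J := by
  filter_upwards [ae_cover (d := d) j₀] with x hx hxa
  obtain ⟨j, hj, hxj⟩ := Set.mem_iUnion.1 (hx hxa.2)
  refine Set.mem_iUnion.2 ⟨j, ⟨hj, ?_⟩, hxj⟩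
  by_contra hcon
  have h1 : ‖x‖ < (2 : ℝ) ^ (J + 1) := by
    have := hxa.1
    rwa [Metric.mem_ball, dist_zero_right] at this
  have h2 : (2 : ℝ) ^ (J + 1) ≤ (2 : ℝ) ^ j := zpow_le_zpow_right₀ (by norm_num) (by omega)
  have h3 : (2 : ℝ) ^ j < ‖x‖ := hxj.1
  linarith

lemma nsq_int {G : Type*} [NormedAddCommGroup G] [InnerProductSpace ℂ G] {u : Cfg d → G}
    (hu : Setup.Tst u) : Integrable (fun x => ‖x‖ ^ 2 * ‖u x‖ ^ 2) (volume : Measure (Cfg d)) := by
  have h1 : Continuous fun x => ‖x‖ ^ 2 * ‖u x‖ ^ 2 := by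
    have := hu.1.continuous
    fun_prop
  apply h1.integrable_of_hasCompactSupport
  refine HasCompactSupport.mul_left ?_
  exact hu.2.comp_left (g := fun y : G => ‖y‖ ^ 2) (by simp)

/-- the estimate for test functions -/
lemma est (S : Setup d F) (hDisc : DiscStmt) {j₀ : ℕ} {C₀ : ℝ} (hC₀ : 0 ≤ C₀)
    (hdy : ∀ u, GInv S u → ∀ j : ℤ, (j₀ : ℤ) ≤ j →
      mas u (dsh d j) ≤ 1 / 4 * (∑' k : ℤ, if k = 0 then 0 else (2 : ℝ) ^ (-(3 * |k|)) *
        mas u (dsh d (j + k))) +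
      C₀ * ∑' k : ℤ, (2 : ℝ) ^ (-(3 * |k|)) * ((4 : ℝ) ^ (j + k) * ena S u (dsh d (j + k))))
    {J : ℤ} (hJ : 0 ≤ J) {u : Cfg d → F} (hu : GInv S u) :
    ∫ x in ann d j₀ J, ‖x‖ ^ 2 * ‖u x‖ ^ 2 ≤
      4 * ((2 : ℝ) ^ (2 * (j₀ : ℤ)) * mas u (Metric.ball 0 ((2 : ℝ) ^ (j₀ : ℤ))) +
        6 * C₀ * ((2 : ℝ) ^ (4 * J) * En S u)) := by
  classical
  have hui := tst_int hu.1
  have hQi : ∀ β, Integrable (fun x => ‖S.Q β u x‖ ^ 2) (volume : Measure (Cfg d)) := fun β =>
    tst_int (Setup.Tst.Q S hu.1 β)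
  set M : ℤ → ℝ := fun j => mas u (dsh d j) with hM
  set E : ℤ → ℝ := fun j => ena S u (dsh d j) with hE
  have hM0 : ∀ j, 0 ≤ M j := fun j => integral_nonneg fun x => by positivity
  have hE0 : ∀ j, 0 ≤ E j := fun j => Finset.sum_nonneg fun β _ =>
    integral_nonneg fun x => by positivity
  have hMs : Summable M := summable_dsh hui
  have hEs : Summable E := by
    have : E = fun j => ∑ β, ∫ x in dsh d j, ‖S.Q β u x‖ ^ 2 := rfl
    rw [this]
    exact summable_sum fun β _ => summable_dsh (hQi β)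
  have hEle : ∑' j, E j ≤ En S u := by
    have : ∑' j, E j = ∑ β, ∑' j, ∫ x in dsh d j, ‖S.Q β u x‖ ^ 2 :=
      Summable.tsum_finsetSum fun β _ => summable_dsh (hQi β)
    rw [this]
    unfold En nsq
    exact Finset.sum_le_sum fun β _ => tsum_dsh_le (hQi β) fun x => by positivity
  have hwM : Summable fun j => pw J j * M j :=
    Summable.of_nonneg_of_le (fun j => mul_nonneg (pw_pos J j).le (hM0 j))
      (fun j => mul_le_mul_of_nonneg_right (pw_le hJ j) (hM0 j)) (hMs.mul_left _)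
  have hwe_le : ∀ j, pw J j * ((4 : ℝ) ^ j * E j) ≤ (2 : ℝ) ^ (4 * J) * E j := by
    intro j
    rw [← mul_assoc]
    exact mul_le_mul_of_nonneg_right (pw_four J j) (hE0 j)
  have hwe : Summable fun j => pw J j * ((4 : ℝ) ^ j * E j) :=
    Summable.of_nonneg_of_le (fun j => mul_nonneg (pw_pos J j).le
      (mul_nonneg (by positivity) (hE0 j))) hwe_le (hEs.mul_left _)
  have key := hDisc M (fun j => (4 : ℝ) ^ j * E j) (pw J) j₀ C₀ hC₀ hM0
    (fun j => mul_nonneg (by positivity) (hE0 j)) (pw_pos J) (pw_mul J) hwM hwe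
    (fun j hj => hdy u hu j hj)
  set ρ : ℝ := (2 : ℝ) ^ (j₀ : ℤ) with hρ
  -- inner part
  have hB : (∑' j : ℤ, if (j₀ : ℤ) ≤ j then 0 else pw J j * M j) ≤
      (2 : ℝ) ^ (2 * (j₀ : ℤ)) * mas u (Metric.ball 0 ρ) := by
    have h1 := hasSum_dsh hui fun j => ¬ ((j₀ : ℤ) ≤ j)
    have h1' := h1.mul_left ((2 : ℝ) ^ (2 * (j₀ : ℤ)))
    have h2 : (∑' j : ℤ, if (j₀ : ℤ) ≤ j then 0 else pw J j * M j) ≤
        ∑' j : ℤ, (2 : ℝ) ^ (2 * (j₀ : ℤ)) *
          (if ¬ ((j₀ : ℤ) ≤ j) then ∫ x in dsh d j, ‖u x‖ ^ 2 else 0) := by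
      refine Summable.tsum_le_tsum ?_ ?_ h1'.summable
      · intro j
        by_cases hj : (j₀ : ℤ) ≤ j
        · simp [hj]
        · simp only [hj, if_false, not_false_eq_true, if_true]
          exact mul_le_mul_of_nonneg_right (pw_ball (by positivity) (by omega)) (hM0 j)
      · refine Summable.of_nonneg_of_le ?_ ?_ hwM
        · intro j
          split_ifs
          · exact le_rfl
          · exact mul_nonneg (pw_pos J j).le (hM0 j)
        · intro j
          split_ifs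
          · exact mul_nonneg (pw_pos J j).le (hM0 j)
          · exact le_rfl
    refine h2.trans ?_
    rw [h1'.tsum_eq]
    refine mul_le_mul_of_nonneg_left ?_ (by positivity)
    unfold mas
    refine setIntegral_mono_set hui.integrableOn (Eventually.of_forall fun x => by positivity) ?_
    refine (HasSubset.Subset.eventuallyLE ?_)
    intro x hx
    obtain ⟨j, hj, hxj⟩ := Set.mem_iUnion.1 hx
    rw [Metric.mem_ball, dist_zero_right]
    refine lt_of_lt_of_le hxj.2 ?_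
    exact zpow_le_zpow_right₀ (by norm_num) (by omega)
  -- outer part
  have hgi := nsq_int hu.1
  have hg0 : ∀ x : Cfg d, 0 ≤ ‖x‖ ^ 2 * ‖u x‖ ^ 2 := fun x => by positivity
  have hOut : ∫ x in ann d j₀ J, ‖x‖ ^ 2 * ‖u x‖ ^ 2 ≤
      4 * ∑' j : ℤ, if (j₀ : ℤ) ≤ j then pw J j * M j else 0 := by
    have h1 := hasSum_dsh hgi fun j => (j₀ : ℤ) ≤ j ∧ j ≤ J
    have h2 : ∫ x in ann d j₀ J, ‖x‖ ^ 2 * ‖u x‖ ^ 2 ≤
        ∫ x in US d fun j => (j₀ : ℤ) ≤ j ∧ j ≤ J, ‖x‖ ^ 2 * ‖u x‖ ^ 2 := by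
      refine setIntegral_mono_set hgi.integrableOn (Eventually.of_forall fun x => hg0 x) ?_
      filter_upwards [ae_ann (d := d) (j₀ : ℤ) J] with x hx hxb
      exact hx hxb
    refine h2.trans ?_
    rw [← h1.tsum_eq, ← tsum_mul_left]
    refine Summable.tsum_le_tsum ?_ h1.summable ?_
    · intro j
      by_cases hj : (j₀ : ℤ) ≤ j
      · by_cases hj' : j ≤ J
        · simp only [hj, hj', and_self, if_true]
          have h3 : ∫ x in dsh d j, ‖x‖ ^ 2 * ‖u x‖ ^ 2 ≤
              ∫ x in dsh d j, (4 * pw J j) * ‖u x‖ ^ 2 := by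
            refine setIntegral_mono_on hgi.integrableOn (hui.const_mul _).integrableOn
              (meas_dsh j) ?_
            intro x hx
            refine mul_le_mul_of_nonneg_right ?_ (by positivity)
            rw [pw_eq (by omega) hj']
            have h4 : ‖x‖ < (2 : ℝ) ^ (j + 1) := hx.2
            have h5 : (2 : ℝ) ^ (2 * j) = ((2 : ℝ) ^ j) ^ 2 := by
              rw [mul_comm, zpow_mul]
              norm_cast
            have h6 : (2 : ℝ) ^ (j + 1) = 2 * (2 : ℝ) ^ j := by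
              rw [zpow_add₀ (by norm_num : (2 : ℝ) ≠ 0), zpow_one, mul_comm]
            rw [h6] at h4
            rw [h5]
            nlinarith [norm_nonneg x]
          refine h3.trans ?_
          rw [integral_const_mul, mul_assoc]
          exact le_rfl
        · simp only [hj, hj', and_false, if_false, if_true]
          exact mul_nonneg (by norm_num) (mul_nonneg (pw_pos J j).le (hM0 j))
      · simp [hj]
    · refine Summable.mul_left _ ?_
      refine Summable.of_nonneg_of_le ?_ ?_ hwM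
      · intro j
        split_ifs
        · exact mul_nonneg (pw_pos J j).le (hM0 j)
        · exact le_rfl
      · intro j
        split_ifs
        · exact le_rfl
        · exact mul_nonneg (pw_pos J j).le (hM0 j)
  have hsum : ∑' j, pw J j * ((4 : ℝ) ^ j * E j) ≤ (2 : ℝ) ^ (4 * J) * En S u := by
    refine (Summable.tsum_le_tsum hwe_le hwe (hEs.mul_left _)).trans ?_
    rw [tsum_mul_left]
    exact mul_le_mul_of_nonneg_left hEle (by positivity)
  have h6 : 6 * C₀ * ∑' j, pw J j * ((4 : ℝ) ^ j * E j) ≤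
      6 * C₀ * ((2 : ℝ) ^ (4 * J) * En S u) :=
    mul_le_mul_of_nonneg_left hsum (by positivity)
  refine hOut.trans (mul_le_mul_of_nonneg_left ?_ (by norm_num))
  exact key.trans (add_le_add hB h6)

/-- the weighted mass in a ball is controlled by the weighted norm -/
lemma ball_int {w : Cfg d → F} (hw : AEStronglyMeasurable w (volume : Measure (Cfg d)))
    (hi : Integrable (fun x => ‖w x‖ ^ 2 / (1 + ‖x‖ ^ 2)) (volume : Measure (Cfg d))) (r : ℝ) :
    IntegrableOn (fun x => (1 + ‖x‖ ^ 2) * ‖w x‖ ^ 2) (Metric.ball (0 : Cfg d) r) volume ∧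
      ∫ x in Metric.ball (0 : Cfg d) r, (1 + ‖x‖ ^ 2) * ‖w x‖ ^ 2 ≤
        (1 + r ^ 2) ^ 2 * ∫ x, ‖w x‖ ^ 2 / (1 + ‖x‖ ^ 2) := by
  have hle : ∀ x ∈ Metric.ball (0 : Cfg d) r, (1 + ‖x‖ ^ 2) * ‖w x‖ ^ 2 ≤
      (1 + r ^ 2) ^ 2 * (‖w x‖ ^ 2 / (1 + ‖x‖ ^ 2)) := by
    intro x hx
    rw [Metric.mem_ball, dist_zero_right] at hx
    have h1 : 1 + ‖x‖ ^ 2 ≤ 1 + r ^ 2 := by nlinarith [norm_nonneg x]
    have h0 : 0 < 1 + ‖x‖ ^ 2 := by positivity
    have h2 : (1 + ‖x‖ ^ 2) * ‖w x‖ ^ 2 = (1 + ‖x‖ ^ 2) ^ 2 * (‖w x‖ ^ 2 / (1 + ‖x‖ ^ 2)) := by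
      field_simp
    rw [h2]
    refine mul_le_mul_of_nonneg_right ?_ (by positivity)
    exact pow_le_pow_left₀ h0.le h1 2
  have hm : AEStronglyMeasurable (fun x : Cfg d => (1 + ‖x‖ ^ 2) * ‖w x‖ ^ 2) volume := by
    refine AEStronglyMeasurable.mul ?_ (hw.norm.pow 2)
    exact (Continuous.aestronglyMeasurable (by fun_prop))
  have hI : IntegrableOn (fun x => (1 + ‖x‖ ^ 2) * ‖w x‖ ^ 2) (Metric.ball (0 : Cfg d) r) volume := by
    refine Integrable.mono' (hi.const_mul ((1 + r ^ 2) ^ 2)).integrableOn hm.restrict ?_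
    refine (ae_restrict_iff' Metric.isOpen_ball.measurableSet).2 (Eventually.of_forall fun x hx => ?_)
    rw [Real.norm_of_nonneg (by positivity)]
    exact hle x hx
  refine ⟨hI, ?_⟩
  refine (setIntegral_mono_on hI (hi.const_mul ((1 + r ^ 2) ^ 2)).integrableOn
    Metric.isOpen_ball.measurableSet hle).trans ?_
  rw [← integral_const_mul]
  exact setIntegral_le_integral (hi.const_mul _) (Eventually.of_forall fun x => by positivity)

lemma norm_sq_tri {G : Type*} [NormedAddCommGroup G] (a b : G) : ‖a‖ ^ 2 ≤ 2 * ‖b‖ ^ 2 + 2 * ‖b - a‖ ^ 2 := by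
  have h1 : ‖a‖ ≤ ‖b‖ + ‖b - a‖ := by
    have h2 := norm_sub_norm_le a b
    rw [norm_sub_rev] at h2
    linarith
  nlinarith [norm_nonneg a, norm_nonneg b, norm_nonneg (b - a), sq_nonneg (‖b‖ - ‖b - a‖)]

end DecK

open HInf DecK in
/-- **D7** -/
theorem decKW (S : Setup d F) : DecStmt S := by
  intro hDy hDisc
  obtain ⟨j₀, C₀, hC₀, hdy⟩ := hDy (1 / 4) (by norm_num)
  set ρ : ℝ := (2 : ℝ) ^ (j₀ : ℤ) with hρ
  have hρ1 : 1 ≤ ρ := one_le_zpow₀ (by norm_num) (by positivity)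
  have hρ2 : (2 : ℝ) ^ (2 * (j₀ : ℤ)) = ρ ^ 2 := by
    rw [hρ, mul_comm, zpow_mul]
    norm_cast
  refine ⟨ρ, 4 * (1 + 9 * ρ ^ 2), by positivity, by positivity, ?_⟩
  rintro u ⟨hum, v, hv, hui, hvu, hEn⟩
  -- measurability and integrability
  have hvm : ∀ n, AEStronglyMeasurable (v n) (volume : Measure (Cfg d)) := fun n =>
    (hv n).1.1.continuous.aestronglyMeasurable
  have hvi : ∀ n, Integrable (fun x => ‖v n x‖ ^ 2 / (1 + ‖x‖ ^ 2)) (volume : Measure (Cfg d)) := by
    intro n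
    have hc : Continuous fun x : Cfg d => ‖v n x‖ ^ 2 / (1 + ‖x‖ ^ 2) := by
      have := (hv n).1.1.continuous
      refine Continuous.div (by fun_prop) (by fun_prop) ?_
      intro x
      positivity
    refine (tst_int (hv n).1).mono' hc.aestronglyMeasurable (Eventually.of_forall fun x => ?_)
    rw [Real.norm_of_nonneg (by positivity)]
    apply div_le_self (by positivity)
    have := sq_nonneg ‖x‖
    linarith
  have hdm : ∀ n, AEStronglyMeasurable (fun x => v n x - u x) (volume : Measure (Cfg d)) := fun n =>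
    (hvm n).sub hum
  have hdi : ∀ n, Integrable (fun x => ‖v n x - u x‖ ^ 2 / (1 + ‖x‖ ^ 2))
      (volume : Measure (Cfg d)) := by
    intro n
    refine (((hvi n).const_mul 2).add (hui.const_mul 2)).mono' ?_ (Eventually.of_forall fun x => ?_)
    · refine AEStronglyMeasurable.div₀ ((hdm n).norm.pow 2) ?_
      exact (Continuous.aestronglyMeasurable (by fun_prop))
    · rw [Real.norm_of_nonneg (by positivity)]
      simp only [Pi.add_apply]
      rw [← mul_div_assoc, ← mul_div_assoc, ← add_div]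
      refine div_le_div_of_nonneg_right ?_ (by positivity)
      have h1 := norm_sub_le (v n x) (u x)
      nlinarith [norm_nonneg (v n x), norm_nonneg (u x), norm_nonneg (v n x - u x),
        sq_nonneg (‖v n x‖ - ‖u x‖)]
  have hm1 : ∀ {w : Cfg d → F}, AEStronglyMeasurable w (volume : Measure (Cfg d)) →
      Integrable (fun x => ‖w x‖ ^ 2 / (1 + ‖x‖ ^ 2)) (volume : Measure (Cfg d)) → ∀ r : ℝ,
      IntegrableOn (fun x => ‖w x‖ ^ 2) (Metric.ball (0 : Cfg d) r) volume := by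
    intro w hw hi r
    refine Integrable.mono' (ball_int hw hi r).1 (hw.norm.pow 2).restrict (Eventually.of_forall fun x => ?_)
    rw [Real.norm_of_nonneg (by positivity)]
    have := sq_nonneg ‖x‖
    nlinarith [sq_nonneg ‖w x‖]
  -- the bound in balls
  have hball : ∀ J : ℕ, j₀ ≤ J → ∫ x in Metric.ball (0 : Cfg d) ((2 : ℝ) ^ ((J : ℤ) + 1)),
      (1 + ‖x‖ ^ 2) * ‖u x‖ ^ 2 ≤ 4 * (1 + 9 * ρ ^ 2) * mas u (Metric.ball 0 ρ) := by
    intro J hJ
    set r : ℝ := (2 : ℝ) ^ ((J : ℤ) + 1) with hr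
    have hρr : ρ ≤ r := zpow_le_zpow_right₀ (by norm_num) (by omega)
    set K : ℝ := 2 * (4 * (6 * C₀ * (2 : ℝ) ^ (4 * (J : ℤ)))) * 2 with hK
    have hK0 : 0 ≤ K := by positivity
    have hn : ∀ n, ∫ x in Metric.ball (0 : Cfg d) r, (1 + ‖x‖ ^ 2) * ‖u x‖ ^ 2 ≤
        4 * (1 + 9 * ρ ^ 2) * mas u (Metric.ball 0 ρ) +
          (K * En S (v n) + (4 * (1 + 9 * ρ ^ 2) * (1 + r ^ 2) ^ 2 + 2 * (1 + r ^ 2) ^ 2) *
            wn (fun x => v n x - u x)) := by
      intro n
      have hvB := (ball_int (hvm n) (hvi n) r).1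
      have huB := (ball_int hum hui r).1
      have hdB := ball_int (hdm n) (hdi n) r
      have hdρ := ball_int (hdm n) (hdi n) ρ
      -- (i) u by v
      have e1 : ∫ x in Metric.ball (0 : Cfg d) r, (1 + ‖x‖ ^ 2) * ‖u x‖ ^ 2 ≤
          2 * (∫ x in Metric.ball (0 : Cfg d) r, (1 + ‖x‖ ^ 2) * ‖v n x‖ ^ 2) +
          2 * ∫ x in Metric.ball (0 : Cfg d) r, (1 + ‖x‖ ^ 2) * ‖v n x - u x‖ ^ 2 := by
        rw [← integral_const_mul, ← integral_const_mul, ← integral_add (hvB.const_mul _)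
          (hdB.1.const_mul _)]
        refine integral_mono huB ((hvB.const_mul _).add (hdB.1.const_mul _)) fun x => ?_
        have h1 := norm_sq_tri (u x) (v n x)
        have h2 : 0 ≤ 1 + ‖x‖ ^ 2 := by positivity
        have h3 := mul_le_mul_of_nonneg_left h1 h2
        simp only
        linarith
      -- (ii) v in the small ball by u
      have e2 : mas (v n) (Metric.ball 0 ρ) ≤ 2 * mas u (Metric.ball 0 ρ) +
          2 * ((1 + ρ ^ 2) ^ 2 * wn (fun x => v n x - u x)) := by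
        have h1 : mas (v n) (Metric.ball 0 ρ) ≤ 2 * mas u (Metric.ball 0 ρ) +
            2 * ∫ x in Metric.ball (0 : Cfg d) ρ, (1 + ‖x‖ ^ 2) * ‖v n x - u x‖ ^ 2 := by
          unfold mas
          rw [← integral_const_mul, ← integral_const_mul,
            ← integral_add ((hm1 hum hui ρ).const_mul _) (hdρ.1.const_mul _)]
          refine integral_mono (hm1 (hvm n) (hvi n) ρ)
            (((hm1 hum hui ρ).const_mul _).add (hdρ.1.const_mul _)) fun x => ?_
          have h1 := norm_sq_tri (v n x) (u x)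
          rw [norm_sub_rev (u x)] at h1
          have h2 : ‖v n x - u x‖ ^ 2 ≤ (1 + ‖x‖ ^ 2) * ‖v n x - u x‖ ^ 2 := by
            have := sq_nonneg ‖x‖
            nlinarith [sq_nonneg ‖v n x - u x‖]
          simp only
          linarith
        have h2 := hdρ.2
        unfold wn
        linarith
      -- (iii) v in the large ball
      have e3 : ∫ x in Metric.ball (0 : Cfg d) r, (1 + ‖x‖ ^ 2) * ‖v n x‖ ^ 2 ≤
          (1 + ρ ^ 2) * mas (v n) (Metric.ball 0 ρ) +
          2 * (4 * (ρ ^ 2 * mas (v n) (Metric.ball 0 ρ) +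
            6 * C₀ * ((2 : ℝ) ^ (4 * (J : ℤ)) * En S (v n)))) := by
        have h1 := est S hDisc hC₀ hdy (J := (J : ℤ)) (by positivity) (hv n)
        rw [hρ2] at h1
        have hsub : Metric.ball (0 : Cfg d) ρ ⊆ Metric.ball (0 : Cfg d) r :=
          Metric.ball_subset_ball hρr
        have h2 : ∫ x in Metric.ball (0 : Cfg d) r, (1 + ‖x‖ ^ 2) * ‖v n x‖ ^ 2 =
            (∫ x in Metric.ball (0 : Cfg d) ρ, (1 + ‖x‖ ^ 2) * ‖v n x‖ ^ 2) +
            ∫ x in ann d j₀ J, (1 + ‖x‖ ^ 2) * ‖v n x‖ ^ 2 := by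
          have h3 : Metric.ball (0 : Cfg d) r = Metric.ball (0 : Cfg d) ρ ∪ ann d j₀ J := by
            unfold ann
            rw [Set.union_diff_cancel hsub]
          have hsubA : ann d j₀ J ⊆ Metric.ball (0 : Cfg d) r := Set.sdiff_subset
          conv_lhs => rw [h3]
          refine setIntegral_union (Set.disjoint_sdiff_right) ?_ (hvB.mono_set hsub)
            (hvB.mono_set hsubA)
          exact Metric.isOpen_ball.measurableSet.diff Metric.isOpen_ball.measurableSet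
        rw [h2]
        refine add_le_add ?_ ?_
        · unfold mas
          rw [← integral_const_mul]
          refine setIntegral_mono_on (hvB.mono_set hsub) ((hm1 (hvm n) (hvi n) ρ).const_mul _)
            Metric.isOpen_ball.measurableSet fun x hx => ?_
          rw [Metric.mem_ball, dist_zero_right] at hx
          refine mul_le_mul_of_nonneg_right ?_ (by positivity)
          nlinarith [norm_nonneg x]
        · refine le_trans ?_ (mul_le_mul_of_nonneg_left h1 (by norm_num))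
          have hmA : MeasurableSet (ann d (j₀ : ℤ) (J : ℤ)) :=
            Metric.isOpen_ball.measurableSet.diff Metric.isOpen_ball.measurableSet
          rw [← integral_const_mul]
          refine setIntegral_mono_on (hvB.mono_set Set.sdiff_subset)
            ((nsq_int (hv n).1).const_mul _).integrableOn hmA fun x hx => ?_
          have h4 : ρ ≤ ‖x‖ := by
            have := hx.2
            rwa [Metric.mem_ball, dist_zero_right, not_lt] at this
          rw [← mul_assoc]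
          refine mul_le_mul_of_nonneg_right ?_ (by positivity)
          nlinarith
      have hw0 : 0 ≤ wn (fun x => v n x - u x) := integral_nonneg fun x => by positivity
      have hρr2 : (1 + ρ ^ 2) ^ 2 ≤ (1 + r ^ 2) ^ 2 := by
        have : ρ ^ 2 ≤ r ^ 2 := pow_le_pow_left₀ (by positivity) hρr 2
        exact pow_le_pow_left₀ (by positivity) (by linarith) 2
      have e4 := hdB.2
      have e5 : ∫ x in Metric.ball (0 : Cfg d) r, (1 + ‖x‖ ^ 2) * ‖v n x - u x‖ ^ 2 ≤
          (1 + r ^ 2) ^ 2 * wn (fun x => v n x - u x) := e4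
      have hm0 : 0 ≤ mas (v n) (Metric.ball 0 ρ) := integral_nonneg fun x => by positivity
      have hEn0 : 0 ≤ En S (v n) := Finset.sum_nonneg fun β _ => integral_nonneg fun x => by positivity
      have e6 : 2 * ((1 + ρ ^ 2) * mas (v n) (Metric.ball 0 ρ) +
          2 * (4 * (ρ ^ 2 * mas (v n) (Metric.ball 0 ρ) +
            6 * C₀ * ((2 : ℝ) ^ (4 * (J : ℤ)) * En S (v n))))) =
          2 * (1 + 9 * ρ ^ 2) * mas (v n) (Metric.ball 0 ρ) + K * En S (v n) := by
        rw [hK]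
        ring
      have e7 : 2 * (1 + 9 * ρ ^ 2) * mas (v n) (Metric.ball 0 ρ) ≤
          2 * (1 + 9 * ρ ^ 2) * (2 * mas u (Metric.ball 0 ρ) +
          2 * ((1 + ρ ^ 2) ^ 2 * wn (fun x => v n x - u x))) :=
        mul_le_mul_of_nonneg_left e2 (by positivity)
      have e8 : 4 * (1 + 9 * ρ ^ 2) * ((1 + ρ ^ 2) ^ 2 * wn (fun x => v n x - u x)) ≤
          4 * (1 + 9 * ρ ^ 2) * ((1 + r ^ 2) ^ 2 * wn (fun x => v n x - u x)) :=
        mul_le_mul_of_nonneg_left (mul_le_mul_of_nonneg_right hρr2 hw0) (by positivity)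
      linarith
    have hlim : Tendsto (fun n => 4 * (1 + 9 * ρ ^ 2) * mas u (Metric.ball 0 ρ) +
          (K * En S (v n) + (4 * (1 + 9 * ρ ^ 2) * (1 + r ^ 2) ^ 2 + 2 * (1 + r ^ 2) ^ 2) *
            wn (fun x => v n x - u x))) atTop
        (𝓝 (4 * (1 + 9 * ρ ^ 2) * mas u (Metric.ball 0 ρ) + (K * 0 +
          (4 * (1 + 9 * ρ ^ 2) * (1 + r ^ 2) ^ 2 + 2 * (1 + r ^ 2) ^ 2) * 0))) :=
      tendsto_const_nhds.add ((hEn.const_mul _).add (hvu.const_mul _))
    have := ge_of_tendsto' hlim hn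
    linarith
  -- conclusion
  have hcov : AECover (volume : Measure (Cfg d)) atTop
      (fun J : ℕ => Metric.ball (0 : Cfg d) ((2 : ℝ) ^ ((J : ℤ) + 1))) := by
    refine aecover_ball ?_
    have h1 : (fun J : ℕ => (2 : ℝ) ^ ((J : ℤ) + 1)) = fun J : ℕ => (2 : ℝ) ^ (J + 1) := by
      funext J
      norm_cast
    rw [h1]
    exact (tendsto_pow_atTop_atTop_of_one_lt (by norm_num)).comp (tendsto_add_atTop_nat 1)
  have hInt : Integrable (fun x => (1 + ‖x‖ ^ 2) * ‖u x‖ ^ 2) (volume : Measure (Cfg d)) := by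
    refine hcov.integrable_of_integral_bounded_of_nonneg_ae
      (4 * (1 + 9 * ρ ^ 2) * mas u (Metric.ball 0 ρ)) (fun J => (ball_int hum hui _).1)
      (Eventually.of_forall fun x => by positivity) ?_
    filter_upwards [eventually_ge_atTop j₀] with J hJ
    exact hball J hJ
  refine ⟨hInt, ?_⟩
  have hlim := hcov.integral_tendsto_of_countably_generated hInt
  refine le_of_tendsto hlim ?_
  filter_upwards [eventually_ge_atTop j₀] with J hJ
  exact hball J hJ

end Vale.Agent.P353.Z.AD
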