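import Vale.Agent.P353.AN.D.StmtL
import Vale.Agent.P353.AN.X.Gauss
import Vale.Agent.P353.AN.B.Om

/-! # P353, all `N`, block D, L7: families of normalised Gaussians (abstract part, second prover helper6) -/

open MeasureTheory Filter Topology Matrix
open scoped ContDiff

namespace Vale.Agent.P353.Z.AD.GnB

set_option linter.unusedSectionVars false

variable {ι : Type*} [Fintype ι] [DecidableEq ι] {E : Type*} [NormedAddCommGroup E] [NormedSpace ℝ E]

/-- quadratic form with matrix `A z` -/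
noncomputable def qa (A : E → Matrix ι ι ℝ) (z : E) (w : EuclideanSpace ℝ ι) : ℝ :=
  (fun p => w p) ⬝ᵥ (A z *ᵥ fun p => w p)

/-- normalised Gaussian -/
noncomputable def ga (A : E → Matrix ι ι ℝ) (z : E) (w : EuclideanSpace ℝ ι) : ℝ :=
  Real.exp (-(1 / 2) * qa A z w) / Real.sqrt (∫ w' : EuclideanSpace ℝ ι, Real.exp (-(1 / 2) * qa A z w') ^ 2)

/-- the normalisation factor -/
noncomputable def nrm (A : E → Matrix ι ι ℝ) (z : E) : ℝ :=
  1 / Real.sqrt ((Real.sqrt (A z).det)⁻¹ * Real.pi ^ ((Fintype.card ι : ℝ) / 2))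

lemma qa_sum (A : E → Matrix ι ι ℝ) (z : E) (w : EuclideanSpace ℝ ι) :
    qa A z w = ∑ p, ∑ q, w p * w q * A z p q := by
  unfold qa
  simp only [dotProduct, mulVec, Finset.mul_sum]
  refine Finset.sum_congr rfl fun p _ => Finset.sum_congr rfl fun q _ => ?_
  ring

lemma qa_smul (A : E → Matrix ι ι ℝ) (z : E) (t : ℝ) (w : EuclideanSpace ℝ ι) :
    qa A z (t • w) = t ^ 2 * qa A z w := by
  rw [qa_sum, qa_sum, Finset.mul_sum]
  refine Finset.sum_congr rfl fun p _ => ?_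
  rw [Finset.mul_sum]
  refine Finset.sum_congr rfl fun q _ => ?_
  simp only [PiLp.smul_apply, smul_eq_mul]
  ring

lemma qa_neg (A : E → Matrix ι ι ℝ) (z : E) (w : EuclideanSpace ℝ ι) : qa A z (-w) = qa A z w := by
  have := qa_smul A z (-1) w
  simpa using this

/-- Gaussian integral of a positive definite matrix -/
lemma gauss_pd (M : Matrix ι ι ℝ) (hs : Mᵀ = M) (hp : ∀ v : ι → ℝ, v ≠ 0 → 0 < v ⬝ᵥ (M *ᵥ v)) :
    0 < M.det ∧ Integrable (fun w : EuclideanSpace ℝ ι => Real.exp (-((fun p => w p) ⬝ᵥ (M *ᵥ fun p => w p)))) ∧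
    ∫ w : EuclideanSpace ℝ ι, Real.exp (-((fun p => w p) ⬝ᵥ (M *ᵥ fun p => w p))) =
      (Real.sqrt M.det)⁻¹ * Real.pi ^ ((Fintype.card ι : ℝ) / 2) := by
  have hPD : M.PosDef := by
    refine Matrix.PosDef.of_dotProduct_mulVec_pos ?_ ?_
    · rw [Matrix.IsHermitian, Matrix.conjTranspose_eq_transpose_of_trivial]
      exact hs
    · intro v hv
      simpa using hp v hv
  obtain ⟨B, hBp, hB', -⟩ := OmPf.omp_sqrt hPD
  have hBt : Bᵀ = B := by
    have := hBp.1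
    rwa [Matrix.IsHermitian, Matrix.conjTranspose_eq_transpose_of_trivial] at this
  have hB : M = Bᵀ * B := by rw [hBt, hB']
  have hdet : M.det = B.det ^ 2 := by
    rw [hB, Matrix.det_mul, Matrix.det_transpose, sq]
  have hMd := hPD.det_pos
  have hBd : B.det ≠ 0 := by
    intro h
    rw [hdet, h] at hMd
    simp at hMd
  have hq : ∀ w : EuclideanSpace ℝ ι, (fun p => w p) ⬝ᵥ (M *ᵥ fun p => w p) = ∑ p, (B *ᵥ fun q => w q) p ^ 2 := by
    intro w
    rw [hB, ← mulVec_mulVec, dotProduct_mulVec, vecMul_transpose]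
    simp only [dotProduct, sq]
  obtain ⟨h1, h2⟩ := AX.GsA.lin_gauss B hBd
  refine ⟨hMd, ?_, ?_⟩
  · simpa only [hq] using h1
  · simp only [hq]
    rw [h2, hdet, Real.sqrt_sq_eq_abs]

variable {A : E → Matrix ι ι ℝ} {U : Set E}

lemma qa_cd (hA : ∀ p q, ContDiffOn ℝ ∞ (fun z => A z p q) U) :
    ContDiffOn ℝ ∞ (fun p : E × EuclideanSpace ℝ ι => qa A p.1 p.2) {p | p.1 ∈ U} := by
  have h : (fun p : E × EuclideanSpace ℝ ι => qa A p.1 p.2) =
      fun x => ∑ p, ∑ q, x.2 p * x.2 q * A x.1 p q := by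
    funext x
    exact qa_sum A x.1 x.2
  rw [h]
  refine ContDiffOn.sum fun p _ => ContDiffOn.sum fun q _ => ?_
  refine ContDiffOn.mul (ContDiffOn.mul ?_ ?_) ?_
  · exact ((EuclideanSpace.proj (𝕜 := ℝ) p).contDiff.comp contDiff_snd).contDiffOn
  · exact ((EuclideanSpace.proj (𝕜 := ℝ) q).contDiff.comp contDiff_snd).contDiffOn
  · exact (hA p q).comp contDiff_fst.contDiffOn fun x hx => hx

lemma det_cd (hA : ∀ p q, ContDiffOn ℝ ∞ (fun z => A z p q) U) :
    ContDiffOn ℝ ∞ (fun z => (A z).det) U := by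
  have h : (fun z => (A z).det) = fun z => ∑ σ : Equiv.Perm ι, ((Equiv.Perm.sign σ : ℤ) : ℝ) * ∏ i, A z (σ i) i := by
    funext z
    rw [Matrix.det_apply']
  rw [h]
  refine ContDiffOn.sum fun σ _ => ?_
  refine contDiffOn_const.mul ?_
  exact contDiffOn_prod fun i _ => hA (σ i) i

section PD

variable (hA : ∀ p q, ContDiffOn ℝ ∞ (fun z => A z p q) U) (hs : ∀ z ∈ U, (A z)ᵀ = A z)
  (hp : ∀ z ∈ U, ∀ v : ι → ℝ, v ≠ 0 → 0 < v ⬝ᵥ (A z *ᵥ v))

lemma exp_sq (A : E → Matrix ι ι ℝ) (z : E) (w : EuclideanSpace ℝ ι) :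
    Real.exp (-(1 / 2) * qa A z w) ^ 2 = Real.exp (-((fun p => w p) ⬝ᵥ (A z *ᵥ fun p => w p))) := by
  rw [← Real.exp_nat_mul]
  congr 1
  unfold qa
  push_cast
  ring

include hs hp in
lemma int_val {z : E} (hz : z ∈ U) :
    ∫ w' : EuclideanSpace ℝ ι, Real.exp (-(1 / 2) * qa A z w') ^ 2 =
      (Real.sqrt (A z).det)⁻¹ * Real.pi ^ ((Fintype.card ι : ℝ) / 2) := by
  simp only [exp_sq]
  exact (gauss_pd (A z) (hs z hz) (hp z hz)).2.2

include hs hp in
lemma int_pos {z : E} (hz : z ∈ U) : 0 < (Real.sqrt (A z).det)⁻¹ * Real.pi ^ ((Fintype.card ι : ℝ) / 2) := by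
  have h := (gauss_pd (A z) (hs z hz) (hp z hz)).1
  have h2 : 0 < Real.sqrt (A z).det := Real.sqrt_pos.2 h
  have h3 : 0 < Real.pi ^ ((Fintype.card ι : ℝ) / 2) := Real.rpow_pos_of_pos Real.pi_pos _
  positivity

include hs hp in
lemma ga_eq {z : E} (hz : z ∈ U) (w : EuclideanSpace ℝ ι) :
    ga A z w = nrm A z * Real.exp (-(1 / 2) * qa A z w) := by
  unfold ga nrm
  rw [int_val hs hp hz]
  ring

include hs hp in
lemma nrm_pos {z : E} (hz : z ∈ U) : 0 < nrm A z := by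
  unfold nrm
  have := Real.sqrt_pos.2 (int_pos hs hp hz)
  positivity

include hA hs hp in
lemma nrm_cd : ContDiffOn ℝ ∞ (fun z => nrm A z) U := by
  unfold nrm
  refine ContDiffOn.div contDiffOn_const ?_ fun z hz => (Real.sqrt_pos.2 (int_pos hs hp hz)).ne'
  refine ContDiffOn.sqrt ?_ fun z hz => (int_pos hs hp hz).ne'
  refine ContDiffOn.mul ?_ contDiffOn_const
  refine ContDiffOn.inv ?_ fun z hz => (Real.sqrt_pos.2 (gauss_pd (A z) (hs z hz) (hp z hz)).1).ne'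
  exact ContDiffOn.sqrt (det_cd hA) fun z hz => (gauss_pd (A z) (hs z hz) (hp z hz)).1.ne'

include hA hs hp in
/-- (1) smoothness -/
theorem ga_cd : ContDiffOn ℝ ∞ (fun p : E × EuclideanSpace ℝ ι => ga A p.1 p.2) {p | p.1 ∈ U} := by
  have h : ContDiffOn ℝ ∞ (fun p : E × EuclideanSpace ℝ ι => nrm A p.1 * Real.exp (-(1 / 2) * qa A p.1 p.2)) {p | p.1 ∈ U} := by
    refine ContDiffOn.mul ((nrm_cd hA hs hp).comp contDiff_fst.contDiffOn fun x hx => hx) ?_
    exact ContDiffOn.exp (contDiffOn_const.mul (qa_cd hA))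
  exact h.congr fun p hp' => ga_eq hs hp hp' p.2

include hs hp in
/-- (3) normalisation -/
theorem ga_norm {z : E} (hz : z ∈ U) : ∫ w : EuclideanSpace ℝ ι, ga A z w ^ 2 = 1 := by
  unfold ga
  simp only [div_pow]
  rw [integral_div, Real.sq_sqrt (integral_nonneg fun w => by positivity), div_self]
  rw [int_val hs hp hz]
  exact (int_pos hs hp hz).ne'

theorem ga_even (A : E → Matrix ι ι ℝ) (z : E) (w : EuclideanSpace ℝ ι) : ga A z (-w) = ga A z w := by
  unfold ga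
  rw [qa_neg]

include hA hp in
lemma qa_low {K : Set E} (hK : IsCompact K) (hKU : K ⊆ U) :
    ∃ c : ℝ, 0 < c ∧ ∀ z ∈ K, ∀ w : EuclideanSpace ℝ ι, c * ‖w‖ ^ 2 ≤ qa A z w := by
  have hzero : ∀ z, qa A z 0 = 0 := by
    intro z
    have := qa_smul A z 0 0
    simpa using this
  have hcomp : IsCompact (K ×ˢ Metric.sphere (0 : EuclideanSpace ℝ ι) 1) := hK.prod (isCompact_sphere _ _)
  have hcont : ContinuousOn (fun p : E × EuclideanSpace ℝ ι => qa A p.1 p.2) (K ×ˢ Metric.sphere (0 : EuclideanSpace ℝ ι) 1) :=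
    (qa_cd hA).continuousOn.mono fun p hp' => hKU hp'.1
  rcases (K ×ˢ Metric.sphere (0 : EuclideanSpace ℝ ι) 1).eq_empty_or_nonempty with he | hne
  · refine ⟨1, one_pos, fun z hz w => ?_⟩
    by_cases hw : w = 0
    · rw [hw, hzero]; simp
    · exfalso
      have hn : 0 < ‖w‖ := norm_pos_iff.2 hw
      have : ((z, ‖w‖⁻¹ • w) : E × EuclideanSpace ℝ ι) ∈ K ×ˢ Metric.sphere (0 : EuclideanSpace ℝ ι) 1 := by
        refine ⟨hz, ?_⟩
        rw [mem_sphere_zero_iff_norm, norm_smul, norm_inv, norm_norm, inv_mul_cancel₀ hn.ne']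
      rw [he] at this
      exact this
  · obtain ⟨p0, hp0, hmin⟩ := hcomp.exists_isMinOn hne hcont
    refine ⟨qa A p0.1 p0.2, ?_, fun z hz w => ?_⟩
    · refine hp p0.1 (hKU hp0.1) _ ?_
      intro h
      have h1 : p0.2 = 0 := by
        ext p
        exact congrFun h p
      have h2 := hp0.2
      rw [h1] at h2
      simp at h2
    · by_cases hw : w = 0
      · rw [hw, hzero]; simp
      have hn : 0 < ‖w‖ := norm_pos_iff.2 hw
      have h1 := hmin (show ((z, ‖w‖⁻¹ • w) : E × EuclideanSpace ℝ ι) ∈ K ×ˢ Metric.sphere (0 : EuclideanSpace ℝ ι) 1 from by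
        refine ⟨hz, ?_⟩
        rw [mem_sphere_zero_iff_norm, norm_smul, norm_inv, norm_norm, inv_mul_cancel₀ hn.ne'])
      simp only [Set.mem_ofPred_eq, qa_smul] at h1
      calc qa A p0.1 p0.2 * ‖w‖ ^ 2 ≤ (‖w‖⁻¹ ^ 2 * qa A z w) * ‖w‖ ^ 2 :=
            mul_le_mul_of_nonneg_right h1 (by positivity)
        _ = qa A z w := by field_simp

/-- bound of a continuous function on a compact set -/
lemma bdK {K : Set E} (hK : IsCompact K) {X : Type*} [NormedAddCommGroup X] {f : E → X} (hf : ContinuousOn f K) :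
    ∃ C : ℝ, 0 ≤ C ∧ ∀ z ∈ K, ‖f z‖ ≤ C := by
  obtain ⟨C, hC⟩ := hK.exists_bound_of_continuousOn hf
  exact ⟨max C 0, le_max_right _ _, fun z hz => (hC z hz).trans (le_max_left _ _)⟩

lemma qa_hasD (hU : IsOpen U) (hA : ∀ p q, ContDiffOn ℝ ∞ (fun z => A z p q) U) {z : E} (hz : z ∈ U)
    (w : EuclideanSpace ℝ ι) :
    HasFDerivAt (fun z => qa A z w) (∑ p, ∑ q, (w p * w q) • fderiv ℝ (fun z => A z p q) z) z := by
  have h : (fun z => qa A z w) = fun z => ∑ p, ∑ q, w p * w q * A z p q := by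
    funext z
    exact qa_sum A z w
  rw [h]
  refine HasFDerivAt.fun_sum fun p _ => HasFDerivAt.fun_sum fun q _ => ?_
  have h1 : HasFDerivAt (fun z => A z p q) (fderiv ℝ (fun z => A z p q) z) z :=
    (((hA p q).contDiffAt (hU.mem_nhds hz)).differentiableAt (by simp)).hasFDerivAt
  exact h1.const_mul (w p * w q)

include hA hs hp in
/-- (2) bounds on compact sets -/
theorem ga_bd (hU : IsOpen U) {K : Set E} (hK : IsCompact K) (hKU : K ⊆ U) :
    ∃ c C : ℝ, 0 < c ∧ 0 < C ∧ ∀ z ∈ K, ∀ w : EuclideanSpace ℝ ι,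
      (0 ≤ ga A z w ∧ ga A z w ≤ C * Real.exp (-(c * ‖w‖ ^ 2))) ∧
      ∀ v : E, |fderiv ℝ (fun z => ga A z w) z v| ≤ C * ‖v‖ * Real.exp (-(c * ‖w‖ ^ 2)) := by
  obtain ⟨c, hc, hlow⟩ := qa_low hA hp hK hKU
  obtain ⟨C0, hC0, hN⟩ := bdK hK ((nrm_cd hA hs hp).continuousOn.mono hKU)
  obtain ⟨C1, hC1, hN1⟩ := bdK hK (((nrm_cd hA hs hp).continuousOn_fderiv_of_isOpen hU (by simp)).mono hKU)
  have hD : ∀ p q, ∃ C : ℝ, 0 ≤ C ∧ ∀ z ∈ K, ‖fderiv ℝ (fun z => A z p q) z‖ ≤ C := fun p q =>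
    bdK hK (((hA p q).continuousOn_fderiv_of_isOpen hU (by simp)).mono hKU)
  choose CD hCD hCDb using hD
  set C2 : ℝ := ∑ p, ∑ q, CD p q with hC2
  have hC2n : 0 ≤ C2 := Finset.sum_nonneg fun p _ => Finset.sum_nonneg fun q _ => hCD p q
  have hexp : ∀ z ∈ K, ∀ w : EuclideanSpace ℝ ι, Real.exp (-(1 / 2) * qa A z w) ≤
      Real.exp (-(c / 4 * ‖w‖ ^ 2)) * Real.exp (-(c / 4 * ‖w‖ ^ 2)) := by
    intro z hz w
    rw [← Real.exp_add, Real.exp_le_exp]
    have := hlow z hz w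
    linarith
  have hle1 : ∀ w : EuclideanSpace ℝ ι, Real.exp (-(c / 4 * ‖w‖ ^ 2)) ≤ 1 := by
    intro w
    rw [Real.exp_le_one_iff]
    have : 0 ≤ c / 4 * ‖w‖ ^ 2 := by positivity
    linarith
  have hsq : ∀ w : EuclideanSpace ℝ ι, ‖w‖ ^ 2 * Real.exp (-(c / 4 * ‖w‖ ^ 2)) ≤ 4 / c := by
    intro w
    have h1 := Real.add_one_le_exp (c / 4 * ‖w‖ ^ 2)
    rw [Real.exp_neg, ← div_eq_mul_inv, div_le_iff₀ (Real.exp_pos _)]
    have h2 : 4 / c * (c / 4 * ‖w‖ ^ 2 + 1) ≤ 4 / c * Real.exp (c / 4 * ‖w‖ ^ 2) :=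
      mul_le_mul_of_nonneg_left h1 (by positivity)
    have h3 : 4 / c * (c / 4 * ‖w‖ ^ 2 + 1) = ‖w‖ ^ 2 + 4 / c := by field_simp
    have h4 : 0 < 4 / c := by positivity
    linarith
  refine ⟨c / 4, C0 + C1 + C0 * C2 * (4 / c) + 1, by positivity, by positivity, fun z hz w => ⟨⟨?_, ?_⟩, fun v => ?_⟩⟩
  · rw [ga_eq hs hp (hKU hz)]
    have := nrm_pos hs hp (hKU hz)
    positivity
  · rw [ga_eq hs hp (hKU hz)]
    have h1 := nrm_pos hs hp (hKU hz)
    have h2 : nrm A z ≤ C0 := by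
      have := hN z hz
      rwa [Real.norm_eq_abs, abs_of_pos h1] at this
    calc nrm A z * Real.exp (-(1 / 2) * qa A z w) ≤ C0 * (Real.exp (-(c / 4 * ‖w‖ ^ 2)) * Real.exp (-(c / 4 * ‖w‖ ^ 2))) :=
          mul_le_mul h2 (hexp z hz w) (Real.exp_pos _).le hC0
      _ ≤ C0 * (1 * Real.exp (-(c / 4 * ‖w‖ ^ 2))) := by
          refine mul_le_mul_of_nonneg_left ?_ hC0
          exact mul_le_mul_of_nonneg_right (hle1 w) (Real.exp_pos _).le
      _ ≤ (C0 + C1 + C0 * C2 * (4 / c) + 1) * Real.exp (-(c / 4 * ‖w‖ ^ 2)) := by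
          rw [one_mul]
          refine mul_le_mul_of_nonneg_right ?_ (Real.exp_pos _).le
          have : 0 ≤ C0 * C2 * (4 / c) := by positivity
          linarith
  · have hz' := hKU hz
    have hev : (fun z => ga A z w) =ᶠ[𝓝 z] fun z => nrm A z * Real.exp (-(1 / 2) * qa A z w) := by
      filter_upwards [hU.mem_nhds hz'] with y hy
      exact ga_eq hs hp hy w
    have hd1 : HasFDerivAt (fun z => nrm A z) (fderiv ℝ (fun z => nrm A z) z) z :=
      (((nrm_cd hA hs hp).contDiffAt (hU.mem_nhds hz')).differentiableAt (by simp)).hasFDerivAt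
    have hd2 := qa_hasD hU hA hz' w
    have hd3 := hd1.mul ((hd2.const_mul (-(1 / 2))).exp)
    have hfd : fderiv ℝ (fun z => ga A z w) z = _ := (hd3.congr_of_eventuallyEq hev).fderiv
    rw [hfd]
    set L : E →L[ℝ] ℝ := ∑ p, ∑ q, (w p * w q) • fderiv ℝ (fun z => A z p q) z with hL
    have hwp : ∀ p, |w p| ≤ ‖w‖ := fun p => by
      rw [← Real.norm_eq_abs]
      exact PiLp.norm_apply_le w p
    have hLv : |L v| ≤ C2 * ‖w‖ ^ 2 * ‖v‖ := by
      rw [hL]
      simp only [_root_.sum_apply, _root_.smul_apply, smul_eq_mul]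
      calc |∑ p, ∑ q, w p * w q * (fderiv ℝ (fun z => A z p q) z) v|
          ≤ ∑ p, |∑ q, w p * w q * (fderiv ℝ (fun z => A z p q) z) v| := Finset.abs_sum_le_sum_abs _ _
        _ ≤ ∑ p, ∑ q, |w p * w q * (fderiv ℝ (fun z => A z p q) z) v| :=
            Finset.sum_le_sum fun p _ => Finset.abs_sum_le_sum_abs _ _
        _ ≤ ∑ p, ∑ q, (CD p q * ‖w‖ ^ 2 * ‖v‖) := by
            refine Finset.sum_le_sum fun p _ => Finset.sum_le_sum fun q _ => ?_
            rw [abs_mul, abs_mul]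
            have h1 : |w p| * |w q| ≤ ‖w‖ * ‖w‖ := mul_le_mul (hwp p) (hwp q) (abs_nonneg _) (norm_nonneg _)
            have h2 : |(fderiv ℝ (fun z => A z p q) z) v| ≤ CD p q * ‖v‖ := by
              rw [← Real.norm_eq_abs]
              exact (ContinuousLinearMap.le_opNorm _ _).trans
                (mul_le_mul_of_nonneg_right (hCDb p q z hz) (norm_nonneg _))
            calc |w p| * |w q| * |(fderiv ℝ (fun z => A z p q) z) v| ≤ (‖w‖ * ‖w‖) * (CD p q * ‖v‖) :=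
                  mul_le_mul h1 h2 (abs_nonneg _) (by positivity)
              _ = CD p q * ‖w‖ ^ 2 * ‖v‖ := by ring
        _ = C2 * ‖w‖ ^ 2 * ‖v‖ := by
            rw [hC2]
            simp only [Finset.sum_mul]
    have hNv : |(fderiv ℝ (fun z => nrm A z) z) v| ≤ C1 * ‖v‖ := by
      rw [← Real.norm_eq_abs]
      exact (ContinuousLinearMap.le_opNorm _ _).trans (mul_le_mul_of_nonneg_right (hN1 z hz) (norm_nonneg _))
    have hN0 : |nrm A z| ≤ C0 := by
      rw [← Real.norm_eq_abs]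
      exact hN z hz
    have hev2 : (nrm A z • Real.exp (-(1 / 2) * qa A z w) • (-(1 / 2) : ℝ) • L +
        Real.exp (-(1 / 2) * qa A z w) • fderiv ℝ (fun z => nrm A z) z) v =
        Real.exp (-(1 / 2) * qa A z w) * (-(1 / 2) * nrm A z * L v + (fderiv ℝ (fun z => nrm A z) z) v) := by
      simp only [_root_.add_apply, _root_.smul_apply, smul_eq_mul]
      ring
    have hgoal : |Real.exp (-(1 / 2) * qa A z w) * (-(1 / 2) * nrm A z * L v + (fderiv ℝ (fun z => nrm A z) z) v)| ≤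
        (C0 + C1 + C0 * C2 * (4 / c) + 1) * ‖v‖ * Real.exp (-(c / 4 * ‖w‖ ^ 2)) := by
      rw [abs_mul, abs_of_pos (Real.exp_pos _)]
      have h1 : |-(1 / 2) * nrm A z * L v + (fderiv ℝ (fun z => nrm A z) z) v| ≤
          C0 * C2 * ‖w‖ ^ 2 * ‖v‖ + C1 * ‖v‖ := by
        refine (abs_add_le _ _).trans (add_le_add ?_ hNv)
        rw [abs_mul, abs_mul]
        have h2 : |(-(1 / 2) : ℝ)| * |nrm A z| ≤ C0 := by
          rw [abs_neg, abs_of_pos (by norm_num : (0 : ℝ) < 1 / 2)]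
          have := abs_nonneg (nrm A z)
          linarith
        calc |(-(1 / 2) : ℝ)| * |nrm A z| * |L v| ≤ C0 * (C2 * ‖w‖ ^ 2 * ‖v‖) :=
              mul_le_mul h2 hLv (abs_nonneg _) hC0
          _ = C0 * C2 * ‖w‖ ^ 2 * ‖v‖ := by ring
      set e : ℝ := Real.exp (-(c / 4 * ‖w‖ ^ 2)) with he
      have he0 : 0 < e := Real.exp_pos _
      calc Real.exp (-(1 / 2) * qa A z w) * |-(1 / 2) * nrm A z * L v + (fderiv ℝ (fun z => nrm A z) z) v|
          ≤ (e * e) * (C0 * C2 * ‖w‖ ^ 2 * ‖v‖ + C1 * ‖v‖) :=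
            mul_le_mul (hexp z hz w) h1 (abs_nonneg _) (by positivity)
        _ = (C0 * C2 * (‖w‖ ^ 2 * e) + C1 * e) * ‖v‖ * e := by ring
        _ ≤ (C0 * C2 * (4 / c) + C1 * 1) * ‖v‖ * e := by
            refine mul_le_mul_of_nonneg_right (mul_le_mul_of_nonneg_right (add_le_add ?_ ?_) (norm_nonneg _)) he0.le
            · exact mul_le_mul_of_nonneg_left (hsq w) (by positivity)
            · exact mul_le_mul_of_nonneg_left (hle1 w) hC1
        _ ≤ (C0 + C1 + C0 * C2 * (4 / c) + 1) * ‖v‖ * e := by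
            refine mul_le_mul_of_nonneg_right (mul_le_mul_of_nonneg_right ?_ (norm_nonneg _)) he0.le
            linarith
    rw [← hev2] at hgoal
    convert hgoal using 2

end PD

end Vale.Agent.P353.Z.AD.GnB
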