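import Vale.Agent.P353.AN.D.GnB
import Vale.Agent.P353.AN.B.AlgQF

/-! # P353, all `N`, block D, L7: the matrix of the boson vacuum at the scalar points -/

open MeasureTheory Filter Topology Matrix
open scoped ContDiff

namespace Vale.Agent.P353.Z.AD.GnC

set_option linter.unusedSectionVars false

variable {d dh dm ds dz : ℕ} {F : Type*} [NormedAddCommGroup F] [InnerProductSpace ℂ F]

lemma wt_last (w : Wsp dm) : wt w (Fin.last 8) = 0 := by
  funext B
  unfold wt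
  rw [Fin.lastCases_last]
  rfl

lemma wt_cast (w : Wsp dm) (j : Fin 8) : wt w j.castSucc = fun B => w (j, B) := by
  funext B
  unfold wt
  rw [Fin.lastCases_castSucc]

lemma wt_add (v w : Wsp dm) (i : Fin 9) : wt (v + w) i = wt v i + wt w i := by
  induction i using Fin.lastCases with
  | last => rw [wt_last, wt_last, wt_last, add_zero]
  | cast j =>
    rw [wt_cast, wt_cast, wt_cast]
    rfl

lemma wt_smul (c : ℝ) (w : Wsp dm) (i : Fin 9) : wt (c • w) i = c • wt w i := by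
  induction i using Fin.lastCases with
  | last => rw [wt_last, wt_last, smul_zero]
  | cast j =>
    rw [wt_cast, wt_cast]
    rfl

variable {D : Fin 9 → Matrix (Fin dm) (Fin dm) ℝ} {Om : Matrix (Fin dm) (Fin dm) ℝ}

lemma VV_add (v w : Wsp dm) (i : Fin 9) : VV D (v + w) i = VV D v i + VV D w i := by
  unfold VV sV
  simp only [wt_add, Matrix.mulVec_add, Finset.sum_add_distrib]
  abel

lemma VV_smul (c : ℝ) (w : Wsp dm) (i : Fin 9) : VV D (c • w) i = c • VV D w i := by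
  unfold VV sV
  simp only [wt_smul, Matrix.mulVec_smul, ← Finset.smul_sum, smul_sub]

/-- linear map `w ↦ V_i(w)` -/
noncomputable def VL (D : Fin 9 → Matrix (Fin dm) (Fin dm) ℝ) (i : Fin 9) : Wsp dm →ₗ[ℝ] (Fin dm → ℝ) where
  toFun w := VV D w i
  map_add' v w := VV_add v w i
  map_smul' c w := VV_smul c w i

lemma VV_sum (w : Wsp dm) (i : Fin 9) : VV D w i = ∑ p, w p • VV D (EuclideanSpace.single p 1) i := by
  have h : w = ∑ p, w p • (EuclideanSpace.single p (1 : ℝ) : Wsp dm) := by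
    have := (EuclideanSpace.basisFun (Fin 8 × Fin dm) ℝ).sum_repr w
    simpa using this.symm
  have h2 : VL D i w = ∑ p, w p • VL D i (EuclideanSpace.single p 1) := by
    conv_lhs => rw [h]
    simp only [map_sum, map_smul]
  exact h2

/-- matrix of the quadratic form `qf` -/
noncomputable def mQ (D : Fin 9 → Matrix (Fin dm) (Fin dm) ℝ) (Om : Matrix (Fin dm) (Fin dm) ℝ) :
    Matrix (Fin 8 × Fin dm) (Fin 8 × Fin dm) ℝ :=
  Matrix.of fun p q => ∑ i, VV D (EuclideanSpace.single p 1) i ⬝ᵥ (Om *ᵥ VV D (EuclideanSpace.single q 1) i)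

lemma mQ_qf (w : Wsp dm) : (fun p => w p) ⬝ᵥ (mQ D Om *ᵥ fun p => w p) = qf D Om w := by
  unfold qf
  have h : ∀ i : Fin 9, VV D w i ⬝ᵥ (Om *ᵥ VV D w i) = ∑ p, ∑ q, w p * w q *
      (VV D (EuclideanSpace.single p 1) i ⬝ᵥ (Om *ᵥ VV D (EuclideanSpace.single q 1) i)) := by
    intro i
    conv_lhs => rw [VV_sum w i]
    rw [Matrix.mulVec_sum, dotProduct_sum]
    simp only [sum_dotProduct, smul_dotProduct, Matrix.mulVec_smul, dotProduct_smul, smul_eq_mul]
    rw [Finset.sum_comm]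
    refine Finset.sum_congr rfl fun p _ => ?_
    rw [Finset.mul_sum]
    refine Finset.sum_congr rfl fun q _ => ?_
    ring
  have h0 : (fun p => w p) ⬝ᵥ (mQ D Om *ᵥ fun p => w p) = ∑ p, ∑ q, w p * w q * mQ D Om p q :=
    GnB.qa_sum (E := ℝ) (fun _ => mQ D Om) 0 w
  rw [h0, Finset.sum_congr rfl fun i _ => h i, Finset.sum_comm (s := (Finset.univ : Finset (Fin 9)))]
  refine Finset.sum_congr rfl fun p _ => ?_
  rw [Finset.sum_comm (s := (Finset.univ : Finset (Fin 9)))]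
  refine Finset.sum_congr rfl fun q _ => ?_
  rw [← Finset.mul_sum]
  rfl

lemma mQ_symm (hO : Omᵀ = Om) : (mQ D Om)ᵀ = mQ D Om := by
  ext p q
  simp only [Matrix.transpose_apply, mQ, Matrix.of_apply]
  refine Finset.sum_congr rfl fun i _ => ?_
  rw [dotProduct_mulVec, ← mulVec_transpose, hO, dotProduct_comm]

section Smooth

variable {E : Type*} [NormedAddCommGroup E] [NormedSpace ℝ E] {U : Set E}

lemma mul_cd {ι : Type*} [Fintype ι] {M N : E → Matrix ι ι ℝ} (hM : ∀ p q, ContDiffOn ℝ ∞ (fun z => M z p q) U)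
    (hN : ∀ p q, ContDiffOn ℝ ∞ (fun z => N z p q) U) (p q : ι) : ContDiffOn ℝ ∞ (fun z => (M z * N z) p q) U := by
  simp only [Matrix.mul_apply]
  exact ContDiffOn.sum fun k _ => (hM p k).mul (hN k q)

lemma mv_cd {ι : Type*} [Fintype ι] {M : E → Matrix ι ι ℝ} {v : E → ι → ℝ}
    (hM : ∀ p q, ContDiffOn ℝ ∞ (fun z => M z p q) U)
    (hv : ∀ p, ContDiffOn ℝ ∞ (fun z => v z p) U) (p : ι) : ContDiffOn ℝ ∞ (fun z => (M z *ᵥ v z) p) U := by
  simp only [Matrix.mulVec, dotProduct]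
  exact ContDiffOn.sum fun k _ => (hM p k).mul (hv k)

lemma inv_cd {ι : Type*} [Fintype ι] [DecidableEq ι] {M : E → Matrix ι ι ℝ}
    (hM : ∀ p q, ContDiffOn ℝ ∞ (fun z => M z p q) U) (hd : ∀ z ∈ U, (M z).det ≠ 0) (p q : ι) :
    ContDiffOn ℝ ∞ (fun z => (M z)⁻¹ p q) U := by
  have h : (fun z => (M z)⁻¹ p q) = fun z => ((M z).det)⁻¹ * ((M z).updateRow q (Pi.single p 1)).det := by
    funext z
    rw [Matrix.inv_def, Matrix.smul_apply, smul_eq_mul, Matrix.adjugate_apply, Ring.inverse_eq_inv']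
  rw [h]
  refine ((GnB.det_cd hM).inv hd).mul (GnB.det_cd fun a b => ?_)
  by_cases hq : a = q
  · subst hq
    have : (fun z => (M z).updateRow a (Pi.single p 1) a b) = fun _ => (Pi.single p 1 : ι → ℝ) b := by
      funext z
      rw [Matrix.updateRow_self]
    rw [this]
    exact contDiffOn_const
  · have : (fun z => (M z).updateRow q (Pi.single p 1) a b) = fun z => M z a b := by
      funext z
      rw [Matrix.updateRow_ne hq]
    rw [this]
    exact hM a b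

lemma mQ_cd {Df : E → Fin 9 → Matrix (Fin dm) (Fin dm) ℝ} {Of : E → Matrix (Fin dm) (Fin dm) ℝ}
    (hD : ∀ i p q, ContDiffOn ℝ ∞ (fun z => Df z i p q) U) (hO : ∀ p q, ContDiffOn ℝ ∞ (fun z => Of z p q) U)
    (h8 : ∀ z ∈ U, (Df z 8).det ≠ 0) (ht : ∀ z ∈ U, (t2 (Df z)).det ≠ 0) (p q : Fin 8 × Fin dm) :
    ContDiffOn ℝ ∞ (fun z => mQ (Df z) (Of z) p q) U := by
  have hT : ∀ i p q, ContDiffOn ℝ ∞ (fun z => tI (Df z) i p q) U := by
    intro i p q
    unfold tI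
    exact mul_cd (fun a b => inv_cd (hD 8) h8 a b) (hD i) p q
  have ht2 : ∀ p q, ContDiffOn ℝ ∞ (fun z => t2 (Df z) p q) U := by
    intro p q
    unfold t2
    simp only [Matrix.sum_apply]
    exact ContDiffOn.sum fun i _ => mul_cd (hT i) (hT i) p q
  have hsV : ∀ (w : Wsp dm) B, ContDiffOn ℝ ∞ (fun z => sV (Df z) w B) U := by
    intro w B
    unfold sV
    refine mv_cd (fun a b => inv_cd ht2 ht a b) (fun a => ?_) B
    simp only [Finset.sum_apply]
    exact ContDiffOn.sum fun i _ => mv_cd (v := fun _ => wt w i) (hT i) (fun b => contDiffOn_const) a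
  have hV : ∀ (w : Wsp dm) i B, ContDiffOn ℝ ∞ (fun z => VV (Df z) w i B) U := by
    intro w i B
    unfold VV
    simp only [Pi.sub_apply]
    exact contDiffOn_const.sub (mv_cd (hT i) (fun b => hsV w b) B)
  unfold mQ
  simp only [Matrix.of_apply, dotProduct]
  refine ContDiffOn.sum fun i _ => ContDiffOn.sum fun B _ => ?_
  exact (hV _ i B).mul (mv_cd hO (fun b => hV _ i b) B)

end Smooth

section Dz

variable (S : Setup d F) (φ : Spl dh dm d) (ψ : Spl ds dz dh)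

lemma cmb_cd (x : Fin 9 × Fin dh) : ContDiff ℝ ∞ (fun yz : Cfg dz => cmb ψ 0 yz x) := by
  obtain ⟨i, A⟩ := x
  unfold cmb
  simp only
  rcases ψ.symm A with a | b
  · simp only [Sum.elim_inl]
    exact contDiff_const
  · simp only [Sum.elim_inr]
    exact (EuclideanSpace.proj (𝕜 := ℝ) ((i, b) : Fin 9 × Fin dz)).contDiff

lemma Dz_cd (i : Fin 9) (p q : Fin dm) : ContDiff ℝ ∞ (fun yz : Cfg dz => Dz S φ ψ yz i p q) := by
  unfold Dz Setup.Dy Setup.Dm
  simp only [Matrix.of_apply]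
  exact ContDiff.sum fun A _ => contDiff_const.mul (cmb_cd ψ (i, A))

/-- the scalar points with invertible `D_8` -/
def Ud : Set (Cfg dz) := {yz | (S.Dy φ 8 (cmb ψ 0 yz)).det ≠ 0}

lemma Ud_open : IsOpen (Ud S φ ψ) := by
  have h : ContDiffOn ℝ ∞ (fun yz : Cfg dz => (Dz S φ ψ yz 8).det) Set.univ :=
    GnB.det_cd fun p q => (Dz_cd S φ ψ 8 p q).contDiffOn
  exact isOpen_ne_fun (continuousOn_univ.1 h.continuousOn) continuous_const

/-- the matrix of the boson vacuum -/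
noncomputable def mA (yz : Cfg dz) : Matrix (Fin 8 × Fin dm) (Fin 8 × Fin dm) ℝ :=
  mQ (Dz S φ ψ yz) (omc S.κ (Dz S φ ψ yz))

lemma qa_eq (yz : Cfg dz) (w : Wsp dm) :
    GnB.qa (mA S φ ψ) yz w = qf (Dz S φ ψ yz) (omc S.κ (Dz S φ ψ yz)) w := mQ_qf w

theorem gn_eq (yz : Cfg dz) (w : Wsp dm) : gn S φ ψ yz w = GnB.ga (mA S φ ψ) yz w := by
  unfold gn GnB.ga gR
  simp only [qa_eq]

variable [FiniteDimensional ℂ F] {S φ ψ} (hS : ScalStmt S) {z₀ : Cfg dz} (h : Std2 S φ ψ z₀)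

include hS h in
theorem mA_symm {yz : Cfg dz} (hy : yz ∈ Ud S φ ψ) : (mA S φ ψ yz)ᵀ = mA S φ ψ yz := by
  obtain ⟨h1, -, -, -⟩ := hS inferInstance dh dm ds dz φ ψ z₀ h
  exact mQ_symm (h1 yz hy).2.symm

include hS h in
theorem mA_pos {yz : Cfg dz} (hy : yz ∈ Ud S φ ψ) (v : Fin 8 × Fin dm → ℝ) (hv : v ≠ 0) :
    0 < v ⬝ᵥ (mA S φ ψ yz *ᵥ v) := by
  obtain ⟨h1, -, -, -⟩ := hS inferInstance dh dm ds dz φ ψ z₀ h
  obtain ⟨hF, hO⟩ := h1 yz hy
  obtain ⟨M, -, hM, -, c, hc, hlow⟩ := qfS dm S.κ _ _ S.κ_pos hF hO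
  have h2 := mQ_qf (D := Dz S φ ψ yz) (Om := omc S.κ (Dz S φ ψ yz)) (WithLp.toLp 2 v)
  change v ⬝ᵥ (mQ (Dz S φ ψ yz) (omc S.κ (Dz S φ ψ yz)) *ᵥ v) = _ at h2
  unfold mA
  rw [h2, hM]
  have h3 : (WithLp.toLp 2 v : Wsp dm) ≠ 0 := by
    intro h4
    apply hv
    funext p
    have := congrArg (fun w : Wsp dm => w p) h4
    simpa using this
  have h4 : 0 < ‖(WithLp.toLp 2 v : Wsp dm)‖ := norm_pos_iff.2 h3
  exact lt_of_lt_of_le (by positivity) (hlow _)

include hS h in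
theorem mA_cd (p q : Fin 8 × Fin dm) : ContDiffOn ℝ ∞ (fun yz => mA S φ ψ yz p q) (Ud S φ ψ) := by
  obtain ⟨h1, -, h3, -⟩ := hS inferInstance dh dm ds dz φ ψ z₀ h
  refine mQ_cd (fun i p q => (Dz_cd S φ ψ i p q).contDiffOn) h3 (fun z hz => hz) (fun z hz => ?_) p q
  obtain ⟨hF, hO⟩ := h1 z hz
  exact (alg dm S.κ _ _ S.κ_pos hF hO).2.2.2.2.2.1

end Dz

end Vale.Agent.P353.Z.AD.GnC
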