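import Vale.Agent.P353.AN.D.ICAll

/-! # P353, all `N`, block D: L14 with all inputs assumed only for centreless setups -/

open MeasureTheory Filter Topology Matrix
open scoped ContDiff

namespace Vale.Agent.P353.Z.AD

variable {d : ℕ} {F : Type*} [NormedAddCommGroup F] [InnerProductSpace ℂ F]

namespace ICAll

/-- the rotated setup is centreless -/
lemma cless_rot {S : Setup d F} (hC : AN.Cless S) (R : Matrix (Fin 9) (Fin 9) ℝ) (hR : R * R.transpose = 1)
    (O : Matrix (Fin d) (Fin d) ℝ) (hO : O * O.transpose = 1) :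
    AN.Cless (S.rot R hR O hO) := by
  intro v hv
  have ho := AN.rt_orth hO
  have key : ∀ B C, ∑ A, (S.rot R hR O hO).f A B C * v A =
      ∑ b, O B b • ∑ c, O C c • ∑ a, S.f a b c * ∑ A, O A a * v A := by
    intro B C
    change ∑ A, (∑ a, ∑ b, ∑ c, O A a * O B b * O C c * S.f a b c) * v A = _
    simp only [smul_eq_mul, Finset.sum_mul, Finset.mul_sum]
    rw [Finset.sum_comm]
    refine (Finset.sum_congr rfl fun a _ => Finset.sum_comm).trans ?_
    rw [Finset.sum_comm]
    refine Finset.sum_congr rfl fun b _ => ?_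
    refine (Finset.sum_congr rfl fun a _ => Finset.sum_comm).trans ?_
    rw [Finset.sum_comm]
    refine Finset.sum_congr rfl fun c _ => Finset.sum_congr rfl fun a _ => Finset.sum_congr rfl fun A _ => ?_
    ring
  have h2 : ∀ k l, (∑ a, S.f a k l * ∑ A, O A a * v A) = 0 := by
    intro k l
    rw [← AN.rt_two (M := ℝ) (fun A a => O A a) ho k l fun b c => ∑ a, S.f a b c * ∑ A, O A a * v A]
    refine Finset.sum_eq_zero fun B _ => Finset.sum_eq_zero fun C _ => ?_
    rw [← key B C, hv B C, smul_zero]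
  have h3 := hC (fun a => ∑ A, O A a * v A) h2
  funext B
  have h4 : ∑ a, O B a * ∑ A, O A a * v A = v B := by
    simp only [Finset.mul_sum, ← mul_assoc]
    rw [Finset.sum_comm]
    simp only [← Finset.sum_mul]
    have h5 : ∀ A, ∑ a, O B a * O A a = if B = A then 1 else 0 := by
      intro A
      have := congrFun (congrFun hO B) A
      rw [Matrix.mul_apply, Matrix.one_apply] at this
      simpa [Matrix.transpose_apply] using this
    simp [h5]
  rw [← h4]
  refine Finset.sum_eq_zero fun a _ => ?_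
  rw [show (∑ A, O A a * v A) = 0 from congrFun h3 a, mul_zero]

end ICAll

open ICAll in
/-- **L14**, inputs only for centreless setups -/
theorem icAll_cless (hfin : FiniteDimensional ℂ F)
    (H : ∀ (d : ℕ) (S : Setup d F), AN.Cless S → LocStmt S ∧ LioStmt S ∧ Std2Stmt S ∧ TrStmt S ∧ NonCommStmt S ∧ NulAllStmt S ∧
      ShellStmt S ∧ DyOfStmt S ∧ DecStmt S ∧ KWStmt S ∧ HInfStmt S ∧ ICOfStmt S)
    (hdisc : DiscStmt) (hLR : ∀ d, U.LRStmt d F) (d : ℕ) (S : Setup d F) (hC : AN.Cless S) :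
    ICStmt S ∧ ∃ PZ, LocHyp S PZ ∧ LioHyp S PZ := by
  induction d using Nat.strong_induction_on with
  | _ d IH =>
    have hloc : ∀ Y : Cfg d, ∃ P : (ℕ → ℝ) → (ℕ → Cfg d → F) → Prop, Y ≠ 0 → S.V Y = 0 → Loc S Y P := by
      intro Y
      by_cases h1 : Y ≠ 0 ∧ S.V Y = 0
      · obtain ⟨P, hP⟩ := exists_loc hfin d S
          (fun R hR O hO => ⟨(H d _ (cless_rot hC R hR O hO)).1, (H d _ (cless_rot hC R hR O hO)).2.1,
            (H d _ (cless_rot hC R hR O hO)).2.2.2.2.1⟩)
          (H d S hC).2.2.1 (H d S hC).2.2.2.1 (fun m hm T hT => (IH m hm T hT).1) Y h1.1 h1.2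
        exact ⟨P, fun _ _ => hP⟩
      · exact ⟨fun _ _ => True, fun h2 h3 => absurd ⟨h2, h3⟩ h1⟩
    choose PZ hPZ using hloc
    have hL : LocHyp S PZ := fun Y hY hV => (hPZ Y hY hV).1
    have hLio : LioHyp S PZ := fun R u hS hg he Y hY hV => (hPZ Y hY hV).2 R u hS hg he
    obtain ⟨-, -, -, -, h5, h6, h7, h8, h9, h10, h11, h12⟩ := H d S hC
    have hDy : DyStmt S := h8 h5 h6 h7 hfin PZ hL hLio
    exact ⟨h12 h9 h10 h11 hDy hdisc (hLR d) hfin, PZ, hL, hLio⟩

end Vale.Agent.P353.Z.AD
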