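import Vale.Agent.P353.AN.D.Stmt
import Vale.Agent.P353.AN.F.Den

/-! # P353, all `N`, block D, D10 (a), (b): the singular set (collisions and the origin) is removable -/

open MeasureTheory Filter Topology
open scoped ContDiff

namespace Vale.Agent.P353.Z.AD

variable {r : ℕ} {K : Type*} [NormedAddCommGroup K] [InnerProductSpace ℂ K]

open Vale.Agent.P353.Z.U.WS Vale.Agent.P353.Z.AF

/-! ### the symbol -/

lemma lio_Q0_eq (S : Setup r K) (β : Fin 16) (u : Cfg r → K) (x : Cfg r) :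
    S.Q0 β u x = S.Q β u x - S.W β x (u x) := by
  simp only [Setup.Q0, Setup.Q, add_sub_cancel_right]

lemma lio_Tst_Q0 (S : Setup r K) {u : Cfg r → K} (hu : Setup.Tst u) (β : Fin 16) :
    Setup.Tst (S.Q0 β u) := by
  have h := (hu.Q S β).sub (Setup.Tst.clm (S.contDiff_W β) hu)
  have e : S.Q0 β u = fun x => S.Q β u x - S.W β x (u x) := funext fun x => lio_Q0_eq S β u x
  rw [e]
  exact h

lemma lio_Q0_smul (S : Setup r K) (β : Fin 16) (φ : Cfg r → ℝ) (u : Cfg r → K) (x : Cfg r)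
    (hφ : DifferentiableAt ℝ φ x) (hu : DifferentiableAt ℝ u x) :
    S.Q0 β (fun y => ((φ y : ℝ) : ℂ) • u y) x =
      ((φ x : ℝ) : ℂ) • S.Q0 β u x - S.esaD φ β x (u x) := by
  rw [lio_Q0_eq, lio_Q0_eq, Q_smul S β φ u x hφ hu, map_smul, smul_sub, Setup.esaD]
  simp only [_root_.smul_apply, _root_.sum_apply]
  abel

lemma lio_esaD_one_sub (S : Setup r K) (χ : Cfg r → ℝ) (β : Fin 16) (x : Cfg r) :
    S.esaD (fun y => 1 - χ y) β x = -S.esaD χ β x := by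
  have h : ∀ i A, pdr i A (fun y => 1 - χ y) x = -pdr i A χ x := by
    intro i A
    unfold pdr
    rw [fderiv_const_sub]
    rfl
  unfold Setup.esaD
  simp only [h, Complex.ofReal_neg, neg_smul, Finset.sum_neg_distrib, smul_neg]

lemma lio_esaD_zero (S : Setup r K) {χ : Cfg r → ℝ} {β : Fin 16} {x : Cfg r}
    (h : ∀ i A, pdr i A χ x = 0) : S.esaD χ β x = 0 := by
  unfold Setup.esaD
  simp only [h, Complex.ofReal_zero, zero_smul, Finset.sum_const_zero, smul_zero]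

/-! ### shells -/

lemma lio_shl_open (s t : ℝ) : IsOpen (shl r s t) :=
  (isOpen_lt continuous_const continuous_norm).inter (isOpen_lt continuous_norm continuous_const)

lemma lio_shl_sub (s t : ℝ) : shl r s t ⊆ Metric.ball (0 : Cfg r) t := fun x hx => by
  rw [Metric.mem_ball, dist_zero_right]
  exact hx.2

lemma lio_shl_fin (s t : ℝ) : (volume : Measure (Cfg r)) (shl r s t) < ⊤ :=
  (measure_mono (lio_shl_sub s t)).trans_lt measure_ball_lt_top

omit [InnerProductSpace ℂ K] in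
lemma lio_int_shl {f : Cfg r → K} (hf : AEStronglyMeasurable f (volume : Measure (Cfg r))) {s t : ℝ}
    (hI : IntegrableOn (fun x => ‖f x‖ ^ 2) (shl r s t) (volume : Measure (Cfg r))) :
    IntegrableOn f (shl r s t) (volume : Measure (Cfg r)) := by
  have hc : IntegrableOn (fun _ : Cfg r => (1 : ℝ)) (shl r s t) (volume : Measure (Cfg r)) :=
    integrableOn_const (lio_shl_fin s t).ne
  refine Integrable.mono' (g := fun x => (1 : ℝ) + ‖f x‖ ^ 2) (Integrable.add hc hI) hf.restrict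
    (Eventually.of_forall fun x => ?_)
  nlinarith [sq_nonneg (‖f x‖ - 1), norm_nonneg (f x)]

lemma lio_rho (n : ℕ) : (2 : ℝ) ^ (-((n : ℤ) + 1)) = (1 / 2) ^ (n + 1) := by
  rw [zpow_neg, one_div, inv_pow]
  congr 1

lemma lio_rho2 (n : ℕ) : (2 : ℝ) ^ (-((n : ℤ) + 1) + 1) = 2 * (1 / 2) ^ (n + 1) := by
  rw [zpow_add₀ two_ne_zero, lio_rho, zpow_one, mul_comm]

lemma lio_rho3 (n : ℕ) : (2 : ℝ) ^ (3 * |(-((n : ℤ) + 1))|) = (((1 / 2 : ℝ) ^ (n + 1)) ^ 3)⁻¹ := by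
  have h : |(-((n : ℤ) + 1))| = ((n + 1 : ℕ) : ℤ) := by
    rw [abs_neg, abs_of_nonneg (by positivity)]
    push_cast
    ring
  rw [h, mul_comm, zpow_mul, zpow_natCast, one_div, inv_pow, inv_pow, inv_inv]
  norm_cast

lemma lio_dsh (n : ℕ) : dsh r (-((n : ℤ) + 1)) =
    {x : Cfg r | (1 / 2) ^ (n + 1) < ‖x‖ ∧ ‖x‖ < 2 * (1 / 2) ^ (n + 1)} := by
  unfold dsh shl
  rw [lio_rho, lio_rho2]

lemma lio_finrank : Module.finrank ℝ (Cfg r) = 9 * r := by
  simp [Cfg]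

lemma lio_vol (hr : 0 < r) (n : ℕ) : ((volume : Measure (Cfg r)).real (dsh r (-((n : ℤ) + 1)))) ≤
    512 * ((volume : Measure (Cfg r)).real (Metric.ball 0 1)) * ((1 / 2 : ℝ) ^ (n + 1)) ^ 9 := by
  set ρ : ℝ := (1 / 2) ^ (n + 1) with hρ
  have hρ0 : 0 < ρ := by positivity
  have hρ1 : 2 * ρ ≤ 1 := by
    rw [hρ, pow_succ]
    have : (1 / 2 : ℝ) ^ n ≤ 1 := pow_le_one₀ (by norm_num) (by norm_num)
    linarith
  have h1 : dsh r (-((n : ℤ) + 1)) ⊆ Metric.ball (0 : Cfg r) (2 * ρ) := by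
    rw [lio_dsh]
    intro x hx
    rw [Metric.mem_ball, dist_zero_right]
    exact hx.2
  have h2 : (volume : Measure (Cfg r)).real (Metric.ball 0 (2 * ρ)) =
      (2 * ρ) ^ (9 * r) * (volume : Measure (Cfg r)).real (Metric.ball 0 1) := by
    rw [Measure.real, Measure.addHaar_ball_of_pos _ _ (by positivity), ENNReal.toReal_mul,
      ENNReal.toReal_ofReal (by positivity), lio_finrank]
    rfl
  have h3 : (2 * ρ) ^ (9 * r) ≤ (2 * ρ) ^ 9 :=
    pow_le_pow_of_le_one (by positivity) hρ1 (by omega)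
  calc (volume : Measure (Cfg r)).real (dsh r (-((n : ℤ) + 1)))
      ≤ (volume : Measure (Cfg r)).real (Metric.ball 0 (2 * ρ)) :=
        measureReal_mono h1 measure_ball_lt_top.ne
    _ = (2 * ρ) ^ (9 * r) * (volume : Measure (Cfg r)).real (Metric.ball 0 1) := h2
    _ ≤ (2 * ρ) ^ 9 * (volume : Measure (Cfg r)).real (Metric.ball 0 1) :=
        mul_le_mul_of_nonneg_right h3 measureReal_nonneg
    _ = _ := by ring

omit [InnerProductSpace ℂ K] in
lemma lio_mass (hr : 0 < r) {f : Cfg r → K} (hf : AEStronglyMeasurable f (volume : Measure (Cfg r)))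
    (hI : ∀ s t : ℝ, 0 < s → s < t →
      IntegrableOn (fun x => ‖f x‖ ^ 2) (shl r s t) (volume : Measure (Cfg r)))
    {C : ℝ} (hC : ∀ k : ℤ, ∫ x in dsh r k, ‖f x‖ ^ 2 ≤ C * (2 : ℝ) ^ (3 * |k|)) :
    ∃ C₁ : ℝ, 0 ≤ C₁ ∧ ∀ n : ℕ, IntegrableOn f (dsh r (-((n : ℤ) + 1))) (volume : Measure (Cfg r)) ∧
      ∫ x in dsh r (-((n : ℤ) + 1)), ‖f x‖ ≤ C₁ * ((1 / 2 : ℝ) ^ (n + 1)) ^ 3 := by
  set c : ℝ := (volume : Measure (Cfg r)).real (Metric.ball 0 1) with hc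
  have hc0 : 0 ≤ c := measureReal_nonneg
  have hC0 : 0 ≤ C := by
    have h1 : (0 : ℝ) ≤ ∫ x in dsh r 0, ‖f x‖ ^ 2 := integral_nonneg fun x => by positivity
    have h2 := hC 0
    simp only [abs_zero, mul_zero, zpow_zero, mul_one] at h2
    exact h1.trans h2
  refine ⟨1 / 2 * (512 * c + C), by positivity, fun n => ?_⟩
  set ρ : ℝ := (1 / 2) ^ (n + 1) with hρ
  have hρ0 : 0 < ρ := by positivity
  have hI2 : IntegrableOn (fun x => ‖f x‖ ^ 2) (dsh r (-((n : ℤ) + 1))) (volume : Measure (Cfg r)) :=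
    hI _ _ (by positivity) (zpow_lt_zpow_right₀ one_lt_two (by omega))
  have hfi : IntegrableOn f (dsh r (-((n : ℤ) + 1))) (volume : Measure (Cfg r)) :=
    lio_int_shl hf hI2
  refine ⟨hfi, ?_⟩
  have hcI : IntegrableOn (fun _ : Cfg r => ρ⁻¹ ^ 6) (dsh r (-((n : ℤ) + 1)))
      (volume : Measure (Cfg r)) := integrableOn_const (lio_shl_fin _ _).ne
  have h1 : ∫ x in dsh r (-((n : ℤ) + 1)), ‖f x‖ ≤
      ∫ x in dsh r (-((n : ℤ) + 1)), 1 / 2 * (ρ⁻¹ ^ 6 + ρ ^ 6 * ‖f x‖ ^ 2) := by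
    refine integral_mono hfi.norm ((hcI.add (hI2.const_mul _)).const_mul _) fun x => ?_
    have h2 : 0 ≤ (ρ⁻¹ ^ 3 - ρ ^ 3 * ‖f x‖) ^ 2 := sq_nonneg _
    have h3 : ρ⁻¹ ^ 3 * ρ ^ 3 = 1 := by rw [← mul_pow, inv_mul_cancel₀ hρ0.ne', one_pow]
    have h4 : (ρ⁻¹ ^ 3 - ρ ^ 3 * ‖f x‖) ^ 2 =
        ρ⁻¹ ^ 6 + ρ ^ 6 * ‖f x‖ ^ 2 - 2 * (ρ⁻¹ ^ 3 * ρ ^ 3) * ‖f x‖ := by ring
    rw [h3] at h4
    simp only
    linarith
  have h2 : ∫ x in dsh r (-((n : ℤ) + 1)), 1 / 2 * (ρ⁻¹ ^ 6 + ρ ^ 6 * ‖f x‖ ^ 2) =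
      1 / 2 * ((volume : Measure (Cfg r)).real (dsh r (-((n : ℤ) + 1))) * ρ⁻¹ ^ 6 +
        ρ ^ 6 * ∫ x in dsh r (-((n : ℤ) + 1)), ‖f x‖ ^ 2) := by
    rw [integral_const_mul, integral_add hcI (hI2.const_mul _), integral_const_mul,
      setIntegral_const, smul_eq_mul]
  have h3 := lio_vol hr n
  rw [← hρ, ← hc] at h3
  have h4 := hC (-((n : ℤ) + 1))
  rw [lio_rho3, ← hρ] at h4
  have h5 : (volume : Measure (Cfg r)).real (dsh r (-((n : ℤ) + 1))) * ρ⁻¹ ^ 6 ≤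
      512 * c * ρ ^ 3 := by
    calc (volume : Measure (Cfg r)).real (dsh r (-((n : ℤ) + 1))) * ρ⁻¹ ^ 6
        ≤ (512 * c * ρ ^ 9) * ρ⁻¹ ^ 6 := mul_le_mul_of_nonneg_right h3 (by positivity)
      _ = 512 * c * ρ ^ 3 := by field_simp
  have h6 : ρ ^ 6 * ∫ x in dsh r (-((n : ℤ) + 1)), ‖f x‖ ^ 2 ≤ C * ρ ^ 3 := by
    calc ρ ^ 6 * ∫ x in dsh r (-((n : ℤ) + 1)), ‖f x‖ ^ 2 ≤ ρ ^ 6 * (C * (ρ ^ 3)⁻¹) :=
          mul_le_mul_of_nonneg_left h4 (by positivity)
      _ = C * ρ ^ 3 := by field_simp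
  calc ∫ x in dsh r (-((n : ℤ) + 1)), ‖f x‖ ≤ _ := h1
    _ = _ := h2
    _ ≤ 1 / 2 * (512 * c * ρ ^ 3 + C * ρ ^ 3) := by linarith
    _ = _ := by ring

/-! ### local integrability -/

lemma lio_ball_ae (hr : 0 < r) : (Metric.ball (0 : Cfg r) 1 : Set (Cfg r)) ≤ᵐ[volume]
    (⋃ n : ℕ, dsh r (-((n : ℤ) + 1)) : Set (Cfg r)) := by
  have : Nonempty (Fin r) := ⟨⟨0, hr⟩⟩
  have h0 : ∀ᵐ x ∂(volume : Measure (Cfg r)), x ≠ 0 := by
    rw [ae_iff]
    simp
  have h1 : ∀ᵐ x ∂(volume : Measure (Cfg r)), ∀ n : ℕ, ‖x‖ ≠ (1 / 2) ^ (n + 1) := by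
    rw [ae_all_iff]
    intro n
    rw [ae_iff]
    have h2 : {x : Cfg r | ¬‖x‖ ≠ (1 / 2) ^ (n + 1)} = Metric.sphere 0 ((1 / 2) ^ (n + 1)) := by
      ext x
      simp
    rw [h2]
    exact Measure.addHaar_sphere_of_ne_zero _ _ (by positivity)
  filter_upwards [h0, h1] with x hx hn hxb
  have hxb' : ‖x‖ < 1 := by
    have := Metric.mem_ball.1 hxb
    rwa [dist_zero_right] at this
  obtain ⟨k, hk1, hk2⟩ := exists_mem_Ico_zpow (norm_pos_iff.2 hx) (one_lt_two (α := ℝ))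
  have hk : k < 0 := by
    by_contra hk
    have h3 : (1 : ℝ) ≤ 2 ^ k := one_le_zpow₀ one_le_two (not_lt.1 hk)
    linarith
  obtain ⟨n, hkn⟩ : ∃ n : ℕ, k = -((n : ℤ) + 1) := ⟨(-k - 1).toNat, by omega⟩
  refine Set.mem_iUnion.2 ⟨n, ?_⟩
  rw [hkn] at hk1 hk2
  refine ⟨lt_of_le_of_ne hk1 fun h => hn n ?_, hk2⟩
  rw [← h, lio_rho]

omit [InnerProductSpace ℂ K] in
lemma lio_locInt (hr : 0 < r) {f : Cfg r → K}
    (hf : AEStronglyMeasurable f (volume : Measure (Cfg r)))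
    (hI : ∀ s t : ℝ, 0 < s → s < t →
      IntegrableOn (fun x => ‖f x‖ ^ 2) (shl r s t) (volume : Measure (Cfg r)))
    {C₁ : ℝ} (hC : ∀ n : ℕ, IntegrableOn f (dsh r (-((n : ℤ) + 1))) (volume : Measure (Cfg r)) ∧
      ∫ x in dsh r (-((n : ℤ) + 1)), ‖f x‖ ≤ C₁ * ((1 / 2 : ℝ) ^ (n + 1)) ^ 3) :
    LocallyIntegrable f (volume : Measure (Cfg r)) := by
  have hb : IntegrableOn f (Metric.ball (0 : Cfg r) 1) (volume : Measure (Cfg r)) := by
    refine IntegrableOn.mono_set_ae (t := ⋃ n : ℕ, dsh r (-((n : ℤ) + 1))) ?_ (lio_ball_ae hr)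
    refine integrableOn_iUnion_of_summable_integral_norm (fun n => (hC n).1) ?_
    have hs : Summable fun n : ℕ => C₁ * ((1 / 2 : ℝ) ^ (n + 1)) ^ 3 := by
      refine Summable.mul_left _ ?_
      have e : (fun n : ℕ => ((1 / 2 : ℝ) ^ (n + 1)) ^ 3) = fun n => (1 / 8) * (1 / 8 : ℝ) ^ n := by
        funext n
        rw [← pow_mul, mul_comm, pow_mul, pow_succ']
        norm_num
      rw [e]
      exact (summable_geometric_of_lt_one (by norm_num) (by norm_num)).mul_left _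
    exact Summable.of_nonneg_of_le (fun n => integral_nonneg fun x => norm_nonneg _)
      (fun n => (hC n).2) hs
  intro x
  rcases eq_or_ne x 0 with rfl | hx
  · exact ⟨_, Metric.ball_mem_nhds _ one_pos, hb⟩
  · have hx0 : 0 < ‖x‖ := norm_pos_iff.2 hx
    refine ⟨shl r (‖x‖ / 2) (2 * ‖x‖), (lio_shl_open _ _).mem_nhds ⟨by linarith, by linarith⟩, ?_⟩
    exact lio_int_shl hf (hI _ _ (by positivity) (by linarith))

/-! ### pairings with test functions -/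

lemma lio_pair {f : Cfg r → K} (hf : LocallyIntegrable f (volume : Measure (Cfg r)))
    {w : Cfg r → K} (hw : Setup.Tst w) :
    Integrable (fun x => inner ℂ (w x) (f x)) (volume : Measure (Cfg r)) := by
  obtain ⟨M, ρ, hM, hρ, hb, hz⟩ := hw.exists_bound
  have h1 : IntegrableOn f (Metric.closedBall (0 : Cfg r) ρ) (volume : Measure (Cfg r)) :=
    hf.integrableOn_isCompact (isCompact_closedBall _ _)
  refine Integrable.mono' (g := (Metric.closedBall (0 : Cfg r) ρ).indicator fun x => M * ‖f x‖)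
    (IntegrableOn.integrable_indicator (h1.norm.const_mul M) measurableSet_closedBall)
    (hw.1.continuous.aestronglyMeasurable.inner hf.aestronglyMeasurable)
    (Eventually.of_forall fun x => ?_)
  by_cases hx : x ∈ Metric.closedBall (0 : Cfg r) ρ
  · rw [Set.indicator_of_mem hx]
    exact (norm_inner_le_norm _ _).trans (mul_le_mul_of_nonneg_right (hb x) (norm_nonneg _))
  · rw [Set.indicator_of_notMem hx]
    rw [Metric.mem_closedBall, dist_zero_right, not_le] at hx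
    rw [hz x hx, inner_zero_left, norm_zero]

/-- dominated convergence for the factors `φ_n → 1` -/
lemma lio_dct {f : Cfg r → K} (hf : LocallyIntegrable f (volume : Measure (Cfg r)))
    {w : Cfg r → K} (hw : Setup.Tst w) {φ : ℕ → Cfg r → ℝ} (hφ : ∀ n, Continuous (φ n))
    (h01 : ∀ n y, 0 ≤ φ n y ∧ φ n y ≤ 1)
    (h1 : ∀ᵐ y ∂(volume : Measure (Cfg r)), ∀ᶠ n in atTop, φ n y = 1) :
    Tendsto (fun n => ∫ x, ((φ n x : ℝ) : ℂ) * inner ℂ (w x) (f x)) atTop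
      (𝓝 (∫ x, inner ℂ (w x) (f x))) := by
  have hi := lio_pair hf hw
  refine tendsto_integral_of_dominated_convergence (fun x => ‖inner ℂ (w x) (f x)‖)
    (fun n => (Complex.continuous_ofReal.comp (hφ n)).aestronglyMeasurable.mul
      hi.aestronglyMeasurable) hi.norm (fun n => Eventually.of_forall fun x => ?_) ?_
  · rw [norm_mul, Complex.norm_real, Real.norm_of_nonneg (h01 n x).1]
    exact mul_le_of_le_one_left (norm_nonneg _) (h01 n x).2
  · filter_upwards [h1] with x hx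
    refine tendsto_const_nhds.congr' ?_
    filter_upwards [hx] with n hn
    rw [hn, Complex.ofReal_one, one_mul]

lemma lio_pair_smul (S : Setup r K) (β : Fin 16) {φ : Cfg r → ℝ} (hφ : ContDiff ℝ ∞ φ)
    {ζ : Cfg r → K} (hζ : Setup.Tst ζ) (v : K) (x : Cfg r) :
    inner ℂ (S.Q0 β (fun y => ((φ y : ℝ) : ℂ) • ζ y) x) v =
      ((φ x : ℝ) : ℂ) * inner ℂ (S.Q0 β ζ x) v - inner ℂ (S.esaD φ β x (ζ x)) v := by
  rw [lio_Q0_smul S β φ ζ x (hφ.differentiable (by simp) x) (hζ.diff x), inner_sub_left,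
    inner_smul_left, Complex.conj_ofReal]

/-- weak equation for `φ ζ` -/
lemma lio_split (S : Setup r K) (β : Fin 16) {f : Cfg r → K}
    (hf : LocallyIntegrable f (volume : Measure (Cfg r))) {φ : Cfg r → ℝ} (hφ : ContDiff ℝ ∞ φ)
    {ζ : Cfg r → K} (hζ : Setup.Tst ζ)
    (h0 : ∫ x, inner ℂ (S.Q0 β (fun y => ((φ y : ℝ) : ℂ) • ζ y) x) (f x) = 0) :
    ∫ x, ((φ x : ℝ) : ℂ) * inner ℂ (S.Q0 β ζ x) (f x) =
      ∫ x, inner ℂ (S.esaD φ β x (ζ x)) (f x) := by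
  have hT : Setup.Tst (fun x => S.esaD φ β x (ζ x)) := Setup.Tst.clm (S.esa_contDiff_D hφ β) hζ
  have i1 : Integrable (fun x => ((φ x : ℝ) : ℂ) * inner ℂ (S.Q0 β ζ x) (f x))
      (volume : Measure (Cfg r)) := by
    have h2 : Setup.Tst (fun x => ((φ x : ℝ) : ℂ) • S.Q0 β ζ x) :=
      Setup.Tst.rsmul hφ (lio_Tst_Q0 S hζ β)
    refine (lio_pair hf h2).congr (Eventually.of_forall fun x => ?_)
    simp only
    rw [inner_smul_left, Complex.conj_ofReal]
  have i2 := lio_pair hf hT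
  simp only [lio_pair_smul S β hφ hζ] at h0
  rw [integral_sub i1 i2] at h0
  exact sub_eq_zero.1 h0

/-! ### (a) the collisions -/

lemma lio_a (S : Setup r K) (hcut : CutStmt r) (L : Finset (Fin r → ℝ)) (hL : ∀ l ∈ L, l ≠ 0)
    {f : Cfg r → K} (hf : LocallyIntegrable f (volume : Measure (Cfg r)))
    (hI : ∀ s t : ℝ, 0 < s → s < t →
      IntegrableOn (fun x => ‖f x‖ ^ 2) (shl r s t) (volume : Measure (Cfg r)))
    (β : Fin 16) (hw : ∀ ζ, TOff L ζ → ∫ x, inner ℂ (S.Q0 β ζ x) (f x) = 0)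
    {ζ : Cfg r → K} (hζ : Setup.Tst ζ) (h0 : (0 : Cfg r) ∉ tsupport ζ) :
    ∫ x, inner ℂ (S.Q0 β ζ x) (f x) = 0 := by
  obtain ⟨η, hη, h01, hd, h1, hae, hgr⟩ := hcut L hL
  have h1' : ∀ᵐ y ∂(volume : Measure (Cfg r)), ∀ᶠ n in atTop, η n y = 1 := by
    filter_upwards [hae] with y hy using h1 y hy
  -- the weak equations
  have hT : ∀ n, TOff L (fun x => ((η n x : ℝ) : ℂ) • ζ x) := by
    intro n
    have hs1 : tsupport (fun x => ((η n x : ℝ) : ℂ) • ζ x) ⊆ tsupport (η n) := by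
      refine closure_mono fun x hx => ?_
      simp only [Function.mem_support] at hx ⊢
      intro h0
      exact hx (by simp [h0])
    have hs2 : tsupport (fun x => ((η n x : ℝ) : ℂ) • ζ x) ⊆ tsupport ζ := by
      refine closure_mono fun x hx => ?_
      simp only [Function.mem_support] at hx ⊢
      intro h0
      exact hx (by simp [h0])
    exact ⟨⟨hζ.rsmul (hη n), (hd n).mono_left hs1⟩, fun h => h0 (hs2 h)⟩
  have he : ∀ n, ∫ x, ((η n x : ℝ) : ℂ) * inner ℂ (S.Q0 β ζ x) (f x) =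
      ∫ x, inner ℂ (S.esaD (η n) β x (ζ x)) (f x) := fun n =>
    lio_split S β hf (hη n) hζ (hw _ (hT n))
  have hlim := lio_dct hf (lio_Tst_Q0 S hζ β) (fun n => (hη n).continuous) h01 h1'
  -- the support of `ζ` lies in a shell
  obtain ⟨M, s₂, hM0, hs2, hM, hz⟩ := hζ.exists_bound
  obtain ⟨s₁, hs1, hz1⟩ : ∃ s₁ : ℝ, 0 < s₁ ∧ ∀ x, ‖x‖ < s₁ → ζ x = 0 := by
    have h2 : (tsupport ζ)ᶜ ∈ 𝓝 (0 : Cfg r) := (isClosed_tsupport ζ).isOpen_compl.mem_nhds h0
    obtain ⟨s, hs, hsub⟩ := Metric.mem_nhds_iff.1 h2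
    refine ⟨s, hs, fun x hx => ?_⟩
    by_contra hne
    exact hsub (by rwa [Metric.mem_ball, dist_zero_right]) (subset_tsupport _ hne)
  set A : Set (Cfg r) := shl r (s₁ / 2) (max s₁ s₂ + 1) with hA
  have hAm : MeasurableSet A := (lio_shl_open _ _).measurableSet
  have hAI := hI (s₁ / 2) (max s₁ s₂ + 1) (by positivity)
    (by linarith [le_max_left s₁ s₂])
  have hzA : ∀ x, x ∉ A → ζ x = 0 := by
    intro x hx
    by_contra hne
    apply hx
    constructor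
    · have h3 : s₁ ≤ ‖x‖ := by
        by_contra h4
        exact hne (hz1 x (not_le.1 h4))
      linarith
    · have h3 : ‖x‖ ≤ s₂ := by
        by_contra h4
        exact hne (hz x (not_le.1 h4))
      linarith [le_max_right s₁ s₂]
  set g : Cfg r → K := A.indicator f with hg
  have hgm : MemLp g 2 (volume : Measure (Cfg r)) := by
    have hgs : AEStronglyMeasurable g (volume : Measure (Cfg r)) :=
      hf.aestronglyMeasurable.indicator hAm
    rw [memLp_two_iff_integrable_sq_norm hgs]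
    have h3 : (fun x => ‖g x‖ ^ 2) = A.indicator fun x => ‖f x‖ ^ 2 := by
      funext x
      by_cases hx : x ∈ A
      · rw [hg, Set.indicator_of_mem hx, Set.indicator_of_mem hx]
      · rw [hg, Set.indicator_of_notMem hx, Set.indicator_of_notMem hx]
        simp
    rw [h3]
    exact hAI.integrable_indicator hAm
  have hTe : ∀ n, Setup.Tst (fun x => S.esaD (η n) β x (ζ x)) := fun n =>
    Setup.Tst.clm (S.esa_contDiff_D (hη n) β) hζ
  have hcs : ∀ n, ‖∫ x, inner ℂ (S.esaD (η n) β x (ζ x)) (f x)‖ ≤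
      Real.sqrt (∫ x, ‖S.esaD (η n) β x (ζ x)‖ ^ 2) * Real.sqrt (∫ x, ‖g x‖ ^ 2) := by
    intro n
    have h3 : ∫ x, inner ℂ (S.esaD (η n) β x (ζ x)) (f x) =
        ∫ x, inner ℂ (S.esaD (η n) β x (ζ x)) (g x) := by
      refine integral_congr_ae (Eventually.of_forall fun x => ?_)
      simp only
      by_cases hx : x ∈ A
      · rw [hg, Set.indicator_of_mem hx]
      · rw [hzA x hx, map_zero, inner_zero_left, inner_zero_left]
    rw [h3]
    exact cs_inner (hTe n).memLp hgm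
  -- the gradient of the cutoffs
  have ha2 : Tendsto (fun n => ∫ x, ‖S.esaD (η n) β x (ζ x)‖ ^ 2) atTop (𝓝 0) := by
    set c : ℝ := (∑ i, ∑ A, ‖S.vec (S.g i) A β‖ ^ 2) * M ^ 2 with hc
    have hc0 : 0 ≤ c := by positivity
    set s' : ℝ := s₂ + 1 with hs'
    have hv0 : ∀ x, x ∉ Metric.ball (0 : Cfg r) s' → ζ x = 0 := by
      intro x hx
      rw [Metric.mem_ball, dist_zero_right, not_lt] at hx
      exact hz x (by linarith)
    have hb : ∀ n, ∫ x, ‖S.esaD (η n) β x (ζ x)‖ ^ 2 ≤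
        c * ∑ i, ∑ A, ∫ y in Metric.ball (0 : Cfg r) s', pdr i A (η n) y ^ 2 := by
      intro n
      have hi : ∀ i A, IntegrableOn (fun y => pdr i A (η n) y ^ 2) (Metric.ball (0 : Cfg r) s') := by
        intro i A
        have hc2 : Continuous (fun y => pdr i A (η n) y ^ 2) :=
          (esa_pdr_smooth (hη n) i A).continuous.pow 2
        exact (hc2.locallyIntegrable.integrableOn_isCompact
          (isCompact_closedBall (0 : Cfg r) s')).mono_set Metric.ball_subset_closedBall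
      have e1 : ∑ i, ∑ A, ∫ y in Metric.ball (0 : Cfg r) s', pdr i A (η n) y ^ 2 =
          ∫ y in Metric.ball (0 : Cfg r) s', ∑ i, ∑ A, pdr i A (η n) y ^ 2 := by
        rw [integral_finsetSum _ fun i _ => integrable_finsetSum _ fun A _ => hi i A]
        exact Finset.sum_congr rfl fun i _ => (integral_finsetSum _ fun A _ => hi i A).symm
      rw [e1, ← integral_const_mul, ← integral_indicator Metric.isOpen_ball.measurableSet]
      refine integral_mono_of_nonneg (Eventually.of_forall fun x => by positivity) ?_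
        (Eventually.of_forall fun x => ?_)
      · refine (integrable_indicator_iff Metric.isOpen_ball.measurableSet).2 ?_
        exact (integrable_finsetSum _ fun i _ => integrable_finsetSum _ fun A _ => hi i A).const_mul c
      · simp only
        by_cases hx : x ∈ Metric.ball (0 : Cfg r) s'
        · rw [Set.indicator_of_mem hx]
          refine (esaD_sq S (η n) β x (ζ x)).trans ?_
          have h3 : ‖ζ x‖ ^ 2 ≤ M ^ 2 := pow_le_pow_left₀ (norm_nonneg _) (hM x) 2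
          have h4 : 0 ≤ ∑ i, ∑ A, pdr i A (η n) x ^ 2 := by positivity
          have h5 : 0 ≤ ∑ i, ∑ A, ‖S.vec (S.g i) A β‖ ^ 2 := by positivity
          calc (∑ i, ∑ A, pdr i A (η n) x ^ 2) * (∑ i, ∑ A, ‖S.vec (S.g i) A β‖ ^ 2) * ‖ζ x‖ ^ 2
              ≤ (∑ i, ∑ A, pdr i A (η n) x ^ 2) * (∑ i, ∑ A, ‖S.vec (S.g i) A β‖ ^ 2) * M ^ 2 :=
                mul_le_mul_of_nonneg_left h3 (mul_nonneg h4 h5)
            _ = _ := by rw [hc]; ring
        · rw [Set.indicator_of_notMem hx, hv0 x hx]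
          simp
    refine squeeze_zero (fun n => integral_nonneg fun x => by positivity) hb ?_
    simpa using (hgr s' (by positivity)).const_mul c
  have hz0 : Tendsto (fun n => ∫ x, inner ℂ (S.esaD (η n) β x (ζ x)) (f x)) atTop (𝓝 0) := by
    rw [tendsto_zero_iff_norm_tendsto_zero]
    refine squeeze_zero (fun n => norm_nonneg _) hcs ?_
    have h3 := (ha2.sqrt).mul_const (Real.sqrt (∫ x, ‖g x‖ ^ 2))
    simpa using h3
  have hfin : Tendsto (fun n => ∫ x, ((η n x : ℝ) : ℂ) * inner ℂ (S.Q0 β ζ x) (f x)) atTop (𝓝 0) := by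
    simpa only [he] using hz0
  exact tendsto_nhds_unique hlim hfin

/-! ### (b) the origin -/

lemma lio_cut_grad {κ R : ℝ} (hκ : 0 ≤ κ) (hR : 0 < R) {χ : Cfg r → ℝ} (H : IsCut κ R χ) (j : Fin 9)
    (B : Fin r) (x : Cfg r) : |pdr j B χ x| ≤ κ / R := by
  obtain ⟨-, -, -, -, -, -, h1, h2⟩ := H
  rcases lt_or_ge ‖x‖ R with hx | hx
  · rw [h2 j B x hx, abs_zero]
    positivity
  · rw [le_div_iff₀ hR]
    exact (mul_le_mul_of_nonneg_left hx (abs_nonneg _)).trans (h1 j B x)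

lemma lio_cut_out {κ R : ℝ} {χ : Cfg r → ℝ} (H : IsCut κ R χ) (j : Fin 9)
    (B : Fin r) {x : Cfg r} (hx : 2 * R < ‖x‖) : pdr j B χ x = 0 := by
  obtain ⟨-, -, -, -, -, h0, -, -⟩ := H
  have h1 : χ =ᶠ[𝓝 x] fun _ => (0 : ℝ) := by
    have h2 : {y : Cfg r | 2 * R < ‖y‖} ∈ 𝓝 x :=
      (isOpen_lt continuous_const continuous_norm).mem_nhds hx
    filter_upwards [h2] with y hy
    exact h0 y (le_of_lt hy)
  rw [pdr, h1.fderiv_eq]
  simp

/-- `∫ |⟨(γθ∇χ)ζ, f⟩| ≤ C ρ^{-1} ∫_{dyadic shell} |f|` -/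
lemma lio_b_est (S : Setup r K) (β : Fin 16) {f : Cfg r → K}
    {κ M : ℝ} (hκ : 0 ≤ κ) {χ : Cfg r → ℝ} (n : ℕ)
    (H : IsCut κ ((1 / 2 : ℝ) ^ (n + 1)) χ)
    (hfi : IntegrableOn f (dsh r (-((n : ℤ) + 1))) (volume : Measure (Cfg r)))
    {ζ : Cfg r → K} (hM : ∀ x, ‖ζ x‖ ≤ M) :
    ‖∫ x, inner ℂ (S.esaD χ β x (ζ x)) (f x)‖ ≤
      κ / (1 / 2 : ℝ) ^ (n + 1) * S.esaC β * M * ∫ x in dsh r (-((n : ℤ) + 1)), ‖f x‖ := by
  set ρ : ℝ := (1 / 2) ^ (n + 1) with hρ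
  have hρ0 : 0 < ρ := by positivity
  set c : ℝ := κ / ρ * S.esaC β * M with hc
  have hm : MeasurableSet (dsh r (-((n : ℤ) + 1))) := (lio_shl_open _ _).measurableSet
  have h0 : ∀ᵐ x ∂(volume : Measure (Cfg r)), ‖x‖ ≠ ρ ∧ ‖x‖ ≠ 2 * ρ := by
    have h1 : ∀ t : ℝ, 0 < t → ∀ᵐ x ∂(volume : Measure (Cfg r)), ‖x‖ ≠ t := by
      intro t ht
      rw [ae_iff]
      have h2 : {x : Cfg r | ¬‖x‖ ≠ t} = Metric.sphere 0 t := by
        ext x
        simp
      rw [h2]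
      exact Measure.addHaar_sphere_of_ne_zero _ _ ht.ne'
    filter_upwards [h1 ρ hρ0, h1 (2 * ρ) (by positivity)] with x hx hy using ⟨hx, hy⟩
  have hbd : ∀ᵐ x ∂(volume : Measure (Cfg r)), ‖inner ℂ (S.esaD χ β x (ζ x)) (f x)‖ ≤
      (dsh r (-((n : ℤ) + 1))).indicator (fun x => c * ‖f x‖) x := by
    filter_upwards [h0] with x hx
    by_cases hxs : x ∈ dsh r (-((n : ℤ) + 1))
    · rw [Set.indicator_of_mem hxs]
      have h1 := D_norm S (fun j B y => lio_cut_grad hκ hρ0 H j B y) β x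
      calc ‖inner ℂ (S.esaD χ β x (ζ x)) (f x)‖ ≤ ‖S.esaD χ β x (ζ x)‖ * ‖f x‖ :=
            norm_inner_le_norm _ _
        _ ≤ (κ / ρ * S.esaC β * M) * ‖f x‖ := by
            refine mul_le_mul_of_nonneg_right ?_ (norm_nonneg _)
            refine ((S.esaD χ β x).le_opNorm (ζ x)).trans ?_
            exact mul_le_mul h1 (hM x) (norm_nonneg _) ((norm_nonneg _).trans h1)
    · rw [Set.indicator_of_notMem hxs]
      have h1 : ‖x‖ < ρ ∨ 2 * ρ < ‖x‖ := by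
        by_contra h2
        rw [not_or, not_lt, not_lt] at h2
        apply hxs
        rw [lio_dsh]
        exact ⟨lt_of_le_of_ne h2.1 (Ne.symm hx.1), lt_of_le_of_ne h2.2 hx.2⟩
      have h2 : ∀ i A, pdr i A χ x = 0 := by
        intro i A
        rcases h1 with h1 | h1
        · exact H.2.2.2.2.2.2.2 i A x h1
        · exact lio_cut_out H i A h1
      rw [lio_esaD_zero S h2, _root_.zero_apply, inner_zero_left, norm_zero]
  calc ‖∫ x, inner ℂ (S.esaD χ β x (ζ x)) (f x)‖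
      ≤ ∫ x, (dsh r (-((n : ℤ) + 1))).indicator (fun x => c * ‖f x‖) x :=
        norm_integral_le_of_norm_le (IntegrableOn.integrable_indicator (hfi.norm.const_mul c) hm) hbd
    _ = _ := by rw [integral_indicator hm, integral_const_mul]

/-- **D10 (a), (b)**: `f` is locally integrable and `Q0_β f = 0` weakly on the whole space -/
theorem liouA (S : Setup r K) (hcut : CutStmt r) (hr : 0 < r) (L : Finset (Fin r → ℝ))
    (hL : ∀ l ∈ L, l ≠ 0) (f : Cfg r → K)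
    (hf : AEStronglyMeasurable f (volume : Measure (Cfg r)))
    (hI : ∀ s t : ℝ, 0 < s → s < t →
      IntegrableOn (fun x => ‖f x‖ ^ 2) (shl r s t) (volume : Measure (Cfg r)))
    (hC : ∃ C : ℝ, ∀ k : ℤ, ∫ x in dsh r k, ‖f x‖ ^ 2 ≤ C * (2 : ℝ) ^ (3 * |k|))
    (hw : ∀ β, ∀ ζ, TOff L ζ → ∫ x, inner ℂ (S.Q0 β ζ x) (f x) = 0) :
    LocallyIntegrable f (volume : Measure (Cfg r)) ∧
      ∀ β, ∀ ζ, Setup.Tst ζ → ∫ x, inner ℂ (S.Q0 β ζ x) (f x) = 0 := by
  obtain ⟨C, hC⟩ := hC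
  obtain ⟨C₁, hC1, hC2⟩ := lio_mass hr hf hI hC
  have hloc := lio_locInt hr hf hI hC2
  refine ⟨hloc, fun β ζ hζ => ?_⟩
  obtain ⟨κ, hκ, hex⟩ := exists_cut (d := r)
  have hch : ∀ n : ℕ, ∃ χ : Cfg r → ℝ, IsCut κ ((1 / 2 : ℝ) ^ (n + 1)) χ := fun n =>
    hex _ (by positivity)
  choose χ hχ using hch
  set φ : ℕ → Cfg r → ℝ := fun n x => 1 - χ n x with hφ
  have hφs : ∀ n, ContDiff ℝ ∞ (φ n) := fun n => contDiff_const.sub (hχ n).1
  have h01 : ∀ n y, 0 ≤ φ n y ∧ φ n y ≤ 1 := fun n y =>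
    ⟨sub_nonneg.2 ((hχ n).2.2.2.1 y), sub_le_self _ ((hχ n).2.2.1 y)⟩
  have hρlim : Tendsto (fun n : ℕ => (1 / 2 : ℝ) ^ (n + 1)) atTop (𝓝 0) :=
    (tendsto_pow_atTop_nhds_zero_of_lt_one (by norm_num) (by norm_num)).comp (tendsto_add_atTop_nat 1)
  have h1 : ∀ᵐ y ∂(volume : Measure (Cfg r)), ∀ᶠ n in atTop, φ n y = 1 := by
    have : Nonempty (Fin r) := ⟨⟨0, hr⟩⟩
    have h0 : ∀ᵐ x ∂(volume : Measure (Cfg r)), x ≠ 0 := by
      rw [ae_iff]
      simp
    filter_upwards [h0] with y hy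
    have h2 : Tendsto (fun n : ℕ => 2 * (1 / 2 : ℝ) ^ (n + 1)) atTop (𝓝 0) := by
      simpa using hρlim.const_mul 2
    filter_upwards [h2.eventually (gt_mem_nhds (norm_pos_iff.2 hy))] with n hn
    simp only [hφ]
    rw [(hχ n).2.2.2.2.2.1 y hn.le, sub_zero]
  -- the weak equations
  have h0s : ∀ n, (0 : Cfg r) ∉ tsupport (fun x => ((φ n x : ℝ) : ℂ) • ζ x) := by
    intro n h
    have h3 : (fun x => ((φ n x : ℝ) : ℂ) • ζ x) =ᶠ[𝓝 0] 0 := by
      have h4 : Metric.ball (0 : Cfg r) ((1 / 2 : ℝ) ^ (n + 1)) ∈ 𝓝 0 :=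
        Metric.ball_mem_nhds _ (by positivity)
      filter_upwards [h4] with x hx
      rw [Metric.mem_ball, dist_zero_right] at hx
      simp only [hφ]
      rw [(hχ n).2.2.2.2.1 x hx.le]
      simp
    exact (notMem_tsupport_iff_eventuallyEq.2 h3) h
  have he : ∀ n, ∫ x, ((φ n x : ℝ) : ℂ) * inner ℂ (S.Q0 β ζ x) (f x) =
      ∫ x, inner ℂ (S.esaD (φ n) β x (ζ x)) (f x) := fun n =>
    lio_split S β hloc (hφs n) hζ
      (lio_a S hcut L hL hloc hI β (hw β) (hζ.rsmul (hφs n)) (h0s n))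
  have hlim := lio_dct hloc (lio_Tst_Q0 S hζ β) (fun n => (hφs n).continuous) h01 h1
  obtain ⟨M, s₂, hM0, hs2, hM, hz⟩ := hζ.exists_bound
  have hb : ∀ n, ‖∫ x, inner ℂ (S.esaD (φ n) β x (ζ x)) (f x)‖ ≤
      κ * S.esaC β * M * C₁ * ((1 / 2 : ℝ) ^ (n + 1)) ^ 2 := by
    intro n
    have h3 : ∫ x, inner ℂ (S.esaD (φ n) β x (ζ x)) (f x) =
        -∫ x, inner ℂ (S.esaD (χ n) β x (ζ x)) (f x) := by
      rw [← integral_neg]
      refine integral_congr_ae (Eventually.of_forall fun x => ?_)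
      simp only [hφ]
      rw [lio_esaD_one_sub, _root_.neg_apply, inner_neg_left]
    rw [h3, norm_neg]
    refine (lio_b_est S β hκ n (hχ n) (hC2 n).1 hM).trans ?_
    have hρ0 : (0 : ℝ) < (1 / 2) ^ (n + 1) := by positivity
    have hE : 0 ≤ S.esaC β := by
      unfold Setup.esaC
      positivity
    calc κ / (1 / 2 : ℝ) ^ (n + 1) * S.esaC β * M * ∫ x in dsh r (-((n : ℤ) + 1)), ‖f x‖
        ≤ κ / (1 / 2 : ℝ) ^ (n + 1) * S.esaC β * M * (C₁ * ((1 / 2 : ℝ) ^ (n + 1)) ^ 3) :=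
          mul_le_mul_of_nonneg_left (hC2 n).2 (by positivity)
      _ = _ := by
          generalize (1 / 2 : ℝ) ^ (n + 1) = ρ at hρ0 ⊢
          field_simp
  have hz0 : Tendsto (fun n => ∫ x, inner ℂ (S.esaD (φ n) β x (ζ x)) (f x)) atTop (𝓝 0) := by
    rw [tendsto_zero_iff_norm_tendsto_zero]
    refine squeeze_zero (fun n => norm_nonneg _) hb ?_
    have h3 := (hρlim.pow 2).const_mul (κ * S.esaC β * M * C₁)
    simpa using h3
  have hfin : Tendsto (fun n => ∫ x, ((φ n x : ℝ) : ℂ) * inner ℂ (S.Q0 β ζ x) (f x)) atTop (𝓝 0) := by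
    simpa only [he] using hz0
  exact tendsto_nhds_unique hlim hfin

end Vale.Agent.P353.Z.AD
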