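import Vale.Agent.P353.AN.D.Stmt
import Vale.Agent.P353.AN.F.Str

/-! # P353, all `N`, block D: Liouville theorem, second half (mollification, Caccioppoli, growth) -/

open MeasureTheory Filter Topology
open scoped ContDiff

namespace Vale.Agent.P353.Z.AD

open Vale.Agent.P353.Z.Moll Vale.Agent.P353.Z.U.HB Vale.Agent.P353.Z.U.WS

variable {r : ℕ} {K : Type*} [NormedAddCommGroup K] [InnerProductSpace ℂ K]
  (S : Setup r K)

lemma lb_Q (β : Fin 16) (u : Cfg r → K) : (AF.flat S).Q β u = S.Q0 β u := by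
  funext x
  have hW : (AF.flat S).W β x = 0 := by
    simp [Setup.W, Setup.FF, AF.flat]
  unfold Setup.Q Setup.Q0
  rw [hW]
  simp only [_root_.zero_apply, add_zero]
  rfl

lemma lb_W (β : Fin 16) : (AF.flat S).W β = fun _ => 0 := by
  funext x
  simp [Setup.W, Setup.FF, AF.flat]

lemma lb_energy {u : Cfg r → K} (hu : Setup.Tst u) :
    ∑ β, ∫ x, ‖S.Q0 β u x‖ ^ 2 = 8 * ∑ i, ∑ A, ∫ x, ‖pd i A u x‖ ^ 2 := by
  have h := energy_formula (AF.flat S) u hu
  have hV : ∀ x, (AF.flat S).V x = 0 := fun x => by simp [Setup.V, Setup.FF, AF.flat]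
  have hF : ∀ x, (AF.flat S).Fx x = 0 := fun x => by simp [Setup.Fx, AF.flat]
  simp only [lb_Q, hV, hF, zero_mul, integral_zero, _root_.zero_apply, inner_zero_right,
    Complex.zero_re, add_zero] at h
  linarith

lemma lb_pd_Q0 (β : Fin 16) {u : Cfg r → K} (hu : ContDiff ℝ ∞ u) (j : Fin 9) (B : Fin r)
    (x : Cfg r) : pd j B (S.Q0 β u) x = S.Q0 β (pd j B u) x := by
  have h := (AF.flat S).pd_Q β hu j B x
  rw [lb_Q, lb_W] at h
  rw [h]
  simp only [_root_.zero_apply, add_zero, fderiv_fun_const, Pi.zero_apply]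
  unfold Setup.Q0
  congr 1
  refine Finset.sum_congr rfl fun i _ => Finset.sum_congr rfl fun A _ => ?_
  rw [pd_comm hu i j A B x]
  rfl

lemma lb_Q0_smul (β : Fin 16) (φ : Cfg r → ℝ) (u : Cfg r → K) (x : Cfg r)
    (hφ : DifferentiableAt ℝ φ x) (hu : DifferentiableAt ℝ u x) :
    S.Q0 β (fun y => ((φ y : ℝ) : ℂ) • u y) x = ((φ x : ℝ) : ℂ) • S.Q0 β u x -
      S.esaD φ β x (u x) := by
  rw [← lb_Q, ← lb_Q, Q_smul (AF.flat S) β φ u x hφ hu, Setup.esaD]
  simp only [_root_.smul_apply, _root_.sum_apply]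
  rfl

omit [InnerProductSpace ℂ K] in
lemma lb_int {g : Cfg r → K} (hg : Continuous g) (s : ℝ) :
    IntegrableOn (fun x => ‖g x‖ ^ 2) (Metric.ball (0 : Cfg r) s) volume :=
  (((hg.norm.pow 2).locallyIntegrable (μ := volume)).integrableOn_isCompact
    (isCompact_closedBall (0 : Cfg r) s)).mono_set Metric.ball_subset_closedBall

/-- Caccioppoli inequality -/
lemma lb_cacc : ∃ C : ℝ, 0 ≤ C ∧ ∀ g : Cfg r → K, ContDiff ℝ ∞ g → (∀ β x, S.Q0 β g x = 0) →
    ∀ s : ℝ, 0 < s → ∀ i A, mas (pd i A g) (Metric.ball 0 s) ≤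
      C / s ^ 2 * mas g (Metric.ball 0 (4 * s)) := by
  obtain ⟨κ, hκ0, hκ⟩ := exists_rc
  refine ⟨(1 / 8) * ∑ β, (κ * S.esaC β) ^ 2, by positivity, fun g hg h0 s hs i A => ?_⟩
  obtain ⟨h, hh⟩ := hκ (2 * s) (by positivity)
  set χ : Cfg r → ℝ := rad h with hχ
  have hχs : ContDiff ℝ ∞ χ := contDiff_rad hh.contDiff
  set u : Cfg r → K := fun y => ((χ y : ℝ) : ℂ) • g y with hu
  have huT : Setup.Tst u := by
    refine ⟨(Setup.contDiff_ofReal hχs).smul hg, ?_⟩
    refine HasCompactSupport.intro (isCompact_closedBall (0 : Cfg r) (2 * s)) fun x hx => ?_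
    rw [Metric.mem_closedBall, dist_zero_right, not_le] at hx
    simp only [hu, hχ]
    rw [hh.zero x hx.le, Complex.ofReal_zero, zero_smul]
  have hQ : ∀ β x, S.Q0 β u x = -S.esaD χ β x (g x) := by
    intro β x
    rw [hu, lb_Q0_smul S β χ g x (hχs.differentiable (by simp) x) (hg.differentiable (by simp) x),
      h0, smul_zero, zero_sub]
  have hgr : ∀ j B (x : Cfg r), |pdr j B χ x| ≤ κ / (2 * s) := fun j B x => hh.grad j B x
  have hgr' : ∀ j B (x : Cfg r), |pdr j B χ x| ≤ κ / s := fun j B x => by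
    refine (hgr j B x).trans ?_
    exact div_le_div_of_nonneg_left hκ0 hs (by linarith)
  have hout : ∀ j B (x : Cfg r), 4 * s ≤ ‖x‖ → pdr j B χ x = 0 := by
    intro j B x hx
    have h1 : χ =ᶠ[𝓝 x] fun _ => 0 := by
      have : {y : Cfg r | 2 * s < ‖y‖} ∈ 𝓝 x :=
        (isOpen_lt continuous_const continuous_norm).mem_nhds (by
          change 2 * s < ‖x‖
          linarith)
      filter_upwards [this] with y hy
      exact hh.zero y (le_of_lt hy)
    rw [pdr, h1.fderiv_eq]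
    simp
  have hb : ∀ β (x : Cfg r), ‖S.Q0 β u x‖ ^ 2 ≤ (Metric.ball (0 : Cfg r) (4 * s)).indicator
      (fun x => (κ / s * S.esaC β) ^ 2 * ‖g x‖ ^ 2) x := by
    intro β x
    rw [hQ, norm_neg]
    by_cases hx : x ∈ Metric.ball (0 : Cfg r) (4 * s)
    · rw [Set.indicator_of_mem hx, ← mul_pow]
      refine pow_le_pow_left₀ (norm_nonneg _) ?_ 2
      refine ((S.esaD χ β x).le_opNorm _).trans (mul_le_mul_of_nonneg_right ?_ (norm_nonneg _))
      exact D_norm S hgr' β x
    · rw [Set.indicator_of_notMem hx]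
      rw [Metric.mem_ball, dist_zero_right, not_lt] at hx
      have : S.esaD χ β x = 0 := by
        unfold Setup.esaD
        simp only [hout _ _ x hx, Complex.ofReal_zero, zero_smul, Finset.sum_const_zero, smul_zero]
      rw [this]
      simp
  have hI : ∀ β, ∫ x, ‖S.Q0 β u x‖ ^ 2 ≤ (κ / s * S.esaC β) ^ 2 * mas g (Metric.ball 0 (4 * s)) := by
    intro β
    have hi : Integrable ((Metric.ball (0 : Cfg r) (4 * s)).indicator
        (fun x => (κ / s * S.esaC β) ^ 2 * ‖g x‖ ^ 2)) := by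
      rw [integrable_indicator_iff Metric.isOpen_ball.measurableSet]
      exact (lb_int hg.continuous (4 * s)).const_mul _
    refine (integral_mono_of_nonneg (Eventually.of_forall fun x => by positivity) hi
      (Eventually.of_forall (hb β))).trans ?_
    rw [integral_indicator Metric.isOpen_ball.measurableSet, integral_const_mul]
    rfl
  have hE := lb_energy S huT
  have h1 : mas (pd i A g) (Metric.ball 0 s) ≤ ∫ x, ‖pd i A u x‖ ^ 2 := by
    unfold mas
    have e : ∫ x in Metric.ball (0 : Cfg r) s, ‖pd i A g x‖ ^ 2 =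
        ∫ x in Metric.ball (0 : Cfg r) s, ‖pd i A u x‖ ^ 2 := by
      refine setIntegral_congr_fun Metric.isOpen_ball.measurableSet fun x hx => ?_
      have h2 : u =ᶠ[𝓝 x] g := by
        filter_upwards [Metric.isOpen_ball.mem_nhds hx] with y hy
        rw [Metric.mem_ball, dist_zero_right] at hy
        simp only [hu, hχ]
        rw [hh.one y (by linarith), Complex.ofReal_one, one_smul]
      have h3 : pd i A u x = pd i A g x := by
        unfold pd
        rw [h2.fderiv_eq]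
      simp only [h3]
    rw [e]
    exact setIntegral_le_integral (huT.pd i A).norm_sq_int (Eventually.of_forall fun x => by
      positivity)
  have h2 : ∫ x, ‖pd i A u x‖ ^ 2 ≤ ∑ i, ∑ A, ∫ x, ‖pd i A u x‖ ^ 2 := by
    refine (Finset.single_le_sum (f := fun A => ∫ x, ‖pd i A u x‖ ^ 2)
      (fun A _ => integral_nonneg fun x => by positivity) (Finset.mem_univ A)).trans ?_
    exact Finset.single_le_sum (f := fun i => ∑ A, ∫ x, ‖pd i A u x‖ ^ 2)
      (fun i _ => Finset.sum_nonneg fun A _ => integral_nonneg fun x => by positivity)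
      (Finset.mem_univ i)
  have h3 : ∑ β, ∫ x, ‖S.Q0 β u x‖ ^ 2 ≤
      ∑ β, (κ / s * S.esaC β) ^ 2 * mas g (Metric.ball 0 (4 * s)) :=
    Finset.sum_le_sum fun β _ => hI β
  have h4 : ∑ β, (κ / s * S.esaC β) ^ 2 * mas g (Metric.ball 0 (4 * s)) =
      (∑ β, (κ * S.esaC β) ^ 2) / s ^ 2 * mas g (Metric.ball 0 (4 * s)) := by
    rw [← Finset.sum_mul, Finset.sum_div]
    congr 1
    refine Finset.sum_congr rfl fun β _ => ?_
    field_simp
  have h5 : (1 / 8) * (∑ β, (κ * S.esaC β) ^ 2) / s ^ 2 * mas g (Metric.ball 0 (4 * s)) =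
      1 / 8 * ((∑ β, (κ * S.esaC β) ^ 2) / s ^ 2 * mas g (Metric.ball 0 (4 * s))) := by ring
  rw [h5]
  linarith

/-- growth at most like `a^n` on balls of radius `2^n` -/
def Gro (g : Cfg r → K) (a : ℝ) : Prop :=
  ∃ C : ℝ, ∀ n : ℕ, mas g (Metric.ball 0 ((2 : ℝ) ^ n)) ≤ C * a ^ n

omit [InnerProductSpace ℂ K] in
lemma lb_mas_nonneg (g : Cfg r → K) (A : Set (Cfg r)) : 0 ≤ mas g A :=
  integral_nonneg fun _ => by positivity

lemma lb_step {g : Cfg r → K} (hg : ContDiff ℝ ∞ g) (h0 : ∀ β x, S.Q0 β g x = 0) {a : ℝ}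
    (h : Gro g a) (i : Fin 9) (A : Fin r) : Gro (pd i A g) (a / 4) := by
  obtain ⟨C, hC0, hC⟩ := lb_cacc S
  obtain ⟨D, hD⟩ := h
  refine ⟨C * D * a ^ 2, fun n => ?_⟩
  have h1 := hC g hg h0 ((2 : ℝ) ^ n) (by positivity) i A
  have h2 := hD (n + 2)
  have e : (4 : ℝ) * 2 ^ n = 2 ^ (n + 2) := by rw [pow_add]; ring
  rw [e] at h1
  refine h1.trans ((mul_le_mul_of_nonneg_left h2 (by positivity)).trans (le_of_eq ?_))
  have e2 : ((2 : ℝ) ^ n) ^ 2 = 4 ^ n := by
    rw [← pow_mul, mul_comm, pow_mul]; norm_num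
  rw [e2, div_pow, pow_add]
  field_simp

omit [InnerProductSpace ℂ K] in
lemma lb_zero {g : Cfg r → K} (hg : Continuous g)
    (h : ∀ n : ℕ, mas g (Metric.ball 0 ((2 : ℝ) ^ n)) = 0) (x : Cfg r) : g x = 0 := by
  obtain ⟨n, hn⟩ := pow_unbounded_of_one_lt ‖x‖ (one_lt_two : (1 : ℝ) < 2)
  have h1 := h n
  unfold mas at h1
  rw [setIntegral_eq_zero_iff_of_nonneg_ae (Eventually.of_forall fun x => by positivity)
    (lb_int hg _)] at h1
  have h2 := Measure.eqOn_open_of_ae_eq h1 Metric.isOpen_ball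
    (hg.norm.pow 2).continuousOn continuousOn_const
  have h3 := h2 (show x ∈ Metric.ball (0 : Cfg r) ((2 : ℝ) ^ n) by
    rw [Metric.mem_ball, dist_zero_right]; exact hn)
  simpa using h3

omit [InnerProductSpace ℂ K] in
lemma lb_small {g : Cfg r → K} (hg : Continuous g) {a : ℝ} (ha0 : 0 ≤ a) (ha : a < 1)
    (h : Gro g a) (x : Cfg r) : g x = 0 := by
  obtain ⟨C, hC⟩ := h
  refine lb_zero hg (fun n => le_antisymm ?_ (lb_mas_nonneg _ _)) x
  have h1 : ∀ k, n ≤ k → mas g (Metric.ball 0 ((2 : ℝ) ^ n)) ≤ C * a ^ k := by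
    intro k hk
    refine le_trans ?_ (hC k)
    refine setIntegral_mono_set (lb_int hg _) (Eventually.of_forall fun x => by positivity) ?_
    exact (Metric.ball_subset_ball (pow_le_pow_right₀ one_le_two hk)).eventuallyLE
  have h2 : Tendsto (fun k : ℕ => C * a ^ k) atTop (𝓝 (C * 0)) :=
    (tendsto_pow_atTop_nhds_zero_of_lt_one ha0 ha).const_mul C
  rw [mul_zero] at h2
  exact ge_of_tendsto h2 (eventually_atTop.2 ⟨n, h1⟩)

lemma lb_const {g : Cfg r → K} (hg : ContDiff ℝ ∞ g) (h : ∀ i A x, pd i A g x = 0) (x : Cfg r) :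
    g x = g 0 := by
  refine is_const_of_fderiv_eq_zero (𝕜 := ℝ) (hg.differentiable (by simp)) (fun y => ?_) x 0
  refine ContinuousLinearMap.coe_injective
    ((EuclideanSpace.basisFun (Fin 9 × Fin r) ℝ).toBasis.ext fun p => ?_)
  have := h p.1 p.2 y
  simpa [pd] using this

omit [InnerProductSpace ℂ K] in
lemma lb_const_zero (hr : 0 < r) {c : K} {a : ℝ} (ha0 : 0 ≤ a) (ha : a < 2 ^ 9)
    (h : Gro (fun _ : Cfg r => c) a) : c = 0 := by
  obtain ⟨C, hC⟩ := h
  have hv : 0 < (volume (Metric.ball (0 : Cfg r) 1)).toReal :=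
    ENNReal.toReal_pos (Metric.measure_ball_pos volume _ one_pos).ne' measure_ball_lt_top.ne
  have hm : ∀ n : ℕ, mas (fun _ : Cfg r => c) (Metric.ball 0 ((2 : ℝ) ^ n)) =
      ((2 : ℝ) ^ n) ^ (9 * r) * (volume (Metric.ball (0 : Cfg r) 1)).toReal * ‖c‖ ^ 2 := by
    intro n
    unfold mas
    rw [setIntegral_const, smul_eq_mul, Measure.real,
      Measure.addHaar_ball_of_pos (volume : Measure (Cfg r)) 0 (by positivity), ENNReal.toReal_mul,
      ENNReal.toReal_ofReal (by positivity)]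
    congr 3
    simp
  have hk : ∀ n : ℕ, (volume (Metric.ball (0 : Cfg r) 1)).toReal * ‖c‖ ^ 2 ≤
      C * (a / 2 ^ 9) ^ n := by
    intro n
    have h1 := hC n
    rw [hm] at h1
    have h2 : ((2 : ℝ) ^ 9) ^ n ≤ ((2 : ℝ) ^ n) ^ (9 * r) := by
      rw [← pow_mul, ← pow_mul]
      refine pow_le_pow_right₀ one_le_two ?_
      have : 9 * n * 1 ≤ 9 * n * r := Nat.mul_le_mul_left _ hr
      calc 9 * n = 9 * n * 1 := (mul_one _).symm
        _ ≤ 9 * n * r := this
        _ = n * (9 * r) := by ring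
    have h3 : ((2 : ℝ) ^ 9) ^ n * ((volume (Metric.ball (0 : Cfg r) 1)).toReal * ‖c‖ ^ 2) ≤
        C * a ^ n := by
      refine le_trans ?_ h1
      rw [mul_assoc]
      exact mul_le_mul_of_nonneg_right h2 (by positivity)
    rw [div_pow, mul_div_assoc', le_div_iff₀ (by positivity)]
    linarith
  have h2 : Tendsto (fun k : ℕ => C * (a / 2 ^ 9) ^ k) atTop (𝓝 (C * 0)) :=
    (tendsto_pow_atTop_nhds_zero_of_lt_one (by positivity) (by
      rw [div_lt_one (by positivity)]; exact ha)).const_mul C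
  rw [mul_zero] at h2
  have h3 := ge_of_tendsto' h2 hk
  have h4 : ‖c‖ ^ 2 ≤ 0 := by
    by_contra hcon
    rw [not_le] at hcon
    have := mul_pos hv hcon
    linarith
  have h5 : ‖c‖ = 0 := by
    have := le_antisymm h4 (by positivity)
    exact pow_eq_zero_iff (two_ne_zero) |>.1 this
  exact norm_eq_zero.1 h5

/-- Liouville theorem for smooth functions -/
lemma lb_smooth (hr : 0 < r) {g : Cfg r → K} (hg : ContDiff ℝ ∞ g)
    (h0 : ∀ β x, S.Q0 β g x = 0) (h : Gro g 8) (x : Cfg r) : g x = 0 := by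
  have c1 : ∀ i A, ContDiff ℝ ∞ (pd i A g) := fun i A => contDiff_pd hg
  have q1 : ∀ i A β x, S.Q0 β (pd i A g) x = 0 := by
    intro i A β x
    rw [← lb_pd_Q0 S β hg i A x]
    have : S.Q0 β g = fun _ => 0 := funext (h0 β)
    rw [this]
    simp [pd]
  have g1 : ∀ i A, Gro (pd i A g) 2 := fun i A => by
    have := lb_step S hg h0 h i A
    norm_num at this
    exact this
  have z2 : ∀ i A j B x, pd j B (pd i A g) x = 0 := by
    intro i A j B x
    have := lb_step S (c1 i A) (q1 i A) (g1 i A) j B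
    exact lb_small (contDiff_pd (c1 i A)).continuous (by norm_num) (by norm_num) this x
  have z1 : ∀ i A x, pd i A g x = 0 := by
    intro i A x
    have e : ∀ x, pd i A g x = pd i A g 0 := lb_const (c1 i A) (z2 i A)
    have e' : pd i A g = fun _ => pd i A g 0 := funext e
    have h1 := g1 i A
    rw [e'] at h1
    rw [e x]
    exact lb_const_zero hr (by norm_num) (by norm_num) h1
  have e : ∀ x, g x = g 0 := lb_const hg z1
  have e' : g = fun _ => g 0 := funext e
  rw [e x]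
  rw [e'] at h
  exact lb_const_zero hr (by norm_num) (by norm_num) h

/-- the mollified equation -/
lemma lb_Q0_mo [CompleteSpace K] {ρ : Cfg r → ℝ} (hρ : ContDiff ℝ ∞ ρ) (hc : HasCompactSupport ρ)
    (β : Fin 16) {u : Cfg r → K} (hu : LocallyIntegrable u volume)
    (hw : ∀ ζ, Setup.Tst ζ → ∫ x, inner ℂ (S.Q0 β ζ x) (u x) = 0) (x : Cfg r) :
    S.Q0 β (mo ρ u) x = 0 := by
  have i1 : ∀ i A, Integrable (fun y => pdr i A ρ (x - y) • u y) := fun i A =>
    integrable_mo (esa_pdr_smooth hρ i A).continuous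
      (hc.fderiv_apply (𝕜 := ℝ) (EuclideanSpace.single (i, A) (1 : ℝ) : (Cfg r))) hu x
  have i5 : Integrable (fun y => (-Complex.I) • ∑ i, ∑ A, S.vec (S.g i) A β (pdr i A ρ (x - y) • u y)) :=
    (integrable_finsetSum _ fun i _ => integrable_finsetSum _ fun A _ =>
      (S.vec (S.g i) A β).integrable_comp (i1 i A)).smul (-Complex.I)
  have eL : S.Q0 β (mo ρ u) x =
      ∫ y, (-Complex.I) • ∑ i, ∑ A, S.vec (S.g i) A β (pdr i A ρ (x - y) • u y) := by
    rw [integral_smul, integral_finsetSum _ fun i _ => integrable_finsetSum _ fun A _ =>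
      (S.vec (S.g i) A β).integrable_comp (i1 i A), Setup.Q0]
    congr 1
    refine Finset.sum_congr rfl fun i _ => ?_
    rw [integral_finsetSum _ fun A _ => (S.vec (S.g i) A β).integrable_comp (i1 i A)]
    refine Finset.sum_congr rfl fun A _ => ?_
    rw [(S.vec (S.g i) A β).integral_comp_comm (i1 i A), Moll.pd_mo hρ hc hu]
    rfl
  rw [eL]
  refine ext_inner_left ℂ fun w => ?_
  rw [← integral_inner i5, inner_zero_right, ← hw (tz ρ x w) (Tst_tz hρ hc x w)]
  refine integral_congr_ae (Eventually.of_forall fun y => ?_)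
  have e1 : ∀ i A, pd i A (tz ρ x w) y = -((((pdr i A ρ (x - y)) : ℝ) : ℂ) • w) :=
    fun i A => pd_tz hρ x w i A y
  simp only [Setup.Q0, e1, ← Complex.coe_smul (E := K), map_smul, map_neg,
    inner_smul_left, inner_smul_right, sum_inner, inner_sum,
    inner_neg_left, Complex.conj_ofReal, Complex.conj_I, AF.vec_symm]
  simp only [Finset.mul_sum, neg_neg, mul_neg, neg_mul]

lemma lb_shl_meas (s t : ℝ) : MeasurableSet (shl r s t) :=
  (isOpen_lt continuous_const continuous_norm).measurableSet.inter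
    (isOpen_lt continuous_norm continuous_const).measurableSet

omit [InnerProductSpace ℂ K] in
/-- growth of the mass of dyadic shells -/
lemma lb_dy {f : Cfg r → K} (hr : 0 < r)
    (h1 : ∀ s t : ℝ, 0 < s → s < t → IntegrableOn (fun x => ‖f x‖ ^ 2) (shl r s t) (volume : Measure (Cfg r)))
    (h2 : ∃ C : ℝ, ∀ k : ℤ, ∫ x in dsh r k, ‖f x‖ ^ 2 ≤ C * (2 : ℝ) ^ (3 * |k|)) :
    ∃ C : ℝ, 0 ≤ C ∧ ∀ n : ℕ, ∫ x in shl r (1 / 2) ((2 : ℝ) ^ (n + 1)), ‖f x‖ ^ 2 ≤ C * 8 ^ n := by
  obtain ⟨C, hC⟩ := h2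
  have hC0 : 0 ≤ C := by
    have h := hC 0
    have h' : (0 : ℝ) ≤ ∫ x in dsh r 0, ‖f x‖ ^ 2 := integral_nonneg fun _ => by positivity
    simp at h
    linarith
  -- splitting a shell
  have hsplit : ∀ a b c : ℝ, 0 < a → a < b → b < c → ∫ x in shl r a c, ‖f x‖ ^ 2 ≤
      (∫ x in shl r a b, ‖f x‖ ^ 2) + ∫ x in shl r b c, ‖f x‖ ^ 2 := by
    intro a b c ha hab hbc
    have hfin : Nonempty (Fin r) := ⟨⟨0, hr⟩⟩
    have hsph : volume (Metric.sphere (0 : Cfg r) b) = 0 :=
      Measure.addHaar_sphere_of_ne_zero volume 0 (by linarith : b ≠ 0).symm.symm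
    have hd : Disjoint (shl r a b) (shl r b c) := by
      rw [Set.disjoint_left]
      intro x hx hx'
      exact absurd hx.2 (not_lt.2 hx'.1.le)
    have he : (shl r a c : Set (Cfg r)) ≤ᵐ[volume] (shl r a b ∪ shl r b c : Set (Cfg r)) := by
      have : ∀ᵐ x ∂(volume : Measure (Cfg r)), x ∉ Metric.sphere (0 : Cfg r) b :=
        measure_eq_zero_iff_ae_notMem.1 hsph
      filter_upwards [this] with x hx h
      rw [Metric.mem_sphere, dist_zero_right] at hx
      rcases lt_or_gt_of_ne hx with h' | h'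
      · exact Or.inl ⟨h.1, h'⟩
      · exact Or.inr ⟨h', h.2⟩
    rw [← setIntegral_union hd (lb_shl_meas b c) (h1 a b ha hab) (h1 b c (ha.trans hab) hbc)]
    exact setIntegral_mono_set ((h1 a b ha hab).union (h1 b c (ha.trans hab) hbc))
      (Eventually.of_forall fun x => by positivity) he
  refine ⟨16 * C, by positivity, fun n => ?_⟩
  induction n with
  | zero =>
    have e1 := hsplit (1 / 2) 1 2 (by norm_num) (by norm_num) (by norm_num)
    have e2 := hC (-1)
    have e3 := hC 0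
    have d1 : dsh r (-1) = shl r (1 / 2) 1 := by
      unfold dsh; norm_num
    have d2 : dsh r 0 = shl r 1 2 := by
      unfold dsh; norm_num
    rw [d1] at e2
    rw [d2] at e3
    norm_num at e1 e2 e3 ⊢
    linarith
  | succ n ih =>
    have e1 := hsplit (1 / 2) ((2 : ℝ) ^ (n + 1)) ((2 : ℝ) ^ (n + 1 + 1)) (by norm_num)
      (by
        have : (1 : ℝ) ≤ 2 ^ (n + 1) := one_le_pow₀ one_le_two
        linarith)
      (pow_lt_pow_right₀ one_lt_two (Nat.lt_succ_self _))
    have e2 := hC ((n : ℤ) + 1)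
    have d1 : dsh r ((n : ℤ) + 1) = shl r ((2 : ℝ) ^ (n + 1)) ((2 : ℝ) ^ (n + 1 + 1)) := by
      unfold dsh
      norm_cast
    have d2 : (2 : ℝ) ^ (3 * |(n : ℤ) + 1|) = 8 ^ (n + 1) := by
      rw [abs_of_nonneg (by positivity)]
      have : (3 * ((n : ℤ) + 1)) = ((3 * (n + 1) : ℕ) : ℤ) := by push_cast; ring
      rw [this, zpow_natCast, pow_mul]
      norm_num
    rw [d1, d2] at e2
    have e3 : 16 * C * 8 ^ (n + 1) = 128 * (C * 8 ^ n) := by ring
    have e4 : C * 8 ^ (n + 1) = 8 * (C * 8 ^ n) := by ring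
    have e5 : 16 * C * 8 ^ n = 16 * (C * 8 ^ n) := by ring
    have e6 : 0 ≤ C * 8 ^ n := by positivity
    linarith

omit [InnerProductSpace ℂ K] in
/-- truncation to a shell -/
lemma lb_memLp {f : Cfg r → K} (hm : AEStronglyMeasurable f (volume : Measure (Cfg r)))
    (h1 : ∀ s t : ℝ, 0 < s → s < t → IntegrableOn (fun x => ‖f x‖ ^ 2) (shl r s t) (volume : Measure (Cfg r)))
    {s t : ℝ} (hs : 0 < s) (hst : s < t) :
    MemLp ((shl r s t).indicator f) 2 (volume : Measure (Cfg r)) ∧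
      nsq ((shl r s t).indicator f) = ∫ x in shl r s t, ‖f x‖ ^ 2 := by
  have e : (fun x => ‖(shl r s t).indicator f x‖ ^ 2) = (shl r s t).indicator (fun x => ‖f x‖ ^ 2) := by
    funext x
    by_cases hx : x ∈ shl r s t
    · simp [hx]
    · simp [hx]
  constructor
  · refine (memLp_two_iff_integrable_sq_norm (hm.indicator (lb_shl_meas s t))).mpr ?_
    rw [e, integrable_indicator_iff (lb_shl_meas s t)]
    exact h1 s t hs hst
  · unfold nsq
    rw [e, integral_indicator (lb_shl_meas s t)]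

omit [InnerProductSpace ℂ K] in
lemma lb_mo_ind [NormedSpace ℝ K] {ε : ℝ} {ρ : Cfg r → ℝ} (h : IsMol ε ρ) (f : Cfg r → K) {s t : ℝ} {x : Cfg r}
    (hs : s + ε ≤ ‖x‖) (ht : ‖x‖ + ε ≤ t) : mo ρ f x = mo ρ ((shl r s t).indicator f) x := by
  unfold mo
  refine integral_congr_ae (Eventually.of_forall fun y => ?_)
  by_cases hy : y ∈ shl r s t
  · simp only [Set.indicator_of_mem hy]
  · have hz : ρ (x - y) = 0 := by
      refine h.supp _ ?_
      by_contra hcon
      rw [not_le] at hcon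
      refine hy ⟨?_, ?_⟩
      · have := norm_sub_norm_le x y
        linarith
      · have := norm_sub_norm_le y x
        rw [norm_sub_rev] at this
        linarith
    simp only [hz, zero_smul]

/-- second half of the Liouville theorem -/
theorem liouB [CompleteSpace K] (hr : 0 < r) {f : Cfg r → K}
    (hf : LocallyIntegrable f (volume : Measure (Cfg r)))
    (h1 : ∀ s t : ℝ, 0 < s → s < t → IntegrableOn (fun x => ‖f x‖ ^ 2) (shl r s t) (volume : Measure (Cfg r)))
    (h2 : ∃ C : ℝ, ∀ k : ℤ, ∫ x in dsh r k, ‖f x‖ ^ 2 ≤ C * (2 : ℝ) ^ (3 * |k|))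
    (h3 : ∀ β, ∀ ζ, Setup.Tst ζ → ∫ x, inner ℂ (S.Q0 β ζ x) (f x) = 0) :
    ∀ᵐ x ∂(volume : Measure (Cfg r)), f x = 0 := by
  have hm := hf.aestronglyMeasurable
  -- all mollifications vanish
  have hz : ∀ ε : ℝ, 0 < ε → ε ≤ 1 / 2 → ∀ ρ : Cfg r → ℝ, IsMol ε ρ → ∀ x, mo ρ f x = 0 := by
    intro ε hε hε2 ρ hρ
    have hs : ContDiff ℝ ∞ (mo ρ f) := contDiff_mo hρ.contDiff hρ.hcs hf
    refine lb_smooth S hr hs (fun β x => lb_Q0_mo S hρ.contDiff hρ.hcs β hf (h3 β) x) ?_
    obtain ⟨C, hC0, hC⟩ := lb_dy hr h1 h2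
    refine ⟨mas (mo ρ f) (Metric.ball 0 1) + C, fun n => ?_⟩
    have hn1 : (1 : ℝ) ≤ 2 ^ n := one_le_pow₀ one_le_two
    have hlt : (1 / 2 : ℝ) < 2 ^ (n + 1) := by
      have : (1 : ℝ) ≤ 2 ^ (n + 1) := one_le_pow₀ one_le_two
      linarith
    obtain ⟨m1, m2⟩ := lb_memLp hm h1 (by norm_num : (0 : ℝ) < 1 / 2) hlt
    obtain ⟨m3, m4⟩ := nsq_mo_le hρ m1
    set F : Cfg r → K := (shl r (1 / 2) ((2 : ℝ) ^ (n + 1))).indicator f with hF
    have e1 : ∀ x : Cfg r, x ∈ Metric.ball (0 : Cfg r) ((2 : ℝ) ^ n) → x ∉ Metric.ball (0 : Cfg r) 1 →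
        mo ρ f x = mo ρ F x := by
      intro x hx hx'
      rw [Metric.mem_ball, dist_zero_right] at hx hx'
      rw [not_lt] at hx'
      refine lb_mo_ind hρ f (by linarith) ?_
      rw [pow_succ]
      linarith
    have e2 : mas (mo ρ f) (Metric.ball 0 ((2 : ℝ) ^ n)) ≤
        mas (mo ρ f) (Metric.ball 0 1) + nsq (mo ρ F) := by
      unfold mas nsq
      have i1 := lb_int hs.continuous (1 : ℝ)
      have i2 := memLp_norm_sq_int m3
      rw [← integral_indicator Metric.isOpen_ball.measurableSet,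
        ← integral_indicator Metric.isOpen_ball.measurableSet,
        ← integral_add ((integrable_indicator_iff Metric.isOpen_ball.measurableSet).2 i1) i2]
      refine integral_mono ((integrable_indicator_iff Metric.isOpen_ball.measurableSet).2
        (lb_int hs.continuous _))
        (((integrable_indicator_iff Metric.isOpen_ball.measurableSet).2 i1).add i2) fun x => ?_
      by_cases hx : x ∈ Metric.ball (0 : Cfg r) ((2 : ℝ) ^ n)
      · by_cases hx' : x ∈ Metric.ball (0 : Cfg r) 1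
        · simp only [Set.indicator_of_mem hx, Set.indicator_of_mem hx']
          have : 0 ≤ ‖mo ρ F x‖ ^ 2 := by positivity
          linarith
        · simp only [Set.indicator_of_mem hx, Set.indicator_of_notMem hx', e1 x hx hx']
          linarith
      · have hx' : x ∉ Metric.ball (0 : Cfg r) 1 := fun h => hx (Metric.ball_subset_ball hn1 h)
        simp only [Set.indicator_of_notMem hx, Set.indicator_of_notMem hx']
        positivity
    have e3 := hC n
    rw [← m2] at e3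
    have e4 : (1 : ℝ) ≤ 8 ^ n := one_le_pow₀ (by norm_num)
    have e5 := lb_mas_nonneg (mo ρ f) (Metric.ball 0 1)
    have e6 : mas (mo ρ f) (Metric.ball 0 1) ≤ mas (mo ρ f) (Metric.ball 0 1) * 8 ^ n :=
      le_mul_of_one_le_right e5 e4
    rw [add_mul]
    linarith
  -- conclusion in every shell
  have hsh : ∀ n : ℕ, ∀ᵐ x ∂(volume : Measure (Cfg r)),
      x ∈ shl r (1 / ((n : ℝ) + 1)) ((n : ℝ) + 1) → f x = 0 := by
    intro n
    have hn : (0 : ℝ) < (n : ℝ) + 1 := by positivity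
    obtain ⟨a, ha⟩ : ∃ a : ℝ, a = 1 / ((n : ℝ) + 1) := ⟨_, rfl⟩
    have ha0 : 0 < a := by rw [ha]; positivity
    have ha1 : a ≤ 1 := by
      rw [ha, div_le_one hn]
      have : (0 : ℝ) ≤ n := Nat.cast_nonneg n
      linarith
    rw [← ha]
    obtain ⟨m1, m2⟩ := lb_memLp hm h1 (show (0 : ℝ) < a / 2 by positivity)
      (show a / 2 < (n : ℝ) + 2 by linarith)
    set F : Cfg r → K := (shl r (a / 2) ((n : ℝ) + 2)).indicator f with hF
    have hint : IntegrableOn (fun x => ‖f x‖ ^ 2) (shl r a ((n : ℝ) + 1)) volume := by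
      refine (h1 (a / 2) ((n : ℝ) + 2) (by positivity) (by linarith)).mono_set ?_
      intro x hx
      exact ⟨by linarith [hx.1], by linarith [hx.2]⟩
    have hle : ∀ δ : ℝ, 0 < δ → ∫ x in shl r a ((n : ℝ) + 1), ‖f x‖ ^ 2 ≤ δ := by
      intro δ hδ
      obtain ⟨ε₀, hε₀, happ⟩ := mo_approx m1 hδ
      obtain ⟨ε, hε⟩ : ∃ ε : ℝ, ε = min ε₀ (a / 2) := ⟨_, rfl⟩
      have hε0 : 0 < ε := hε ▸ lt_min hε₀ (by positivity)
      have hεa : ε ≤ a / 2 := hε ▸ min_le_right _ _
      obtain ⟨g, -, hg⟩ := exists_mol (dc := r) hε0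
      have h4 := happ ε (hε ▸ min_le_left _ _) _ hg
      have h5 := hz ε hε0 (by linarith) _ hg
      refine le_trans ?_ h4
      unfold nsq
      rw [← integral_indicator (lb_shl_meas _ _)]
      refine integral_mono ((integrable_indicator_iff (lb_shl_meas _ _)).2 hint)
        (memLp_norm_sq_int ((nsq_mo_le hg m1).1.sub m1)) fun x => ?_
      by_cases hx : x ∈ shl r a ((n : ℝ) + 1)
      · have hx2 : x ∈ shl r (a / 2) ((n : ℝ) + 2) := ⟨by linarith [hx.1], by linarith [hx.2]⟩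
        have h6 : mo (rad g) F x = 0 := by
          rw [hF, ← lb_mo_ind hg f (by linarith [hx.1]) (by linarith [hx.2])]
          exact h5 x
        have h8 : F x = f x := by rw [hF, Set.indicator_of_mem hx2]
        change (shl r a ((n : ℝ) + 1)).indicator (fun x => ‖f x‖ ^ 2) x ≤ ‖mo (rad g) F x - F x‖ ^ 2
        rw [Set.indicator_of_mem hx, h6, h8, zero_sub, norm_neg]
      · simp only [Set.indicator_of_notMem hx]
        positivity
    have h0 : ∫ x in shl r a ((n : ℝ) + 1), ‖f x‖ ^ 2 = 0 :=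
      le_antisymm (le_of_forall_pos_le_add fun δ hδ => by
        rw [zero_add]; exact hle δ hδ) (integral_nonneg fun _ => by positivity)
    rw [setIntegral_eq_zero_iff_of_nonneg_ae (Eventually.of_forall fun x => by positivity) hint] at h0
    rw [Filter.EventuallyEq, ae_restrict_iff' (lb_shl_meas _ _)] at h0
    filter_upwards [h0] with x hx hx'
    have := hx hx'
    simpa using this
  have h0 : ∀ᵐ x ∂(volume : Measure (Cfg r)), x ≠ 0 := by
    have hfin : Nonempty (Fin r) := ⟨⟨0, hr⟩⟩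
    have : volume ({0} : Set (Cfg r)) = 0 := measure_singleton 0
    filter_upwards [measure_eq_zero_iff_ae_notMem.1 this] with x hx
    simpa using hx
  filter_upwards [ae_all_iff.2 hsh, h0] with x hx hx0
  have hp : 0 < ‖x‖ := norm_pos_iff.2 hx0
  obtain ⟨n1, hn1⟩ := exists_nat_gt (1 / ‖x‖)
  obtain ⟨n2, hn2⟩ := exists_nat_gt ‖x‖
  refine hx (max n1 n2) ⟨?_, ?_⟩
  · rw [div_lt_iff₀ (by positivity)]
    have h7 : (n1 : ℝ) ≤ ((max n1 n2 : ℕ) : ℝ) := by exact_mod_cast le_max_left _ _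
    rw [div_lt_iff₀ hp] at hn1
    nlinarith
  · have h7 : (n2 : ℝ) ≤ ((max n1 n2 : ℕ) : ℝ) := by exact_mod_cast le_max_right _ _
    linarith

end Vale.Agent.P353.Z.AD
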