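import Vale.Agent.P353.AN.D.All
import Vale.Agent.P353.AN.L.All
import Vale.Agent.P353.AN.E.All

/-! # P353, all `N`, block D: unconditional output (inner completeness for all centreless setups) -/

open MeasureTheory Filter Topology Matrix
open scoped ContDiff

namespace Vale.Agent.P353.Z.AD

variable {d : ℕ} {F : Type*} [NormedAddCommGroup F] [InnerProductSpace ℂ F]

/-- **L13** for centreless setups -/
theorem lioFin (S : Setup d F) (hC : AN.Cless S) : LioStmt S :=
  AL.lioE S (fun _ _ _ _ φ ψ => AE.gLimAll S φ ψ) hC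

/-- **OUTPUT OF BLOCK D, unconditional**: inner completeness, the dyadic inequality and the engine -/
theorem icFinAll [FiniteDimensional ℂ F] (d : ℕ) (S : Setup d F) (hC : AN.Cless S) :
    ICStmt S ∧ DyStmt S ∧ ∃ PZ, LocHyp S PZ ∧ LioHyp S PZ :=
  icAll (fun _ S' h => lioFin S' h) d S hC

theorem icFin [FiniteDimensional ℂ F] (d : ℕ) (S : Setup d F) (hC : AN.Cless S) : ICStmt S :=
  (icFinAll d S hC).1

theorem dyFin [FiniteDimensional ℂ F] (d : ℕ) (S : Setup d F) (hC : AN.Cless S) : DyStmt S :=
  (icFinAll d S hC).2.1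

/-- the field `ic` of `Ana F` -/
theorem icAna (hfin : FiniteDimensional ℂ F) (e : ℕ) (T : Setup e F) (hC : AN.Cless T) : ICStmt T :=
  icFin e T hC

end Vale.Agent.P353.Z.AD
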