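import Vale.Agent.P353.AN.D.IC

/-! # P353, all `N`, block D, D8: the weighted kernel is finite dimensional (helper455) -/

open MeasureTheory Filter Topology
open scoped ContDiff

namespace Vale.Agent.P353.Z.AD

namespace KWB

open IC

variable {d : ℕ} {F : Type*} [NormedAddCommGroup F] [InnerProductSpace ℂ F]

omit [InnerProductSpace ℂ F] in
lemma mas_sub_le {f g : Cfg d → F} {A : Set (Cfg d)}
    (hf : IntegrableOn (fun x => ‖f x‖ ^ 2) A) (hg : IntegrableOn (fun x => ‖g x‖ ^ 2) A) :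
    mas (fun x => f x - g x) A ≤ 2 * mas f A + 2 * mas g A := by
  rw [mas, mas, mas, ← integral_const_mul, ← integral_const_mul, ← integral_add
    (hf.const_mul _) (hg.const_mul _)]
  refine integral_mono_of_nonneg (Eventually.of_forall fun x => by positivity)
    ((hf.const_mul _).add (hg.const_mul _)) (Eventually.of_forall fun x => ?_)
  have h2 := norm_sub_le (f x) (g x)
  have h3 := norm_nonneg (f x - g x)
  simp only
  nlinarith [sq_nonneg (‖f x‖ - ‖g x‖)]

/-- local compactness -/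
lemma loc_compact (S : Setup d F) (hLR : U.LRStmt d F) {v : ℕ → Cfg d → F}
    (hv : ∀ n, GInv S (v n)) {B E₀ : ℝ} (hB : ∀ n, wn (v n) ≤ B) (hE₀ : ∀ n, En S (v n) ≤ E₀) :
    ∃ φ : ℕ → ℕ, StrictMono φ ∧ ∃ Ψ : Cfg d → F, StronglyMeasurable Ψ ∧
      (∀ s : ℝ, 0 < s → IntegrableOn (fun x => ‖Ψ x‖ ^ 2) (Metric.ball (0 : Cfg d) s)) ∧
      ∀ s : ℝ, 0 < s → Tendsto (fun n => ∫ x in Metric.ball (0 : Cfg d) s, ‖v (φ n) x - Ψ x‖ ^ 2)
        atTop (𝓝 0) := by
  have hm : ∀ n, MemLp (v n) 2 (volume : Measure (Cfg d)) := fun n => (hv n).1.memLp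
  refine hLR v (fun n => (hv n).1.1) fun s hs => ?_
  obtain ⟨K, hK, hK2⟩ := loc_en S hs
  refine ⟨(1 + s ^ 2) * B + K * ((1 + (3 * s) ^ 2) * B + E₀), fun n => add_le_add ?_ ?_⟩
  · exact (mas_le_wn (WI_of_memLp (hm n)) s).trans
      (mul_le_mul_of_nonneg_left (hB n) (by positivity))
  · refine (hK2 (v n) (hv n).1).trans (mul_le_mul_of_nonneg_left (add_le_add ?_ (hE₀ n)) hK)
    exact (mas_le_wn (WI_of_memLp (hm n)) _).trans
      (mul_le_mul_of_nonneg_left (hB n) (by positivity))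

/-! ### the weighted kernel is a linear space -/

variable {S : Setup d F}

lemma KW_wi {u : Cfg d → F} (h : KW S u) : WI u := by
  obtain ⟨_, v, _, hi, _⟩ := h
  exact hi

lemma WI_csmul (c : ℂ) {u : Cfg d → F} (hu : WI u) : WI (fun x => c • u x) := by
  refine (hu.const_mul (‖c‖ ^ 2)).congr (Eventually.of_forall fun x => ?_)
  simp only [norm_smul, mul_pow, mul_div_assoc]

lemma KW_sub {u v : Cfg d → F} (hu : KW S u) (hv : KW S v) : KW S (fun x => u x - v x) := by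
  obtain ⟨mu, a, ha, hia, hla, hea⟩ := hu
  obtain ⟨mv, b, hb, hib, hlb, heb⟩ := hv
  refine ⟨mu.sub mv, fun n x => a n x - b n x, fun n => GInv_sub (ha n) (hb n),
    WI.sub hia hib mu mv, ?_, ?_⟩
  · have h1 : Tendsto (fun n => 2 * wn (fun x => a n x - u x) + 2 * wn (fun x => b n x - v x))
        atTop (𝓝 (2 * 0 + 2 * 0)) := (hla.const_mul 2).add (hlb.const_mul 2)
    rw [mul_zero, add_zero] at h1
    refine squeeze_zero (fun n => wn_nonneg _) (fun n => ?_) h1
    have h2 := wn_sub_le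
      ((WI_of_memLp (ha n).1.memLp).sub hia (ha n).1.memLp.1 mu)
      ((WI_of_memLp (hb n).1.memLp).sub hib (hb n).1.memLp.1 mv)
    have h3 : (fun x => a n x - b n x - (u x - v x)) =
        fun x => (a n x - u x) - (b n x - v x) := by
      funext x
      abel
    rw [h3]
    exact h2
  · have h1 : Tendsto (fun n => 2 * En S (a n) + 2 * En S (b n)) atTop (𝓝 (2 * 0 + 2 * 0)) :=
      (hea.const_mul 2).add (heb.const_mul 2)
    rw [mul_zero, add_zero] at h1
    exact squeeze_zero (fun n => En_nonneg _ _) (fun n => En_sub_le S (ha n).1 (hb n).1) h1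

lemma KW_csmul (c : ℂ) {u : Cfg d → F} (hu : KW S u) : KW S (fun x => c • u x) := by
  obtain ⟨mu, a, ha, hia, hla, hea⟩ := hu
  refine ⟨mu.const_smul c, fun n x => c • a n x, fun n => GInv_csmul c (ha n),
    WI_csmul c hia, ?_, ?_⟩
  · have h1 : ∀ n, wn (fun x => c • a n x - c • u x) = ‖c‖ ^ 2 * wn (fun x => a n x - u x) := by
      intro n
      simp only [← smul_sub]
      exact wn_csmul c _
    simp only [h1]
    simpa using hla.const_mul (‖c‖ ^ 2)
  · have h1 : ∀ n, En S (fun x => c • a n x) = ‖c‖ ^ 2 * En S (a n) := fun n =>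
      En_csmul S c (ha n).1
    simp only [h1]
    simpa using hea.const_mul (‖c‖ ^ 2)

lemma KW_zero : KW S (fun _ => (0 : F)) := by
  refine ⟨aestronglyMeasurable_const, fun _ _ => 0, fun _ => GInv_zero S, ?_, ?_, ?_⟩
  · simp
  · simp [wn]
  · have h : En S (fun _ : Cfg d => (0 : F)) = 0 := by
      have h1 := En_csmul S 0 (u := fun _ : Cfg d => (0 : F)) (GInv_zero S).1
      simpa using h1
    simp [h]

lemma KW_congr {u v : Cfg d → F} (hu : KW S u) (huv : u =ᵐ[volume] v)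
    (mv : AEStronglyMeasurable v (volume : Measure (Cfg d))) : KW S v := by
  obtain ⟨mu, a, ha, hia, hla, hea⟩ := hu
  refine ⟨mv, a, ha, ?_, ?_, hea⟩
  · refine hia.congr ?_
    filter_upwards [huv] with x hx
    rw [hx]
  · refine hla.congr fun n => ?_
    refine integral_congr_ae ?_
    filter_upwards [huv] with x hx
    rw [hx]

lemma KW_add {u v : Cfg d → F} (hu : KW S u) (hv : KW S v) : KW S (fun x => u x + v x) := by
  have h := KW_sub hu (KW_csmul (-1) hv)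
  simpa using h

/-- the weighted kernel as a subspace of `L²` -/
def KS (S : Setup d F) : Submodule ℂ (Lp F 2 (volume : Measure (Cfg d))) where
  carrier := {Ψ | KW S Ψ}
  add_mem' := by
    intro a b ha hb
    refine KW_congr (KW_add ha hb) ?_ (Lp.aestronglyMeasurable _)
    filter_upwards [Lp.coeFn_add a b] with x hx
    rw [hx]
    rfl
  zero_mem' := by
    refine KW_congr KW_zero ?_ (Lp.aestronglyMeasurable _)
    filter_upwards [Lp.coeFn_zero F 2 (volume : Measure (Cfg d))] with x hx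
    rw [hx]
    rfl
  smul_mem' := by
    intro c a ha
    refine KW_congr (KW_csmul c ha) ?_ (Lp.aestronglyMeasurable _)
    filter_upwards [Lp.coeFn_smul c a] with x hx
    rw [hx]
    rfl

lemma norm_sq_Lp (Ψ : Lp F 2 (volume : Measure (Cfg d))) : ‖Ψ‖ ^ 2 = nsq Ψ := by
  have h := norm_toLp (Lp.memLp Ψ)
  rw [Lp.toLp_coeFn] at h
  rw [h, Real.sq_sqrt (nsq_nonneg _)]

lemma KS_fd (hLR : U.LRStmt d F) {ρ C : ℝ} (hρ : 0 < ρ) (hC : 0 ≤ C)
    (hdec : ∀ u, KW S u →
      Integrable (fun x => (1 + ‖x‖ ^ 2) * ‖u x‖ ^ 2) (volume : Measure (Cfg d)) ∧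
      ∫ x, (1 + ‖x‖ ^ 2) * ‖u x‖ ^ 2 ≤ C * mas u (Metric.ball 0 ρ)) :
    FiniteDimensional ℂ (KS S) := by
  by_contra hnf
  obtain ⟨R, f, hR, hfR, hff⟩ := exists_seq_norm_le_one_le_norm_sub hnf
  set u : ℕ → Cfg d → F := fun n => ((f n : Lp F 2 (volume : Measure (Cfg d))) : Cfg d → F)
    with hud
  have hu : ∀ n, KW S (u n) := fun n => (f n).2
  have hum : ∀ n, MemLp (u n) 2 (volume : Measure (Cfg d)) := fun n => Lp.memLp _
  have hun : ∀ n, nsq (u n) ≤ R ^ 2 := by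
    intro n
    rw [hud]
    simp only
    rw [← norm_sq_Lp]
    exact pow_le_pow_left₀ (norm_nonneg _) (hfR n) 2
  have hv : ∀ n : ℕ, ∃ v, GInv S v ∧ wn (fun x => v x - u n x) ≤ 1 / ((n : ℝ) + 1) ∧
      En S v ≤ 1 := by
    intro n
    obtain ⟨_, a, ha, _, hla, hea⟩ := hu n
    have hn : (0 : ℝ) < 1 / ((n : ℝ) + 1) := by positivity
    obtain ⟨k, hk1, hk2⟩ := ((hla.eventually_le_const hn).and
      (hea.eventually_le_const one_pos)).exists
    exact ⟨a k, ha k, hk1, hk2⟩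
  choose v hv hv1 hv2 using hv
  have hvm : ∀ n, MemLp (v n) 2 (volume : Measure (Cfg d)) := fun n => (hv n).1.memLp
  have hvu : ∀ n, MemLp (fun x => v n x - u n x) 2 (volume : Measure (Cfg d)) := fun n =>
    (hvm n).sub (hum n)
  have hlim1 : Tendsto (fun n : ℕ => 1 / ((n : ℝ) + 1)) atTop (𝓝 0) :=
    tendsto_one_div_add_atTop_nhds_zero_nat
  have hB : ∀ n, wn (v n) ≤ 2 * 1 + 2 * R ^ 2 := by
    intro n
    have h1 := wn_sub_le (WI_of_memLp (hvu n)) (WI_of_memLp (hum n).neg)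
    have h2 : (fun x => v n x - u n x - (-u n) x) = v n := by
      funext x
      simp
    have h3 : wn (-u n) = wn (u n) := by
      unfold wn
      simp
    rw [h2, h3] at h1
    have h4 := hv1 n
    have h5 : 1 / ((n : ℝ) + 1) ≤ 1 := by
      rw [div_le_one (by positivity)]
      have : (0 : ℝ) ≤ n := Nat.cast_nonneg n
      linarith
    have h6 := (wn_le_nsq (hum n)).trans (hun n)
    linarith
  obtain ⟨φ, hφ, Ψ, hΨm, hΨi, hΨl⟩ := loc_compact S hLR hv hB hv2
  have hΨL : MemLp Ψ 2 (volume.restrict (Metric.ball (0 : Cfg d) ρ)) :=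
    (memLp_two_iff_integrable_sq_norm hΨm.aestronglyMeasurable).mpr (hΨi ρ hρ)
  have hi1 : ∀ n, IntegrableOn (fun x => ‖v (φ n) x - Ψ x‖ ^ 2) (Metric.ball (0 : Cfg d) ρ) :=
    fun n => ((hvm (φ n)).restrict _ |>.sub hΨL).integrable_norm_pow (by norm_num)
  have hi2 : ∀ n, IntegrableOn (fun x => ‖v (φ n) x - u (φ n) x‖ ^ 2)
      (Metric.ball (0 : Cfg d) ρ) := fun n => (memLp_norm_sq_int (hvu (φ n))).integrableOn
  have hi3 : ∀ n, IntegrableOn (fun x => ‖u (φ n) x - Ψ x‖ ^ 2) (Metric.ball (0 : Cfg d) ρ) :=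
    fun n => ((hum (φ n)).restrict _ |>.sub hΨL).integrable_norm_pow (by norm_num)
  set δ : ℕ → ℝ := fun n => mas (fun x => u (φ n) x - Ψ x) (Metric.ball 0 ρ) with hδd
  have hδ : Tendsto δ atTop (𝓝 0) := by
    have h1 : Tendsto (fun n => 2 * (∫ x in Metric.ball (0 : Cfg d) ρ, ‖v (φ n) x - Ψ x‖ ^ 2) +
        2 * ((1 + ρ ^ 2) * (1 / ((φ n : ℝ) + 1)))) atTop (𝓝 (2 * 0 + 2 * ((1 + ρ ^ 2) * 0))) :=
      ((hΨl ρ hρ).const_mul 2).add
        (((hlim1.comp hφ.tendsto_atTop).const_mul (1 + ρ ^ 2)).const_mul 2)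
    rw [mul_zero, mul_zero, mul_zero, add_zero] at h1
    refine squeeze_zero (fun n => mas_nonneg _ _) (fun n => ?_) h1
    have h2 := mas_sub_le (hi1 n) (hi2 n)
    have h3 : (fun x => v (φ n) x - Ψ x - (v (φ n) x - u (φ n) x)) =
        fun x => u (φ n) x - Ψ x := by
      funext x
      abel
    rw [h3] at h2
    refine h2.trans (add_le_add le_rfl (mul_le_mul_of_nonneg_left ?_ (by norm_num)))
    exact (mas_le_wn (WI_of_memLp (hvu (φ n))) ρ).trans
      (mul_le_mul_of_nonneg_left (hv1 (φ n)) (by positivity))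
  have hd2 : ∀ n m, nsq (fun x => u (φ n) x - u (φ m) x) ≤ C * (2 * δ n + 2 * δ m) := by
    intro n m
    obtain ⟨h1, h2⟩ := hdec _ (KW_sub (hu (φ n)) (hu (φ m)))
    have h3 : nsq (fun x => u (φ n) x - u (φ m) x) ≤
        ∫ x, (1 + ‖x‖ ^ 2) * ‖u (φ n) x - u (φ m) x‖ ^ 2 := by
      refine integral_mono_of_nonneg (Eventually.of_forall fun x => by positivity) h1
        (Eventually.of_forall fun x => ?_)
      have h4 : 0 ≤ ‖u (φ n) x - u (φ m) x‖ ^ 2 := by positivity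
      have h5 : 0 ≤ ‖x‖ ^ 2 := by positivity
      simp only
      nlinarith
    refine (h3.trans h2).trans (mul_le_mul_of_nonneg_left ?_ hC)
    have h4 := mas_sub_le (hi3 n) (hi3 m)
    have h5 : (fun x => u (φ n) x - Ψ x - (u (φ m) x - Ψ x)) =
        fun x => u (φ n) x - u (φ m) x := by
      funext x
      abel
    rw [h5] at h4
    exact h4
  have hge : ∀ n m, n ≠ m → 1 ≤ nsq (fun x => u (φ n) x - u (φ m) x) := by
    intro n m hnm
    have h1 : 1 ≤ ‖f (φ n) - f (φ m)‖ := hff fun h => hnm (hφ.injective h)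
    have h2 : ‖f (φ n) - f (φ m)‖ ^ 2 = nsq (fun x => u (φ n) x - u (φ m) x) := by
      rw [Submodule.coe_norm, norm_sq_Lp, Submodule.coe_sub]
      refine integral_congr_ae ?_
      filter_upwards [Lp.coeFn_sub (f (φ n) : Lp F 2 (volume : Measure (Cfg d)))
        (f (φ m) : Lp F 2 (volume : Measure (Cfg d)))] with x hx
      rw [hx]
      rfl
    rw [← h2]
    exact one_le_pow₀ h1
  have hs : Tendsto (fun n => C * (2 * δ n + 2 * δ (n + 1))) atTop
      (𝓝 (C * (2 * 0 + 2 * 0))) :=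
    ((hδ.const_mul 2).add ((hδ.comp (tendsto_add_atTop_nat 1)).const_mul 2)).const_mul C
  rw [mul_zero, add_zero, mul_zero] at hs
  have h1 : (1 : ℝ) ≤ 0 := ge_of_tendsto' hs fun n =>
    (hge n (n + 1) (by omega)).trans (hd2 n (n + 1))
  linarith

lemma repr_ae {n : ℕ} (b : OrthonormalBasis (Fin n) ℂ (KS S)) (w : KS S) :
    ∃ c : Fin n → ℂ, ∀ᵐ x ∂(volume : Measure (Cfg d)),
      (w : Lp F 2 (volume : Measure (Cfg d))) x =
        ∑ j, c j • ((b j : Lp F 2 (volume : Measure (Cfg d))) : Cfg d → F) x := by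
  obtain ⟨c, hc⟩ : ∃ c : Fin n → ℂ, ∑ j, c j • b j = w := ⟨fun j => b.repr w j, b.sum_repr w⟩
  refine ⟨c, ?_⟩
  have h2 : (w : Lp F 2 (volume : Measure (Cfg d))) =
      ∑ j, c j • (b j : Lp F 2 (volume : Measure (Cfg d))) := by
    rw [← hc, Submodule.coe_sum]
    rfl
  have h4 := Lp.coeFn_finsetSum Finset.univ fun j =>
    c j • (b j : Lp F 2 (volume : Measure (Cfg d)))
  have h5 : ∀ᵐ x ∂(volume : Measure (Cfg d)), ∀ j,
      (c j • (b j : Lp F 2 (volume : Measure (Cfg d))) :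
        Lp F 2 (volume : Measure (Cfg d))) x =
      c j • ((b j : Lp F 2 (volume : Measure (Cfg d))) : Cfg d → F) x := by
    rw [ae_all_iff]
    intro j
    exact Lp.coeFn_smul _ _
  rw [h2]
  filter_upwards [h4, h5] with x hx hx2
  rw [hx]
  simp only [Finset.sum_apply]
  exact Finset.sum_congr rfl fun j _ => hx2 j

lemma inner_on {n : ℕ} (b : OrthonormalBasis (Fin n) ℂ (KS S)) (j k : Fin n) :
    ∫ x, inner ℂ ((b j : Lp F 2 (volume : Measure (Cfg d))) x)
      ((b k : Lp F 2 (volume : Measure (Cfg d))) x) = if j = k then 1 else 0 := by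
  have h1 : inner ℂ (b j) (b k) = if j = k then (1 : ℂ) else 0 :=
    orthonormal_iff_ite.mp b.orthonormal j k
  rw [← h1, Submodule.coe_inner, L2.inner_def]

/-- **third part of D8** -/
theorem kw_basis (hDec : DecStmt S) (hDy : DyStmt S) (hDisc : DiscStmt) (hLR : U.LRStmt d F)
    (hKZ : ∀ u, KW S u → ZM S u) :
    ∃ (n : ℕ) (o : Fin n → Cfg d → F), (∀ j, ZM S (o j)) ∧
    (∀ j k, ∫ x, inner ℂ (o j x) (o k x) = if j = k then 1 else 0) ∧
    ∀ u, KW S u → ∃ c : Fin n → ℂ, ∀ᵐ x ∂(volume : Measure (Cfg d)),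
      u x = ∑ j, c j • o j x := by
  obtain ⟨ρ, C, hρ, hC, hdec⟩ := hDec hDy hDisc
  haveI : FiniteDimensional ℂ (KS S) := KS_fd hLR hρ hC hdec
  obtain ⟨n, ⟨b⟩⟩ : ∃ n : ℕ, Nonempty (OrthonormalBasis (Fin n) ℂ (KS S)) :=
    ⟨_, ⟨stdOrthonormalBasis ℂ (KS S)⟩⟩
  refine ⟨n, fun j => ((b j : Lp F 2 (volume : Measure (Cfg d))) : Cfg d → F),
    fun j => hKZ _ (b j).2, fun j k => inner_on b j k, fun u hu => ?_⟩
  obtain ⟨h1, -⟩ := hdec u hu
  have hm : MemLp u 2 (volume : Measure (Cfg d)) := by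
    rw [memLp_two_iff_integrable_sq_norm hu.1]
    refine h1.mono' (hu.1.norm.pow 2) (Eventually.of_forall fun x => ?_)
    rw [Real.norm_of_nonneg (by positivity)]
    have h4 : 0 ≤ ‖u x‖ ^ 2 := by positivity
    have h5 : 0 ≤ ‖x‖ ^ 2 := by positivity
    nlinarith
  have hmem : hm.toLp u ∈ KS S := KW_congr hu hm.coeFn_toLp.symm (Lp.aestronglyMeasurable _)
  obtain ⟨c, hc⟩ := repr_ae b ⟨hm.toLp u, hmem⟩
  refine ⟨c, ?_⟩
  filter_upwards [hm.coeFn_toLp, hc] with x hx hx3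
  rw [← hx]
  exact hx3

end KWB

end Vale.Agent.P353.Z.AD
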