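import Vale.Agent.P353.AN.D.StmtL
import Vale.Agent.P353.AN.C.Op
import Vale.Agent.P353.AN.C.Out
import Vale.Agent.P353.AN.A.Bd

/-! # P353, all `N`, block D: local theorem, preparations -/

open MeasureTheory Filter Topology Matrix
open scoped ContDiff

namespace Vale.Agent.P353.Z.AD

variable {d dh dm ds dz : ℕ} {F : Type*} [NormedAddCommGroup F] [InnerProductSpace ℂ F]

/-! ### `Q1` on test functions -/

lemma lo_tloc (S : Setup d F) (φ : Spl dh dm d) (hA : AN.CalcA dh dm F) {Y : Cfg dh} {ε0 R : ℝ}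
    (hdet : ∀ y : Cfg dh, ‖y - R • Y‖ ≤ ε0 * R → (S.Dy φ 8 y).det ≠ 0)
    {c : Cfg dh → ℝ} (hc : ContDiffOn ℝ ∞ c (AN.Op687.UU S φ)) {v : Cfg dh → Wsp dm → F} (hv : Tst2 v)
    (hs : ∀ y w, v y w ≠ 0 → ‖y - R • Y‖ ≤ ε0 * R) : Tst2 (fun y w => ((c y : ℝ) : ℂ) • v y w) := by
  refine hA.mulOn c v {y | ‖y - R • Y‖ ≤ ε0 * R} (AN.Op687.UU S φ) ?_ (AN.Op687.isOpen_UU S φ) ?_ hc hs hv
  · exact isClosed_le (by fun_prop) continuous_const
  · intro y hy
    exact hdet y hy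

lemma lo_tQ1 (S : Setup d F) (φ : Spl dh dm d) (hA : AN.CalcA dh dm F) {Y : Cfg dh} {ε0 R : ℝ}
    (hdet : ∀ y : Cfg dh, ‖y - R • Y‖ ≤ ε0 * R → (S.Dy φ 8 y).det ≠ 0)
    (v : Cfg dh → Wsp dm → F) (hv : Tst2 v) (hs : Sup2 Y ε0 R v) (β : Fin 16) :
    Tst2 (S.Q1 φ β v) := by
  have h1 : Tst2 (fun y w => (-Complex.I) • (∑ j : Fin 8, ∑ B,
      S.vec (S.g j.castSucc) (φ (Sum.inr B)) β (pw j B v y w))) :=
    hA.smul _ _ (AN.Op687.t_sum hA _ _ fun j _ => AN.Op687.t_sum hA _ _ fun B _ => hA.clm _ _ (hA.pw j B v hv))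
  have h2 : ∀ C : Fin dm, Tst2 (fun y w => ∑ j : Fin 8, ∑ E,
      ((S.Dy φ j.castSucc y C E : ℝ) : ℂ) • pw j E v y w) := fun C =>
    AN.Op687.t_sum hA _ _ fun j _ => AN.Op687.t_sum hA _ _ fun E _ =>
      AN.Op687.t_mulc hA (fun y _ => S.Dy φ j.castSucc y C E) (AN.Op687.cd_Dy S φ _ C E) _ (hA.pw j E v hv)
  have h3 : ∀ (C : Fin dm) (y : Cfg dh) (w : Wsp dm), (∑ j : Fin 8, ∑ E,
      ((S.Dy φ j.castSucc y C E : ℝ) : ℂ) • pw j E v y w) ≠ 0 → ‖y - R • Y‖ ≤ ε0 * R := by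
    intro C y w h
    by_contra hn
    obtain ⟨_, _, h0⟩ := AN.Op687.van hA hv hs (y := y) (w := w) fun h' => hn h'.1
    apply h
    simp [h0]
  have h4 : Tst2 (fun y w => Complex.I • (∑ B, S.vec (S.g 8) (φ (Sum.inr B)) β
      (∑ C, (((S.Dy φ 8 y)⁻¹ B C : ℝ) : ℂ) • ∑ j : Fin 8, ∑ E,
        ((S.Dy φ j.castSucc y C E : ℝ) : ℂ) • pw j E v y w))) :=
    hA.smul _ _ (AN.Op687.t_sum hA _ _ fun B _ => hA.clm _ _ (AN.Op687.t_sum hA _ _ fun C _ =>
      lo_tloc S φ hA hdet (AN.Op687.cd_inv S φ B C) (h2 C) (h3 C)))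
  have h5 : Tst2 (fun y w => (1 / 2 : ℂ) • ∑ B, ∑ i, ∑ j, ((S.FL φ B i j y w : ℝ) : ℂ) •
      S.vec (S.g2 i j) (φ (Sum.inr B)) β (v y w)) :=
    hA.smul _ _ (AN.Op687.t_sum hA _ _ fun B _ => AN.Op687.t_sum hA _ _ fun i _ => AN.Op687.t_sum hA _ _ fun j _ =>
      AN.Op687.t_mulT hA (fun y w => S.FL φ B i j y w) (AN.Op687.cd_FL S φ B i j) _ v hv)
  exact hA.add _ _ (hA.add _ _ h1 h4) h5

/-! ### the boson density -/

lemma lo_wt_cont (i : Fin 9) (B : Fin dm) : Continuous fun w : Wsp dm => wt w i B := by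
  unfold wt
  induction i using Fin.lastCases with
  | last =>
    simp only [Fin.lastCases_last]
    exact continuous_const
  | cast j =>
    simp only [Fin.lastCases_castSucc]
    fun_prop

lemma lo_mulVec_cont {n m : ℕ} {X : Type*} [TopologicalSpace X] (A : Matrix (Fin n) (Fin m) ℝ) {f : X → Fin m → ℝ}
    (hf : ∀ j, Continuous fun x => f x j) (i : Fin n) : Continuous fun x => (A *ᵥ f x) i := by
  simp only [Matrix.mulVec, dotProduct]
  exact continuous_finsetSum _ fun j _ => continuous_const.mul (hf j)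

lemma lo_gR_cont (D : Fin 9 → Matrix (Fin dm) (Fin dm) ℝ) (Om : Matrix (Fin dm) (Fin dm) ℝ) (R : ℝ) :
    Continuous (gR D Om R : Wsp dm → ℝ) := by
  have h1 : ∀ B, Continuous fun w : Wsp dm => sV D w B := by
    intro B
    unfold sV
    refine lo_mulVec_cont _ (fun j => ?_) B
    simp only [Finset.sum_apply]
    exact continuous_finsetSum _ fun i _ => lo_mulVec_cont _ (fun j => lo_wt_cont i j) j
  have h2 : ∀ i B, Continuous fun w : Wsp dm => VV D w i B := by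
    intro i B
    unfold VV
    simp only [Pi.sub_apply]
    exact (lo_wt_cont i B).sub (lo_mulVec_cont _ h1 B)
  unfold gR qf
  refine Real.continuous_exp.comp (continuous_const.mul (continuous_finsetSum _ fun i _ => ?_))
  simp only [dotProduct]
  exact continuous_finsetSum _ fun B _ => (h2 i B).mul (lo_mulVec_cont _ (h2 i) B)

lemma lo_gn_cont (S : Setup d F) (φ : Spl dh dm d) (ψ : Spl ds dz dh) (yz : Cfg dz) :
    Continuous (gn S φ ψ yz) := by
  unfold gn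
  exact (lo_gR_cont _ _ _).div_const _

lemma lo_gn (S : Setup d F) (φ : Spl dh dm d) (ψ : Spl ds dz dh) (yz : Cfg dz) :
    Integrable (fun w => gn S φ ψ yz w ^ 2) ∧ ∫ w, gn S φ ψ yz w ^ 2 ≤ 1 := by
  set g : Wsp dm → ℝ := gR (Dz S φ ψ yz) (omc S.κ (Dz S φ ψ yz)) 1 with hg
  have h0 : 0 ≤ ∫ w, g w ^ 2 := integral_nonneg fun w => sq_nonneg _
  have h1 : (fun w => gn S φ ψ yz w ^ 2) = fun w => (∫ w', g w' ^ 2)⁻¹ * g w ^ 2 := by
    funext w
    unfold gn
    rw [div_pow, Real.sq_sqrt h0, div_eq_inv_mul]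
  rw [h1]
  by_cases hi : Integrable fun w => g w ^ 2
  · refine ⟨hi.const_mul _, ?_⟩
    rw [integral_const_mul]
    by_cases h2 : ∫ w', g w' ^ 2 = 0
    · rw [h2]; simp
    · rw [inv_mul_cancel₀ h2]
  · rw [integral_undef hi]
    simp

/-- splitting of the fibre norm -/
lemma lo_fib (f : Wsp dm → F) (hf : FT f) (g : Wsp dm → ℝ) (hg : Continuous g) (hgi : Integrable fun w => g w ^ 2)
    (hg1 : ∫ w, g w ^ 2 ≤ 1) (a : F) :
    nsf f ≤ 2 * nsf (fun w => f w - ((g w : ℝ) : ℂ) • a) + 2 * ‖a‖ ^ 2 := by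
  have hfi : Integrable fun w => ‖f w‖ ^ 2 := by
    refine Continuous.integrable_of_hasCompactSupport (hf.1.continuous.norm.pow 2) ?_
    exact hf.2.comp_left (g := fun x : F => ‖x‖ ^ 2) (by simp)
  have hga : ∀ w, ‖((g w : ℝ) : ℂ) • a‖ ^ 2 = g w ^ 2 * ‖a‖ ^ 2 := by
    intro w
    rw [norm_smul, Complex.norm_real, mul_pow, Real.norm_eq_abs, sq_abs]
  have hgc : Continuous fun w => ((g w : ℝ) : ℂ) • a := by fun_prop
  have hgai : Integrable fun w => ‖((g w : ℝ) : ℂ) • a‖ ^ 2 := by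
    simp only [hga]
    exact hgi.mul_const _
  have hpt : ∀ x y : F, ‖x + y‖ ^ 2 ≤ 2 * ‖x‖ ^ 2 + 2 * ‖y‖ ^ 2 := by
    intro x y
    have h1 := norm_add_le x y
    have h2 : ‖x + y‖ ^ 2 ≤ (‖x‖ + ‖y‖) ^ 2 := pow_le_pow_left₀ (norm_nonneg _) h1 2
    nlinarith [sq_nonneg (‖x‖ - ‖y‖)]
  have hdi : Integrable fun w => ‖f w - ((g w : ℝ) : ℂ) • a‖ ^ 2 := by
    refine Integrable.mono' ((hfi.const_mul 2).add (hgai.const_mul 2)) ?_ (Eventually.of_forall fun w => ?_)
    · exact ((hf.1.continuous.sub hgc).norm.pow 2).aestronglyMeasurable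
    · rw [Real.norm_eq_abs, abs_of_nonneg (by positivity)]
      have := hpt (f w) (-(((g w : ℝ) : ℂ) • a))
      rw [norm_neg, ← sub_eq_add_neg] at this
      exact this
  have h1 : nsf f ≤ ∫ w, (2 * ‖f w - ((g w : ℝ) : ℂ) • a‖ ^ 2 + 2 * ‖((g w : ℝ) : ℂ) • a‖ ^ 2) := by
    unfold nsf
    refine integral_mono hfi ((hdi.const_mul 2).add (hgai.const_mul 2)) fun w => ?_
    have := hpt (f w - ((g w : ℝ) : ℂ) • a) (((g w : ℝ) : ℂ) • a)
    rwa [sub_add_cancel] at this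
  rw [integral_add (hdi.const_mul 2) (hgai.const_mul 2), integral_const_mul, integral_const_mul] at h1
  have h2 : ∫ w, ‖((g w : ℝ) : ℂ) • a‖ ^ 2 ≤ ‖a‖ ^ 2 := by
    simp only [hga]
    rw [integral_mul_const]
    have := mul_le_mul_of_nonneg_right hg1 (sq_nonneg ‖a‖)
    linarith
  unfold nsf at h1 ⊢
  linarith

/-! ### inner completeness for one function -/

omit [InnerProductSpace ℂ F] in
lemma lo_sum_sq {n : ℕ} (x : Fin n → F) : ‖∑ j, x j‖ ^ 2 ≤ n * ∑ j, ‖x j‖ ^ 2 := by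
  have h1 : ‖∑ j, x j‖ ≤ ∑ j, ‖x j‖ := norm_sum_le _ _
  have h2 : ‖∑ j, x j‖ ^ 2 ≤ (∑ j, ‖x j‖) ^ 2 := pow_le_pow_left₀ (norm_nonneg _) h1 2
  have h3 := sq_sum_le_card_mul_sum_sq (s := (Finset.univ : Finset (Fin n))) (f := fun j => ‖x j‖)
  simp only [Finset.card_univ, Fintype.card_fin] at h3
  exact h2.trans h3

lemma lo_ic (S : Setup ds F) {n : ℕ} {o : Fin n → Cfg ds → F} {CI : ℝ} (hCI : 0 ≤ CI) (hz : ∀ j, ZM S (o j))
    (ho : ∀ j k, ∫ x, inner ℂ (o j x) (o k x) = if j = k then 1 else 0)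
    (hic : ∀ ρ : ℝ, 1 ≤ ρ → ∀ u, GInv S u →
      mas (fun x => u x - ∑ j, (∫ z, inner ℂ (o j z) (u z)) • o j x) (Metric.ball 0 ρ) ≤ CI * ρ ^ 2 * En S u)
    {r : ℝ} (a : Cfg ds → F) (ha : GInv S a) :
    mas a (Metric.ball 0 r) ≤ 2 * CI * (1 + r ^ 2) * En S a + 2 * n * ∑ j, ‖∫ z, inner ℂ (o j z) (a z)‖ ^ 2 := by
  set c : Fin n → ℂ := fun j => ∫ z, inner ℂ (o j z) (a z) with hc
  set s : Cfg ds → F := fun x => ∑ j, c j • o j x with hs
  have hom : ∀ j, MemLp (o j) 2 (volume : Measure (Cfg ds)) := fun j => by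
    obtain ⟨u, _, hu, _⟩ := hz j
    exact hu.mem'
  have hoi : ∀ j, Integrable fun x => ‖o j x‖ ^ 2 := fun j => (hom j).integrable_norm_pow (by norm_num)
  have ho1 : ∀ j, ∫ x, ‖o j x‖ ^ 2 = 1 := by
    intro j
    have h1 := ho j j
    rw [if_pos rfl] at h1
    have h2 : ∫ x, inner ℂ (o j x) (o j x) = ((∫ x, ‖o j x‖ ^ 2 : ℝ) : ℂ) := by
      rw [← integral_complex_ofReal]
      refine integral_congr_ae (Eventually.of_forall fun x => ?_)
      simp only [inner_self_eq_norm_sq_to_K]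
      norm_cast
    rw [h2] at h1
    exact_mod_cast h1
  have hai : Integrable fun x => ‖a x‖ ^ 2 := by
    refine Continuous.integrable_of_hasCompactSupport (ha.1.1.continuous.norm.pow 2) ?_
    exact ha.1.2.comp_left (g := fun x : F => ‖x‖ ^ 2) (by simp)
  have hsm : MemLp s 2 (volume : Measure (Cfg ds)) := by
    have := memLp_finsetSum (Finset.univ : Finset (Fin n)) (fun j _ => (hom j).const_smul (c j))
    exact this
  have ham : MemLp a 2 (volume : Measure (Cfg ds)) := ha.1.1.continuous.memLp_of_hasCompactSupport ha.1.2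
  have hsi : Integrable fun x => ‖s x‖ ^ 2 := hsm.integrable_norm_pow (by norm_num)
  have hdi : Integrable fun x => ‖a x - s x‖ ^ 2 := (ham.sub hsm).integrable_norm_pow (by norm_num)
  have hpt : ∀ x y : F, ‖x + y‖ ^ 2 ≤ 2 * ‖x‖ ^ 2 + 2 * ‖y‖ ^ 2 := by
    intro x y
    have h1 := norm_add_le x y
    have h2 : ‖x + y‖ ^ 2 ≤ (‖x‖ + ‖y‖) ^ 2 := pow_le_pow_left₀ (norm_nonneg _) h1 2
    nlinarith [sq_nonneg (‖x‖ - ‖y‖)]
  set ρ : ℝ := max 1 r with hρ
  have hρ1 : 1 ≤ ρ := le_max_left _ _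
  have hρr : r ≤ ρ := le_max_right _ _
  have hρ2 : ρ ^ 2 ≤ 1 + r ^ 2 := by
    rcases max_choice 1 r with h | h
    · rw [hρ, h]; nlinarith [sq_nonneg r]
    · rw [hρ, h]; linarith
  -- step 1: split
  have e1 : mas a (Metric.ball 0 r) ≤ mas a (Metric.ball 0 ρ) := by
    unfold mas
    exact setIntegral_mono_set hai.integrableOn (Eventually.of_forall fun x => by positivity)
      (LE.le.eventuallyLE (Metric.ball_subset_ball hρr))
  have e2 : mas a (Metric.ball 0 ρ) ≤ 2 * mas (fun x => a x - s x) (Metric.ball 0 ρ) + 2 * nsq s := by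
    have h1 : mas a (Metric.ball 0 ρ) ≤ ∫ x in Metric.ball (0 : Cfg ds) ρ, (2 * ‖a x - s x‖ ^ 2 + 2 * ‖s x‖ ^ 2) := by
      unfold mas
      refine integral_mono hai.integrableOn ((hdi.const_mul 2).add (hsi.const_mul 2)).integrableOn fun x => ?_
      have := hpt (a x - s x) (s x)
      rwa [sub_add_cancel] at this
    rw [integral_add (hdi.const_mul 2).integrableOn (hsi.const_mul 2).integrableOn, integral_const_mul,
      integral_const_mul] at h1
    have h2 : ∫ x in Metric.ball (0 : Cfg ds) ρ, ‖s x‖ ^ 2 ≤ nsq s :=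
      setIntegral_le_integral hsi (Eventually.of_forall fun x => by positivity)
    unfold mas at h1 ⊢
    linarith
  have e3 : nsq s ≤ n * ∑ j, ‖c j‖ ^ 2 := by
    have h1 : nsq s ≤ ∫ x, (n : ℝ) * ∑ j, ‖c j‖ ^ 2 * ‖o j x‖ ^ 2 := by
      unfold nsq
      refine integral_mono hsi ((integrable_finsetSum _ fun j _ => (hoi j).const_mul _).const_mul _) fun x => ?_
      have := lo_sum_sq (fun j => c j • o j x)
      simp only [norm_smul, mul_pow] at this
      exact this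
    rw [integral_const_mul, integral_finsetSum _ fun j _ => (hoi j).const_mul _] at h1
    simp only [integral_const_mul, ho1, mul_one] at h1
    exact h1
  have e4 := hic ρ hρ1 a ha
  have e5 : 0 ≤ En S a := Finset.sum_nonneg fun β _ => nsq_nonneg _
  have e6 : CI * ρ ^ 2 * En S a ≤ CI * (1 + r ^ 2) * En S a :=
    mul_le_mul_of_nonneg_right (mul_le_mul_of_nonneg_left hρ2 hCI) e5
  change mas (fun x => a x - s x) (Metric.ball 0 ρ) ≤ _ at e4
  have e7 : 2 * CI * (1 + r ^ 2) * En S a = 2 * (CI * (1 + r ^ 2) * En S a) := by ring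
  have e8 : 2 * (n : ℝ) * ∑ j, ‖c j‖ ^ 2 = 2 * (n * ∑ j, ‖c j‖ ^ 2) := by ring
  rw [e7, e8]
  linarith

/-- the coefficient function is square integrable -/
lemma lo_coef (a : Cfg dz × Cfg ds → F) (ha : Continuous a) (hac : HasCompactSupport a) (o : Cfg ds → F)
    (ho : MemLp o 2 (volume : Measure (Cfg ds))) :
    Integrable (fun yz : Cfg dz => ‖∫ ys, inner ℂ (o ys) (a (yz, ys))‖ ^ 2) := by
  obtain ⟨M, hM⟩ : ∃ M, ∀ p, ‖a p‖ ≤ M := hac.exists_bound_of_continuous ha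
  have hM0 : 0 ≤ M := (norm_nonneg _).trans (hM 0)
  set K1 : Set (Cfg dz) := Prod.fst '' tsupport a with hK1
  set K2 : Set (Cfg ds) := Prod.snd '' tsupport a with hK2
  have hK1c : IsCompact K1 := hac.isCompact.image continuous_fst
  have hK2c : IsCompact K2 := hac.isCompact.image continuous_snd
  have hoI : IntegrableOn (fun x => ‖o x‖) K2 := by
    have h1 : MemLp o 2 ((volume : Measure (Cfg ds)).restrict K2) := ho.restrict K2
    have : IsFiniteMeasure ((volume : Measure (Cfg ds)).restrict K2) := ⟨by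
      rw [Measure.restrict_apply_univ]; exact hK2c.measure_lt_top⟩
    exact (h1.integrable (by norm_num)).norm
  set L : ℝ := M * ∫ x in K2, ‖o x‖ with hL
  have hL0 : 0 ≤ L := mul_nonneg hM0 (integral_nonneg fun x => norm_nonneg _)
  have hz : ∀ yz, yz ∉ K1 → ∀ ys, a (yz, ys) = 0 := by
    intro yz hyz ys
    by_contra h
    exact hyz ⟨(yz, ys), subset_tsupport _ h, rfl⟩
  have hz2 : ∀ yz ys, ys ∉ K2 → a (yz, ys) = 0 := by
    intro yz ys hys
    by_contra h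
    exact hys ⟨(yz, ys), subset_tsupport _ h, rfl⟩
  have hb : ∀ yz, ‖∫ ys, inner ℂ (o ys) (a (yz, ys))‖ ≤ L := by
    intro yz
    have h1 : ∫ ys, inner ℂ (o ys) (a (yz, ys)) = ∫ ys in K2, inner ℂ (o ys) (a (yz, ys)) := by
      symm
      refine setIntegral_eq_integral_of_forall_compl_eq_zero fun ys hys => ?_
      rw [hz2 yz ys hys, inner_zero_right]
    rw [h1]
    refine (norm_integral_le_of_norm_le (hoI.const_mul M) (Eventually.of_forall fun ys => ?_)).trans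
      (le_of_eq (integral_const_mul _ _))
    exact (norm_inner_le_norm _ _).trans (by
      rw [mul_comm]; exact mul_le_mul_of_nonneg_right (hM _) (norm_nonneg _))
  have hmeas : AEStronglyMeasurable (fun yz : Cfg dz => ∫ ys, inner ℂ (o ys) (a (yz, ys)))
      (volume : Measure (Cfg dz)) := by
    have h1 : AEStronglyMeasurable (fun p : Cfg dz × Cfg ds => inner ℂ (o p.2) (a p))
        ((volume : Measure (Cfg dz)).prod (volume : Measure (Cfg ds))) := by
      exact (ho.1.comp_snd).inner ha.aestronglyMeasurable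
    exact h1.integral_prod_right'
  have hind : Integrable (K1.indicator fun _ => L ^ 2 : Cfg dz → ℝ) := by
    rw [integrable_indicator_iff hK1c.measurableSet]
    exact integrableOn_const hK1c.measure_lt_top.ne
  refine Integrable.mono' hind (hmeas.norm.pow 2) (Eventually.of_forall fun yz => ?_)
  rw [Real.norm_eq_abs, abs_of_nonneg (by positivity)]
  by_cases hyz : yz ∈ K1
  · rw [Set.indicator_of_mem hyz]
    exact pow_le_pow_left₀ (norm_nonneg _) (hb yz) 2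
  · rw [Set.indicator_of_notMem hyz]
    simp [hz yz hyz]

end Vale.Agent.P353.Z.AD
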