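import Vale.Agent.P353.AN.D.LocA

/-! # P353, all `N`, block D: local theorem, the main estimate -/

open MeasureTheory Filter Topology Matrix
open scoped ContDiff

namespace Vale.Agent.P353.Z.AD

variable {d dh dm ds dz : ℕ} {F : Type*} [NormedAddCommGroup F] [InnerProductSpace ℂ F]

/-! ### change of variables -/

lemma lo_sp_cont (ψ : Spl ds dz dh) : Continuous (sp ψ) := by
  unfold sp
  refine (PiLp.continuous_toLp 2 _).comp (continuous_pi fun p => ?_)
  fun_prop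

lemma lo_zp_cont (ψ : Spl ds dz dh) : Continuous (zp ψ) := by
  unfold zp
  refine (PiLp.continuous_toLp 2 _).comp (continuous_pi fun p => ?_)
  fun_prop

lemma lo_cov (hcmb : CmbStmt) (ψ : Spl ds dz dh) (f : Cfg dh → ℝ) (hf : Integrable f) :
    Integrable (fun p : Cfg ds × Cfg dz => f (cmb ψ p.1 p.2))
      ((volume : Measure (Cfg ds)).prod (volume : Measure (Cfg dz))) ∧
    ∫ y, f y = ∫ p : Cfg ds × Cfg dz, f (cmb ψ p.1 p.2)
      ∂((volume : Measure (Cfg ds)).prod (volume : Measure (Cfg dz))) := by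
  obtain ⟨_, _, _, _, _, _, hmp⟩ := hcmb ds dz dh ψ
  refine ⟨(hmp.integrable_comp hf.1).2 hf, ?_⟩
  have h1 := integral_map (μ := (volume : Measure (Cfg ds)).prod (volume : Measure (Cfg dz)))
    hmp.measurable.aemeasurable (f := f) (by rw [hmp.map_eq]; exact hf.1)
  rw [hmp.map_eq] at h1
  exact h1

lemma lo_fub (hcmb : CmbStmt) (ψ : Spl ds dz dh) (hB : AN.CalcB dh dm F) (q : Cfg dh → Wsp dm → F) (hq : Tst2 q) :
    Integrable (fun yz : Cfg dz => ∫ ys, nsf (q (cmb ψ ys yz))) ∧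
    ∫ yz, ∫ ys, nsf (q (cmb ψ ys yz)) = ns2 q := by
  obtain ⟨h1, h2⟩ := hB.yw q hq
  obtain ⟨h3, h4⟩ := lo_cov hcmb ψ _ h1
  refine ⟨h3.integral_prod_right, ?_⟩
  rw [h2, h4, integral_prod_symm _ h3]

/-- the main estimate for one slice test function -/
lemma lo_main [FiniteDimensional ℂ F] (S : Setup d F) (φ : Spl dh dm d) (ψ : Spl ds dz dh) (z₀ : Cfg dz)
    (h : Std2 S φ ψ z₀) (hA : AN.CalcA dh dm F) (hB : AN.CalcB dh dm F) (hcmb : CmbStmt)
    {n : ℕ} {o : Fin n → Cfg ds → F} {CI : ℝ} (hCI : 0 ≤ CI) (hz : ∀ j, ZM h.ss (o j))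
    (ho : ∀ j k, ∫ x, inner ℂ (o j x) (o k x) = if j = k then 1 else 0)
    (hic : ∀ ρ : ℝ, 1 ≤ ρ → ∀ u, GInv h.ss u →
      mas (fun x => u x - ∑ j, (∫ z, inner ℂ (o j z) (u z)) • o j x) (Metric.ball 0 ρ) ≤ CI * ρ ^ 2 * En h.ss u)
    {R ε η δ Cu : ℝ} (hR : 0 < R) (hη : 0 < η) (hδ : 0 ≤ δ) (hCu : 0 ≤ Cu)
    (hdet : ∀ y : Cfg dh, ‖y - R • cmb ψ 0 z₀‖ ≤ ε * R → (S.Dy φ 8 y).det ≠ 0)
    (huf : ∀ yz, ‖yz - R • z₀‖ ≤ ε * R → ∀ ys : Cfg ds, ‖ys‖ ≤ η * R → ∀ f : Wsp dm → F, FT f →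
      nsf (fun w => f w - ((gn S φ ψ yz w : ℝ) : ℂ) • ∫ w', ((gn S φ ψ yz w' : ℝ) : ℂ) • Pz S φ ψ yz (f w')) ≤
        Cu / R * S.e1 φ (S.DY φ (cmb ψ ys yz)) f + δ * nsf f)
    {v : Cfg dh → Wsp dm → F} (hv : Tst2 v) (hs : Sup2 (cmb ψ 0 z₀) ε R v)
    (ha : ContDiff ℝ ∞ (fun p : Cfg dz × Cfg ds => sec S φ ψ v p.1 p.2))
    (hac : HasCompactSupport (fun p : Cfg dz × Cfg ds => sec S φ ψ v p.1 p.2))
    (hg : ∀ yz, GInv h.ss (sec S φ ψ v yz))
    (hen : ∀ yz, En h.ss (sec S φ ψ v yz) ≤ ∑ β, ∫ ys, nsf (Qss h β v (cmb ψ ys yz)))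
    (hq : ∀ β, Tst2 (Qss h β v)) :
    ns2 v ≤ (∫ p in {p : Cfg dh × Wsp dm | η * R ≤ ‖sp ψ p.1‖}, ‖v p.1 p.2‖ ^ 2
        ∂((volume : Measure (Cfg dh)).prod (volume : Measure (Wsp dm)))) +
      Cu / (8 * R) * S.E1 φ v + 2 * δ * ns2 v +
      2 * (2 * CI * (1 + (η * R) ^ 2) * (∑ β, ns2 (Qss h β v)) +
        2 * n * ∑ j, ∫ yz, ‖∫ ys, inner ℂ (o j ys) (sec S φ ψ v yz ys)‖ ^ 2) := by
  obtain ⟨hc1, hc2, hc3, hc4, hc5, hc6, hmp⟩ := hcmb ds dz dh ψ
  obtain ⟨hvi, hve⟩ := hB.yw v hv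
  set A : Set (Cfg dh) := {y | ‖sp ψ y‖ < η * R} with hAdef
  have hAm : MeasurableSet A := (isOpen_lt (lo_sp_cont ψ).norm continuous_const).measurableSet
  -- far part
  have hfar : ∫ y in Aᶜ, nsf (v y) = ∫ p in {p : Cfg dh × Wsp dm | η * R ≤ ‖sp ψ p.1‖}, ‖v p.1 p.2‖ ^ 2
        ∂((volume : Measure (Cfg dh)).prod (volume : Measure (Wsp dm))) := by
    have hset : {p : Cfg dh × Wsp dm | η * R ≤ ‖sp ψ p.1‖} = Aᶜ ×ˢ Set.univ := by
      ext p
      simp [hAdef]
    rw [hset, setIntegral_prod _ (hB.int_sq v hv).integrableOn]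
    simp only [Measure.restrict_univ]
    rfl
  -- `e1`
  have hQi : ∀ β, Integrable (fun y => nsf (S.Q1 φ β v y)) ∧ ns2 (S.Q1 φ β v) = ∫ y, nsf (S.Q1 φ β v y) :=
    fun β => hB.yw _ (lo_tQ1 S φ hA hdet v hv hs β)
  have he1i : Integrable (fun y => S.e1 φ (S.DY φ y) (v y)) := by
    have : Integrable (fun y => ∑ β, nsf (S.Q1 φ β v y)) := integrable_finsetSum _ fun β _ => (hQi β).1
    exact this.const_mul (1 / 16 : ℝ)
  have he1e : ∫ y, S.e1 φ (S.DY φ y) (v y) = (1 / 16) * S.E1 φ v := by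
    have h1 : (fun y => S.e1 φ (S.DY φ y) (v y)) = fun y => (1 / 16 : ℝ) * ∑ β, nsf (S.Q1 φ β v y) := rfl
    rw [h1, integral_const_mul, integral_finsetSum _ fun β _ => (hQi β).1]
    unfold Setup.E1
    congr 1
    exact Finset.sum_congr rfl fun β _ => ((hQi β).2).symm
  have he10 : ∀ y, 0 ≤ S.e1 φ (S.DY φ y) (v y) := fun y => AN.e1359_nonneg S φ _ _
  -- the section
  set a : Cfg dz → Cfg ds → F := sec S φ ψ v with hadef
  set sq : Cfg dh → ℝ := fun y => ‖a (zp ψ y) (sp ψ y)‖ ^ 2 with hsq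
  have hacont : Continuous fun p : Cfg dz × Cfg ds => a p.1 p.2 := ha.continuous
  have hsqc : Continuous sq := by
    have : Continuous fun y : Cfg dh => (zp ψ y, sp ψ y) := (lo_zp_cont ψ).prodMk (lo_sp_cont ψ)
    exact (hacont.comp this).norm.pow 2
  have hai : Integrable (fun p : Cfg dz × Cfg ds => ‖a p.1 p.2‖ ^ 2)
      ((volume : Measure (Cfg dz)).prod (volume : Measure (Cfg ds))) := by
    refine Continuous.integrable_of_hasCompactSupport (hacont.norm.pow 2) ?_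
    exact hac.comp_left (g := fun x : F => ‖x‖ ^ 2) (by simp)
  have hai' : Integrable (fun p : Cfg ds × Cfg dz => ‖a p.2 p.1‖ ^ 2)
      ((volume : Measure (Cfg ds)).prod (volume : Measure (Cfg dz))) := hai.swap
  have hsqi : Integrable sq := by
    refine (hmp.integrable_comp hsqc.aestronglyMeasurable).1 ?_
    refine hai'.congr (Eventually.of_forall fun p => ?_)
    simp only [Function.comp, hsq, hc1, hc2]
  -- pointwise bound
  have hpt : ∀ y ∈ A, nsf (v y) ≤ 2 * (Cu / R * S.e1 φ (S.DY φ y) (v y) + δ * nsf (v y)) + 2 * sq y := by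
    intro y hy
    have hn0 : 0 ≤ nsf (v y) := AN.nsf359_nonneg _
    by_cases hyz : ‖zp ψ y - R • z₀‖ ≤ ε * R
    · have h1 := huf (zp ψ y) hyz (sp ψ y) (le_of_lt hy) (v y) (hA.slw v hv y)
      rw [hc3] at h1
      have h2 := lo_fib (v y) (hA.slw v hv y) (gn S φ ψ (zp ψ y)) (lo_gn_cont S φ ψ (zp ψ y))
        (lo_gn S φ ψ (zp ψ y)).1 (lo_gn S φ ψ (zp ψ y)).2 (a (zp ψ y) (sp ψ y))
      have h3 : a (zp ψ y) (sp ψ y) = ∫ w', ((gn S φ ψ (zp ψ y) w' : ℝ) : ℂ) • Pz S φ ψ (zp ψ y) (v y w') := by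
        rw [hadef]
        unfold sec
        rw [hc3]
      have h4 : nsf (fun w => v y w - ((gn S φ ψ (zp ψ y) w : ℝ) : ℂ) • a (zp ψ y) (sp ψ y)) ≤
          Cu / R * S.e1 φ (S.DY φ y) (v y) + δ * nsf (v y) := by
        rw [h3]
        exact h1
      linarith
    · have h0 : v y = fun _ => 0 := by
        funext w
        by_contra hne
        have h1 := (hs y w hne).1
        have h2 : y - R • cmb ψ 0 z₀ = cmb ψ (sp ψ y) (zp ψ y - R • z₀) := by
          conv_lhs => rw [← hc3 y]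
          rw [hc6, hc5, smul_zero, sub_zero]
        have h3 : ‖y - R • cmb ψ 0 z₀‖ ^ 2 = ‖sp ψ y‖ ^ 2 + ‖zp ψ y - R • z₀‖ ^ 2 := by
          rw [h2, hc4]
        apply hyz
        have h4 : ‖zp ψ y - R • z₀‖ ≤ ‖y - R • cmb ψ 0 z₀‖ := by
          refine abs_le_of_sq_le_sq' ?_ (norm_nonneg _) |>.2
          nlinarith [sq_nonneg ‖sp ψ y‖]
        exact h4.trans h1
      have h1 : nsf (v y) = 0 := by rw [h0]; exact AN.nsf359_zero
      rw [h1]
      have h2 := he10 y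
      have h3 : 0 ≤ Cu / R := by positivity
      have h4 : 0 ≤ sq y := by positivity
      have h5 := mul_nonneg h3 h2
      linarith
  -- near part
  have hnear : ∫ y in A, nsf (v y) ≤ Cu / (8 * R) * S.E1 φ v + 2 * δ * ns2 v + 2 * ∫ y in A, sq y := by
    have h1 : ∫ y in A, nsf (v y) ≤
        ∫ y in A, (2 * (Cu / R * S.e1 φ (S.DY φ y) (v y) + δ * nsf (v y)) + 2 * sq y) :=
      setIntegral_mono_on hvi.integrableOn
        (((((he1i.const_mul _).add (hvi.const_mul _)).const_mul 2).add (hsqi.const_mul 2)).integrableOn) hAm hpt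
    have i1 : Integrable (fun y => Cu / R * S.e1 φ (S.DY φ y) (v y)) := he1i.const_mul _
    have i2 : Integrable (fun y => δ * nsf (v y)) := hvi.const_mul _
    have i3 : Integrable (fun y => 2 * (Cu / R * S.e1 φ (S.DY φ y) (v y) + δ * nsf (v y))) := (i1.add i2).const_mul 2
    rw [integral_add i3.integrableOn (hsqi.const_mul 2).integrableOn, integral_const_mul,
      integral_add i1.integrableOn i2.integrableOn, integral_const_mul, integral_const_mul, integral_const_mul] at h1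
    have h2 : ∫ y in A, S.e1 φ (S.DY φ y) (v y) ≤ (1 / 16) * S.E1 φ v := by
      rw [← he1e]
      exact setIntegral_le_integral he1i (Eventually.of_forall he10)
    have h3 : ∫ y in A, nsf (v y) ≤ ns2 v := by
      rw [hve]
      exact setIntegral_le_integral hvi (Eventually.of_forall fun y => AN.nsf359_nonneg _)
    have h4 : 0 ≤ Cu / R := by positivity
    have h5 := mul_le_mul_of_nonneg_left h2 h4
    have h6 := mul_le_mul_of_nonneg_left h3 hδ
    have h7 : Cu / (8 * R) * S.E1 φ v = 2 * (Cu / R * (1 / 16 * S.E1 φ v)) := by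
      field_simp
      ring
    rw [h7]
    linarith
  -- Fubini for the section
  have hfub : ∫ y in A, sq y = ∫ yz, mas (a yz) (Metric.ball 0 (η * R)) := by
    have hind : Integrable (A.indicator sq) := hsqi.indicator hAm
    obtain ⟨g1, g2⟩ := lo_cov hcmb ψ _ hind
    rw [← integral_indicator hAm, g2, integral_prod_symm _ g1]
    refine integral_congr_ae (Eventually.of_forall fun yz => ?_)
    simp only
    unfold mas
    rw [← integral_indicator measurableSet_ball]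
    refine integral_congr_ae (Eventually.of_forall fun ys => ?_)
    simp only
    have hmem : cmb ψ ys yz ∈ A ↔ ‖ys‖ < η * R := by
      change ‖sp ψ (cmb ψ ys yz)‖ < η * R ↔ _
      rw [hc1]
    by_cases hys : ‖ys‖ < η * R
    · rw [Set.indicator_of_mem (hmem.2 hys), Set.indicator_of_mem (by simpa using hys)]
      simp only [hsq, hc1, hc2]
    · rw [Set.indicator_of_notMem (fun h' => hys (hmem.1 h')), Set.indicator_of_notMem (by simpa using hys)]
  -- inner completeness, integrated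
  have hom : ∀ j, MemLp (o j) 2 (volume : Measure (Cfg ds)) := fun j => by
    obtain ⟨u, _, hu, _⟩ := hz j
    exact hu.mem'
  have hci : ∀ j, Integrable (fun yz : Cfg dz => ‖∫ ys, inner ℂ (o j ys) (a yz ys)‖ ^ 2) := fun j =>
    lo_coef (fun p : Cfg dz × Cfg ds => a p.1 p.2) hacont hac (o j) (hom j)
  have hQf : ∀ β, Integrable (fun yz : Cfg dz => ∫ ys, nsf (Qss h β v (cmb ψ ys yz))) ∧
      ∫ yz, ∫ ys, nsf (Qss h β v (cmb ψ ys yz)) = ns2 (Qss h β v) := fun β => lo_fub hcmb ψ hB _ (hq β)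
  have hint : ∫ yz, mas (a yz) (Metric.ball 0 (η * R)) ≤
      2 * CI * (1 + (η * R) ^ 2) * (∑ β, ns2 (Qss h β v)) +
        2 * n * ∑ j, ∫ yz, ‖∫ ys, inner ℂ (o j ys) (a yz ys)‖ ^ 2 := by
    have k1 : Integrable (fun yz : Cfg dz => 2 * CI * (1 + (η * R) ^ 2) *
        ∑ β, ∫ ys, nsf (Qss h β v (cmb ψ ys yz))) :=
      (integrable_finsetSum _ fun β _ => (hQf β).1).const_mul _
    have k2 : Integrable (fun yz : Cfg dz => 2 * (n : ℝ) * ∑ j, ‖∫ ys, inner ℂ (o j ys) (a yz ys)‖ ^ 2) :=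
      (integrable_finsetSum _ fun j _ => hci j).const_mul _
    have h1 : ∫ yz, mas (a yz) (Metric.ball 0 (η * R)) ≤ ∫ yz : Cfg dz, (2 * CI * (1 + (η * R) ^ 2) *
        (∑ β, ∫ ys, nsf (Qss h β v (cmb ψ ys yz))) + 2 * (n : ℝ) * ∑ j, ‖∫ ys, inner ℂ (o j ys) (a yz ys)‖ ^ 2) := by
      refine integral_mono_of_nonneg (Eventually.of_forall fun yz => ?_) (k1.add k2) (Eventually.of_forall fun yz => ?_)
      · exact integral_nonneg fun x => by positivity
      · have h2 := lo_ic h.ss hCI hz ho hic (r := η * R) (a yz) (hg yz)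
        have h3 := mul_le_mul_of_nonneg_left (hen yz)
          (show 0 ≤ 2 * CI * (1 + (η * R) ^ 2) by positivity)
        simp only
        linarith
    rw [integral_add k1 k2, integral_const_mul, integral_const_mul, integral_finsetSum _ fun β _ => (hQf β).1,
      integral_finsetSum _ fun j _ => hci j] at h1
    simp only [(hQf _).2] at h1
    exact h1
  have hsplit : ns2 v = (∫ y in A, nsf (v y)) + ∫ y in Aᶜ, nsf (v y) := by
    rw [integral_add_compl hAm hvi, hve]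
  rw [hfub] at hnear
  linarith

end Vale.Agent.P353.Z.AD
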