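import Vale.Agent.P353.AN.D.StmtL

/-! # P353, all `N`, block D, L9: invariance of the boson vacuum under `ad C` and integration by parts (helper207) -/

open MeasureTheory Filter Topology Matrix
open scoped ContDiff

set_option linter.unusedSectionVars false

namespace Vale.Agent.P353.Z.AD

variable {d dh dm ds dz : ℕ} {F : Type*} [NormedAddCommGroup F] [InnerProductSpace ℂ F]

/-- `ad c` on `m` -/
noncomputable def swX (S : Setup d F) (φ : Spl dh dm d) (C : Fin dh) : Matrix (Fin dm) (Fin dm) ℝ :=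
  Matrix.of fun A B => S.f (φ (Sum.inl C)) (φ (Sum.inr A)) (φ (Sum.inr B))

lemma swX_anti (S : Setup d F) (φ : Spl dh dm d) (C : Fin dh) : (swX S φ C)ᵀ = -swX S φ C := by
  ext A B
  simp only [swX, transpose_apply, of_apply, Matrix.neg_apply]
  exact S.f_swap' _ _ _

lemma swX_comm {S : Setup d F} {φ : Spl dh dm d} {ψ : Spl ds dz dh} {z₀ : Cfg dz} (h : Std2 S φ ψ z₀)
    (C : Fin dh) (yz : Cfg dz) (i : Fin 9) : swX S φ C * Dz S φ ψ yz i = Dz S φ ψ yz i * swX S φ C := by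
  have hsub := h.std.sub
  -- Jacobi for one central element
  have key : ∀ (z : Fin dz) (A D : Fin dm),
      ∑ B, S.f (φ (Sum.inl C)) (φ (Sum.inr A)) (φ (Sum.inr B)) *
        S.f (φ (Sum.inr B)) (φ (Sum.inl (ψ (Sum.inr z)))) (φ (Sum.inr D)) =
      ∑ B, S.f (φ (Sum.inr A)) (φ (Sum.inl (ψ (Sum.inr z)))) (φ (Sum.inr B)) *
        S.f (φ (Sum.inl C)) (φ (Sum.inr B)) (φ (Sum.inr D)) := by
    intro z A D
    have h1 := S.f_jac (φ (Sum.inl C)) (φ (Sum.inr A)) (φ (Sum.inl (ψ (Sum.inr z)))) (φ (Sum.inr D))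
    rw [← φ.sum_comp, Fintype.sum_sum_type] at h1
    have e1 : ∀ E : Fin dh, S.f (φ (Sum.inl C)) (φ (Sum.inr A)) (φ (Sum.inl E)) = 0 := by
      intro E
      rw [S.f_swap', hsub, neg_zero]
    have e2 : ∀ E : Fin dh, S.f (φ (Sum.inr A)) (φ (Sum.inl (ψ (Sum.inr z)))) (φ (Sum.inl E)) = 0 := by
      intro E
      rw [S.f_cyc, hsub]
    have e3 : ∀ E : Fin dh, S.f (φ (Sum.inl (ψ (Sum.inr z)))) (φ (Sum.inl C)) (φ (Sum.inl E)) = 0 := fun E =>
      h.cen _ _ _
    have e4 : ∀ E : Fin dm, S.f (φ (Sum.inl (ψ (Sum.inr z)))) (φ (Sum.inl C)) (φ (Sum.inr E)) = 0 := fun E =>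
      hsub _ _ _
    simp only [e1, e2, e3, e4, zero_mul, add_zero, Finset.sum_const_zero, zero_add] at h1
    rw [Finset.sum_add_distrib] at h1
    have h2 : ∑ B, S.f (φ (Sum.inr A)) (φ (Sum.inl (ψ (Sum.inr z)))) (φ (Sum.inr B)) *
        S.f (φ (Sum.inr B)) (φ (Sum.inl C)) (φ (Sum.inr D)) =
        -∑ B, S.f (φ (Sum.inr A)) (φ (Sum.inl (ψ (Sum.inr z)))) (φ (Sum.inr B)) *
        S.f (φ (Sum.inl C)) (φ (Sum.inr B)) (φ (Sum.inr D)) := by
      rw [← Finset.sum_neg_distrib]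
      refine Finset.sum_congr rfl fun B _ => ?_
      rw [S.f_swap (φ (Sum.inr B)) (φ (Sum.inl C)) (φ (Sum.inr D))]
      ring
    rw [h2] at h1
    linarith
  ext A D
  simp only [Matrix.mul_apply, swX, Dz, Setup.Dy, Setup.Dm, of_apply]
  have s1 : ∀ B E : Fin dm, (∑ a : Fin dh, S.f (φ (Sum.inr B)) (φ (Sum.inl a)) (φ (Sum.inr E)) *
      (cmb ψ 0 yz) (i, a)) = ∑ z : Fin dz, S.f (φ (Sum.inr B)) (φ (Sum.inl (ψ (Sum.inr z)))) (φ (Sum.inr E)) *
      yz (i, z) := by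
    intro B E
    rw [← ψ.sum_comp, Fintype.sum_sum_type]
    simp [cmb]
  simp only [s1, Finset.mul_sum, Finset.sum_mul]
  rw [Finset.sum_comm]
  conv_rhs => rw [Finset.sum_comm]
  refine Finset.sum_congr rfl fun z _ => ?_
  have h3 := key z A D
  calc ∑ B, S.f (φ (Sum.inl C)) (φ (Sum.inr A)) (φ (Sum.inr B)) *
        (S.f (φ (Sum.inr B)) (φ (Sum.inl (ψ (Sum.inr z)))) (φ (Sum.inr D)) * yz (i, z))
      = (∑ B, S.f (φ (Sum.inl C)) (φ (Sum.inr A)) (φ (Sum.inr B)) *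
        S.f (φ (Sum.inr B)) (φ (Sum.inl (ψ (Sum.inr z)))) (φ (Sum.inr D))) * yz (i, z) := by
        rw [Finset.sum_mul]
        exact Finset.sum_congr rfl fun B _ => by ring
    _ = (∑ B, S.f (φ (Sum.inr A)) (φ (Sum.inl (ψ (Sum.inr z)))) (φ (Sum.inr B)) *
        S.f (φ (Sum.inl C)) (φ (Sum.inr B)) (φ (Sum.inr D))) * yz (i, z) := by rw [h3]
    _ = _ := by
        rw [Finset.sum_mul]
        exact Finset.sum_congr rfl fun B _ => by ring

/-- the rotation field `(Xw)_j = Xᵀ w_j` -/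
noncomputable def swR (X : Matrix (Fin dm) (Fin dm) ℝ) (w : Wsp dm) : Wsp dm :=
  WithLp.toLp 2 fun p => ∑ A, X A p.2 * w (p.1, A)

lemma swt_last (w : Wsp dm) : wt w (Fin.last 8) = 0 := by
  funext B
  exact Fin.lastCases_last ..

lemma swt_cast (w : Wsp dm) (j : Fin 8) : wt w j.castSucc = fun B => w (j, B) := by
  funext B
  exact Fin.lastCases_castSucc ..

lemma wt_swR (X : Matrix (Fin dm) (Fin dm) ℝ) (w : Wsp dm) (i : Fin 9) : wt (swR X w) i = Xᵀ *ᵥ wt w i := by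
  refine Fin.lastCases ?_ (fun j => ?_) i
  · rw [swt_last, swt_last, mulVec_zero]
  · rw [swt_cast, swt_cast]
    funext B
    simp [mulVec, dotProduct, swR]

lemma wt_add' (w w' : Wsp dm) (t : ℝ) (i : Fin 9) : wt (w + t • w') i = wt w i + t • wt w' i := by
  refine Fin.lastCases ?_ (fun j => ?_) i
  · rw [swt_last, swt_last, swt_last, smul_zero, add_zero]
  · rw [swt_cast, swt_cast, swt_cast]
    funext B
    simp

section quad

variable {D : Fin 9 → Matrix (Fin dm) (Fin dm) ℝ} {X : Matrix (Fin dm) (Fin dm) ℝ}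

lemma tI_comm (hX : ∀ i, X * D i = D i * X) (hinv : IsUnit (D 8).det) (i : Fin 9) : X * tI D i = tI D i * X := by
  have h1 : X * (D 8)⁻¹ = (D 8)⁻¹ * X := by
    calc X * (D 8)⁻¹ = (D 8)⁻¹ * (D 8) * X * (D 8)⁻¹ := by rw [nonsing_inv_mul _ hinv, one_mul]
      _ = (D 8)⁻¹ * (D 8 * X) * (D 8)⁻¹ := by rw [mul_assoc (D 8)⁻¹]
      _ = (D 8)⁻¹ * (X * D 8) * (D 8)⁻¹ := by rw [hX]
      _ = (D 8)⁻¹ * X * (D 8 * (D 8)⁻¹) := by simp only [mul_assoc]
      _ = (D 8)⁻¹ * X := by rw [mul_nonsing_inv _ hinv, mul_one]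
  unfold tI
  rw [← mul_assoc, h1, mul_assoc, hX, ← mul_assoc]

lemma t2_comm (hX : ∀ i, X * tI D i = tI D i * X) : X * t2 D = t2 D * X := by
  unfold t2
  rw [Finset.mul_sum, Finset.sum_mul]
  refine Finset.sum_congr rfl fun i _ => ?_
  rw [← mul_assoc, hX, mul_assoc, hX, ← mul_assoc]

lemma inv_comm' {M : Matrix (Fin dm) (Fin dm) ℝ} (h : X * M = M * X) : X * M⁻¹ = M⁻¹ * X := by
  by_cases hu : IsUnit M.det
  · calc X * M⁻¹ = M⁻¹ * M * X * M⁻¹ := by rw [nonsing_inv_mul _ hu, one_mul]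
      _ = M⁻¹ * (M * X) * M⁻¹ := by rw [mul_assoc M⁻¹]
      _ = M⁻¹ * (X * M) * M⁻¹ := by rw [h]
      _ = M⁻¹ * X * (M * M⁻¹) := by simp only [mul_assoc]
      _ = M⁻¹ * X := by rw [mul_nonsing_inv _ hu, mul_one]
  · rw [nonsing_inv_apply_not_isUnit _ hu, mul_zero, zero_mul]

lemma sV_swR (hX : ∀ i, Xᵀ * tI D i = tI D i * Xᵀ) (w : Wsp dm) : sV D (swR X w) = Xᵀ *ᵥ sV D w := by
  unfold sV
  rw [mulVec_mulVec, inv_comm' (t2_comm hX), ← mulVec_mulVec]
  congr 1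
  rw [mulVec_sum]
  refine Finset.sum_congr rfl fun i _ => ?_
  rw [wt_swR, mulVec_mulVec, mulVec_mulVec, hX]

lemma VV_swR (hX : ∀ i, Xᵀ * tI D i = tI D i * Xᵀ) (w : Wsp dm) (i : Fin 9) : VV D (swR X w) i = Xᵀ *ᵥ VV D w i := by
  unfold VV
  rw [sV_swR hX, wt_swR, mulVec_sub, mulVec_mulVec, mulVec_mulVec, hX]

lemma sV_lin (w w' : Wsp dm) (t : ℝ) : sV D (w + t • w') = sV D w + t • sV D w' := by
  unfold sV
  rw [← mulVec_smul, ← mulVec_add]
  congr 1
  rw [Finset.smul_sum, ← Finset.sum_add_distrib]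
  refine Finset.sum_congr rfl fun i _ => ?_
  rw [wt_add', mulVec_add, mulVec_smul]

lemma VV_lin (w w' : Wsp dm) (t : ℝ) (i : Fin 9) : VV D (w + t • w') i = VV D w i + t • VV D w' i := by
  unfold VV
  rw [sV_lin, wt_add', mulVec_add, mulVec_smul, smul_sub]
  abel

/-- `qf` is stationary along the rotation -/
lemma qf_swR {Om : Matrix (Fin dm) (Fin dm) ℝ} (hX : ∀ i, Xᵀ * tI D i = tI D i * Xᵀ) (ha : Xᵀ = -X)
    (hO : X * Om = Om * X) (w : Wsp dm) (t : ℝ) :
    qf D Om (w + t • swR X w) = qf D Om w + t ^ 2 * qf D Om (swR X w) := by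
  unfold qf
  rw [Finset.mul_sum, ← Finset.sum_add_distrib]
  refine Finset.sum_congr rfl fun i _ => ?_
  rw [VV_lin]
  set V := VV D w i with hV
  have h1 : VV D (swR X w) i = Xᵀ *ᵥ V := VV_swR hX w i
  rw [h1]
  have h2 : (Xᵀ *ᵥ V) ⬝ᵥ (Om *ᵥ V) + V ⬝ᵥ (Om *ᵥ (Xᵀ *ᵥ V)) = 0 := by
    have h3 : (Xᵀ *ᵥ V) ⬝ᵥ (Om *ᵥ V) = V ⬝ᵥ (X *ᵥ (Om *ᵥ V)) := by
      rw [dotProduct_comm, dotProduct_mulVec, vecMul_transpose, dotProduct_comm]
    rw [h3, mulVec_mulVec, mulVec_mulVec, ha, hO, mul_neg, neg_mulVec, dotProduct_neg]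
    ring
  rw [mulVec_add, mulVec_smul, add_dotProduct, dotProduct_add, dotProduct_add, smul_dotProduct, smul_dotProduct,
    dotProduct_smul, dotProduct_smul]
  simp only [smul_eq_mul]
  linear_combination t * h2

end quad

/-- integration by parts in the fibre -/
lemma sw_ibp {k : Wsp dm → ℝ} (hk : ContDiff ℝ ∞ k) {f : Wsp dm → F} (hf : FT f) (j : Fin 8) (B : Fin dm) :
    Integrable (fun w => ((k w : ℝ) : ℂ) • pf j B f w) ∧
    Integrable (fun w => ((fderiv ℝ k w (EuclideanSpace.single (j, B) 1) : ℝ) : ℂ) • f w) ∧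
    ∫ w, ((k w : ℝ) : ℂ) • pf j B f w =
      -∫ w, ((fderiv ℝ k w (EuclideanSpace.single (j, B) 1) : ℝ) : ℂ) • f w := by
  have hk1 : Continuous (fderiv ℝ k) := hk.continuous_fderiv (by simp)
  have hf1 : Continuous (fderiv ℝ f) := hf.1.continuous_fderiv (by simp)
  have i1 : Integrable (fun w => k w • fderiv ℝ f w (EuclideanSpace.single (j, B) 1)) := by
    have c1 : Continuous (fun w => k w • fderiv ℝ f w (EuclideanSpace.single (j, B) 1)) :=
      hk.continuous.smul (hf1.clm_apply continuous_const)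
    refine c1.integrable_of_hasCompactSupport ?_
    exact (hf.2.fderiv_apply (𝕜 := ℝ) _).smul_left
  have i2 : Integrable (fun w => fderiv ℝ k w (EuclideanSpace.single (j, B) 1) • f w) := by
    have c1 : Continuous (fun w => fderiv ℝ k w (EuclideanSpace.single (j, B) 1) • f w) :=
      (hk1.clm_apply continuous_const).smul hf.1.continuous
    exact c1.integrable_of_hasCompactSupport hf.2.smul_left
  have i3 : Integrable (fun w => k w • f w) :=
    (hk.continuous.smul hf.1.continuous).integrable_of_hasCompactSupport hf.2.smul_left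
  have h := integral_smul_fderiv_eq_neg_fderiv_smul_of_integrable (μ := (volume : Measure (Wsp dm)))
    (f := k) (g := f) (v := EuclideanSpace.single (j, B) 1) i2 i1 i3
    (fun x _ => (hk.differentiable (by simp)) x) (fun x _ => (hf.1.differentiable (by simp)) x)
  simp only [Complex.coe_smul]
  exact ⟨i1, i2, h⟩

lemma swR_sum (X : Matrix (Fin dm) (Fin dm) ℝ) (w : Wsp dm) :
    swR X w = ∑ j, ∑ A, ∑ B, (X A B * w (j, A)) • EuclideanSpace.single (j, B) (1 : ℝ) := by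
  have h1 : swR X w = ∑ p : Fin 8 × Fin dm, (swR X w p) • EuclideanSpace.single p (1 : ℝ) := by
    ext q
    simp [Pi.single_apply]
  rw [h1, Fintype.sum_prod_type]
  refine Finset.sum_congr rfl fun j _ => ?_
  rw [Finset.sum_comm]
  refine Finset.sum_congr rfl fun B _ => ?_
  rw [← Finset.sum_smul]
  rfl

/-- `gn` is stationary along the rotation -/
lemma gn_stat {S : Setup d F} {φ : Spl dh dm d} {ψ : Spl ds dz dh} {z₀ : Cfg dz} (h : Std2 S φ ψ z₀) {yz : Cfg dz}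
    (hD : Frz (Dz S φ ψ yz)) (hO : IsOm S.κ (Dz S φ ψ yz) (omc S.κ (Dz S φ ψ yz))) (C : Fin dh)
    (hg : ContDiff ℝ ∞ (fun w => gn S φ ψ yz w)) (w : Wsp dm) :
    fderiv ℝ (fun w => gn S φ ψ yz w) w (swR (swX S φ C) w) = 0 := by
  set X := swX S φ C with hX
  set D := Dz S φ ψ yz with hDd
  set Om := omc S.κ D with hOm
  have ha : Xᵀ = -X := swX_anti S φ C
  have hc : ∀ i, X * D i = D i * X := fun i => swX_comm h C yz i
  have hc2 : ∀ i, X * tI D i = tI D i * X := tI_comm hc (isUnit_iff_ne_zero.2 hD.inv)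
  have hc3 : ∀ i, Xᵀ * tI D i = tI D i * Xᵀ := by
    intro i
    rw [ha, neg_mul, mul_neg, hc2]
  have hc4 : X * Om = Om * X := by
    refine hO.comm X ?_
    rw [Finset.mul_sum, Finset.sum_mul]
    refine Finset.sum_congr rfl fun i _ => ?_
    rw [← mul_assoc, hc, mul_assoc, hc, ← mul_assoc]
  have h1 : HasDerivAt (fun t : ℝ => gn S φ ψ yz (w + t • swR X w))
      (fderiv ℝ (fun w => gn S φ ψ yz w) w (swR X w)) 0 := by
    have h2 := ((hg.differentiable (by simp)) w).hasFDerivAt.hasLineDerivAt (swR X w)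
    exact h2
  have h3 : HasDerivAt (fun t : ℝ => gn S φ ψ yz (w + t • swR X w)) 0 0 := by
    have e : (fun t : ℝ => gn S φ ψ yz (w + t • swR X w)) = fun t : ℝ =>
        Real.exp (-(1 / 2) * (qf D Om w + t ^ 2 * qf D Om (swR X w))) /
          Real.sqrt (∫ w', gR D Om 1 w' ^ 2) := by
      funext t
      unfold gn gR
      rw [← hDd, ← hOm, qf_swR hc3 ha hc4]
    rw [e]
    have h4 : HasDerivAt (fun t : ℝ => -(1 / 2) * (qf D Om w + t ^ 2 * qf D Om (swR X w))) 0 0 := by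
      have h5 : HasDerivAt (fun t : ℝ => -(1 / 2) * (qf D Om w + t ^ 2 * qf D Om (swR X w)))
          (-(1 / 2) * ((2 : ℕ) * (0 : ℝ) ^ (2 - 1) * qf D Om (swR X w))) 0 :=
        (((hasDerivAt_pow 2 (0 : ℝ)).mul_const (qf D Om (swR X w))).const_add (qf D Om w)).const_mul _
      simpa using h5
    have h6 := h4.exp.div_const (Real.sqrt (∫ w', gR D Om 1 w' ^ 2))
    simpa using h6
  exact h1.unique h3

/-- **rotation part of the Gauss law**: the vacuum coefficient of the `w`-rotation vanishes -/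
theorem gn_rot (S : Setup d F) (φ : Spl dh dm d) (ψ : Spl ds dz dh) {z₀ : Cfg dz} (h : Std2 S φ ψ z₀) {yz : Cfg dz}
    (hD : Frz (Dz S φ ψ yz)) (hO : IsOm S.κ (Dz S φ ψ yz) (omc S.κ (Dz S φ ψ yz))) (C : Fin dh)
    (hg : ContDiff ℝ ∞ (fun w => gn S φ ψ yz w)) {f : Wsp dm → F} (hf : FT f) :
    ∫ w, ((gn S φ ψ yz w : ℝ) : ℂ) • ∑ j, ∑ A, ∑ B,
      ((S.f (φ (Sum.inl C)) (φ (Sum.inr A)) (φ (Sum.inr B)) * w (j, A) : ℝ) : ℂ) • pf j B f w = 0 := by
  set X := swX S φ C with hX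
  have hXA : ∀ A, X A A = 0 := by
    intro A
    have h1 := congrFun (congrFun (swX_anti S φ C) A) A
    rw [transpose_apply, Matrix.neg_apply] at h1
    linarith
  set k : Fin 8 → Fin dm → Fin dm → Wsp dm → ℝ := fun j A B w => gn S φ ψ yz w * (X A B * w (j, A)) with hk
  have hc : ∀ (j : Fin 8) (A : Fin dm), ContDiff ℝ ∞ (fun w : Wsp dm => w (j, A)) := fun j A => by fun_prop
  have hks : ∀ j A B, ContDiff ℝ ∞ (k j A B) := fun j A B => hg.mul (contDiff_const.mul (hc j A))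
  have hkd : ∀ j A B (w : Wsp dm), fderiv ℝ (k j A B) w (EuclideanSpace.single (j, B) 1) =
      gn S φ ψ yz w * (X A B * if A = B then 1 else 0) + (X A B * w (j, A)) *
        fderiv ℝ (fun w => gn S φ ψ yz w) w (EuclideanSpace.single (j, B) 1) := by
    intro j A B w
    have a1 : HasFDerivAt (fun w => gn S φ ψ yz w) (fderiv ℝ (fun w => gn S φ ψ yz w) w) w :=
      ((hg.differentiable (by simp)) w).hasFDerivAt
    have a2 : HasFDerivAt (fun w : Wsp dm => w (j, A)) (EuclideanSpace.proj (𝕜 := ℝ) (j, A) : Wsp dm →L[ℝ] ℝ) w :=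
      (EuclideanSpace.proj (𝕜 := ℝ) (j, A) : Wsp dm →L[ℝ] ℝ).hasFDerivAt
    have a3 := a1.mul (a2.const_mul (X A B))
    have a4 : HasFDerivAt (k j A B) _ w := a3
    rw [a4.fderiv]
    simp
  have h0 : ∀ w : Wsp dm, ∑ j, ∑ A, ∑ B, fderiv ℝ (k j A B) w (EuclideanSpace.single (j, B) 1) = 0 := by
    intro w
    simp only [hkd, Finset.sum_add_distrib]
    have b1 : ∑ j : Fin 8, ∑ A, ∑ B, gn S φ ψ yz w * (X A B * if A = B then 1 else 0) = 0 := by
      refine Finset.sum_eq_zero fun j _ => Finset.sum_eq_zero fun A _ => Finset.sum_eq_zero fun B _ => ?_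
      by_cases hAB : A = B
      · subst hAB
        rw [hXA]
        ring
      · rw [if_neg hAB]
        ring
    have b2 : ∑ j, ∑ A, ∑ B, (X A B * w (j, A)) *
        fderiv ℝ (fun w => gn S φ ψ yz w) w (EuclideanSpace.single (j, B) 1) = 0 := by
      have b3 := gn_stat h hD hO C hg w
      rw [← hX, swR_sum] at b3
      simp only [map_sum, map_smul, smul_eq_mul] at b3
      exact b3
    rw [b1, b2, add_zero]
  have e1 : ∀ w : Wsp dm, ((gn S φ ψ yz w : ℝ) : ℂ) • ∑ j, ∑ A, ∑ B,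
      ((S.f (φ (Sum.inl C)) (φ (Sum.inr A)) (φ (Sum.inr B)) * w (j, A) : ℝ) : ℂ) • pf j B f w =
      ∑ j, ∑ A, ∑ B, ((k j A B w : ℝ) : ℂ) • pf j B f w := by
    intro w
    simp only [Finset.smul_sum]
    refine Finset.sum_congr rfl fun j _ => Finset.sum_congr rfl fun A _ => Finset.sum_congr rfl fun B _ => ?_
    rw [smul_smul, ← Complex.ofReal_mul]
    rfl
  simp only [e1]
  rw [integral_finsetSum _ fun j _ => integrable_finsetSum _ fun A _ => integrable_finsetSum _ fun B _ =>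
    (sw_ibp (hks j A B) hf j B).1]
  have e2 : ∀ j, ∫ w, ∑ A, ∑ B, ((k j A B w : ℝ) : ℂ) • pf j B f w =
      -∫ w, ∑ A, ∑ B, ((fderiv ℝ (k j A B) w (EuclideanSpace.single (j, B) 1) : ℝ) : ℂ) • f w := by
    intro j
    rw [integral_finsetSum _ fun A _ => integrable_finsetSum _ fun B _ => (sw_ibp (hks j A B) hf j B).1,
      integral_finsetSum _ fun A _ => integrable_finsetSum _ fun B _ => (sw_ibp (hks j A B) hf j B).2.1,
      ← Finset.sum_neg_distrib]
    refine Finset.sum_congr rfl fun A _ => ?_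
    rw [integral_finsetSum _ fun B _ => (sw_ibp (hks j A B) hf j B).1,
      integral_finsetSum _ fun B _ => (sw_ibp (hks j A B) hf j B).2.1, ← Finset.sum_neg_distrib]
    exact Finset.sum_congr rfl fun B _ => (sw_ibp (hks j A B) hf j B).2.2
  simp only [e2]
  rw [Finset.sum_neg_distrib, ← integral_finsetSum _ fun j _ => integrable_finsetSum _ fun A _ =>
    integrable_finsetSum _ fun B _ => (sw_ibp (hks j A B) hf j B).2.1, neg_eq_zero]
  have e3 : ∀ w : Wsp dm, ∑ j, ∑ A, ∑ B, ((fderiv ℝ (k j A B) w (EuclideanSpace.single (j, B) 1) : ℝ) : ℂ) • f w = 0 := by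
    intro w
    have h1 := h0 w
    have h2 : (((∑ j, ∑ A, ∑ B, fderiv ℝ (k j A B) w (EuclideanSpace.single (j, B) 1) : ℝ)) : ℂ) • f w = 0 := by
      rw [h1, Complex.ofReal_zero, zero_smul]
    rw [← h2]
    push_cast
    simp only [Finset.sum_smul]
  simp only [e3, integral_zero]

end Vale.Agent.P353.Z.AD
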