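import Vale.Agent.P353.AN.D.SecI
import Vale.Agent.P353.AN.D.SecW

/-! # P353, all `N`, block D, L9: the vacuum coefficient (`SecOfStmt`) -/

open MeasureTheory Filter Topology Matrix
open scoped ContDiff

namespace Vale.Agent.P353.Z.AD

variable {d dh dm ds dz r : ℕ} {F : Type*} [NormedAddCommGroup F] [InnerProductSpace ℂ F]

lemma gn_smooth_w (S : Setup d F) (φ : Spl dh dm d) (ψ : Spl ds dz dh)
    (hg : ContDiffOn ℝ ∞ (fun p : Cfg dz × Wsp dm => gn S φ ψ p.1 p.2) {p | p.1 ∈ UZ S φ ψ})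
    {yz : Cfg dz} (hyz : yz ∈ UZ S φ ψ) : ContDiff ℝ ∞ (fun w => gn S φ ψ yz w) := by
  have hU2 : IsOpen {p : Cfg dz × Wsp dm | p.1 ∈ UZ S φ ψ} := (isOpen_UZ S φ ψ).preimage continuous_fst
  refine contDiff_iff_contDiffAt.2 fun w => ?_
  have h1 : ContDiffAt ℝ ∞ (fun p : Cfg dz × Wsp dm => gn S φ ψ p.1 p.2) (yz, w) :=
    hg.contDiffAt (hU2.mem_nhds hyz)
  have h2 : ContDiffAt ℝ ∞ (fun w : Wsp dm => ((yz, w) : Cfg dz × Wsp dm)) w :=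
    (contDiff_const.prodMk contDiff_id).contDiffAt
  exact h1.comp w h2

/-- **L9** -/
theorem secOf (S : Setup d F) : SecOfStmt S := by
  intro hFV hS hG _ hFin dh dm ds dz φ ψ z₀ h
  have := hFin
  obtain ⟨ε₀, c, Cg, B, V⟩ := exists_vacD S hS hG φ ψ z₀ h
  have hsc := (hS hFin dh dm ds dz φ ψ z₀ h).1
  have hF : ∀ yz ∈ UZ S φ ψ, Frz (Dz S φ ψ yz) ∧ IsOm S.κ (Dz S φ ψ yz) (omc S.κ (Dz S φ ψ yz)) :=
    fun yz hyz => hsc yz hyz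
  have hrot : ∀ yz ∈ UZ S φ ψ, ∀ (C : Fin dh) (f : Wsp dm → F), FT f →
      ∫ w, ((gn S φ ψ yz w : ℝ) : ℂ) • rotP S φ C f w = 0 := fun yz hyz C f hf =>
    gn_rot S φ ψ h (hF yz hyz).1 (hF yz hyz).2 C (gn_smooth_w S φ ψ V.hg hyz) hf
  have hc := V.c_pos
  have hCg := V.Cg_pos
  have hπ := Real.pi_pos
  refine ⟨ε₀, Cg ^ 2 * (Real.pi / (2 * c)) ^ (4 * dm) * (2 * (1 + B) ^ 2 + 2), V.ε₀_pos, by positivity,
    fun R hR v hv hs => ?_⟩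
  have hR0 : 0 < R := by linarith
  exact ⟨V.sec_smooth hR0 hv hs, VacD.sec_hcs hv S φ,
    fun hG yz => V.sec_gauss hR0 hv hs (hFV dh dm φ).1 (hFV dh dm φ).2 h hF hrot hG yz,
    fun yz => V.sec_nsq hR0 hv hs yz, fun yz => V.sec_en hR0 hv hs (hFV dh dm φ).1 h yz,
    fun i A => V.sec_der hR0 hv hs i A⟩

end Vale.Agent.P353.Z.AD
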