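import Vale.Agent.P353.AN.D.SecP
import Vale.Agent.P353.AN.D.Cmb
import Vale.Agent.P353.AN.A.Dec

/-! # P353, all `N`, block D, L9: analytic part of `SecStmt` (smoothness, support, norm and derivative bounds) (helper221) -/

open MeasureTheory Filter Topology Matrix
open scoped ContDiff

set_option linter.unusedSectionVars false

namespace Vale.Agent.P353.Z.AD

variable {d dh dm ds dz r : ℕ} {F : Type*} [NormedAddCommGroup F] [InnerProductSpace ℂ F]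

/-! ## coordinates -/

/-- `cmb` as a linear map -/
noncomputable def cmL (ψ : Spl ds dz dh) : (Cfg ds × Cfg dz) →ₗ[ℝ] Cfg dh where
  toFun p := cmb ψ p.1 p.2
  map_add' p q := by
    refine cmb_ext ψ (fun i A => ?_) (fun i B => ?_)
    · rw [PiLp.add_apply, cmb_inl, cmb_inl, cmb_inl]; rfl
    · rw [PiLp.add_apply, cmb_inr, cmb_inr, cmb_inr]; rfl
  map_smul' c p := by
    refine cmb_ext ψ (fun i A => ?_) (fun i B => ?_)
    · rw [RingHom.id_apply, PiLp.smul_apply, cmb_inl, cmb_inl]; rfl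
    · rw [RingHom.id_apply, PiLp.smul_apply, cmb_inr, cmb_inr]; rfl

lemma contDiff_cmb (ψ : Spl ds dz dh) : ContDiff ℝ ∞ (fun p : Cfg ds × Cfg dz => cmb ψ p.1 p.2) :=
  (cmL ψ).toContinuousLinearMap.contDiff

lemma norm_cmb (ψ : Spl ds dz dh) (ys : Cfg ds) (yz : Cfg dz) :
    ‖cmb ψ ys yz‖ ^ 2 = ‖ys‖ ^ 2 + ‖yz‖ ^ 2 := (cmbS ds dz dh ψ).2.2.2.1 ys yz

lemma norm_le_cmb (ψ : Spl ds dz dh) (ys : Cfg ds) (yz : Cfg dz) :
    ‖ys‖ ≤ ‖cmb ψ ys yz‖ ∧ ‖yz‖ ≤ ‖cmb ψ ys yz‖ := by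
  have h := norm_cmb ψ ys yz
  constructor
  · exact abs_le_of_sq_le_sq' (by nlinarith [sq_nonneg ‖yz‖]) (norm_nonneg _) |>.2
  · exact abs_le_of_sq_le_sq' (by nlinarith [sq_nonneg ‖ys‖]) (norm_nonneg _) |>.2

lemma norm_cmb_zero (ψ : Spl ds dz dh) (yz : Cfg dz) : ‖cmb ψ 0 yz‖ = ‖yz‖ := by
  have h := norm_cmb ψ 0 yz
  rw [norm_zero] at h
  have h2 : ‖cmb ψ 0 yz‖ ^ 2 = ‖yz‖ ^ 2 := by rw [h]; ring
  exact (sq_eq_sq₀ (norm_nonneg _) (norm_nonneg _)).1 h2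

lemma cmb_sub (ψ : Spl ds dz dh) (ys : Cfg ds) (yz : Cfg dz) (ys' : Cfg ds) (yz' : Cfg dz) :
    cmb ψ ys yz - cmb ψ ys' yz' = cmb ψ (ys - ys') (yz - yz') := (cmbS ds dz dh ψ).2.2.2.2.1 ys yz ys' yz'

lemma cmb_smul (ψ : Spl ds dz dh) (c : ℝ) (ys : Cfg ds) (yz : Cfg dz) :
    c • cmb ψ ys yz = cmb ψ (c • ys) (c • yz) := (cmbS ds dz dh ψ).2.2.2.2.2.1 c ys yz

lemma sd_Dy_smul (S : Setup d F) (φ : Spl dh dm d) (i : Fin 9) (c : ℝ) (y : Cfg dh) :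
    S.Dy φ i (c • y) = c • S.Dy φ i y := by
  ext B C
  simp only [Setup.Dy, Setup.Dm, Matrix.of_apply, Matrix.smul_apply, PiLp.smul_apply, smul_eq_mul,
    Finset.mul_sum]
  refine Finset.sum_congr rfl fun A _ => ?_
  ring

/-- scalar points with invertible `D_8` -/
def UZ (S : Setup d F) (φ : Spl dh dm d) (ψ : Spl ds dz dh) : Set (Cfg dz) :=
  {yz | (S.Dy φ 8 (cmb ψ 0 yz)).det ≠ 0}

lemma isOpen_UZ (S : Setup d F) (φ : Spl dh dm d) (ψ : Spl ds dz dh) : IsOpen (UZ S φ ψ) := by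
  have h : Continuous fun yz : Cfg dz => (S.Dy φ 8 (cmb ψ 0 yz)).det :=
    ((AN.dec_det_smooth S φ 8).comp ((contDiff_cmb ψ).comp (contDiff_const.prodMk contDiff_id))).continuous
  exact isOpen_ne_fun h continuous_const

lemma UZ_smul (S : Setup d F) (φ : Spl dh dm d) (ψ : Spl ds dz dh) {R : ℝ} (hR : 0 < R) {yz : Cfg dz} :
    R • yz ∈ UZ S φ ψ ↔ yz ∈ UZ S φ ψ := by
  have h : (S.Dy φ 8 (cmb ψ 0 (R • yz))).det = R ^ dm * (S.Dy φ 8 (cmb ψ 0 yz)).det := by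
    have h1 : cmb ψ 0 (R • yz) = R • cmb ψ 0 yz := by rw [cmb_smul, smul_zero]
    rw [h1, sd_Dy_smul, Matrix.det_smul, Fintype.card_fin]
  unfold UZ
  rw [Set.mem_ofPred_eq, Set.mem_ofPred_eq, h]
  constructor
  · intro h1 h2
    exact h1 (by rw [h2, mul_zero])
  · intro h1
    exact mul_ne_zero (pow_ne_zero _ hR.ne') h1

lemma UZ_near (S : Setup d F) (φ : Spl dh dm d) (ψ : Spl ds dz dh) {z₀ : Cfg dz} {ε₀ : ℝ}
    (hdet : ∀ y : Cfg dh, ‖y - cmb ψ 0 z₀‖ ≤ 4 * ε₀ → (S.Dy φ 8 y).det ≠ 0) {R : ℝ} (hR : 0 < R)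
    {yz : Cfg dz} (h : ‖yz - R • z₀‖ ≤ 4 * ε₀ * R) : yz ∈ UZ S φ ψ := by
  have h1 : R⁻¹ • yz ∈ UZ S φ ψ := by
    refine hdet _ ?_
    rw [cmb_sub, sub_zero, norm_cmb_zero]
    have h2 : R⁻¹ • yz - z₀ = R⁻¹ • (yz - R • z₀) := by
      rw [smul_sub, smul_smul, inv_mul_cancel₀ hR.ne', one_smul]
    rw [h2, norm_smul, norm_inv, Real.norm_of_nonneg hR.le, inv_mul_le_iff₀ hR]
    linarith
  rw [← UZ_smul S φ ψ (inv_pos.2 hR)]
  exact h1

/-- support in the three variables -/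
lemma sup_cmb {ψ : Spl ds dz dh} {z₀ : Cfg dz} {ε R : ℝ} {v : Cfg dh → Wsp dm → F}
    (hs : Sup2 (cmb ψ 0 z₀) ε R v) {ys : Cfg ds} {yz : Cfg dz} {w : Wsp dm} (h : v (cmb ψ ys yz) w ≠ 0) :
    ‖ys‖ ≤ ε * R ∧ ‖yz - R • z₀‖ ≤ ε * R ∧ ‖w‖ ≤ ε * R := by
  obtain ⟨h1, h2⟩ := hs _ _ h
  rw [cmb_smul, smul_zero, cmb_sub, sub_zero] at h1
  obtain ⟨h3, h4⟩ := norm_le_cmb ψ ys (yz - R • z₀)
  exact ⟨h3.trans h1, h4.trans h1, h2⟩

lemma tst2_bd {v : Cfg dh → Wsp dm → F} (hv : Tst2 v) :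
    ∃ M : ℝ, 0 ≤ M ∧ ∀ y w, v y w ≠ 0 → ‖y‖ ≤ M ∧ ‖w‖ ≤ M := by
  obtain ⟨M, hM⟩ := hv.2.isCompact.isBounded.subset_closedBall (0 : Cfg dh × Wsp dm)
  refine ⟨max M 0, le_max_right _ _, fun y w h => ?_⟩
  have h1 : (y, w) ∈ tsupport (fun p : Cfg dh × Wsp dm => v p.1 p.2) := subset_tsupport _ h
  have h2 := hM h1
  rw [mem_closedBall_zero_iff, Prod.norm_def] at h2
  exact ⟨(le_max_left _ _).trans (h2.trans (le_max_left _ _)), (le_max_right _ _).trans (h2.trans (le_max_left _ _))⟩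

/-! ## the kernel -/

/-- the integrand of `sec` -/
noncomputable def secK [FiniteDimensional ℂ F] (S : Setup d F) (φ : Spl dh dm d) (ψ : Spl ds dz dh)
    (v : Cfg dh → Wsp dm → F) (q : (Cfg dz × Cfg ds) × Wsp dm) : F :=
  ((gn S φ ψ q.1.1 q.2 : ℝ) : ℂ) • Pz S φ ψ q.1.1 (v (cmb ψ q.1.2 q.1.1) q.2)

lemma bil_clm : IsBoundedBilinearMap ℝ (fun p : (F →L[ℂ] F) × F => p.1 p.2) := by
  have h := (isBoundedBilinearMap_apply (𝕜 := ℂ) (E := F) (F := F))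
  refine ⟨fun a b c => by simp, fun c a b => ?_, fun a b c => by simp, fun c a b => ?_, ?_⟩
  · simp
  · simp
  · obtain ⟨C, hC, hb⟩ := h.bound
    exact ⟨C, hC, hb⟩

section

variable [FiniteDimensional ℂ F] (S : Setup d F) (φ : Spl dh dm d) (ψ : Spl ds dz dh)

lemma secK_smooth (hg : ContDiffOn ℝ ∞ (fun p : Cfg dz × Wsp dm => gn S φ ψ p.1 p.2) {p | p.1 ∈ UZ S φ ψ})
    (hp : ContDiffOn ℝ ∞ (fun yz => Pz S φ ψ yz) (UZ S φ ψ)) {v : Cfg dh → Wsp dm → F} (hv : Tst2 v)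
    {K : Set (Cfg dz)} (hK : IsClosed K) (hKU : K ⊆ UZ S φ ψ)
    (hs : ∀ ys yz w, v (cmb ψ ys yz) w ≠ 0 → yz ∈ K) : ContDiff ℝ ∞ (secK S φ ψ v) := by
  refine contDiff_iff_contDiffAt.2 fun q => ?_
  by_cases hq : q.1.1 ∈ UZ S φ ψ
  · have hU := isOpen_UZ S φ ψ
    have hU2 : IsOpen {p : Cfg dz × Wsp dm | p.1 ∈ UZ S φ ψ} := hU.preimage continuous_fst
    have a1 : ContDiffAt ℝ ∞ (fun q : (Cfg dz × Cfg ds) × Wsp dm => gn S φ ψ q.1.1 q.2) q := by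
      have h1 : ContDiffAt ℝ ∞ (fun p : Cfg dz × Wsp dm => gn S φ ψ p.1 p.2) (q.1.1, q.2) :=
        hg.contDiffAt (hU2.mem_nhds hq)
      exact h1.comp q (contDiff_fst.fst.prodMk contDiff_snd).contDiffAt
    have a2 : ContDiffAt ℝ ∞ (fun q : (Cfg dz × Cfg ds) × Wsp dm => Pz S φ ψ q.1.1) q := by
      have h1 : ContDiffAt ℝ ∞ (fun yz => Pz S φ ψ yz) q.1.1 := hp.contDiffAt (hU.mem_nhds hq)
      exact h1.comp q (contDiff_fst.fst).contDiffAt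
    have a3 : ContDiffAt ℝ ∞ (fun q : (Cfg dz × Cfg ds) × Wsp dm => v (cmb ψ q.1.2 q.1.1) q.2) q := by
      have h1 : ContDiff ℝ ∞ (fun q : (Cfg dz × Cfg ds) × Wsp dm => (cmb ψ q.1.2 q.1.1, q.2)) :=
        ((contDiff_cmb ψ).comp (contDiff_fst.snd.prodMk contDiff_fst.fst)).prodMk contDiff_snd
      exact (hv.1.comp h1).contDiffAt
    have a4 : ContDiffAt ℝ ∞ (fun q : (Cfg dz × Cfg ds) × Wsp dm => Pz S φ ψ q.1.1 (v (cmb ψ q.1.2 q.1.1) q.2)) q :=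
      (bil_clm (F := F)).contDiff.contDiffAt.comp q (a2.prodMk a3)
    have a5 : ContDiffAt ℝ ∞ (fun q : (Cfg dz × Cfg ds) × Wsp dm => ((gn S φ ψ q.1.1 q.2 : ℝ) : ℂ)) q :=
      Complex.ofRealCLM.contDiff.contDiffAt.comp q a1
    exact a5.smul a4
  · have h1 : q.1.1 ∉ K := fun h => hq (hKU h)
    have h2 : ∀ᶠ q' in 𝓝 q, secK S φ ψ v q' = 0 := by
      have h3 : {q' : (Cfg dz × Cfg ds) × Wsp dm | q'.1.1 ∉ K} ∈ 𝓝 q :=
        ((hK.preimage continuous_fst.fst).isOpen_compl).mem_nhds h1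
      filter_upwards [h3] with q' hq'
      have h4 : v (cmb ψ q'.1.2 q'.1.1) q'.2 = 0 := by
        by_contra h5
        exact hq' (hs _ _ _ h5)
      unfold secK
      rw [h4, map_zero, smul_zero]
    exact contDiffAt_const.congr_of_eventuallyEq h2

lemma secK_hcs {v : Cfg dh → Wsp dm → F} (hv : Tst2 v) : HasCompactSupport (secK S φ ψ v) := by
  obtain ⟨M, hM0, hM⟩ := tst2_bd hv
  refine HasCompactSupport.intro (isCompact_closedBall (0 : (Cfg dz × Cfg ds) × Wsp dm) M) fun q hq => ?_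
  have h4 : v (cmb ψ q.1.2 q.1.1) q.2 = 0 := by
    by_contra h5
    obtain ⟨h6, h7⟩ := hM _ _ h5
    obtain ⟨h8, h9⟩ := norm_le_cmb ψ q.1.2 q.1.1
    apply hq
    rw [mem_closedBall_zero_iff, Prod.norm_def, Prod.norm_def]
    exact max_le (max_le (h9.trans h6) (h8.trans h6)) h7
  unfold secK
  rw [h4, map_zero, smul_zero]

end

/-! ## fibre masses -/

section mass

/-- fibre mass -/
lemma nsf_smooth {v : Cfg dh → Wsp dm → F} (hv : Tst2 v) :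
    ContDiff ℝ ∞ (fun y => nsf (v y)) ∧ HasCompactSupport (fun y => nsf (v y)) := by
  have h1 : ContDiff ℝ ∞ (fun p : Cfg dh × Wsp dm => ‖v p.1 p.2‖ ^ 2) := hv.1.norm_sq ℂ
  have h2 : HasCompactSupport (fun p : Cfg dh × Wsp dm => ‖v p.1 p.2‖ ^ 2) :=
    hv.2.comp_left (g := fun x : F => ‖x‖ ^ 2) (by simp)
  exact ⟨par_contDiff volume h1 h2, par_hcs volume h2⟩

lemma nsf_nonneg' (f : Wsp dm → F) : 0 ≤ nsf f := integral_nonneg fun w => by positivity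

lemma mass_int {v : Cfg dh → Wsp dm → F} (hv : Tst2 v) (ψ : Spl ds dz dh) :
    (∀ yz : Cfg dz, Integrable (fun ys : Cfg ds => nsf (v (cmb ψ ys yz)))) ∧
    Integrable (fun yz : Cfg dz => ∫ ys : Cfg ds, nsf (v (cmb ψ ys yz))) ∧
    ∫ yz : Cfg dz, ∫ ys : Cfg ds, nsf (v (cmb ψ ys yz)) = ns2 v := by
  obtain ⟨hs, hc⟩ := nsf_smooth hv
  obtain ⟨M, hM0, hM⟩ := tst2_bd hv
  have hz : ∀ y, M < ‖y‖ → nsf (v y) = 0 := by
    intro y hy
    have h1 : ∀ w, v y w = 0 := by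
      intro w
      by_contra h
      exact absurd (hM y w h).1 (not_le.2 hy)
    simp [nsf, h1]
  have hcont : Continuous fun p : Cfg ds × Cfg dz => nsf (v (cmb ψ p.1 p.2)) :=
    hs.continuous.comp (contDiff_cmb ψ).continuous
  have hcs : HasCompactSupport fun p : Cfg ds × Cfg dz => nsf (v (cmb ψ p.1 p.2)) := by
    refine HasCompactSupport.intro (isCompact_closedBall (0 : Cfg ds × Cfg dz) M) fun p hp => ?_
    refine hz _ ?_
    rw [mem_closedBall_zero_iff, Prod.norm_def, not_le] at hp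
    obtain ⟨h8, h9⟩ := norm_le_cmb ψ p.1 p.2
    exact hp.trans_le (max_le h8 h9)
  have hI : Integrable (fun p : Cfg ds × Cfg dz => nsf (v (cmb ψ p.1 p.2)))
      ((volume : Measure (Cfg ds)).prod (volume : Measure (Cfg dz))) :=
    hcont.integrable_of_hasCompactSupport hcs
  refine ⟨fun yz => ?_, hI.integral_prod_right, ?_⟩
  · refine Continuous.integrable_of_hasCompactSupport (hcont.comp (continuous_id.prodMk continuous_const)) ?_
    refine HasCompactSupport.intro (isCompact_closedBall (0 : Cfg ds) M) fun ys hys => ?_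
    refine hz _ ?_
    rw [mem_closedBall_zero_iff, not_le] at hys
    exact hys.trans_le (norm_le_cmb ψ ys yz).1
  · rw [← integral_prod_symm _ hI]
    have hmp := cmb_mp ψ (ds := ds) (dz := dz) (dh := dh)
    have h1 : ∫ y, nsf (v y) ∂(volume : Measure (Cfg dh)) =
        ∫ p : Cfg ds × Cfg dz, nsf (v (cmb ψ p.1 p.2)) ∂((volume : Measure (Cfg ds)).prod (volume : Measure (Cfg dz))) := by
      conv_lhs => rw [← hmp.map_eq]
      exact integral_map hmp.measurable.aemeasurable hs.continuous.aestronglyMeasurable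
    rw [← h1]
    unfold ns2 nsf
    have h2 : Integrable (fun p : Cfg dh × Wsp dm => ‖v p.1 p.2‖ ^ 2)
        ((volume : Measure (Cfg dh)).prod (volume : Measure (Wsp dm))) :=
      (hv.1.norm_sq ℂ).continuous.integrable_of_hasCompactSupport
        (hv.2.comp_left (g := fun x : F => ‖x‖ ^ 2) (by simp))
    rw [integral_prod _ h2]

end mass

end Vale.Agent.P353.Z.AD
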