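import Vale.Agent.P353.AN.D.SecD

/-! # P353, all `N`, block D, L9: items (1), (2), (4), (6) of `SecStmt` (helper221) -/

open MeasureTheory Filter Topology Matrix
open scoped ContDiff

set_option linter.unusedSectionVars false

namespace Vale.Agent.P353.Z.AD

variable {d dh dm ds dz r : ℕ} {F : Type*} [NormedAddCommGroup F] [InnerProductSpace ℂ F]

/-! ## Gaussian -/

lemma gauss_val {b : ℝ} (hb : 0 < b) :
    ∫ w : Wsp dm, Real.exp (-(b * ‖w‖ ^ 2)) = (Real.pi / b) ^ (4 * dm) := by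
  have h := GaussianFourier.integral_rexp_neg_mul_sq_norm (V := Wsp dm) hb
  have h1 : ∀ w : Wsp dm, Real.exp (-(b * ‖w‖ ^ 2)) = Real.exp (-b * ‖w‖ ^ 2) := fun w => by
    rw [neg_mul]
  simp only [h1]
  rw [h]
  have h2 : (Module.finrank ℝ (Wsp dm) / 2 : ℝ) = ((4 * dm : ℕ) : ℝ) := by
    rw [finrank_euclideanSpace, Fintype.card_prod, Fintype.card_fin, Fintype.card_fin]
    push_cast
    ring
  rw [h2, Real.rpow_natCast]

lemma gauss_int {b : ℝ} (hb : 0 < b) : Integrable fun w : Wsp dm => Real.exp (-(b * ‖w‖ ^ 2)) := by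
  by_contra h
  have h1 := gauss_val (dm := dm) hb
  rw [integral_undef h] at h1
  have : 0 < (Real.pi / b) ^ (4 * dm) := pow_pos (div_pos Real.pi_pos hb) _
  linarith

/-- the Gaussian bound -/
noncomputable def gam (Cg c R : ℝ) (w : Wsp dm) : ℝ := Cg * (R ^ (2 * dm) * Real.exp (-(c * R * ‖w‖ ^ 2)))

lemma gam_sq {Cg c R : ℝ} (hc : 0 < c) (hR : 0 < R) :
    Integrable (fun w : Wsp dm => gam Cg c R w ^ 2) ∧
    ∫ w : Wsp dm, gam Cg c R w ^ 2 = Cg ^ 2 * (Real.pi / (2 * c)) ^ (4 * dm) := by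
  have h1 : ∀ w : Wsp dm, gam Cg c R w ^ 2 = (Cg * R ^ (2 * dm)) ^ 2 * Real.exp (-((2 * c * R) * ‖w‖ ^ 2)) := by
    intro w
    unfold gam
    rw [← mul_assoc, mul_pow, ← Real.exp_nat_mul]
    congr 2
    push_cast
    ring
  simp only [h1]
  have hb : 0 < 2 * c * R := by positivity
  refine ⟨(gauss_int hb).const_mul _, ?_⟩
  rw [integral_const_mul, gauss_val hb, mul_pow, ← pow_mul, mul_assoc]
  congr 1
  have h2 : R ^ (2 * dm * 2) = R ^ (4 * dm) := by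
    congr 1
    ring
  rw [h2, ← mul_pow]
  congr 1
  field_simp

lemma gam_cont (Cg c R : ℝ) : Continuous (gam (dm := dm) Cg c R) := by
  unfold gam
  fun_prop

section main

variable [FiniteDimensional ℂ F] (S : Setup d F) (φ : Spl dh dm d) (ψ : Spl ds dz dh)

lemma Pz_le (yz : Cfg dz) (u : F) : ‖Pz S φ ψ yz u‖ ≤ ‖u‖ := by
  unfold Pz
  refine (ContinuousLinearMap.le_opNorm _ u).trans ?_
  exact mul_le_of_le_one_left (norm_nonneg _) (Submodule.starProjection_norm_le _)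

/-- the derivative of `Pz` is `O(1/R)` -/
lemma Pz_der {z₀ : Cfg dz} {ε₀ : ℝ} (hball : Metric.closedBall z₀ ε₀ ⊆ UZ S φ ψ)
    (hp : ContDiffOn ℝ ∞ (fun yz => Pz S φ ψ yz) (UZ S φ ψ))
    (hh : ∀ yz ∈ UZ S φ ψ, ∀ R : ℝ, 0 < R → Pz S φ ψ (R • yz) = Pz S φ ψ yz) :
    ∃ B : ℝ, 0 ≤ B ∧ ∀ R : ℝ, 0 < R → ∀ yz : Cfg dz, ‖yz - R • z₀‖ ≤ ε₀ * R → ∀ (i : Fin 9) (A : Fin dz),
      ‖fderiv ℝ (fun z => Pz S φ ψ z) yz (EuclideanSpace.single (i, A) 1)‖ ≤ B / R := by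
  have hU := isOpen_UZ S φ ψ
  have hc : ContinuousOn (fderiv ℝ (fun z => Pz S φ ψ z)) (UZ S φ ψ) :=
    hp.continuousOn_fderiv_of_isOpen hU (by simp)
  obtain ⟨B, hB⟩ := (isCompact_closedBall z₀ ε₀).exists_bound_of_continuousOn
    (f := fderiv ℝ (fun z => Pz S φ ψ z)) (hc.mono hball)
  refine ⟨max B 0, le_max_right _ _, fun R hR yz hyz i A => ?_⟩
  set z₁ : Cfg dz := R⁻¹ • yz with hz₁
  have hz1 : z₁ ∈ Metric.closedBall z₀ ε₀ := by
    rw [Metric.mem_closedBall, dist_eq_norm]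
    have h2 : z₁ - z₀ = R⁻¹ • (yz - R • z₀) := by
      rw [smul_sub, smul_smul, inv_mul_cancel₀ hR.ne', one_smul]
    rw [h2, norm_smul, norm_inv, Real.norm_of_nonneg hR.le, inv_mul_le_iff₀ hR]
    linarith
  have hzU : z₁ ∈ UZ S φ ψ := hball hz1
  have hyU : yz ∈ UZ S φ ψ := by
    rw [← UZ_smul S φ ψ (inv_pos.2 hR)]
    exact hzU
  have he : (fun z => Pz S φ ψ z) =ᶠ[𝓝 yz] fun z => Pz S φ ψ (R⁻¹ • z) := by
    filter_upwards [hU.mem_nhds hyU] with z hz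
    exact (hh z hz R⁻¹ (inv_pos.2 hR)).symm
  have hd : DifferentiableAt ℝ (fun z => Pz S φ ψ z) z₁ :=
    (hp.contDiffAt (hU.mem_nhds hzU)).differentiableAt (by simp)
  have h1 : HasFDerivAt (fun z => Pz S φ ψ (R⁻¹ • z))
      ((fderiv ℝ (fun z => Pz S φ ψ z) z₁).comp (R⁻¹ • ContinuousLinearMap.id ℝ (Cfg dz))) yz := by
    have h2 : HasFDerivAt (fun z : Cfg dz => R⁻¹ • z) (R⁻¹ • ContinuousLinearMap.id ℝ (Cfg dz)) yz :=
      (hasFDerivAt_id yz).const_smul R⁻¹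
    exact hd.hasFDerivAt.comp yz h2
  rw [he.fderiv_eq, h1.fderiv]
  have h3 : ((fderiv ℝ (fun z => Pz S φ ψ z) z₁).comp (R⁻¹ • ContinuousLinearMap.id ℝ (Cfg dz)))
      (EuclideanSpace.single (i, A) 1) = R⁻¹ • (fderiv ℝ (fun z => Pz S φ ψ z) z₁) (EuclideanSpace.single (i, A) 1) := by
    rw [ContinuousLinearMap.comp_apply]
    have : (R⁻¹ • ContinuousLinearMap.id ℝ (Cfg dz)) (EuclideanSpace.single (i, A) 1) =
        R⁻¹ • (EuclideanSpace.single (i, A) (1 : ℝ) : Cfg dz) := rfl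
    rw [this, ContinuousLinearMap.map_smul]
  rw [h3, norm_smul, norm_inv, Real.norm_of_nonneg hR.le, div_eq_inv_mul]
  refine mul_le_mul_of_nonneg_left ?_ (inv_nonneg.2 hR.le)
  refine (ContinuousLinearMap.le_opNorm _ _).trans ?_
  have h4 : ‖(EuclideanSpace.single (i, A) (1 : ℝ) : Cfg dz)‖ = 1 := by
    rw [PiLp.norm_single, norm_one]
  rw [h4, mul_one]
  exact (hB z₁ hz1).trans (le_max_left _ _)

omit [FiniteDimensional ℂ F] in
lemma cmb_single (i : Fin 9) (A : Fin dz) :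
    cmb ψ (0 : Cfg ds) (EuclideanSpace.single (i, A) 1) = EuclideanSpace.single (i, ψ (Sum.inr A)) 1 := by
  refine cmb_ext ψ (fun j B => ?_) (fun j B => ?_)
  · rw [cmb_inl, PiLp.single_apply, if_neg]
    · rfl
    · intro h
      have := ψ.injective (Prod.ext_iff.1 h).2
      simp at this
  · rw [cmb_inr, PiLp.single_apply, PiLp.single_apply]
    by_cases h : (j, B) = (i, A)
    · have e1 : j = i := congrArg Prod.fst h
      have e2 : B = A := congrArg Prod.snd h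
      rw [if_pos h, if_pos (by rw [e1, e2])]
    · rw [if_neg h, if_neg]
      intro h2
      apply h
      have h3 := ψ.injective (Prod.ext_iff.1 h2).2
      exact Prod.ext (Prod.ext_iff.1 h2).1 (Sum.inr_injective h3)

omit [FiniteDimensional ℂ F] in
lemma pd_cmb {v : Cfg dh → Wsp dm → F} (hv : Tst2 v) (i : Fin 9) (A : Fin dz) (ys : Cfg ds) (yz : Cfg dz) (w : Wsp dm) :
    DifferentiableAt ℝ (fun z => v (cmb ψ ys z) w) yz ∧
    pd i A (fun z => v (cmb ψ ys z) w) yz = py i (ψ (Sum.inr A)) v (cmb ψ ys yz) w := by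
  have h1 : HasFDerivAt (fun z : Cfg dz => cmb ψ ys z)
      ((cmL ψ).toContinuousLinearMap.comp (ContinuousLinearMap.inr ℝ (Cfg ds) (Cfg dz))) yz := by
    have h2 : HasFDerivAt (fun z : Cfg dz => (ys, z)) (ContinuousLinearMap.inr ℝ (Cfg ds) (Cfg dz)) yz :=
      (hasFDerivAt_const ys yz).prodMk (hasFDerivAt_id yz)
    exact ((cmL ψ).toContinuousLinearMap.hasFDerivAt (x := (ys, yz))).comp yz h2
  have h3 : HasFDerivAt (fun y' => v y' w) (fderiv ℝ (fun y' => v y' w) (cmb ψ ys yz)) (cmb ψ ys yz) := by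
    have : ContDiff ℝ ∞ (fun y' => v y' w) := hv.1.comp (contDiff_id.prodMk contDiff_const)
    exact (this.differentiable (by simp) _).hasFDerivAt
  have h4 := h3.comp yz h1
  refine ⟨h4.differentiableAt, ?_⟩
  unfold pd py
  have h5 : fderiv ℝ (fun z => v (cmb ψ ys z) w) yz = _ := h4.fderiv
  rw [h5]
  simp only [ContinuousLinearMap.comp_apply]
  unfold pd
  congr 1
  exact cmb_single ψ i A

/-- product rule for the kernel -/
lemma secK_pd (hg : ContDiffOn ℝ ∞ (fun p : Cfg dz × Wsp dm => gn S φ ψ p.1 p.2) {p | p.1 ∈ UZ S φ ψ})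
    (hp : ContDiffOn ℝ ∞ (fun yz => Pz S φ ψ yz) (UZ S φ ψ)) {v : Cfg dh → Wsp dm → F} (hv : Tst2 v)
    (i : Fin 9) (A : Fin dz) (ys : Cfg ds) {yz : Cfg dz} (hyz : yz ∈ UZ S φ ψ) (w : Wsp dm) :
    fderiv ℝ (fun z => secK S φ ψ v ((z, ys), w)) yz (EuclideanSpace.single (i, A) 1) =
      ((fderiv ℝ (fun z => gn S φ ψ z w) yz (EuclideanSpace.single (i, A) 1) : ℝ) : ℂ) •
        Pz S φ ψ yz (v (cmb ψ ys yz) w) +
      ((gn S φ ψ yz w : ℝ) : ℂ) • ((fderiv ℝ (fun z => Pz S φ ψ z) yz (EuclideanSpace.single (i, A) 1))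
        (v (cmb ψ ys yz) w) + Pz S φ ψ yz (py i (ψ (Sum.inr A)) v (cmb ψ ys yz) w)) := by
  have hU := isOpen_UZ S φ ψ
  have hU2 : IsOpen {p : Cfg dz × Wsp dm | p.1 ∈ UZ S φ ψ} := hU.preimage continuous_fst
  have g1 : DifferentiableAt ℝ (fun z => gn S φ ψ z w) yz := by
    have h1 : ContDiffAt ℝ ∞ (fun p : Cfg dz × Wsp dm => gn S φ ψ p.1 p.2) (yz, w) :=
      hg.contDiffAt (hU2.mem_nhds hyz)
    exact (h1.comp yz (contDiff_id.prodMk contDiff_const).contDiffAt).differentiableAt (by simp)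
  have g2 : DifferentiableAt ℝ (fun z => Pz S φ ψ z) yz :=
    (hp.contDiffAt (hU.mem_nhds hyz)).differentiableAt (by simp)
  obtain ⟨g3, g4⟩ := pd_cmb (ψ := ψ) hv i A ys yz w
  have g5 : HasFDerivAt (fun z => ((gn S φ ψ z w : ℝ) : ℂ))
      (Complex.ofRealCLM.comp (fderiv ℝ (fun z => gn S φ ψ z w) yz)) yz :=
    Complex.ofRealCLM.hasFDerivAt.comp yz g1.hasFDerivAt
  have g6 : DifferentiableAt ℝ (fun z => Pz S φ ψ z (v (cmb ψ ys z) w)) yz := by
    have h1 := (bil_clm (F := F)).hasFDerivAt (Pz S φ ψ yz, v (cmb ψ ys yz) w)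
    exact (h1.comp yz (g2.hasFDerivAt.prodMk g3.hasFDerivAt)).differentiableAt
  have h1 := pd_csmul (i := i) (A := A) g5.differentiableAt g6
  have h2 := pd_clm_apply (i := i) (A := A) g2 g3
  rw [h2, g4, g5.fderiv] at h1
  exact h1

/-- bound for the derivative of the kernel -/
lemma secK_pd_le {z₀ : Cfg dz} {ε₀ Cg c B : ℝ} (hCg : 0 < Cg)
    (hg : ContDiffOn ℝ ∞ (fun p : Cfg dz × Wsp dm => gn S φ ψ p.1 p.2) {p | p.1 ∈ UZ S φ ψ})
    (hp : ContDiffOn ℝ ∞ (fun yz => Pz S φ ψ yz) (UZ S φ ψ))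
    {R : ℝ} (hR : 0 < R)
    (hU : ∀ yz : Cfg dz, ‖yz - R • z₀‖ ≤ ε₀ * R → yz ∈ UZ S φ ψ)
    (hB : ∀ yz : Cfg dz, ‖yz - R • z₀‖ ≤ ε₀ * R → ∀ (i : Fin 9) (A : Fin dz),
      ‖fderiv ℝ (fun z => Pz S φ ψ z) yz (EuclideanSpace.single (i, A) 1)‖ ≤ B / R)
    (hgn : ∀ yz : Cfg dz, ‖yz - R • z₀‖ ≤ ε₀ * R → ∀ w, |gn S φ ψ yz w| ≤ gam Cg c R w)
    (hgd : ∀ yz : Cfg dz, ‖yz - R • z₀‖ ≤ ε₀ * R → ∀ i A w,
      |fderiv ℝ (fun z => gn S φ ψ z w) yz (EuclideanSpace.single (i, A) 1)| ≤ gam Cg c R w / R)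
    {v : Cfg dh → Wsp dm → F} (hv : Tst2 v) (hs : Sup2 (cmb ψ 0 z₀) ε₀ R v)
    (i : Fin 9) (A : Fin dz) (ys : Cfg ds) (yz : Cfg dz) (w : Wsp dm) :
    ‖fderiv ℝ (fun z => secK S φ ψ v ((z, ys), w)) yz (EuclideanSpace.single (i, A) 1)‖ ≤
      gam Cg c R w * ((1 + B) / R * ‖v (cmb ψ ys yz) w‖ + ‖py i (ψ (Sum.inr A)) v (cmb ψ ys yz) w‖) := by
  have hγ : 0 ≤ gam Cg c R w := by
    unfold gam
    positivity
  by_cases hyz : ‖yz - R • z₀‖ ≤ ε₀ * R
  · rw [secK_pd S φ ψ hg hp hv i A ys (hU yz hyz) w]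
    refine (norm_add_le _ _).trans ?_
    rw [norm_smul, norm_smul, Complex.norm_real, Complex.norm_real, Real.norm_eq_abs, Real.norm_eq_abs]
    have h1 := hgd yz hyz i A w
    have h2 := hgn yz hyz w
    have h3 := Pz_le S φ ψ yz (v (cmb ψ ys yz) w)
    have h4 := Pz_le S φ ψ yz (py i (ψ (Sum.inr A)) v (cmb ψ ys yz) w)
    have h5 : ‖(fderiv ℝ (fun z => Pz S φ ψ z) yz (EuclideanSpace.single (i, A) 1)) (v (cmb ψ ys yz) w)‖ ≤
        B / R * ‖v (cmb ψ ys yz) w‖ :=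
      (ContinuousLinearMap.le_opNorm _ _).trans (mul_le_mul_of_nonneg_right (hB yz hyz i A) (norm_nonneg _))
    have hB0 : 0 ≤ B / R := (norm_nonneg _).trans (hB yz hyz i A)
    calc |fderiv ℝ (fun z => gn S φ ψ z w) yz (EuclideanSpace.single (i, A) 1)| * ‖Pz S φ ψ yz (v (cmb ψ ys yz) w)‖ +
          |gn S φ ψ yz w| * ‖(fderiv ℝ (fun z => Pz S φ ψ z) yz (EuclideanSpace.single (i, A) 1))
            (v (cmb ψ ys yz) w) + Pz S φ ψ yz (py i (ψ (Sum.inr A)) v (cmb ψ ys yz) w)‖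
        ≤ gam Cg c R w / R * ‖v (cmb ψ ys yz) w‖ +
          gam Cg c R w * (B / R * ‖v (cmb ψ ys yz) w‖ + ‖py i (ψ (Sum.inr A)) v (cmb ψ ys yz) w‖) := by
          refine add_le_add (mul_le_mul h1 h3 (norm_nonneg _) (by positivity))
            (mul_le_mul h2 ((norm_add_le _ _).trans (add_le_add h5 h4)) (norm_nonneg _) hγ)
      _ = _ := by
          field_simp
          ring
  · have h1 : (fun z => secK S φ ψ v ((z, ys), w)) =ᶠ[𝓝 yz] fun _ => 0 := by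
      have h2 : {z : Cfg dz | ε₀ * R < ‖z - R • z₀‖} ∈ 𝓝 yz :=
        (isOpen_lt continuous_const (by fun_prop)).mem_nhds (not_le.1 hyz)
      filter_upwards [h2] with z hz
      have h4 : v (cmb ψ ys z) w = 0 := by
        by_contra h5
        exact absurd (sup_cmb hs h5).2.1 (not_le.2 hz)
      unfold secK
      simp only
      rw [h4, map_zero, smul_zero]
    rw [h1.fderiv_eq]
    have h2 : fderiv ℝ (fun _ : Cfg dz => (0 : F)) yz (EuclideanSpace.single (i, A) 1) = 0 := by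
      rw [fderiv_fun_const]
      rfl
    rw [h2, norm_zero]
    have hv0 : v (cmb ψ ys yz) w = 0 := by
      by_contra h5
      exact hyz (sup_cmb hs h5).2.1
    rw [hv0, norm_zero, mul_zero, zero_add]
    positivity

end main

end Vale.Agent.P353.Z.AD
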