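import Vale.Agent.P353.AN.D.SecE
import Vale.Agent.P353.AN.C.CalcA

/-! # P353, all `N`, block D, L9: items (1), (2), (4), (6) of `SecStmt`, integrated form (helper221) -/

open MeasureTheory Filter Topology Matrix
open scoped ContDiff

set_option linter.unusedSectionVars false

namespace Vale.Agent.P353.Z.AD

variable {d dh dm ds dz r : ℕ} {F : Type*} [NormedAddCommGroup F] [InnerProductSpace ℂ F]

section main

variable [FiniteDimensional ℂ F] (S : Setup d F) (φ : Spl dh dm d) (ψ : Spl ds dz dh)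

lemma sec_deriv {v : Cfg dh → Wsp dm → F} (hsm : ContDiff ℝ ∞ (secK S φ ψ v))
    (hcs : HasCompactSupport (secK S φ ψ v)) (i : Fin 9) (A : Fin dz) (ys : Cfg ds) (yz : Cfg dz) :
    pd i A (fun z => sec S φ ψ v z ys) yz =
      ∫ w, fderiv ℝ (fun z => secK S φ ψ v ((z, ys), w)) yz (EuclideanSpace.single (i, A) 1) := by
  have h1 : ContDiff ℝ ∞ (fun p : Cfg dz × Wsp dm => secK S φ ψ v ((p.1, ys), p.2)) :=
    hsm.comp ((contDiff_fst.prodMk contDiff_const).prodMk contDiff_snd)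
  have h2 : HasCompactSupport (fun p : Cfg dz × Wsp dm => secK S φ ψ v ((p.1, ys), p.2)) := by
    refine HasCompactSupport.intro
      (K := (fun q : (Cfg dz × Cfg ds) × Wsp dm => (q.1.1, q.2)) '' tsupport (secK S φ ψ v))
      (hcs.isCompact.image (continuous_fst.fst.prodMk continuous_snd)) fun p hp => ?_
    exact image_eq_zero_of_notMem_tsupport fun h => hp ⟨((p.1, ys), p.2), h, rfl⟩
  exact par_deriv volume h1 h2 yz _

omit [FiniteDimensional ℂ F] in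
lemma ft_hcs {f : Wsp dm → F} (h : FT f) : HasCompactSupport (fun w => ‖f w‖ ^ 2) := by
  refine h.2.comp_left (g := fun x : F => ‖x‖ ^ 2) ?_
  simp

omit [FiniteDimensional ℂ F] in
lemma ft_cont {f : Wsp dm → F} (h : FT f) : Continuous (fun w => ‖f w‖ ^ 2) :=
  h.1.continuous.norm.pow 2

omit [FiniteDimensional ℂ F] in
lemma ft_int {f : Wsp dm → F} (h : FT f) : Integrable (fun w => ‖f w‖ ^ 2) :=
  (ft_cont h).integrable_of_hasCompactSupport (ft_hcs h)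

omit [FiniteDimensional ℂ F] in
lemma slice_facts {v : Cfg dh → Wsp dm → F} (hv : Tst2 v) (y : Cfg dh) :
    Continuous (v y) ∧ HasCompactSupport (v y) ∧ Integrable (fun w => ‖v y w‖ ^ 2) := by
  have h : FT (v y) := (AN.calcA dh dm F).slw v hv y
  exact ⟨h.1.continuous, h.2, ft_int h⟩

omit [FiniteDimensional ℂ F] in
lemma lin_hcs {f g : Wsp dm → F} (a : ℝ) (hf : HasCompactSupport f) (hg : HasCompactSupport g) :
    HasCompactSupport (fun w => a * ‖f w‖ + ‖g w‖) := by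
  have h1 : HasCompactSupport (fun w => a * ‖f w‖) := by
    refine hf.comp_left (g := fun x : F => a * ‖x‖) ?_
    simp
  have h2 : HasCompactSupport (fun w => ‖g w‖) := hg.norm
  exact h1.add h2

/-- pointwise bound of the derivative -/
lemma sec_pd_sq {Cg c B R : ℝ} (hc : 0 < c) (hR : 0 < R) {v v' : Cfg dh → Wsp dm → F} (hv : Tst2 v)
    (hv' : Tst2 v') (y : Cfg dh) {D : Wsp dm → F}
    (hD : ∀ w, ‖D w‖ ≤ gam Cg c R w * ((1 + B) / R * ‖v y w‖ + ‖v' y w‖)) :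
    ‖∫ w, D w‖ ^ 2 ≤ (Cg ^ 2 * (Real.pi / (2 * c)) ^ (4 * dm)) *
      (2 * ((1 + B) / R) ^ 2 * nsf (v y) + 2 * nsf (v' y)) := by
  obtain ⟨a1, a2, a3⟩ := slice_facts hv y
  obtain ⟨b1, b2, b3⟩ := slice_facts hv' y
  obtain ⟨g1, g2⟩ := gam_sq (dm := dm) (Cg := Cg) hc hR
  set f : Wsp dm → ℝ := fun w => (1 + B) / R * ‖v y w‖ + ‖v' y w‖ with hf
  have fc : Continuous f := (continuous_const.mul a1.norm).add b1.norm
  have fs : HasCompactSupport f := lin_hcs _ a2 b2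
  have fs1 : HasCompactSupport (fun w => gam Cg c R w * f w) := fs.mul_left
  have fc1 : Continuous (fun w => gam Cg c R w * f w) := (gam_cont Cg c R).mul fc
  have i1 : Integrable (fun w => gam Cg c R w * f w) := fc1.integrable_of_hasCompactSupport fs1
  have fs2 : HasCompactSupport (fun w => f w ^ 2) := by
    refine fs.comp_left (g := fun x : ℝ => x ^ 2) ?_
    simp
  have fc2 : Continuous (fun w => f w ^ 2) := fc.pow 2
  have i2 : Integrable (fun w => f w ^ 2) := fc2.integrable_of_hasCompactSupport fs2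
  have h1 : ‖∫ w, D w‖ ≤ ∫ w, gam Cg c R w * f w :=
    norm_integral_le_of_norm_le i1 (Eventually.of_forall hD)
  have h2 := cs_sq g1 i2 i1
  have h3 : ∫ w, f w ^ 2 ≤ 2 * ((1 + B) / R) ^ 2 * nsf (v y) + 2 * nsf (v' y) := by
    have e : 2 * ((1 + B) / R) ^ 2 * nsf (v y) + 2 * nsf (v' y) =
        ∫ w, (2 * ((1 + B) / R) ^ 2 * ‖v y w‖ ^ 2 + 2 * ‖v' y w‖ ^ 2) := by
      rw [integral_add (a3.const_mul _) (b3.const_mul _), integral_const_mul, integral_const_mul]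
      rfl
    rw [e]
    refine integral_mono i2 ((a3.const_mul _).add (b3.const_mul _)) fun w => ?_
    simp only [hf]
    nlinarith [sq_nonneg ((1 + B) / R * ‖v y w‖ - ‖v' y w‖)]
  have h4 : 0 ≤ ∫ w : Wsp dm, gam Cg c R w ^ 2 := integral_nonneg fun w => sq_nonneg _
  calc ‖∫ w, D w‖ ^ 2 ≤ (∫ w, gam Cg c R w * f w) ^ 2 := by gcongr
    _ ≤ (∫ w : Wsp dm, gam Cg c R w ^ 2) * ∫ w, f w ^ 2 := h2
    _ ≤ (∫ w : Wsp dm, gam Cg c R w ^ 2) * (2 * ((1 + B) / R) ^ 2 * nsf (v y) + 2 * nsf (v' y)) :=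
        mul_le_mul_of_nonneg_left h3 h4
    _ = _ := by rw [g2]

lemma gn_cont (hg : ContDiffOn ℝ ∞ (fun p : Cfg dz × Wsp dm => gn S φ ψ p.1 p.2) {p | p.1 ∈ UZ S φ ψ})
    {yz : Cfg dz} (hyz : yz ∈ UZ S φ ψ) : Continuous (fun w => gn S φ ψ yz w) := by
  have hU2 : IsOpen {p : Cfg dz × Wsp dm | p.1 ∈ UZ S φ ψ} := (isOpen_UZ S φ ψ).preimage continuous_fst
  refine continuous_iff_continuousAt.2 fun w => ?_
  have h1 : ContDiffAt ℝ ∞ (fun p : Cfg dz × Wsp dm => gn S φ ψ p.1 p.2) (yz, w) :=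
    hg.contDiffAt (hU2.mem_nhds hyz)
  exact h1.continuousAt.comp (continuous_const.prodMk continuous_id).continuousAt

/-- pointwise bound of `sec` -/
lemma sec_sq (hg : ContDiffOn ℝ ∞ (fun p : Cfg dz × Wsp dm => gn S φ ψ p.1 p.2) {p | p.1 ∈ UZ S φ ψ})
    {yz : Cfg dz} (hyz : yz ∈ UZ S φ ψ) (h1 : ∫ w, gn S φ ψ yz w ^ 2 = 1)
    {v : Cfg dh → Wsp dm → F} (hv : Tst2 v) (ys : Cfg ds) :
    ‖sec S φ ψ v yz ys‖ ^ 2 ≤ nsf (v (cmb ψ ys yz)) := by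
  obtain ⟨a1, a2, a3⟩ := slice_facts hv (cmb ψ ys yz)
  have gc := gn_cont S φ ψ hg hyz
  have g1 : Integrable (fun w => |gn S φ ψ yz w| ^ 2) := by
    simp only [sq_abs]
    by_contra h
    rw [integral_undef h] at h1
    norm_num at h1
  have s1 : HasCompactSupport (fun w => |gn S φ ψ yz w| * ‖v (cmb ψ ys yz) w‖) := a2.norm.mul_left
  have c1 : Continuous (fun w => |gn S φ ψ yz w| * ‖v (cmb ψ ys yz) w‖) := gc.abs.mul a1.norm
  have i1 : Integrable (fun w => |gn S φ ψ yz w| * ‖v (cmb ψ ys yz) w‖) :=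
    c1.integrable_of_hasCompactSupport s1
  have h2 : ‖sec S φ ψ v yz ys‖ ≤ ∫ w, |gn S φ ψ yz w| * ‖v (cmb ψ ys yz) w‖ := by
    refine norm_integral_le_of_norm_le i1 (Eventually.of_forall fun w => ?_)
    rw [norm_smul, Complex.norm_real, Real.norm_eq_abs]
    exact mul_le_mul_of_nonneg_left (Pz_le S φ ψ yz _) (abs_nonneg _)
  have h3 := cs_sq g1 a3 i1
  simp only [sq_abs] at h3
  rw [h1, one_mul] at h3
  calc ‖sec S φ ψ v yz ys‖ ^ 2 ≤ (∫ w, |gn S φ ψ yz w| * ‖v (cmb ψ ys yz) w‖) ^ 2 := by gcongr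
    _ ≤ _ := h3

end main

/-- integration of a pointwise bound -/
lemma int_bd {Γ Q : ℝ} {G : Cfg dz → Cfg ds → F} {a b : Cfg dz → Cfg ds → ℝ}
    (hbd : ∀ yz ys, ‖G yz ys‖ ^ 2 ≤ Γ * (Q * a yz ys + 2 * b yz ys))
    (m1 : ∀ yz, Integrable (a yz)) (n1 : ∀ yz, Integrable (b yz))
    (m2 : Integrable fun yz => ∫ ys, a yz ys) (n2 : Integrable fun yz => ∫ ys, b yz ys) :
    (∫ yz, nsq (G yz)) ≤ Γ * (Q * (∫ yz, ∫ ys, a yz ys) + 2 * ∫ yz, ∫ ys, b yz ys) := by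
  have hint : ∀ yz, Integrable (fun ys => Γ * (Q * a yz ys + 2 * b yz ys)) := fun yz =>
    (((m1 yz).const_mul _).add ((n1 yz).const_mul _)).const_mul _
  have h1 : ∀ yz, nsq (G yz) ≤ Γ * (Q * (∫ ys, a yz ys) + 2 * ∫ ys, b yz ys) := by
    intro yz
    have e : Γ * (Q * (∫ ys, a yz ys) + 2 * ∫ ys, b yz ys) = ∫ ys, Γ * (Q * a yz ys + 2 * b yz ys) := by
      rw [integral_const_mul, integral_add ((m1 yz).const_mul _) ((n1 yz).const_mul _), integral_const_mul,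
        integral_const_mul]
    rw [e]
    exact integral_mono_of_nonneg (Eventually.of_forall fun ys => by positivity) (hint yz)
      (Eventually.of_forall fun ys => hbd yz ys)
  have e : Γ * (Q * (∫ yz, ∫ ys, a yz ys) + 2 * ∫ yz, ∫ ys, b yz ys) =
      ∫ yz, Γ * (Q * (∫ ys, a yz ys) + 2 * ∫ ys, b yz ys) := by
    rw [integral_const_mul, integral_add (m2.const_mul _) (n2.const_mul _), integral_const_mul,
      integral_const_mul]
  rw [e]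
  exact integral_mono_of_nonneg (Eventually.of_forall fun yz => nsq_nonneg _)
    (((m2.const_mul _).add (n2.const_mul _)).const_mul _) (Eventually.of_forall fun yz => h1 yz)

/-- facts about the vacuum near `z₀` -/
structure VacD [FiniteDimensional ℂ F] (S : Setup d F) (φ : Spl dh dm d) (ψ : Spl ds dz dh) (z₀ : Cfg dz)
    (ε₀ c Cg B : ℝ) : Prop where
  ε₀_pos : 0 < ε₀
  c_pos : 0 < c
  Cg_pos : 0 < Cg
  B_nonneg : 0 ≤ B
  hg : ContDiffOn ℝ ∞ (fun p : Cfg dz × Wsp dm => gn S φ ψ p.1 p.2) {p | p.1 ∈ UZ S φ ψ}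
  hp : ContDiffOn ℝ ∞ (fun yz => Pz S φ ψ yz) (UZ S φ ψ)
  hU : ∀ R : ℝ, 0 < R → ∀ yz : Cfg dz, ‖yz - R • z₀‖ ≤ ε₀ * R → yz ∈ UZ S φ ψ
  hB : ∀ R : ℝ, 0 < R → ∀ yz : Cfg dz, ‖yz - R • z₀‖ ≤ ε₀ * R → ∀ (i : Fin 9) (A : Fin dz),
      ‖fderiv ℝ (fun z => Pz S φ ψ z) yz (EuclideanSpace.single (i, A) 1)‖ ≤ B / R
  h1 : ∀ R : ℝ, 0 < R → ∀ yz : Cfg dz, ‖yz - R • z₀‖ ≤ ε₀ * R → ∫ w, gn S φ ψ yz w ^ 2 = 1
  hgn : ∀ R : ℝ, 0 < R → ∀ yz : Cfg dz, ‖yz - R • z₀‖ ≤ ε₀ * R → ∀ w, |gn S φ ψ yz w| ≤ gam Cg c R w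
  hgd : ∀ R : ℝ, 0 < R → ∀ yz : Cfg dz, ‖yz - R • z₀‖ ≤ ε₀ * R → ∀ i A w,
      |fderiv ℝ (fun z => gn S φ ψ z w) yz (EuclideanSpace.single (i, A) 1)| ≤ gam Cg c R w / R

lemma exists_vacD (S : Setup d F) (hS : ScalStmt S) (hG : GnStmt S) [hF : FiniteDimensional ℂ F]
    (φ : Spl dh dm d) (ψ : Spl ds dz dh) (z₀ : Cfg dz) (h : Std2 S φ ψ z₀) :
    ∃ ε₀ c Cg B : ℝ, VacD S φ ψ z₀ ε₀ c Cg B := by
  obtain ⟨hS1, hS2, hS3, hS4⟩ := hS hF dh dm ds dz φ ψ z₀ h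
  obtain ⟨ε₀, c, Cg, hε₀, hc, hCg, hdet, hgsm, hgn⟩ := hG dh dm ds dz φ ψ z₀ h
  have hg : ContDiffOn ℝ ∞ (fun p : Cfg dz × Wsp dm => gn S φ ψ p.1 p.2) {p | p.1 ∈ UZ S φ ψ} := hgsm
  have hp : ContDiffOn ℝ ∞ (fun yz => Pz S φ ψ yz) (UZ S φ ψ) := hS4
  have hU1 : ∀ R : ℝ, 0 < R → ∀ yz : Cfg dz, ‖yz - R • z₀‖ ≤ ε₀ * R → yz ∈ UZ S φ ψ := fun R hR yz hyz =>
    UZ_near S φ ψ hdet hR (hyz.trans (by nlinarith [mul_pos hε₀ hR]))
  have hball : Metric.closedBall z₀ ε₀ ⊆ UZ S φ ψ := by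
    intro z hz
    refine hU1 1 one_pos z ?_
    rw [one_smul, mul_one, ← dist_eq_norm]
    exact hz
  obtain ⟨B, hB0, hB⟩ := Pz_der S φ ψ hball hp fun yz hyz R hR => (hS2 yz hyz R hR).2
  refine ⟨ε₀, c, Cg, B, hε₀, hc, hCg, hB0, hg, hp, hU1, hB, fun R hR yz hyz => (hgn R yz hR hyz).1,
    fun R hR yz hyz w => ?_, fun R hR yz hyz i A w => ?_⟩
  · have h1 := (hgn R yz hR hyz).2.2.1 w
    rw [abs_of_nonneg h1.1]
    unfold gam
    refine h1.2.trans (le_of_eq ?_)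
    ring
  · have h1 := (hgn R yz hR hyz).2.2.2 i A w
    unfold gam
    refine h1.trans (le_of_eq ?_)
    ring

lemma sec_eq [FiniteDimensional ℂ F] (S : Setup d F) (φ : Spl dh dm d) (ψ : Spl ds dz dh)
    (v : Cfg dh → Wsp dm → F) : (fun p : Cfg dz × Cfg ds => sec S φ ψ v p.1 p.2) =
      fun p => ∫ w, secK S φ ψ v (p, w) := rfl

section

variable [FiniteDimensional ℂ F] {S : Setup d F} {φ : Spl dh dm d} {ψ : Spl ds dz dh} {z₀ : Cfg dz}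
  {ε₀ c Cg B : ℝ} (V : VacD S φ ψ z₀ ε₀ c Cg B) {R : ℝ} (hR : 0 < R) {v : Cfg dh → Wsp dm → F} (hv : Tst2 v)
  (hs : Sup2 (cmb ψ 0 z₀) ε₀ R v)

include V hR hv hs

lemma VacD.smooth : ContDiff ℝ ∞ (secK S φ ψ v) := by
  have hK : IsClosed {yz : Cfg dz | ‖yz - R • z₀‖ ≤ ε₀ * R} := isClosed_le (by fun_prop) continuous_const
  exact secK_smooth S φ ψ V.hg V.hp hv hK (fun yz hyz => V.hU R hR yz hyz) fun ys yz w hne => (sup_cmb hs hne).2.1

/-- item (1) -/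
lemma VacD.sec_smooth : ContDiff ℝ ∞ (fun p : Cfg dz × Cfg ds => sec S φ ψ v p.1 p.2) := by
  rw [sec_eq]
  exact par_contDiff volume (V.smooth hR hv hs) (secK_hcs S φ ψ hv)

omit V hR hs in
/-- item (2) -/
lemma VacD.sec_hcs (S : Setup d F) (φ : Spl dh dm d) :
    HasCompactSupport (fun p : Cfg dz × Cfg ds => sec S φ ψ v p.1 p.2) := by
  rw [sec_eq]
  have h : HasCompactSupport (secK S φ ψ v) := secK_hcs S φ ψ hv
  exact par_hcs (P := Cfg dz × Cfg ds) (W := Wsp dm) volume h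

/-- item (4), pointwise -/
lemma VacD.sec_pt (yz : Cfg dz) (ys : Cfg ds) : ‖sec S φ ψ v yz ys‖ ^ 2 ≤ nsf (v (cmb ψ ys yz)) := by
  by_cases hyz : ‖yz - R • z₀‖ ≤ ε₀ * R
  · exact sec_sq S φ ψ V.hg (V.hU R hR yz hyz) (V.h1 R hR yz hyz) hv ys
  · have h0 : ∀ w, v (cmb ψ ys yz) w = 0 := by
      intro w
      by_contra h5
      exact hyz (sup_cmb hs h5).2.1
    have h1 : sec S φ ψ v yz ys = 0 := by
      unfold sec
      simp [h0]
    rw [h1, norm_zero]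
    simpa using nsf_nonneg' (v (cmb ψ ys yz))

/-- item (4) -/
lemma VacD.sec_nsq (yz : Cfg dz) : nsq (sec S φ ψ v yz) ≤ ∫ ys, nsf (v (cmb ψ ys yz)) :=
  integral_mono_of_nonneg (Eventually.of_forall fun ys => by positivity) ((mass_int hv ψ).1 yz)
    (Eventually.of_forall fun ys => V.sec_pt hR hv hs yz ys)

lemma VacD.sec_der_pt (i : Fin 9) (A : Fin dz) (yz : Cfg dz) (ys : Cfg ds) :
    ‖pd i A (fun z => sec S φ ψ v z ys) yz‖ ^ 2 ≤ (Cg ^ 2 * (Real.pi / (2 * c)) ^ (4 * dm)) *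
      (2 * ((1 + B) / R) ^ 2 * nsf (v (cmb ψ ys yz)) + 2 * nsf (py i (ψ (Sum.inr A)) v (cmb ψ ys yz))) := by
  rw [sec_deriv S φ ψ (V.smooth hR hv hs) (secK_hcs S φ ψ hv) i A ys yz]
  refine sec_pd_sq V.c_pos hR hv ((AN.calcA dh dm F).py _ _ v hv) (cmb ψ ys yz) fun w => ?_
  exact secK_pd_le S φ ψ V.Cg_pos V.hg V.hp hR (V.hU R hR) (V.hB R hR) (V.hgn R hR) (V.hgd R hR) hv hs i A ys yz w

/-- item (6) -/
lemma VacD.sec_der (i : Fin 9) (A : Fin dz) :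
    (∫ yz, nsq (fun ys => pd i A (fun z => sec S φ ψ v z ys) yz)) ≤
      (Cg ^ 2 * (Real.pi / (2 * c)) ^ (4 * dm) * (2 * (1 + B) ^ 2 + 2)) *
        (ns2 (py i (ψ (Sum.inr A)) v) + 1 / R ^ 2 * ns2 v) := by
  have hv' : Tst2 (py i (ψ (Sum.inr A)) v) := (AN.calcA dh dm F).py _ _ v hv
  obtain ⟨m1, m2, m3⟩ := mass_int hv ψ
  obtain ⟨n1, n2, n3⟩ := mass_int hv' ψ
  have h2 := int_bd (V.sec_der_pt hR hv hs i A) m1 n1 m2 n2
  rw [m3, n3] at h2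
  have hn1 : 0 ≤ ns2 v := integral_nonneg fun p => by positivity
  have hn2 : 0 ≤ ns2 (py i (ψ (Sum.inr A)) v) := integral_nonneg fun p => by positivity
  have hΓ0 : 0 ≤ Cg ^ 2 * (Real.pi / (2 * c)) ^ (4 * dm) := by
    have := Real.pi_pos
    have := V.c_pos
    positivity
  refine h2.trans ?_
  rw [mul_assoc (Cg ^ 2 * (Real.pi / (2 * c)) ^ (4 * dm))]
  refine mul_le_mul_of_nonneg_left ?_ hΓ0
  have e1 : 2 * ((1 + B) / R) ^ 2 = 2 * (1 + B) ^ 2 * (1 / R ^ 2) := by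
    rw [div_pow]
    ring
  rw [e1]
  have h3 : 0 ≤ 1 / R ^ 2 * ns2 v := by positivity
  have h4 : 0 ≤ 2 * (1 + B) ^ 2 := by positivity
  nlinarith [mul_nonneg h4 hn2]

end

end Vale.Agent.P353.Z.AD
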