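import Vale.Agent.P353.AN.D.SecF
import Vale.Agent.P353.AN.D.SplitQ
import Vale.Agent.P353.AN.C.CalcB

/-! # P353, all `N`, block D, L9: item (5) of `SecStmt` (helper221) -/

open MeasureTheory Filter Topology Matrix
open scoped ContDiff

set_option linter.unusedSectionVars false

namespace Vale.Agent.P353.Z.AD

variable {d dh dm ds dz r : ℕ} {F : Type*} [NormedAddCommGroup F] [InnerProductSpace ℂ F]

/-! ## support -/

lemma sup2_py {Y : Cfg dh} {ε R : ℝ} {v : Cfg dh → Wsp dm → F} (hs : Sup2 Y ε R v) (i : Fin 9) (A : Fin dh) :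
    Sup2 Y ε R (py i A v) := by
  intro y w hne
  by_contra hcon
  apply hne
  rw [not_and_or, not_le, not_le] at hcon
  rcases hcon with h1 | h1
  · have h2 : (fun y' => v y' w) =ᶠ[𝓝 y] fun _ => 0 := by
      have h3 : {y' : Cfg dh | ε * R < ‖y' - R • Y‖} ∈ 𝓝 y :=
        (isOpen_lt continuous_const (by fun_prop)).mem_nhds h1
      filter_upwards [h3] with y' hy'
      by_contra h5
      exact absurd (hs _ _ h5).1 (not_le.2 hy')
    unfold py pd
    rw [h2.fderiv_eq, fderiv_fun_const]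
    rfl
  · have h2 : (fun y' => v y' w) = fun _ => 0 := by
      funext y'
      by_contra h5
      exact absurd (hs _ _ h5).2 (not_le.2 h1)
    unfold py pd
    rw [h2, fderiv_fun_const]
    rfl

lemma sup2_Qss {S : Setup d F} {φ : Spl dh dm d} {ψ : Spl ds dz dh} {z₀ : Cfg dz} (h : Std2 S φ ψ z₀)
    {Y : Cfg dh} {ε R : ℝ} {v : Cfg dh → Wsp dm → F} (hv : Tst2 v) (hs : Sup2 Y ε R v) (β : Fin 16) :
    Sup2 Y ε R (Qss h β v) := by
  intro y w hne
  by_contra hcon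
  apply hne
  have h0 : v y w = 0 := by
    by_contra h5
    exact hcon (hs _ _ h5)
  have h1 : ∀ i A, py i A v y w = 0 := by
    intro i A
    by_contra h5
    exact hcon (sup2_py hs i A _ _ h5)
  rw [sq873_Qss_eq h β hv]
  unfold sq873_L
  simp [h0, h1]

lemma Q_zero (S' : Setup ds F) (β : Fin 16) (u : Cfg ds → F) (hu : ∀ x, u x = 0) (x : Cfg ds) : S'.Q β u x = 0 := by
  have h1 : u = fun _ => 0 := funext hu
  unfold Setup.Q pd
  rw [h1]
  simp

/-! ## the vacuum projection commutes with the fermions of `h` -/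

section

variable [FiniteDimensional ℂ F] (S : Setup d F) (φ : Spl dh dm d) (ψ : Spl ds dz dh)

lemma sp_comm {K : Submodule ℂ F} {T : F →L[ℂ] F} (hT : ∀ v w : F, inner ℂ (T v) w = inner ℂ v (T w))
    (hK : ∀ v ∈ K, T v ∈ K) (u : F) : K.starProjection (T u) = T (K.starProjection u) := by
  refine Submodule.eq_starProjection_of_mem_of_inner_eq_zero (hK _ (K.starProjection_apply_mem u)) fun w hw => ?_
  rw [← map_sub, hT]
  exact K.starProjection_inner_eq_zero u _ (hK w hw)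

lemma Pz_th (h0 : F0Stmt S φ) (yz : Cfg dz) (α : Fin 16) (A : Fin dh) (u : F) :
    Pz S φ ψ yz (S.th α (φ (Sum.inl A)) u) = S.th α (φ (Sum.inl A)) (Pz S φ ψ yz u) :=
  sp_comm (S.th_sa α _) ((h0 _ _).1 α A) u

lemma Pz_vec (h0 : F0Stmt S φ) (yz : Cfg dz) (N : Matrix (Fin 16) (Fin 16) ℂ) (β : Fin 16) (A : Fin dh) (u : F) :
    Pz S φ ψ yz (S.vec N (φ (Sum.inl A)) β u) = S.vec N (φ (Sum.inl A)) β (Pz S φ ψ yz u) := by
  unfold CS.vec
  simp only [_root_.sum_apply, _root_.smul_apply, map_sum, map_smul, Pz_th S φ ψ h0]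

/-! ## the functional `∫ gn Pz f` -/

/-- the slice functional -/
noncomputable def lf (yz : Cfg dz) (f : Wsp dm → F) : F :=
  ∫ w, ((gn S φ ψ yz w : ℝ) : ℂ) • Pz S φ ψ yz (f w)

lemma sec_lf (v : Cfg dh → Wsp dm → F) (yz : Cfg dz) (ys : Cfg ds) :
    sec S φ ψ v yz ys = lf S φ ψ yz (v (cmb ψ ys yz)) := rfl

lemma lf_int {yz : Cfg dz} (hg : Continuous fun w => gn S φ ψ yz w) {f : Wsp dm → F} (hf : Continuous f)
    (hc : HasCompactSupport f) : Integrable (fun w => ((gn S φ ψ yz w : ℝ) : ℂ) • Pz S φ ψ yz (f w)) := by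
  have c : Continuous (fun w => ((gn S φ ψ yz w : ℝ) : ℂ) • Pz S φ ψ yz (f w)) :=
    (Complex.continuous_ofReal.comp hg).smul ((Pz S φ ψ yz).continuous.comp hf)
  have s1 : HasCompactSupport (fun w => Pz S φ ψ yz (f w)) := hc.comp_left (map_zero _)
  have s : HasCompactSupport (fun w => ((gn S φ ψ yz w : ℝ) : ℂ) • Pz S φ ψ yz (f w)) := s1.smul_left
  exact c.integrable_of_hasCompactSupport s

lemma lf_add {yz : Cfg dz} (hg : Continuous fun w => gn S φ ψ yz w) {f g : Wsp dm → F}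
    (hf : Continuous f ∧ HasCompactSupport f) (hf' : Continuous g ∧ HasCompactSupport g) :
    lf S φ ψ yz (fun w => f w + g w) = lf S φ ψ yz f + lf S φ ψ yz g := by
  unfold lf
  rw [← integral_add (lf_int S φ ψ hg hf.1 hf.2) (lf_int S φ ψ hg hf'.1 hf'.2)]
  simp only [map_add, smul_add]

/-- continuous with compact support -/
def CC (f : Wsp dm → F) : Prop := Continuous f ∧ HasCompactSupport f

omit [FiniteDimensional ℂ F] in
lemma CC.smul {f : Wsp dm → F} (h : CC f) (c : ℂ) : CC (fun w => c • f w) :=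
  ⟨h.1.const_smul c, h.2.comp_left (g := fun x : F => c • x) (smul_zero c)⟩

omit [FiniteDimensional ℂ F] in
lemma CC.clm {f : Wsp dm → F} (h : CC f) (T : F →L[ℂ] F) : CC (fun w => T (f w)) :=
  ⟨T.continuous.comp h.1, h.2.comp_left (map_zero T)⟩

omit [FiniteDimensional ℂ F] in
lemma CC.add {f g : Wsp dm → F} (h : CC f) (h' : CC g) : CC (fun w => f w + g w) :=
  ⟨h.1.add h'.1, h.2.add h'.2⟩

omit [FiniteDimensional ℂ F] in
lemma CC.sum {ι : Type*} (t : Finset ι) {f : ι → Wsp dm → F} (h : ∀ i, CC (f i)) : CC (fun w => ∑ i ∈ t, f i w) := by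
  classical
  induction t using Finset.induction_on with
  | empty =>
    simp only [Finset.sum_empty]
    exact ⟨continuous_const, HasCompactSupport.zero⟩
  | insert k t hk ih =>
    simp only [Finset.sum_insert hk]
    exact (h k).add ih

omit [FiniteDimensional ℂ F] in
lemma cc_slice {v : Cfg dh → Wsp dm → F} (hv : Tst2 v) (y : Cfg dh) : CC (v y) :=
  ⟨(slice_facts hv y).1, (slice_facts hv y).2.1⟩

lemma lf_sum {ι : Type*} (t : Finset ι) {yz : Cfg dz} (hg : Continuous fun w => gn S φ ψ yz w)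
    {f : ι → Wsp dm → F} (hf : ∀ i, CC (f i)) :
    lf S φ ψ yz (fun w => ∑ i ∈ t, f i w) = ∑ i ∈ t, lf S φ ψ yz (f i) := by
  unfold lf
  rw [← integral_finsetSum _ fun i _ => lf_int S φ ψ hg (hf i).1 (hf i).2]
  simp only [map_sum, Finset.smul_sum]

lemma lf_smul (yz : Cfg dz) (c : ℂ) (f : Wsp dm → F) :
    lf S φ ψ yz (fun w => c • f w) = c • lf S φ ψ yz f := by
  unfold lf
  rw [← integral_smul]
  refine integral_congr_ae (Eventually.of_forall fun w => ?_)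
  simp only [map_smul]
  rw [smul_comm]

lemma lf_clm {yz : Cfg dz} (hg : Continuous fun w => gn S φ ψ yz w) {f : Wsp dm → F} (hf : CC f)
    (T : F →L[ℂ] F) (hT : ∀ u, Pz S φ ψ yz (T u) = T (Pz S φ ψ yz u)) :
    lf S φ ψ yz (fun w => T (f w)) = T (lf S φ ψ yz f) := by
  unfold lf
  rw [← ContinuousLinearMap.integral_comp_comm T (lf_int S φ ψ hg hf.1 hf.2)]
  refine integral_congr_ae (Eventually.of_forall fun w => ?_)
  simp only [hT, map_smul]

/-- the kernel in the variables `(ys, w)` -/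
lemma secK_ys {v : Cfg dh → Wsp dm → F} (hsm : ContDiff ℝ ∞ (secK S φ ψ v))
    (hcs : HasCompactSupport (secK S φ ψ v)) (yz : Cfg dz) :
    ContDiff ℝ ∞ (fun p : Cfg ds × Wsp dm => secK S φ ψ v ((yz, p.1), p.2)) ∧
    HasCompactSupport (fun p : Cfg ds × Wsp dm => secK S φ ψ v ((yz, p.1), p.2)) := by
  refine ⟨hsm.comp ((contDiff_const.prodMk contDiff_fst).prodMk contDiff_snd), ?_⟩
  refine HasCompactSupport.intro
    (K := (fun q : (Cfg dz × Cfg ds) × Wsp dm => (q.1.2, q.2)) '' tsupport (secK S φ ψ v))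
    (hcs.isCompact.image (continuous_fst.snd.prodMk continuous_snd)) fun p hp => ?_
  exact image_eq_zero_of_notMem_tsupport fun h => hp ⟨((yz, p.1), p.2), h, rfl⟩

lemma secK_pdys {v : Cfg dh → Wsp dm → F} (hv : Tst2 v) (yz : Cfg dz) (ys : Cfg ds) (w : Wsp dm) (i : Fin 9)
    (A : Fin ds) : fderiv ℝ (fun ys => secK S φ ψ v ((yz, ys), w)) ys (EuclideanSpace.single (i, A) 1) =
      secK S φ ψ (py i (ψ (Sum.inl A)) v) ((yz, ys), w) := by
  set T : F →L[ℝ] F := (((gn S φ ψ yz w : ℝ) : ℂ) • Pz S φ ψ yz).restrictScalars ℝ with hT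
  have h1 : (fun ys => secK S φ ψ v ((yz, ys), w)) = fun ys => T (v (cmb ψ ys yz) w) := by
    funext ys
    rfl
  have h2 : ContDiff ℝ ∞ (fun y => v y w) := sq873_sl hv w
  have h3 : DifferentiableAt ℝ (fun ys => v (cmb ψ ys yz) w) ys :=
    ((h2.comp (sq873_contDiff ψ yz)).differentiable (by simp)) ys
  have h5 : HasFDerivAt (fun ys => T (v (cmb ψ ys yz) w)) (T.comp (fderiv ℝ (fun ys => v (cmb ψ ys yz) w) ys)) ys :=
    T.hasFDerivAt.comp ys h3.hasFDerivAt
  rw [h1, h5.fderiv, ContinuousLinearMap.comp_apply]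
  have h4 := sq873_pd ψ (u := fun y => v y w) h2 i A yz ys
  unfold pd at h4
  rw [h4]
  rfl

end

section

variable [FiniteDimensional ℂ F] {S : Setup d F} {φ : Spl dh dm d} {ψ : Spl ds dz dh} {z₀ : Cfg dz}
  {ε₀ c Cg B : ℝ} (V : VacD S φ ψ z₀ ε₀ c Cg B) {R : ℝ} (hR : 0 < R) {v : Cfg dh → Wsp dm → F} (hv : Tst2 v)
  (hs : Sup2 (cmb ψ 0 z₀) ε₀ R v) {yz : Cfg dz}

include V hR hv hs

lemma VacD.sec_pds (i : Fin 9) (A : Fin ds) (yz : Cfg dz) (ys : Cfg ds) :
    pd i A (sec S φ ψ v yz) ys = sec S φ ψ (py i (ψ (Sum.inl A)) v) yz ys := by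
  obtain ⟨h1, h2⟩ := secK_ys S φ ψ (V.smooth hR hv hs) (secK_hcs S φ ψ hv) yz
  have h3 := par_deriv (P := Cfg ds) (W := Wsp dm) volume h1 h2 ys (EuclideanSpace.single (i, A) 1)
  refine h3.trans ?_
  refine integral_congr_ae (Eventually.of_forall fun w => ?_)
  exact secK_pdys S φ ψ hv yz ys w i A

omit V hR hv hs in
lemma sec_out (hs : Sup2 (cmb ψ 0 z₀) ε₀ R v) (hyz : ¬ ‖yz - R • z₀‖ ≤ ε₀ * R) (ys : Cfg ds) (w : Wsp dm) :
    v (cmb ψ ys yz) w = 0 := by
  by_contra h5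
  exact hyz (sup_cmb hs h5).2.1

omit V hR hs in
lemma lf_L (hg : Continuous fun w => gn S φ ψ yz w) (h0 : F0Stmt S φ) (h : Std2 S φ ψ z₀) (β : Fin 16) (y : Cfg dh) :
    lf S φ ψ yz (fun w => sq873_L h β v y w) =
      (∑ i, ∑ A, (-Complex.I) • S.vec (S.g i) (φ (Sum.inl (ψ (Sum.inl A)))) β
        (lf S φ ψ yz (py i (ψ (Sum.inl A)) v y))) +
      ∑ A, ∑ i, ∑ j, (((1 / 2) * h.ss.FF A i j (sp ψ y) : ℝ) : ℂ) •
      S.vec (S.g2 i j) (φ (Sum.inl (ψ (Sum.inl A)))) β (lf S φ ψ yz (v y)) := by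
  have c1 : CC (v y) := cc_slice hv y
  have c2 : ∀ i A, CC (py i (ψ (Sum.inl A)) v y) := fun i A => cc_slice ((AN.calcA dh dm F).py _ _ v hv) y
  unfold sq873_L
  rw [lf_add S φ ψ hg (CC.sum _ fun i => CC.sum _ fun A => ((c2 i A).clm _).smul _)
    (CC.sum _ fun A => CC.sum _ fun i => CC.sum _ fun j => (c1.clm _).smul _)]
  congr 1
  · rw [lf_sum S φ ψ _ hg fun i => CC.sum _ fun A => ((c2 i A).clm _).smul _]
    refine Finset.sum_congr rfl fun i _ => ?_
    rw [lf_sum S φ ψ _ hg fun A => ((c2 i A).clm _).smul _]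
    refine Finset.sum_congr rfl fun A _ => ?_
    rw [lf_smul, lf_clm S φ ψ hg (c2 i A) _ (Pz_vec S φ ψ h0 yz _ _ _)]
  · rw [lf_sum S φ ψ _ hg fun A => CC.sum _ fun i => CC.sum _ fun j => (c1.clm _).smul _]
    refine Finset.sum_congr rfl fun A _ => ?_
    rw [lf_sum S φ ψ _ hg fun i => CC.sum _ fun j => (c1.clm _).smul _]
    refine Finset.sum_congr rfl fun i _ => ?_
    rw [lf_sum S φ ψ _ hg fun j => (c1.clm _).smul _]
    refine Finset.sum_congr rfl fun j _ => ?_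
    rw [lf_smul, lf_clm S φ ψ hg c1 _ (Pz_vec S φ ψ h0 yz _ _ _)]

/-- `Q^s_β (sec v yz) = sec (Qss β v) yz` -/
lemma VacD.sec_Q (h0 : F0Stmt S φ) (h : Std2 S φ ψ z₀) (β : Fin 16) (yz : Cfg dz) (ys : Cfg ds) :
    h.ss.Q β (sec S φ ψ v yz) ys = sec S φ ψ (Qss h β v) yz ys := by
  by_cases hyz : ‖yz - R • z₀‖ ≤ ε₀ * R
  · have hg := gn_cont S φ ψ V.hg (V.hU R hR yz hyz)
    have e1 : sec S φ ψ (Qss h β v) yz ys = lf S φ ψ yz (fun w => sq873_L h β v (cmb ψ ys yz) w) := by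
      rw [sec_lf, sq873_Qss_eq h β hv]
    rw [e1, lf_L hv hg h0 h β]
    unfold Setup.Q Setup.W
    simp only [V.sec_pds hR hv hs, sq873_sp, Finset.smul_sum, _root_.sum_apply, _root_.smul_apply, smul_smul]
    congr 1
    refine Finset.sum_congr rfl fun A _ => Finset.sum_congr rfl fun i _ => Finset.sum_congr rfl fun j _ => ?_
    push_cast
    rfl
  · have h1 : ∀ ys w, v (cmb ψ ys yz) w = 0 := sec_out hs hyz
    have h2 : ∀ ys, sec S φ ψ v yz ys = 0 := by
      intro ys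
      unfold sec
      simp [h1]
    have h3 : ∀ w, Qss h β v (cmb ψ ys yz) w = 0 := by
      intro w
      unfold Qss
      refine Q_zero h.ss β _ (fun ys => ?_) _
      rw [sq873_zp]
      exact h1 ys w
    have h4 : sec S φ ψ (Qss h β v) yz ys = 0 := by
      unfold sec
      simp [h3]
    rw [h4]
    exact Q_zero h.ss β _ h2 ys

omit V hR hs in
lemma tst2_Qss (h : Std2 S φ ψ z₀) (β : Fin 16) : Tst2 (Qss h β v) :=
  (sq873_Sm_Qss (AN.calcA dh dm F) (AN.calcB dh dm F (AN.calcA dh dm F)) h β).1 v hv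

/-- item (5) -/
lemma VacD.sec_en (h0 : F0Stmt S φ) (h : Std2 S φ ψ z₀) (yz : Cfg dz) :
    En h.ss (sec S φ ψ v yz) ≤ ∑ β, ∫ ys, nsf (Qss h β v (cmb ψ ys yz)) := by
  unfold En
  refine Finset.sum_le_sum fun β _ => ?_
  have e : h.ss.Q β (sec S φ ψ v yz) = sec S φ ψ (Qss h β v) yz := funext fun ys => V.sec_Q hR hv hs h0 h β yz ys
  rw [e]
  exact V.sec_nsq hR (tst2_Qss hv h β) (sup2_Qss h hv hs β) yz

end

end Vale.Agent.P353.Z.AD
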