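import Vale.Agent.P353.AN.D.SecG

/-! # P353, all `N`, block D, L9: item (3) of `SecStmt`, algebraic part (helper221) -/

open MeasureTheory Filter Topology Matrix
open scoped ContDiff

set_option linter.unusedSectionVars false

namespace Vale.Agent.P353.Z.AD

variable {d dh dm ds dz r : ℕ} {F : Type*} [NormedAddCommGroup F] [InnerProductSpace ℂ F]

/-! ## structure constants at a standard position -/

/-- the matrix `(f_{CBE})` on `m` -/
def adC (S : Setup d F) (φ : Spl dh dm d) (C : Fin dh) : Matrix (Fin dm) (Fin dm) ℝ :=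
  Matrix.of fun B E => S.f (φ (Sum.inl C)) (φ (Sum.inr B)) (φ (Sum.inr E))

lemma adC_anti (S : Setup d F) (φ : Spl dh dm d) (C : Fin dh) : (adC S φ C)ᵀ = -adC S φ C := by
  ext B E
  exact S.f_swap' _ _ _

lemma sum_phi (φ : Spl dh dm d) {M : Type*} [AddCommMonoid M] (g : Fin d → M) :
    ∑ A, g A = (∑ a, g (φ (Sum.inl a))) + ∑ b, g (φ (Sum.inr b)) := by
  rw [← φ.sum_comp, Fintype.sum_sum_type]

section alg

variable {S : Setup d F} {φ : Spl dh dm d} {ψ : Spl ds dz dh} {z₀ : Cfg dz}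

/-- Jacobi identity with a central element -/
lemma jac_cen (h : Std2 S φ ψ z₀) (C : Fin dh) (b : Fin dz) (P Q : Fin dm) :
    ∑ E : Fin dm, S.f (φ (Sum.inl C)) (φ (Sum.inr P)) (φ (Sum.inr E)) *
        S.f (φ (Sum.inr E)) (φ (Sum.inl (ψ (Sum.inr b)))) (φ (Sum.inr Q)) =
      ∑ E : Fin dm, S.f (φ (Sum.inr P)) (φ (Sum.inl (ψ (Sum.inr b)))) (φ (Sum.inr E)) *
        S.f (φ (Sum.inl C)) (φ (Sum.inr E)) (φ (Sum.inr Q)) := by
  have hS := h.std.sub
  have hj := S.f_jac (φ (Sum.inl C)) (φ (Sum.inr P)) (φ (Sum.inl (ψ (Sum.inr b)))) (φ (Sum.inr Q))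
  rw [sum_phi φ] at hj
  have h1 : ∀ E : Fin dh, S.f (φ (Sum.inl C)) (φ (Sum.inr P)) (φ (Sum.inl E)) = 0 := by
    intro E
    rw [← S.f_cyc (φ (Sum.inl E)) (φ (Sum.inl C)) (φ (Sum.inr P))]
    exact hS _ _ _
  have h2 : ∀ E : Fin dh, S.f (φ (Sum.inr P)) (φ (Sum.inl (ψ (Sum.inr b)))) (φ (Sum.inl E)) = 0 := by
    intro E
    rw [S.f_cyc]
    exact hS _ _ _
  have h3 : ∀ E : Fin dh, S.f (φ (Sum.inl (ψ (Sum.inr b)))) (φ (Sum.inl C)) (φ (Sum.inl E)) = 0 := fun E => h.cen _ _ _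
  have h4 : ∀ E : Fin dm, S.f (φ (Sum.inl (ψ (Sum.inr b)))) (φ (Sum.inl C)) (φ (Sum.inr E)) = 0 := fun E => hS _ _ _
  have h5 : ∀ E : Fin dm, S.f (φ (Sum.inr E)) (φ (Sum.inl C)) (φ (Sum.inr Q)) =
      -S.f (φ (Sum.inl C)) (φ (Sum.inr E)) (φ (Sum.inr Q)) := fun E => S.f_swap _ _ _
  simp only [h1, h2, h3, h4, h5, zero_mul, add_zero, Finset.sum_const_zero, zero_add, Finset.sum_add_distrib,
    mul_neg, Finset.sum_neg_distrib] at hj
  linarith

lemma Dz_apply (S : Setup d F) (φ : Spl dh dm d) (ψ : Spl ds dz dh) (yz : Cfg dz) (i : Fin 9) (P Q : Fin dm) :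
    Dz S φ ψ yz i P Q = ∑ b, S.f (φ (Sum.inr P)) (φ (Sum.inl (ψ (Sum.inr b)))) (φ (Sum.inr Q)) * yz (i, b) := by
  change ∑ A, S.f (φ (Sum.inr P)) (φ (Sum.inl A)) (φ (Sum.inr Q)) * (cmb ψ 0 yz) (i, A) = _
  rw [sq873_split ψ]
  simp only [cmb_inl, cmb_inr, PiLp.zero_apply, mul_zero, Finset.sum_const_zero, zero_add]

lemma adC_comm (h : Std2 S φ ψ z₀) (C : Fin dh) (yz : Cfg dz) (i : Fin 9) :
    adC S φ C * Dz S φ ψ yz i = Dz S φ ψ yz i * adC S φ C := by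
  ext P Q
  rw [Matrix.mul_apply, Matrix.mul_apply]
  simp only [Dz_apply, adC, Matrix.of_apply]
  have e1 : ∑ E, S.f (φ (Sum.inl C)) (φ (Sum.inr P)) (φ (Sum.inr E)) *
      ∑ b, S.f (φ (Sum.inr E)) (φ (Sum.inl (ψ (Sum.inr b)))) (φ (Sum.inr Q)) * yz (i, b) =
      ∑ b, (∑ E : Fin dm, S.f (φ (Sum.inl C)) (φ (Sum.inr P)) (φ (Sum.inr E)) *
        S.f (φ (Sum.inr E)) (φ (Sum.inl (ψ (Sum.inr b)))) (φ (Sum.inr Q))) * yz (i, b) := by
    simp only [Finset.mul_sum, Finset.sum_mul]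
    rw [Finset.sum_comm]
    refine Finset.sum_congr rfl fun b _ => Finset.sum_congr rfl fun E _ => ?_
    ring
  have e2 : ∑ E, (∑ b, S.f (φ (Sum.inr P)) (φ (Sum.inl (ψ (Sum.inr b)))) (φ (Sum.inr E)) * yz (i, b)) *
      S.f (φ (Sum.inl C)) (φ (Sum.inr E)) (φ (Sum.inr Q)) =
      ∑ b, (∑ E : Fin dm, S.f (φ (Sum.inr P)) (φ (Sum.inl (ψ (Sum.inr b)))) (φ (Sum.inr E)) *
        S.f (φ (Sum.inl C)) (φ (Sum.inr E)) (φ (Sum.inr Q))) * yz (i, b) := by
    simp only [Finset.sum_mul]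
    rw [Finset.sum_comm]
    refine Finset.sum_congr rfl fun b _ => Finset.sum_congr rfl fun E _ => ?_
    ring
  rw [e1, e2]
  refine Finset.sum_congr rfl fun b _ => ?_
  rw [jac_cen h]

/-! ## spin part -/

/-- `m` part of the spin generator (without the factor) -/
noncomputable def cM (S : Setup d F) (φ : Spl dh dm d) (C : Fin dh) : F →L[ℂ] F :=
  ∑ α, ∑ B, ∑ E, ((adC S φ C B E : ℝ) : ℂ) • (S.th α (φ (Sum.inr B)) * S.th α (φ (Sum.inr E)))

lemma cM_apply (S : Setup d F) (φ : Spl dh dm d) (C : Fin dh) (u : F) : cM S φ C u =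
    ∑ α, ∑ B, ∑ E, ((adC S φ C B E : ℝ) : ℂ) • S.th α (φ (Sum.inr B)) (S.th α (φ (Sum.inr E)) u) := by
  unfold cM
  simp only [_root_.sum_apply, _root_.smul_apply]
  rfl

lemma cM_anti (S : Setup d F) (φ : Spl dh dm d) (C : Fin dh) (u x : F) :
    inner ℂ (cM S φ C u) x = -inner ℂ u (cM S φ C x) := by
  rw [cM_apply, cM_apply]
  simp only [sum_inner, inner_sum, inner_smul_left, inner_smul_right, Complex.conj_ofReal, S.th_sa]
  rw [← Finset.sum_neg_distrib]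
  refine Finset.sum_congr rfl fun α _ => ?_
  rw [Finset.sum_comm, ← Finset.sum_neg_distrib]
  refine Finset.sum_congr rfl fun B _ => ?_
  rw [← Finset.sum_neg_distrib]
  refine Finset.sum_congr rfl fun E _ => ?_
  have h1 : adC S φ C E B = -adC S φ C B E := congrFun (congrFun (adC_anti S φ C) B) E
  rw [h1]
  push_cast
  ring

variable [FiniteDimensional ℂ F]

lemma Pz_cM (h : Std2 S φ ψ z₀) (hv : VacSpinStmt S φ) {yz : Cfg dz} (hD : Frz (Dz S φ ψ yz))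
    (hO : IsOm S.κ (Dz S φ ψ yz) (omc S.κ (Dz S φ ψ yz))) (C : Fin dh) (u : F) :
    Pz S φ ψ yz (cM S φ C u) = 0 := by
  unfold Pz
  rw [Submodule.starProjection_apply_eq_zero_iff, Submodule.mem_orthogonal']
  intro x hx
  have h1 : cM S φ C x = 0 := by
    rw [cM_apply]
    exact hv _ _ hD hO _ (adC_anti S φ C) (adC_comm h C yz) x hx
  rw [cM_anti, h1, inner_zero_right, neg_zero]

omit [FiniteDimensional ℂ F] in
lemma bil_one (S : Setup d F) (A B : Fin d) : S.bil 1 A B = ∑ α, S.th α A * S.th α B := by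
  unfold CS.bil
  simp only [CS.vec_one]

omit [FiniteDimensional ℂ F] in
/-- splitting of the spin generator -/
lemma cS_split (h : Std2 S φ ψ z₀) (c : Fin ds) : S.cS (φ (Sum.inl (ψ (Sum.inl c)))) =
    h.ss.cS c + (-Complex.I / 2) • cM S φ (ψ (Sum.inl c)) := by
  have hS := h.std.sub
  have g1 : ∀ (D : Fin dh) (E : Fin dm), S.f (φ (Sum.inl (ψ (Sum.inl c)))) (φ (Sum.inl D)) (φ (Sum.inr E)) = 0 :=
    fun D E => hS _ _ _
  have g2 : ∀ (D : Fin dm) (E : Fin dh), S.f (φ (Sum.inl (ψ (Sum.inl c)))) (φ (Sum.inr D)) (φ (Sum.inl E)) = 0 := by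
    intro D E
    rw [S.f_swap', hS, neg_zero]
  have g3 : ∀ (D : Fin dz) (E : Fin dh), S.f (φ (Sum.inl (ψ (Sum.inl c)))) (φ (Sum.inl (ψ (Sum.inr D)))) (φ (Sum.inl E)) = 0 := by
    intro D E
    rw [S.f_swap, h.cen, neg_zero]
  have g4 : ∀ (D : Fin dh) (E : Fin dz), S.f (φ (Sum.inl (ψ (Sum.inl c)))) (φ (Sum.inl D)) (φ (Sum.inl (ψ (Sum.inr E)))) = 0 := by
    intro D E
    rw [S.f_swap', g3, neg_zero]
  have e1 : ∑ D, ∑ E, (S.f (φ (Sum.inl (ψ (Sum.inl c)))) D E : ℂ) • S.bil 1 D E =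
      (∑ D, ∑ E, (h.ss.f c D E : ℂ) • h.ss.bil 1 D E) + cM S φ (ψ (Sum.inl c)) := by
    rw [sum_phi φ]
    simp only [sum_phi φ (M := F →L[ℂ] F), g1, g2, Complex.ofReal_zero, zero_smul, Finset.sum_const_zero, add_zero,
      zero_add]
    congr 1
    · rw [sq873_sum ψ]
      · refine Finset.sum_congr rfl fun D _ => ?_
        rw [sq873_sum ψ]
        · rfl
        · intro E
          rw [g4, Complex.ofReal_zero, zero_smul]
      · intro D
        simp only [g3, Complex.ofReal_zero, zero_smul, Finset.sum_const_zero]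
    · unfold cM
      simp only [bil_one, Finset.smul_sum]
      refine Finset.sum_comm_cycle.trans ?_
      rfl
  unfold Setup.cS
  rw [e1, smul_add]

lemma Pz_ss (h : Std2 S φ ψ z₀) (h0 : F0Stmt S φ) (yz : Cfg dz) (c : Fin ds) (u : F) :
    Pz S φ ψ yz (h.ss.cS c u) = h.ss.cS c (Pz S φ ψ yz u) := by
  have e1 : ∀ (D E : Fin ds) (u : F), h.ss.bil 1 D E u =
      ∑ α, S.th α (φ (Sum.inl (ψ (Sum.inl D)))) (S.th α (φ (Sum.inl (ψ (Sum.inl E)))) u) := by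
    intro D E u
    rw [bil_one, _root_.sum_apply]
    rfl
  unfold Setup.cS
  simp only [_root_.sum_apply, _root_.smul_apply, map_sum, map_smul, e1, Pz_th S φ ψ h0]

omit [FiniteDimensional ℂ F] in
/-- splitting of the gauge generator of `s` -/
lemma Gh_split (h : Std2 S φ ψ z₀) (c : Fin ds) (v : Cfg dh → Wsp dm → F) (y : Cfg dh) (w : Wsp dm) :
    AN.Gh S φ (ψ (Sum.inl c)) v y w =
      (∑ i, ∑ a, ∑ b, (-Complex.I * (h.ss.f c a b * (sp ψ y (i, a)) : ℝ)) • py i (ψ (Sum.inl b)) v y w) +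
      (-Complex.I) • (∑ j, ∑ A, ∑ B, ((adC S φ (ψ (Sum.inl c)) A B * w (j, A) : ℝ) : ℂ) • pf j B (v y) w) +
      (h.ss.cS c (v y w) + (-Complex.I / 2) • cM S φ (ψ (Sum.inl c)) (v y w)) := by
  have g3 : ∀ (D : Fin dz) (E : Fin dh), S.f (φ (Sum.inl (ψ (Sum.inl c)))) (φ (Sum.inl (ψ (Sum.inr D)))) (φ (Sum.inl E)) = 0 := by
    intro D E
    rw [S.f_swap, h.cen, neg_zero]
  have g4 : ∀ (D : Fin dh) (E : Fin dz), S.f (φ (Sum.inl (ψ (Sum.inl c)))) (φ (Sum.inl D)) (φ (Sum.inl (ψ (Sum.inr E)))) = 0 := by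
    intro D E
    rw [S.f_swap', g3, neg_zero]
  have e1 : ∀ i : Fin 9, ∑ A, ∑ B, ((S.f (φ (Sum.inl (ψ (Sum.inl c)))) (φ (Sum.inl A)) (φ (Sum.inl B)) * y (i, A) : ℝ) : ℂ) •
      py i B v y w = ∑ a, ∑ b, ((h.ss.f c a b * (sp ψ y (i, a)) : ℝ) : ℂ) • py i (ψ (Sum.inl b)) v y w := by
    intro i
    rw [sq873_sum ψ]
    · refine Finset.sum_congr rfl fun a _ => ?_
      rw [sq873_sum ψ]
      · rfl
      · intro E
        rw [g4, zero_mul, Complex.ofReal_zero, zero_smul]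
    · intro D
      simp only [g3, zero_mul, Complex.ofReal_zero, zero_smul, Finset.sum_const_zero]
  unfold AN.Gh
  rw [cS_split h, _root_.add_apply, _root_.smul_apply]
  congr 2
  simp only [e1, Finset.smul_sum, smul_smul]

end alg

end Vale.Agent.P353.Z.AD
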