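import Vale.Agent.P353.AN.D.SecH

/-! # P353, all `N`, block D, L9: item (3) of `SecStmt` (Gauss law) (helper221) -/

open MeasureTheory Filter Topology Matrix
open scoped ContDiff

set_option linter.unusedSectionVars false

namespace Vale.Agent.P353.Z.AD

variable {d dh dm ds dz r : ℕ} {F : Type*} [NormedAddCommGroup F] [InnerProductSpace ℂ F]

lemma CC.mulr {f : Wsp dm → F} (h : CC f) {g : Wsp dm → ℝ} (hg : Continuous g) :
    CC (fun w => ((g w : ℝ) : ℂ) • f w) :=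
  ⟨(Complex.continuous_ofReal.comp hg).smul h.1, h.2.smul_left⟩

/-- the rotation in `w` -/
noncomputable def rotP (S : Setup d F) (φ : Spl dh dm d) (C : Fin dh) (f : Wsp dm → F) (w : Wsp dm) : F :=
  ∑ j, ∑ A, ∑ B, ((adC S φ C A B * w (j, A) : ℝ) : ℂ) • pf j B f w

lemma cc_rot (S : Setup d F) (φ : Spl dh dm d) {v : Cfg dh → Wsp dm → F} (hv : Tst2 v) (C : Fin dh) (y : Cfg dh) :
    CC (rotP S φ C (v y)) := by
  unfold rotP
  refine CC.sum _ fun j => CC.sum _ fun A => CC.sum _ fun B => ?_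
  have h1 : CC (pw j B v y) := cc_slice ((AN.calcA dh dm F).pw j B v hv) y
  have h2 : Continuous fun w : Wsp dm => adC S φ C A B * w (j, A) := by fun_prop
  exact h1.mulr h2

section

variable [FiniteDimensional ℂ F] {S : Setup d F} {φ : Spl dh dm d} {ψ : Spl ds dz dh} {z₀ : Cfg dz}
  {v : Cfg dh → Wsp dm → F} (hv : Tst2 v) {yz : Cfg dz}

lemma lf_eq (hg : Continuous fun w => gn S φ ψ yz w) {f : Wsp dm → F} (hf : CC f) :
    lf S φ ψ yz f = Pz S φ ψ yz (∫ w, ((gn S φ ψ yz w : ℝ) : ℂ) • f w) := by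
  have c1 : CC (fun w => ((gn S φ ψ yz w : ℝ) : ℂ) • f w) := hf.mulr hg
  have i1 : Integrable (fun w => ((gn S φ ψ yz w : ℝ) : ℂ) • f w) := c1.1.integrable_of_hasCompactSupport c1.2
  rw [← ContinuousLinearMap.integral_comp_comm _ i1]
  unfold lf
  simp only [map_smul]

include hv

lemma lf_Gh (hg : Continuous fun w => gn S φ ψ yz w) (h0 : F0Stmt S φ) (hV : VacSpinStmt S φ) (h : Std2 S φ ψ z₀)
    (hD : Frz (Dz S φ ψ yz)) (hO : IsOm S.κ (Dz S φ ψ yz) (omc S.κ (Dz S φ ψ yz)))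
    (hrot : ∀ (C : Fin dh) (f : Wsp dm → F), FT f → ∫ w, ((gn S φ ψ yz w : ℝ) : ℂ) • rotP S φ C f w = 0)
    (c : Fin ds) (y : Cfg dh) :
    lf S φ ψ yz (fun w => AN.Gh S φ (ψ (Sum.inl c)) v y w) =
      (∑ i, ∑ a, ∑ b, (-Complex.I * (h.ss.f c a b * (sp ψ y (i, a)) : ℝ)) • lf S φ ψ yz (py i (ψ (Sum.inl b)) v y)) +
      h.ss.cS c (lf S φ ψ yz (v y)) := by
  have c1 : CC (v y) := cc_slice hv y
  have c2 : ∀ i A, CC (py i (ψ (Sum.inl A)) v y) := fun i A => cc_slice ((AN.calcA dh dm F).py _ _ v hv) y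
  have c3 : CC (rotP S φ (ψ (Sum.inl c)) (v y)) := cc_rot S φ hv _ y
  have e0 : (fun w => AN.Gh S φ (ψ (Sum.inl c)) v y w) = fun w =>
      ((∑ i, ∑ a, ∑ b, (-Complex.I * (h.ss.f c a b * (sp ψ y (i, a)) : ℝ)) • py i (ψ (Sum.inl b)) v y w) +
      (-Complex.I) • rotP S φ (ψ (Sum.inl c)) (v y) w) +
      (h.ss.cS c (v y w) + (-Complex.I / 2) • cM S φ (ψ (Sum.inl c)) (v y w)) := by
    funext w
    exact Gh_split h c v y w
  have d1 : CC (fun w => ∑ i, ∑ a, ∑ b, (-Complex.I * (h.ss.f c a b * (sp ψ y (i, a)) : ℝ)) • py i (ψ (Sum.inl b)) v y w) :=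
    CC.sum _ fun i => CC.sum _ fun a => CC.sum _ fun b => (c2 i b).smul _
  have d2 : CC (fun w => (-Complex.I) • rotP S φ (ψ (Sum.inl c)) (v y) w) := c3.smul _
  have d3 : CC (fun w => h.ss.cS c (v y w)) := c1.clm _
  have d4 : CC (fun w => (-Complex.I / 2) • cM S φ (ψ (Sum.inl c)) (v y w)) := (c1.clm _).smul _
  have k1 : lf S φ ψ yz (fun w => ∑ i, ∑ a, ∑ b, (-Complex.I * (h.ss.f c a b * (sp ψ y (i, a)) : ℝ)) •
      py i (ψ (Sum.inl b)) v y w) =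
      ∑ i, ∑ a, ∑ b, (-Complex.I * (h.ss.f c a b * (sp ψ y (i, a)) : ℝ)) • lf S φ ψ yz (py i (ψ (Sum.inl b)) v y) := by
    rw [lf_sum S φ ψ _ hg fun i => CC.sum _ fun a => CC.sum _ fun b => (c2 i b).smul _]
    refine Finset.sum_congr rfl fun i _ => ?_
    rw [lf_sum S φ ψ _ hg fun a => CC.sum _ fun b => (c2 i b).smul _]
    refine Finset.sum_congr rfl fun a _ => ?_
    rw [lf_sum S φ ψ _ hg fun b => (c2 i b).smul _]
    refine Finset.sum_congr rfl fun b _ => ?_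
    rw [lf_smul]
  have k2 : lf S φ ψ yz (rotP S φ (ψ (Sum.inl c)) (v y)) = 0 := by
    rw [lf_eq hg c3, hrot _ _ ((AN.calcA dh dm F).slw v hv y), map_zero]
  have k4 : lf S φ ψ yz (fun w => cM S φ (ψ (Sum.inl c)) (v y w)) = 0 := by
    unfold lf
    simp only [Pz_cM h hV hD hO, smul_zero, integral_zero]
  rw [e0, lf_add S φ ψ hg (d1.add d2) (d3.add d4), lf_add S φ ψ hg d1 d2, lf_add S φ ψ hg d3 d4, k1, lf_smul, k2,
    lf_smul, k4, smul_zero, smul_zero, add_zero, add_zero, lf_clm S φ ψ hg c1 _ (Pz_ss h h0 yz c)]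

end

lemma pr_smooth (yz : Cfg dz) : ContDiff ℝ ∞ (fun ys : Cfg ds => ((yz, ys) : Cfg dz × Cfg ds)) :=
  contDiff_const.prodMk contDiff_id

lemma sl_smooth {G : Cfg dz → Cfg ds → F} (h : ContDiff ℝ ∞ (fun p : Cfg dz × Cfg ds => G p.1 p.2)) (yz : Cfg dz) :
    ContDiff ℝ ∞ (fun ys => G yz ys) := by
  have h1 := pr_smooth (ds := ds) yz
  exact h.comp h1

lemma G_zero (S' : Setup ds F) (c : Fin ds) (u : Cfg ds → F) (hu : ∀ x, u x = 0) (x : Cfg ds) : S'.G c u x = 0 := by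
  have h1 : u = fun _ => 0 := funext hu
  unfold Setup.G pd
  rw [h1]
  simp

section

variable [FiniteDimensional ℂ F] {S : Setup d F} {φ : Spl dh dm d} {ψ : Spl ds dz dh} {z₀ : Cfg dz}
  {ε₀ c Cg B : ℝ} (V : VacD S φ ψ z₀ ε₀ c Cg B) {R : ℝ} (hR : 0 < R) {v : Cfg dh → Wsp dm → F} (hv : Tst2 v)
  (hs : Sup2 (cmb ψ 0 z₀) ε₀ R v) {yz : Cfg dz}

include V hR hv hs

omit V hR hs in
lemma sec_sl_hcs (yz : Cfg dz) : HasCompactSupport (fun ys => sec S φ ψ v yz ys) := by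
  have h : HasCompactSupport (fun p : Cfg dz × Cfg ds => sec S φ ψ v p.1 p.2) := VacD.sec_hcs (ψ := ψ) hv S φ
  have hc : IsCompact (Prod.snd '' tsupport (fun p : Cfg dz × Cfg ds => sec S φ ψ v p.1 p.2)) :=
    h.isCompact.image continuous_snd
  refine HasCompactSupport.intro hc fun ys hys => ?_
  by_contra hne
  apply hys
  have h3 : ((yz, ys) : Cfg dz × Cfg ds) ∈ Function.support (fun p : Cfg dz × Cfg ds => sec S φ ψ v p.1 p.2) := hne
  exact ⟨(yz, ys), subset_tsupport _ h3, rfl⟩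

lemma VacD.sec_sl_smooth (yz : Cfg dz) : ContDiff ℝ ∞ (fun ys => sec S φ ψ v yz ys) := by
  exact sl_smooth (G := sec S φ ψ v) (V.sec_smooth hR hv hs) yz

lemma VacD.sec_tst (yz : Cfg dz) : Setup.Tst (sec S φ ψ v yz) :=
  ⟨V.sec_sl_smooth hR hv hs yz, sec_sl_hcs hv yz⟩

/-- item (3) -/
lemma VacD.sec_gauss (h0 : F0Stmt S φ) (hV : VacSpinStmt S φ) (h : Std2 S φ ψ z₀)
    (hF : ∀ yz ∈ UZ S φ ψ, Frz (Dz S φ ψ yz) ∧ IsOm S.κ (Dz S φ ψ yz) (omc S.κ (Dz S φ ψ yz)))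
    (hrot : ∀ yz ∈ UZ S φ ψ, ∀ (C : Fin dh) (f : Wsp dm → F), FT f →
      ∫ w, ((gn S φ ψ yz w : ℝ) : ℂ) • rotP S φ C f w = 0)
    (hG : ∀ C y w, AN.Gh S φ C v y w = 0) (yz : Cfg dz) : GInv h.ss (sec S φ ψ v yz) := by
  refine ⟨V.sec_tst hR hv hs yz, fun c ys => ?_⟩
  by_cases hyz : ‖yz - R • z₀‖ ≤ ε₀ * R
  · have hU := V.hU R hR yz hyz
    have hg := gn_cont S φ ψ V.hg hU
    have h1 := lf_Gh hv hg h0 hV h (hF yz hU).1 (hF yz hU).2 (hrot yz hU) c (cmb ψ ys yz)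
    have h2 : lf S φ ψ yz (fun w => AN.Gh S φ (ψ (Sum.inl c)) v (cmb ψ ys yz) w) = 0 := by
      unfold lf
      simp only [hG, map_zero, smul_zero, integral_zero]
    rw [h2] at h1
    rw [h1]
    unfold Setup.G
    simp only [V.sec_pds hR hv hs, sq873_sp, Finset.smul_sum, smul_smul]
    congr 1
    refine Finset.sum_congr rfl fun i _ => Finset.sum_congr rfl fun a _ => Finset.sum_congr rfl fun b _ => ?_
    push_cast
    rfl
  · have h1 : ∀ ys w, v (cmb ψ ys yz) w = 0 := sec_out hs hyz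
    have h2 : ∀ ys, sec S φ ψ v yz ys = 0 := by
      intro ys
      unfold sec
      simp [h1]
    exact G_zero h.ss c _ h2 ys

end

end Vale.Agent.P353.Z.AD
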