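import Vale.Agent.P353.AN.D.StmtL

/-! # P353, all `N`, block D: parametric integrals of compactly supported smooth functions (helper221) -/

open MeasureTheory Filter Topology
open scoped ContDiff

namespace Vale.Agent.P353.Z.AD

set_option linter.unusedSectionVars false

section par

variable {P W : Type} [NormedAddCommGroup P] [NormedSpace ℝ P]
  [NormedAddCommGroup W] [NormedSpace ℝ W] [FiniteDimensional ℝ W] [MeasurableSpace W] [BorelSpace W]
  (μ : Measure W) [IsFiniteMeasureOnCompacts μ]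

/-- the partial derivative in the parameter -/
lemma par_smooth {E : Type*} [NormedAddCommGroup E] [NormedSpace ℝ E] {Φ : P × W → E}
    (hΦ : ContDiff ℝ ∞ Φ) :
    ContDiff ℝ ∞ (fun q => (fderiv ℝ Φ q).comp (ContinuousLinearMap.inl ℝ P W)) :=
  (hΦ.fderiv_right (m := ∞) (by simp)).clm_comp contDiff_const

lemma par_supp {E : Type*} [NormedAddCommGroup E] [NormedSpace ℝ E] {Φ : P × W → E}
    (hc : HasCompactSupport Φ) :
    HasCompactSupport (fun q => (fderiv ℝ Φ q).comp (ContinuousLinearMap.inl ℝ P W)) := by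
  refine (hc.fderiv ℝ).comp_left (g := fun L : P × W →L[ℝ] E => L.comp (ContinuousLinearMap.inl ℝ P W)) ?_
  exact ContinuousLinearMap.zero_comp _

lemma par_int {E : Type*} [NormedAddCommGroup E] [NormedSpace ℝ E] {Φ : P × W → E}
    (hΦ : Continuous Φ) (hc : HasCompactSupport Φ) (p : P) : Integrable (fun w => Φ (p, w)) μ := by
  have h1 : Continuous fun w => Φ (p, w) := hΦ.comp (continuous_const.prodMk continuous_id)
  refine h1.integrable_of_hasCompactSupport ?_
  refine HasCompactSupport.intro (K := Prod.snd '' tsupport Φ) (hc.isCompact.image continuous_snd)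
    fun w hw => ?_
  exact image_eq_zero_of_notMem_tsupport fun h => hw ⟨(p, w), h, rfl⟩

lemma par_hasFDerivAt {E : Type*} [NormedAddCommGroup E] [NormedSpace ℝ E] {Φ : P × W → E}
    (hΦ : ContDiff ℝ ∞ Φ) (hc : HasCompactSupport Φ) (p₀ : P) :
    HasFDerivAt (fun p => ∫ w, Φ (p, w) ∂μ)
      (∫ w, (fderiv ℝ Φ (p₀, w)).comp (ContinuousLinearMap.inl ℝ P W) ∂μ) p₀ := by
  set Φ' : P × W → P →L[ℝ] E := fun q => (fderiv ℝ Φ q).comp (ContinuousLinearMap.inl ℝ P W) with hΦ'
  have hs : ContDiff ℝ ∞ Φ' := par_smooth hΦ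
  have hc' : HasCompactSupport Φ' := par_supp hc
  obtain ⟨M, hM⟩ := hc'.exists_bound_of_continuous hs.continuous
  set K₂ : Set W := Prod.snd '' tsupport Φ' with hK₂
  have hK : IsCompact K₂ := hc'.isCompact.image continuous_snd
  refine hasFDerivAt_integral_of_dominated_of_fderiv_le (F := fun p w => Φ (p, w))
    (F' := fun p w => Φ' (p, w)) (s := Set.univ) (bound := K₂.indicator fun _ => M) univ_mem
    (Eventually.of_forall fun p => ?_) (par_int μ hΦ.continuous hc p₀)
    (par_int μ hs.continuous hc' p₀).aestronglyMeasurable (Eventually.of_forall fun w p _ => ?_) ?_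
    (Eventually.of_forall fun w p _ => ?_)
  · exact (par_int μ hΦ.continuous hc p).aestronglyMeasurable
  · by_cases hw : w ∈ K₂
    · rw [Set.indicator_of_mem hw]
      exact hM _
    · rw [Set.indicator_of_notMem hw]
      have : Φ' (p, w) = 0 := image_eq_zero_of_notMem_tsupport fun h => hw ⟨(p, w), h, rfl⟩
      rw [this, norm_zero]
  · rw [integrable_indicator_iff hK.measurableSet]
    exact integrableOn_const (hK.measure_lt_top.ne)
  · have h1 : HasFDerivAt Φ (fderiv ℝ Φ (p, w)) (p, w) :=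
      (hΦ.differentiable (by simp) _).hasFDerivAt
    have h2 : HasFDerivAt (fun p : P => (p, w)) (ContinuousLinearMap.inl ℝ P W) p :=
      (hasFDerivAt_id p).prodMk (hasFDerivAt_const w p)
    exact h1.comp p h2

universe u

lemma par_contDiff_aux (n : ℕ) : ∀ (E : Type u) [NormedAddCommGroup E] [NormedSpace ℝ E] (Φ : P × W → E),
    ContDiff ℝ ∞ Φ → HasCompactSupport Φ → ContDiff ℝ n (fun p => ∫ w, Φ (p, w) ∂μ) := by
  induction n with
  | zero =>
    intro E _ _ Φ hΦ hc
    rw [Nat.cast_zero, contDiff_zero, continuous_iff_continuousAt]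
    exact fun p => (par_hasFDerivAt μ hΦ hc p).continuousAt
  | succ n ih =>
    intro E _ _ Φ hΦ hc
    rw [show ((n + 1 : ℕ) : WithTop ℕ∞) = (n : WithTop ℕ∞) + 1 by push_cast; rfl,
      contDiff_succ_iff_fderiv]
    refine ⟨fun p => (par_hasFDerivAt μ hΦ hc p).differentiableAt, by simp, ?_⟩
    have h : (fderiv ℝ fun p => ∫ w, Φ (p, w) ∂μ) = fun p =>
        ∫ w, (fun q => (fderiv ℝ Φ q).comp (ContinuousLinearMap.inl ℝ P W)) (p, w) ∂μ := by
      funext p
      exact (par_hasFDerivAt μ hΦ hc p).fderiv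
    rw [h]
    exact ih (P →L[ℝ] E) _ (par_smooth hΦ) (par_supp hc)

/-- smoothness of the parametric integral -/
theorem par_contDiff {E : Type u} [NormedAddCommGroup E] [NormedSpace ℝ E] {Φ : P × W → E}
    (hΦ : ContDiff ℝ ∞ Φ) (hc : HasCompactSupport Φ) : ContDiff ℝ ∞ (fun p => ∫ w, Φ (p, w) ∂μ) := by
  rw [contDiff_infty]
  exact fun n => par_contDiff_aux μ n E Φ hΦ hc

theorem par_hcs {E : Type*} [NormedAddCommGroup E] [NormedSpace ℝ E] {Φ : P × W → E}
    (hc : HasCompactSupport Φ) : HasCompactSupport (fun p => ∫ w, Φ (p, w) ∂μ) := by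
  refine HasCompactSupport.intro (K := Prod.fst '' tsupport Φ) (hc.isCompact.image continuous_fst)
    fun p hp => ?_
  have : ∀ w, Φ (p, w) = 0 := fun w =>
    image_eq_zero_of_notMem_tsupport fun h => hp ⟨(p, w), h, rfl⟩
  simp only [this, integral_zero]

/-- directional derivative of the parametric integral -/
theorem par_deriv {E : Type*} [NormedAddCommGroup E] [NormedSpace ℝ E] {Φ : P × W → E}
    (hΦ : ContDiff ℝ ∞ Φ) (hc : HasCompactSupport Φ) (p e : P) :
    fderiv ℝ (fun p => ∫ w, Φ (p, w) ∂μ) p e = ∫ w, fderiv ℝ (fun p => Φ (p, w)) p e ∂μ := by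
  rw [(par_hasFDerivAt μ hΦ hc p).fderiv, ContinuousLinearMap.integral_apply
    (par_int μ (par_smooth hΦ).continuous (par_supp hc) p)]
  refine integral_congr_ae (Eventually.of_forall fun w => ?_)
  have h1 : HasFDerivAt Φ (fderiv ℝ Φ (p, w)) (p, w) :=
    (hΦ.differentiable (by simp) _).hasFDerivAt
  have h2 : HasFDerivAt (fun p : P => (p, w)) (ContinuousLinearMap.inl ℝ P W) p :=
    (hasFDerivAt_id p).prodMk (hasFDerivAt_const w p)
  have h3 : HasFDerivAt (fun p : P => Φ (p, w))
      ((fderiv ℝ Φ (p, w)).comp (ContinuousLinearMap.inl ℝ P W)) p := h1.comp p h2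
  simp only
  rw [h3.fderiv]

end par

section cs

variable {W : Type*} [MeasurableSpace W] {μ : Measure W}

/-- Cauchy–Schwarz for real functions -/
lemma cs_sq {f g : W → ℝ} (hf : Integrable (fun w => f w ^ 2) μ) (hg : Integrable (fun w => g w ^ 2) μ)
    (hfg : Integrable (fun w => f w * g w) μ) :
    (∫ w, f w * g w ∂μ) ^ 2 ≤ (∫ w, f w ^ 2 ∂μ) * ∫ w, g w ^ 2 ∂μ := by
  have h : ∀ t : ℝ, 0 ≤ (∫ w, g w ^ 2 ∂μ) * (t * t) + (-2 * ∫ w, f w * g w ∂μ) * t + ∫ w, f w ^ 2 ∂μ := by
    intro t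
    have h1 : (∫ w, g w ^ 2 ∂μ) * (t * t) + (-2 * ∫ w, f w * g w ∂μ) * t + ∫ w, f w ^ 2 ∂μ =
        ∫ w, (f w - t * g w) ^ 2 ∂μ := by
      have h2 : ∀ w, (f w - t * g w) ^ 2 = (t * t) * g w ^ 2 + (-2 * t) * (f w * g w) + f w ^ 2 := fun w => by ring
      simp only [h2]
      have i12 : Integrable (fun w => (t * t) * g w ^ 2 + (-2 * t) * (f w * g w)) μ :=
        (hg.const_mul _).add (hfg.const_mul _)
      rw [integral_add i12 hf, integral_add (hg.const_mul _) (hfg.const_mul _),
        integral_const_mul, integral_const_mul]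
      ring
    rw [h1]
    exact integral_nonneg fun w => sq_nonneg _
  have := discrim_le_zero h
  unfold discrim at this
  nlinarith

end cs

end Vale.Agent.P353.Z.AD
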