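import Vale.Agent.P353.AN.D.Defs
import Vale.Agent.P353.Z.U.StmtB

/-! # P353, all `N`, block D: statements of the engine (null points, Liouville, dyadic inequality, inner completeness)

A prover delivers `theorem <name> … : XStmt …` in `Vale/Agent/P353/AN/D/<File>.lean`, importing this file (and landed files), with
other statements only as hypotheses. -/

open MeasureTheory Filter Topology
open scoped ContDiff

namespace Vale.Agent.P353.Z.AD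

variable {d dh dm ds dz r : ℕ} {F : Type*} [NormedAddCommGroup F] [InnerProductSpace ℂ F]
  {K : Type*} [NormedAddCommGroup K] [InnerProductSpace ℂ K]

/-- **D1** non commuting points are null. PROOF. Choose `ε` with `V ≥ 2c > 0` on `ball Y (2ε)` and `2ε < |Y|` (`Y ≠ 0` since `V 0 = 0`);
`V(Rx) = R⁴V(x)`. Cutoff `χ` (`= 1` on `ball (RY) (εR)`, supported in `ball (RY) (2εR)`, `|∂χ| ≤ C/R`):
`∑‖Q_β(χu)‖² ≤ 2∑∫χ²‖Q_βu‖² + CR⁻²∫_{supp χ}‖u‖² ≤ C'/R²` (`Q_cut` in `Z/Loc`), and `energy_formula` (`Z/Energy`):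
`∑‖Q_β(χu)‖² ≥ 16(2cR⁴ - CR)‖χu‖²` (`‖Fx x‖ ≤ C|x|`). So the mass of the small ball is `O(R⁻⁶)`. -/
def NonCommStmt (S : Setup d F) : Prop := FiniteDimensional ℂ F → ∀ (R : ℕ → ℝ) (u : ℕ → Cfg d → F), Sq S R u →
  ∀ Y, S.V Y ≠ 0 → Nul R u Y

/-- local hypothesis of the engine: `PZ Y R u` (all profile functionals at `Y` vanish in the limit) and nullity of all points with smaller
centraliser imply that `Y` is null, with a radius that depends only on `Y` -/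
def LocHyp (S : Setup d F) (PZ : Cfg d → (ℕ → ℝ) → (ℕ → Cfg d → F) → Prop) : Prop :=
  ∀ Y, Y ≠ 0 → S.V Y = 0 → ∃ ε : ℝ, 0 < ε ∧ ∀ (R : ℕ → ℝ) (u : ℕ → Cfg d → F), Sq S R u →
    (∀ Y', Y' ≠ 0 → S.V Y' = 0 → cd S Y' < cd S Y → Nul R u Y') → PZ Y R u → NulE R u Y ε

/-- **D2** all points `≠ 0` are null. PROOF. D1 for `V Y ≠ 0`. For `V Y = 0`: strong induction on `cd S Y`. Let `ε` be the radius of `LocHyp`.
If `NulE R u Y ε` fails there is `δ > 0` and a subsequence with mass `≥ δ`; the hypothesis gives a further subsequence with `PZ Y`; along it `Sq`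
and the nullity of the points with smaller centraliser still hold, so the mass tends to `0`: contradiction. -/
def NulAllStmt (S : Setup d F) : Prop := NonCommStmt S → FiniteDimensional ℂ F →
  ∀ PZ : Cfg d → (ℕ → ℝ) → (ℕ → Cfg d → F) → Prop, LocHyp S PZ →
  ∀ (R : ℕ → ℝ) (u : ℕ → Cfg d → F), Sq S R u →
    (∀ Y, Y ≠ 0 → S.V Y = 0 → ∀ k : ℕ → ℕ, StrictMono k → ∃ l : ℕ → ℕ, StrictMono l ∧
      PZ Y (fun n => R (k (l n))) (fun n => u (k (l n)))) →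
    ∀ Y, Y ≠ 0 → Nul R u Y

/-- **D3** if all points `≠ 0` are null, the mass of every shell tends to zero. PROOF: compactness of `{s ≤ |Y| ≤ t}`; finitely many balls. -/
def ShellStmt (S : Setup d F) : Prop := ∀ (R : ℕ → ℝ) (u : ℕ → Cfg d → F), Sq S R u →
  (∀ Y, Y ≠ 0 → Nul R u Y) → ∀ s t : ℝ, 0 < s → s < t →
    Tendsto (fun n => mas (u n) (shl d (s * R n) (t * R n))) atTop (𝓝 0)

/-- Liouville hypothesis of the engine: for sequences whose energy vanishes in every shell and whose mass grows at most like `2^{3|k|}`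
every commuting point `≠ 0` has a subsequence with vanishing profile functionals -/
def LioHyp (S : Setup d F) (PZ : Cfg d → (ℕ → ℝ) → (ℕ → Cfg d → F) → Prop) : Prop :=
  ∀ (R : ℕ → ℝ) (u : ℕ → Cfg d → F), Sq S R u →
    (∃ C : ℝ, ∀ k : ℤ, ∀ᶠ n in atTop, mas (u n) (shl d ((2 : ℝ) ^ k * R n) ((2 : ℝ) ^ (k + 1) * R n)) ≤
      C * (2 : ℝ) ^ (3 * |k|)) →
    (∀ s t : ℝ, 0 < s → s < t → Tendsto (fun n => R n ^ 2 * ena S (u n) (shl d (s * R n) (t * R n))) atTop (𝓝 0)) →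
    ∀ Y, Y ≠ 0 → S.V Y = 0 → ∃ l : ℕ → ℕ, StrictMono l ∧ PZ Y (fun n => R (l n)) (fun n => u (l n))

/-- **D4** dyadic inequality: with `M_j = mas u (dsh j)`, `E_j = ena S u (dsh j)`, for every `θ > 0` there are `j₀`, `C` with
`M_j ≤ θ ∑_{k≠0} 2^{-3|k|} M_{j+k} + C ∑_k 2^{-3|k|} 4^{j+k} E_{j+k}` for all `j ≥ j₀` and all gauge invariant test functions.
PROOF. Otherwise there are `u_n`, `j_n ≥ n` violating it with `C = n`; `M_{j_n} > 0`; divide `u_n` by `√M_{j_n}`; `R_n = 2^{j_n}`. Then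
`M_{j_n+k} ≤ θ⁻¹2^{3|k|}` (`k ≠ 0`), `4^{j_n+k}E_{j_n+k} ≤ 2^{3|k|}/n`. So `Sq`, the growth bound and vanishing of the energies in all
shells hold (a shell is covered by finitely many dyadic shells up to null sets); `LioHyp` (for all subsequences), D2, D3 give
`mas (u_n)(shl (R_n) (2R_n)) → 0`, but it is `1`. The sums are finite: `∑M ≤ ‖u‖²`, `2^{-3|k|}4^{k} ≤ 1`. -/
def DyStmt (S : Setup d F) : Prop := ∀ θ : ℝ, 0 < θ → ∃ (j₀ : ℕ) (C : ℝ), 0 ≤ C ∧ ∀ u, GInv S u → ∀ j : ℤ, (j₀ : ℤ) ≤ j →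
  mas u (dsh d j) ≤ θ * (∑' k : ℤ, if k = 0 then 0 else (2 : ℝ) ^ (-(3 * |k|)) * mas u (dsh d (j + k))) +
    C * ∑' k : ℤ, (2 : ℝ) ^ (-(3 * |k|)) * ((4 : ℝ) ^ (j + k) * ena S u (dsh d (j + k)))

def DyOfStmt (S : Setup d F) : Prop := NonCommStmt S → NulAllStmt S → ShellStmt S → FiniteDimensional ℂ F →
  ∀ PZ : Cfg d → (ℕ → ℝ) → (ℕ → Cfg d → F) → Prop, LocHyp S PZ → LioHyp S PZ → DyStmt S

/-- **D5** discrete lemma. PROOF. Multiply with `w_j` and sum over `j ≥ j₀` (first finite sums, or everything is summable):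
`∑_{j≥j₀}w_j∑_{k≠0}2^{-3|k|}M_{j+k} ≤ ∑_iM_i∑_{k≠0}w_{i-k}2^{-3|k|} ≤ ∑_iw_iM_i∑_{k≠0}2^{-|k|} = 2∑_iw_iM_i`, and
`∑_jw_j∑_k2^{-3|k|}e_{j+k} ≤ 3∑_iw_ie_i`. With `θ = 1/4`: `∑_{j≥j₀}wM ≤ ½∑_{j≥j₀}wM + ½∑_{j<j₀}wM + 3C∑we`. -/
def DiscStmt : Prop := ∀ (M e w : ℤ → ℝ) (j₀ : ℤ) (C : ℝ), 0 ≤ C → (∀ j, 0 ≤ M j) → (∀ j, 0 ≤ e j) → (∀ j, 0 < w j) →
  (∀ i k : ℤ, w (i + k) ≤ (2 : ℝ) ^ (2 * |k|) * w i) → Summable (fun j => w j * M j) → Summable (fun j => w j * e j) →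
  (∀ j, j₀ ≤ j → M j ≤ 1 / 4 * (∑' k : ℤ, if k = 0 then 0 else (2 : ℝ) ^ (-(3 * |k|)) * M (j + k)) +
    C * ∑' k : ℤ, (2 : ℝ) ^ (-(3 * |k|)) * e (j + k)) →
  (∑' j : ℤ, if j₀ ≤ j then w j * M j else 0) ≤ (∑' j : ℤ, if j₀ ≤ j then 0 else w j * M j) + 6 * C * ∑' j, w j * e j

/-- **D6** Hardy inequality at infinity (crude constant). PROOF: D4 with `θ = 1/4`, D5 with `w_j = 2^{-2 max(j,0)}`, `M_j = mas u (dsh j)`,
`e_j = 4^jE_j`: `w_je_j ≤ E_j`; `1/(1+|x|²) ≤ min(1, |x|⁻²)`, the dyadic shells cover everything up to a null set. -/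
def HInfStmt (S : Setup d F) : Prop := DyStmt S → DiscStmt → ∃ ρ C : ℝ, 0 < ρ ∧ 0 ≤ C ∧ ∀ u, GInv S u →
  wn u ≤ C * (mas u (Metric.ball 0 ρ) + En S u)

/-- weighted limits with vanishing energy -/
def KW (S : Setup d F) (u : Cfg d → F) : Prop := AEStronglyMeasurable u (volume : Measure (Cfg d)) ∧
  ∃ v : ℕ → Cfg d → F, (∀ n, GInv S (v n)) ∧ Integrable (fun x => ‖u x‖ ^ 2 / (1 + ‖x‖ ^ 2)) (volume : Measure (Cfg d)) ∧
    Tendsto (fun n => wn (fun x => v n x - u x)) atTop (𝓝 0) ∧ Tendsto (fun n => En S (v n)) atTop (𝓝 0)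

/-- **D7** weighted kernel elements decay. PROOF: for the approximants `v_n`: D4 with `θ = 1/4` and D5 with
`w_j = 1` (`j ≤ 0`), `2^{2j}` (`0 ≤ j ≤ B`), `2^{4B-2j}` (`j ≥ B`); `w_j4^jE_j ≤ 2^{4B}E_j`; `n → ∞` for fixed `B` (masses of shells
converge, `w_j` is bounded by `C_B` times the weight of `wn`), then `B → ∞` (monotone convergence):
`∑_{j≥j₀}2^{2j}M_j(u) ≤ 2^{2j₀}mas u (ball 0 2^{j₀})`. -/
def DecStmt (S : Setup d F) : Prop := DyStmt S → DiscStmt → ∃ ρ C : ℝ, 0 < ρ ∧ 0 ≤ C ∧ ∀ u, KW S u →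
  Integrable (fun x => (1 + ‖x‖ ^ 2) * ‖u x‖ ^ 2) (volume : Measure (Cfg d)) ∧
    ∫ x, (1 + ‖x‖ ^ 2) * ‖u x‖ ^ 2 ≤ C * mas u (Metric.ball 0 ρ)

/-- **D8** the weighted kernel consists of zero modes and is finite dimensional: there is an orthonormal basis.
PROOF. `u ∈ KW`, `v_n` its approximants, `χ_R` radial cutoff: `‖Q_β(χ_Rv_n)‖ ≤ ‖χ_RQ_βv_n‖ + (C/R)‖v_n 1_{R<|x|<2R}‖`; `n → ∞`, then `R → ∞`
(`u ∈ L²` by D7): a diagonal sequence shows `ZM S u`; conversely `ZM ⊆ KW`. Finite dimension: elements of the unit sphere of `KW`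
(in `L²`) are precompact: `LRStmt` (local Rellich, landed) for approximants in `L²` (bounded local gradients by `energy_formula`:
`8‖∇v‖² ≤ En + C∫|x||v|²` after a cutoff) and uniform tightness D7; so an orthonormal family in `KW` is finite (otherwise a subsequence
converges, but distances are `√2`). -/
def KWStmt (S : Setup d F) : Prop := DecStmt S → DyStmt S → DiscStmt → U.LRStmt d F → FiniteDimensional ℂ F →
  (∀ u, ZM S u → KW S u) ∧ (∀ u, KW S u → ZM S u) ∧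
  ∃ (n : ℕ) (o : Fin n → Cfg d → F), (∀ j, ZM S (o j)) ∧
    (∀ j k, ∫ x, inner ℂ (o j x) (o k x) = if j = k then 1 else 0) ∧
    ∀ u, KW S u → ∃ c : Fin n → ℂ, ∀ᵐ x ∂(volume : Measure (Cfg d)), u x = ∑ j, c j • o j x

/-- **D9** inner completeness. PROOF (contradiction). `u_n`, `ρ_n ≥ 1` with `∫_{|x|≤ρ_n}‖r_n‖² > nρ_n²En(u_n)`, `r_n = u_n - ∑⟨o_j,u_n⟩o_j`; then
`wn(r_n) ≥ (n/2)En(u_n)`; normalise `wn(r_n) = 1`. D6 extends to graph limits (`r_n`, `r_n - r_m`; `En` unchanged by adding zero modes).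
`LRStmt` (local energy bounds: cutoffs of the approximants): a subsequence converges in `L²_loc`; by D6 for `r_n - r_m` it is Cauchy in the
weighted norm; the limit `r` is in `KW`, `wn r = 1`; `⟨o_j,r_n⟩ = 0` and `(1+|x|²)|o_j|²` integrable (D7) give `⟨o_j,r⟩ = 0`, so `r = 0` by D8. -/
def ICOfStmt (S : Setup d F) : Prop := DecStmt S → KWStmt S → HInfStmt S → DyStmt S → DiscStmt → U.LRStmt d F →
  FiniteDimensional ℂ F → ICStmt S

/-- test functions supported off the collision set and off `0` -/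
def TOff (L : Finset (Fin r → ℝ)) (ζ : Cfg r → K) : Prop := TstOff L ζ ∧ (0 : Cfg r) ∉ tsupport ζ

/-- **D10** Liouville theorem for the massless free system on `ℝ^{9r} \ {0}` (`Q0`; the structure constants of `S` play no role).
PROOF. (a) `Coll L` (codimension 8) is removable: test with `η_nζ` (`AF.CutStmt`). (b) `0` is removable: cutoffs `χ_ρ`,
`∫|∂χ_ρ||f| ≤ Cρ⁻¹ρ^{9r/2}(∫_{ρ<|x|<2ρ}|f|²)^{1/2} ≤ Cρ^{9r/2-1-3/2} → 0`; `f ∈ L¹` near `0`. So `Q0_β f = 0` weakly on `Cfg r`.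
(c) `f_ε = f * ρ_ε` is smooth, `Q0_βf_ε = 0`, `∫_{|x|<s}|f_ε|² ≤ C_ε s³` (`s ≥ 1`). (d) `∑_β‖Q0_β g‖² = 8∑‖pd i A g‖²` for test functions `g`
(`θ` relations); `g = χ_sf_ε`: `∫_{|x|<s}∑|∂f_ε|² ≤ Cs⁻²∫_{|x|<2s}|f_ε|² ≤ C s`; the same for `∂_if_ε`: `∫_{|x|<s}|∂∂f_ε|² ≤ C s⁻¹ → 0`, so
`∂_if_ε` is constant, `|∂_if_ε|²·|ball s| ≤ Cs` gives `∂f_ε = 0`, `f_ε` constant, `|f_ε|²|ball s| ≤ Cs³` gives `f_ε = 0` (`9r ≥ 9`). (e) `ε → 0`. -/
def LiouStmt (S : Setup r K) : Prop := AF.CutStmt r → 0 < r → ∀ L : Finset (Fin r → ℝ), (∀ l ∈ L, l ≠ 0) →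
  ∀ f : Cfg r → K, AEStronglyMeasurable f (volume : Measure (Cfg r)) →
    (∀ s t : ℝ, 0 < s → s < t → IntegrableOn (fun x => ‖f x‖ ^ 2) (shl r s t) (volume : Measure (Cfg r))) →
    (∃ C : ℝ, ∀ k : ℤ, ∫ x in dsh r k, ‖f x‖ ^ 2 ≤ C * (2 : ℝ) ^ (3 * |k|)) →
    (∀ β, ∀ ζ, TOff L ζ → ∫ x, inner ℂ (S.Q0 β ζ x) (f x) = 0) →
    ∀ᵐ x ∂(volume : Measure (Cfg r)), f x = 0

end Vale.Agent.P353.Z.AD
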